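import Vale.Agent.P347.Zero.AdjItem

/-!
# P347, exponent 0: the adjoint programme is accurate in square mean

Along the exact rotation every input is a pair of standard Gaussians, so the surrogate of the node
and the child's adjoint are only ever measured there; off it only their Lipschitz constants enter.
-/

namespace Vale.Agent.P347.Zero

open MeasureTheory Real Finset
open scoped RealInnerProductSpace
open Vale.Agent.P347.Quarter (E γ)
open Vale.Agent.P347.Colour (Pt)

noncomputable section

set_option linter.unusedSectionVars false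

open Prog

variable {d : ℕ} {σ : Type} [Fintype σ] [DecidableEq σ]

/-- The programme along its first slot. -/
def progLine (V : Pt d → ℝ) (P : Prog (Option σ)) (x : Inp d (Option σ)) : E d → E d :=
  fun y => P.val V (Function.update x none y)

theorem progLine_mk (V : Pt d → ℝ) {N : ℕ} (l : Option σ → ℝ) (c : Fin N → ℝ) (nd : Fin N → Nd)
    (ch : Fin N → Prog (Option σ)) (x : Inp d (Option σ)) :
    progLine V (Prog.mk N l c nd ch) x
      = fun y => (l none • y + ∑ j, l (some j) • x (some j))
          + ∑ i, c i • (nd i).val V (progLine V (ch i) x y) := by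
  funext y
  simp [progLine, Prog.val, Fintype.sum_option, Function.update_of_ne]

theorem progLine_differentiable {V : Pt d → ℝ} (hV : Mem V) {h r e : ℝ} {b : Option σ → ℝ}
    (x : Inp d (Option σ)) : ∀ {P : Prog (Option σ)} {β : ℝ}, P.Adm h r e b β →
      Differentiable ℝ (progLine V P x) := by
  intro P
  induction P with
  | mk N l c nd ch ih =>
    intro β hP
    rw [progLine_mk]
    exact ((differentiable_id.const_smul (l none)).add_const _).add (Differentiable.fun_sum fun i _ =>
      ((Nd.differentiable hV (hP.2 i).1.v_pos).comp (ih i (hP.2 i).2)).const_smul (c i))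

theorem norm_fderiv_line_le {V : Pt d → ℝ} (hV : Mem V) {h r e e' : ℝ} (he : 0 < e') (he1 : e' ≤ 1)
    {b : Option σ → ℝ} {P : Prog (Option σ)} {β : ℝ} (hP : P.Adm h r e b β)
    (x : Inp d (Option σ)) (y : E d) : ‖fderiv ℝ (progLine V P x) y‖ ≤ P.grs e' none := by
  have h0 : 0 ≤ P.grs e' none := grs_nonneg he.le _ _
  have hl : LipschitzWith (P.grs e' none).toNNReal (progLine V P x) :=
    LipschitzWith.of_dist_le_mul fun u w => by
      rw [dist_eq_norm, dist_eq_norm, Real.coe_toNNReal _ h0]
      refine (val_lip hV he he1 hP _ _).trans (le_of_eq ?_)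
      simp [Fintype.sum_option, Function.update_of_ne]
  simpa [Real.coe_toNNReal _ h0] using norm_fderiv_le_of_lipschitz ℝ hl (x₀ := y)

theorem adjoint_line {V : Pt d → ℝ} (hV : Mem V) {h r e : ℝ} {b : Option σ → ℝ} {N : ℕ}
    {l : Option σ → ℝ} {c : Fin N → ℝ} {nd : Fin N → Nd} {ch : Fin N → Prog (Option σ)} {β : ℝ}
    (hP : (Prog.mk N l c nd ch).Adm h r e b β) (x : Inp d (Option σ)) (K : E d) :
    (fderiv ℝ (progLine V (Prog.mk N l c nd ch) x) (x none)).adjoint K
      = l none • K + ∑ i, c i • (fderiv ℝ (progLine V (ch i) x) (x none)).adjoint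
          (fderiv ℝ ((nd i).val V) ((ch i).val V x) K) := by
  have hy : ∀ i, progLine V (ch i) x (x none) = (ch i).val V x := fun i => by
    simp [progLine]
  have hd : HasFDerivAt (progLine V (Prog.mk N l c nd ch) x)
      (l none • ContinuousLinearMap.id ℝ (E d) + ∑ i, c i •
        (fderiv ℝ ((nd i).val V) ((ch i).val V x)).comp (fderiv ℝ (progLine V (ch i) x) (x none)))
      (x none) := by
    rw [progLine_mk]
    refine (((hasFDerivAt_id (x none)).const_smul (l none)).add_const _).add
      (HasFDerivAt.fun_sum fun i _ => ?_)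
    rw [← hy i]
    exact (((Nd.differentiable hV (hP.2 i).1.v_pos) _).hasFDerivAt.comp (x none)
      ((progLine_differentiable hV x (hP.2 i).2) _).hasFDerivAt).const_smul (c i)
  rw [hd.fderiv]
  refine ext_inner_right ℝ fun w => ?_
  simp only [ContinuousLinearMap.adjoint_inner_left, _root_.add_apply, _root_.smul_apply,
    ContinuousLinearMap.id_apply, _root_.sum_apply, ContinuousLinearMap.comp_apply, inner_add_left,
    inner_add_right, inner_sum, sum_inner, real_inner_smul_left, real_inner_smul_right]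
  refine congrArg₂ (· + ·) rfl (sum_congr rfl fun i _ => ?_)
  rw [Nd.fderiv_symm hV (hP.2 i).1.v_pos]

theorem continuous_inpAdj (x : Inp d (Option σ)) :
    Continuous fun p : E d × E d => inpAdj x p.1 p.2 := by
  refine continuous_pi fun o => ?_
  rcases o with _ | (j | k)
  · exact continuous_const
  · exact continuous_const
  · cases k
    · exact continuous_snd
    · exact continuous_fst

theorem Sq.aesm {Ω : Type*} [MeasurableSpace Ω] {μ : Measure Ω} {X : Type*} [NormedAddCommGroup X]
    {f : Ω → X} {B : ℝ} (h : Sq μ (fun z => ‖f z‖) B) : AEStronglyMeasurable (fun z => ‖f z‖) μ := by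
  simpa [Real.sqrt_sq (norm_nonneg _)] using
    Real.continuous_sqrt.comp_aestronglyMeasurable h.int.aestronglyMeasurable

/-- The error of the combination at one child. -/
theorem child_err {n D₁ : ℕ} {h r r' e e' t a θin U δ : ℝ} {Φ : Nd → Prog (Option Unit)} {b : σ → ℝ}
    (H : AdjCtx d h r r' e e' t a θin U δ Φ D₁ n b) {kb D' k j : ℕ} {nd : Nd} (hok : nd.Ok h r)
    {chi : Prog (Option σ)} (hadm : chi.Adm h r e (bIn a θin b) nd.scale)
    (hdep : chi.depth ≤ j) {R : Prog (Option (σ ⊕ Bool))}
    (C : AdjBd d h r' e e' a 0 U b kb D' chi R) (ht9 : t * U ^ 9 ≤ e')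
    {V : Pt d → ℝ} (hV : Mem V) {x : Inp d (Option σ)} (hgr : ‖chi.val V x‖ ≤ U * wt x)
    (hC : Sq ((γ d).prod (γ d)) (fun u : E d × E d => ‖R.val V (inpAdj x u.1 u.2)
        - a • (fderiv ℝ (progLine V chi x) (x none)).adjoint u.1‖)
      (U ^ k * (δ + (t * U ^ 8) ^ n / t) * chi.topW * wt x)) :
    Sq ((γ d).prod (γ d))
      (fun u : E d × E d => ‖∑ i, (rExt n i / t) • R.val V
          (inpAdj x (pic (fun _ => surJ V (Φ nd) (chi.val V x) t) (rInt n) (mk2 u.1 u.2) n i false)
            (pic (fun _ => surJ V (Φ nd) (chi.val V x) t) (rInt n) (mk2 u.1 u.2) n i true))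
        - a • (fderiv ℝ (progLine V chi x) (x none)).adjoint (fderiv ℝ (nd.val V) (chi.val V x) u.1)‖)
      (U ^ 16 * (U ^ (kb + 3 * j + 4) + U ^ k) * (δ + (t * U ^ 8) ^ n / t) * wt x * nd.scale) := by
  have hU0 : 0 < U := by linarith [H.hU]
  have hU1 : (1 : ℝ) ≤ U := by linarith [H.hU]
  have ht0 := H.ht
  have he := H.he
  have he' : 0 < e' := lt_of_lt_of_le (by positivity) ht9
  have hte' : t ≤ e' := le_trans (le_mul_of_one_le_right ht0.le (one_le_pow₀ hU1)) ht9
  have hsc := hok.scale_pos
  have hbin : ∀ o, 0 ≤ bIn a θin b o := fun o => by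
    cases o with
    | none => exact (mul_pos H.ha H.hθ).le
    | some j => exact H.hb j
  have hW : chi.topW ≤ t * nd.scale :=
    (hadm.topW_le he hbin).trans (mul_le_mul_of_nonneg_right H.het hsc.le)
  have hag : |a| * chi.grs e none ≤ U ^ (3 * j + 1) * nd.scale := by
    have h1 : chi.grs e none * (a * θin) ≤ U ^ (3 * j) * nd.scale := by
      refine (grs_blur he hbin hadm none).trans (mul_le_mul_of_nonneg_right ?_ hsc.le)
      have h5 : (5 : ℝ) ≤ U ^ 3 := by
        linarith [pow_le_pow_left₀ (by norm_num : (0 : ℝ) ≤ 2) H.hU 3]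
      rw [pow_mul]
      exact (pow_le_pow_right₀ (by norm_num) hdep).trans (pow_le_pow_left₀ (by norm_num) h5 _)
    rw [abs_of_pos H.ha]
    calc a * chi.grs e none = chi.grs e none * (a * θin) * θin⁻¹ := by field_simp [H.hθ.ne']
      _ ≤ U ^ (3 * j) * nd.scale * U := mul_le_mul h1 H.hθU (inv_nonneg.2 H.hθ.le) (by positivity)
      _ = _ := by ring
  have hadj := C.below.adm le_rfl
  have hGj : U ^ (3 * j + 1) + 4 * U ^ kb ≤ U ^ (kb + 3 * j + 4) := by
    have a1 : U ^ (3 * j + 1) ≤ U ^ (kb + 3 * j + 1) := pow_le_pow_right₀ hU1 (by omega)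
    have a2 : U ^ kb ≤ U ^ (kb + 3 * j + 1) := pow_le_pow_right₀ hU1 (by omega)
    have a3 : (5 : ℝ) ≤ U ^ 3 := by linarith [pow_le_pow_left₀ (by norm_num : (0 : ℝ) ≤ 2) H.hU 3]
    rw [show U ^ (kb + 3 * j + 4) = U ^ (kb + 3 * j + 1) * U ^ 3 by ring]
    nlinarith [mul_le_mul_of_nonneg_left a3 (show 0 ≤ U ^ (kb + 3 * j + 1) by positivity)]
  have hgs : ∀ s, R.grs 1 (sd s) ≤ U ^ (kb + 3 * j + 4) * nd.scale := by
    intro s
    refine (le_of_eq (grs_eq_topG _ _ _)).trans ?_
    have h1 : |R.lin (sd s)| ≤ U ^ (3 * j + 1) * nd.scale := by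
      rw [C.lin]
      refine le_trans ?_ hag
      have h0 : |chi.lin none| ≤ chi.grs e none := by
        rw [grs_eq_topG]
        exact le_add_of_nonneg_right (mul_nonneg (by positivity) (topG_nonneg he.le _ _))
      split
      · rw [abs_mul]; exact mul_le_mul_of_nonneg_left h0 (abs_nonneg _)
      · rw [abs_zero]; exact mul_nonneg (abs_nonneg _) (grs_nonneg he.le _ _)
    have h2 : R.topG 1 (sd s) ≤ U ^ kb * nd.scale := by
      refine le_trans (sum_le_sum fun i _ => mul_le_mul_of_nonneg_left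
        (grs_anti he' H.he1 _ _) (abs_nonneg _)) ((C.tseed s).trans ?_)
      exact mul_le_mul_of_nonneg_left (hW.trans (mul_le_of_le_one_left hsc.le (hte'.trans H.he1)))
        (by positivity)
    nlinarith [mul_le_mul_of_nonneg_right hGj hsc.le]
  have hΦn := H.node _ hok
  have S : NodeSur V (Φ nd) (chi.val V x) (fderiv ℝ (nd.val V) (chi.val V x)) U δ (wt x) := by
    refine ⟨fun z z' => ?_, Nd.fderiv_symm hV hok.v_pos _, Nd.norm_fderiv_le hV hok.v_pos _,
      (hΦn.err V hV _).mono_fun ?_ (fun z => le_of_eq (abs_norm _)) ?_⟩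
    · refine (val_lip hV one_pos le_rfl (hΦn.below.adm le_rfl) _ _).trans ?_
      rw [Fintype.sum_option]
      simp only [Option.elim_none, Option.elim_some, sub_self, norm_zero, mul_zero, sum_const_zero,
        add_zero]
      refine mul_le_mul_of_nonneg_right ?_ (norm_nonneg _)
      rw [grs_eq_topG, hΦn.lin, abs_zero, zero_add, div_one]
      have : (Φ nd).topG 1 none ≤ (Φ nd).topG e' none :=
        sum_le_sum fun i _ => mul_le_mul_of_nonneg_left (grs_anti he' H.he1 _ _) (abs_nonneg _)
      linarith [hΦn.topG_seed hsc.le]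
    · have hc : Continuous fun z : E d => (Φ nd).val V fun o : Option Unit => o.elim z fun _ => chi.val V x :=
        (continuous_val hV (hΦn.below.adm le_rfl)).comp (continuous_pi fun o => by
          cases o with
          | none => exact continuous_id
          | some _ => exact continuous_const)
      exact (hc.sub (fderiv ℝ (nd.val V) (chi.val V x)).continuous).norm.aestronglyMeasurable
    · refine mul_le_mul_of_nonneg_left ?_ H.hδ
      have hsq : √(d : ℝ) ≤ wt x := le_add_of_nonneg_right (sum_nonneg fun _ _ => norm_nonneg _)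
      nlinarith [mul_le_mul_of_nonneg_right hU1 (wt_nonneg x)]
  have hR : RotCtx d n t U :=
    ⟨H.hU, ht0, H.hn, H.hI, H.hE, ht9.trans H.he1, H.hrot⟩
  have hZc : Continuous fun u : E d × E d => R.val V (inpAdj x u.1 u.2) :=
    (continuous_val hV hadj).comp (continuous_inpAdj x)
  have hZ : ∀ K η K' η', ‖R.val V (inpAdj x K η) - R.val V (inpAdj x K' η')‖
      ≤ U ^ (kb + 3 * j + 4) * nd.scale * (‖K - K'‖ + ‖η - η'‖) := by
    intro K η K' η'
    refine (val_lip hV one_pos le_rfl hadj _ _).trans ?_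
    rw [sum_slots]
    have h0 : ∀ o : Option σ, inpAdj x K η (adjEmb o) - inpAdj x K' η' (adjEmb o) = 0 := fun o => by
      rw [inpAdj_emb, inpAdj_emb, sub_self]
    simp only [h0, norm_zero, mul_zero, sum_const_zero, zero_add]
    rw [mul_add]
    exact add_le_add (mul_le_mul_of_nonneg_right (hgs true) (norm_nonneg _))
      (mul_le_mul_of_nonneg_right (hgs false) (norm_nonneg _))
  have hD : |a| * ‖(fderiv ℝ (progLine V chi x) (x none)).adjoint‖ ≤ U ^ (kb + 3 * j + 4) * nd.scale := by
    rw [LinearIsometryEquiv.norm_map]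
    refine (mul_le_mul_of_nonneg_left (norm_fderiv_line_le hV he
      (H.het.trans (hte'.trans H.he1)) hadm x (x none)) (abs_nonneg _)).trans (hag.trans ?_)
    exact mul_le_mul_of_nonneg_right (pow_le_pow_right₀ hU1 (by omega)) hsc.le
  have hE0 : 0 ≤ δ + (t * U ^ 8) ^ n / t := by have := H.hδ; positivity
  have hC' : Sq ((γ d).prod (γ d)) (fun u : E d × E d => ‖R.val V (inpAdj x u.1 u.2)
      - a • (fderiv ℝ (progLine V chi x) (x none)).adjoint u.1‖)
      (U ^ k * (δ + (t * U ^ 8) ^ n / t) * nd.scale * wt x * t) := by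
    refine hC.mono_fun (((hZc.sub (((fderiv ℝ (progLine V chi x) (x none)).adjoint.continuous.comp
      continuous_fst).const_smul a)).norm).aestronglyMeasurable) (fun u => le_of_eq (abs_norm _)) ?_
    calc U ^ k * (δ + (t * U ^ 8) ^ n / t) * chi.topW * wt x
        ≤ U ^ k * (δ + (t * U ^ 8) ^ n / t) * (t * nd.scale) * wt x :=
          mul_le_mul_of_nonneg_right (mul_le_mul_of_nonneg_left hW (by positivity)) (wt_nonneg x)
      _ = _ := by ring
  have main := item_err hR S H.hδ (le_add_of_nonneg_right (sum_nonneg fun _ _ => norm_nonneg _))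
    (Z := fun K η => R.val V (inpAdj x K η)) hZc (mul_nonneg (by positivity) hsc.le) hZ hD hC'
  exact ⟨by have := wt_nonneg x; positivity, main.int, main.le.trans (le_of_eq (by ring))⟩

theorem top_num {N : ℕ} {c : Fin N → ℝ} {sc v : Fin N → ℝ} {U K E0 w : ℝ} (hU : 2 ≤ U) (hN : (N : ℝ) ≤ U)
    (hK : 0 ≤ K) (hE : 0 ≤ E0) (hw : 0 ≤ w) (hs : ∀ i, 0 ≤ sc i) (hv : ∀ i, sc i ≤ v i) :
    √(N : ℝ) * ∑ i, abs (|c i|) * (K * E0 * w * sc i) ≤ U * K * E0 * (∑ i, |c i| * v i) * w := by
  have h1 : √(N : ℝ) ≤ U := Real.sqrt_le_iff.2 ⟨by linarith, hN.trans (by nlinarith)⟩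
  calc √(N : ℝ) * ∑ i, abs (|c i|) * (K * E0 * w * sc i)
      ≤ U * ∑ i, |c i| * (K * E0 * w * v i) := by
        refine mul_le_mul h1 (sum_le_sum fun i _ => ?_)
          (sum_nonneg fun i _ => mul_nonneg (abs_nonneg _) (by have := hs i; positivity)) (by linarith)
        rw [abs_abs]
        exact mul_le_mul_of_nonneg_left (mul_le_mul_of_nonneg_left (hv i) (by positivity)) (abs_nonneg _)
    _ = _ := by
        simp only [mul_sum, sum_mul]
        exact sum_congr rfl fun i _ => by ring

theorem val_adj (V : Pt d → ℝ) (Φ : Nd → Prog (Option Unit)) (a t : ℝ) (n : ℕ) {N : ℕ}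
    (l : Option σ → ℝ) (c : Fin N → ℝ) (nd : Fin N → Nd) (ch : Fin N → Prog (Option σ))
    (x : Inp d (Option σ)) (u : E d × E d) :
    (adj Φ a t n (Prog.mk N l c nd ch)).val V (inpAdj x u.1 u.2)
      = (a * l none) • u.1 + ∑ i, c i • ∑ j, (rExt n j / t) • (adj Φ a t n (ch i)).val V
          (inpAdj x (pic (fun _ => surJ V (Φ (nd i)) ((ch i).val V x) t) (rInt n) (mk2 u.1 u.2) n j false)
            (pic (fun _ => surJ V (Φ (nd i)) ((ch i).val V x) t) (rInt n) (mk2 u.1 u.2) n j true)) := by
  rw [adj, val_lc, Fintype.sum_option, Fintype.sum_prod_type]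
  simp only [Option.elim_none, Option.elim_some, adjW, val_var, val_subst, val_sdS, val_pPic,
    val_embP, smul_sum, smul_smul]
  rfl

/-- The square-mean error, by recursion. -/
theorem exists_adjErr (n D₁ : ℕ) : ∀ Dp : ℕ, ∃ k : ℕ, 9 ≤ k ∧
    ∀ (d : ℕ) (σ : Type) [Fintype σ] [DecidableEq σ] (h r r' e e' t a θin U δ : ℝ)
    (Φ : Nd → Prog (Option Unit)) (b : σ → ℝ), AdjCtx d h r r' e e' t a θin U δ Φ D₁ n b →
    (∀ nd o, (Φ nd).lin o = 0) → t * U ^ k ≤ e' →
    ∀ (P : Prog (Option σ)) (β : ℝ), P.depth ≤ Dp → (P.size : ℝ) ≤ U → P.Grow d U →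
      P.Adm h r e (bIn a θin b) β → ∀ V, Mem (d := d) V → ∀ x : Inp d (Option σ),
        Sq ((γ d).prod (γ d))
          (fun u : E d × E d => ‖(adj Φ a t n P).val V (inpAdj x u.1 u.2)
            - a • (fderiv ℝ (progLine V P x) (x none)).adjoint u.1‖)
          (U ^ k * (δ + (t * U ^ 8) ^ n / t) * P.topW * wt x) := by
  intro Dp
  induction Dp with
  | zero =>
    refine ⟨9, le_rfl, fun d σ _ _ h r r' e e' t a θin U δ Φ b H hΦ ht P β hD hs hg hP V hV x => ?_⟩
    cases P with
    | mk N l c nd ch =>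
      have hN : N = 0 := by
        by_contra hN
        exact absurd ((depth_le_iff _ _).1 hD ⟨0, Nat.pos_of_ne_zero hN⟩) (Nat.not_lt_zero _)
      subst hN
      have hU0 : 0 < U := by linarith [H.hU]
      have ht0 := H.ht
      have hδ := H.hδ
      have e0 : ∀ u : E d × E d, (adj Φ a t n (Prog.mk 0 l c nd ch)).val V (inpAdj x u.1 u.2)
          - a • (fderiv ℝ (progLine V (Prog.mk 0 l c nd ch) x) (x none)).adjoint u.1 = 0 := fun u => by
        rw [adjoint_line hV hP, val_adj]
        simp [smul_smul]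
      simp only [e0, norm_zero]
      exact Sq.zero (mul_nonneg (mul_nonneg (by positivity) (topW_nonneg _)) (wt_nonneg x))
  | succ Dp ih =>
    obtain ⟨k, hk, ih⟩ := ih
    obtain ⟨kb, Db, hkb, hB⟩ := exists_adjBd n D₁ Dp
    obtain ⟨kt, Dt, hkt, hT⟩ := exists_adjBd n D₁ (Dp + 1)
    refine ⟨k + kb + kt + 3 * Dp + 24, by omega,
      fun d σ _ _ h r r' e e' t a θin U δ Φ b H hΦ ht P β hD hs hg hP V hV x => ?_⟩
    have hU0 : 0 < U := by linarith [H.hU]
    have hU1 : (1 : ℝ) ≤ U := by linarith [H.hU]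
    have ht0 := H.ht
    have hδ := H.hδ
    have hpow : ∀ j, j ≤ k + kb + kt + 3 * Dp + 24 → t * U ^ j ≤ e' := fun j hj =>
      (mul_le_mul_of_nonneg_left (pow_le_pow_right₀ hU1 hj) ht0.le).trans ht
    have hTop := (hT d σ h r r' e e' t a θin U δ Φ b H hΦ 0 le_rfl (by simp) (hpow kt (by omega))
      P β hD hs hg hP).below.adm le_rfl
    cases P with
    | mk N l c nd ch =>
      have hch : ∀ i, (ch i).depth ≤ Dp := fun i => by
        have : (ch i).depth < Dp + 1 := (depth_le_iff _ _).1 hD i
        omega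
      have hsz : 1 + ∑ i, (1 + ((ch i).size : ℝ)) ≤ U := by
        rw [size] at hs
        push_cast at hs
        exact hs
      have hszi : ∀ i, ((ch i).size : ℝ) ≤ U := fun i => by
        have := single_le_sum (f := fun i => 1 + ((ch i).size : ℝ)) (fun i _ => by positivity)
          (mem_univ i)
        linarith
      have hN : (N : ℝ) ≤ U := by
        have : ∑ _i : Fin N, (1 : ℝ) ≤ ∑ i, (1 + ((ch i).size : ℝ)) :=
          sum_le_sum fun i _ => le_add_of_nonneg_right (Nat.cast_nonneg _)
        simp only [sum_const, card_univ, Fintype.card_fin, nsmul_eq_mul, mul_one] at this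
        linarith
      have hI := fun i => child_err H (hP.2 i).1 (hP.2 i).2 (hch i)
        (hB d σ h r r' e e' t a θin U δ Φ b H hΦ 0 le_rfl (by simp) (hpow kb (by omega)) (ch i) _
          (hch i) (hszi i) (hg i).2 (hP.2 i).2)
        (hpow 9 (by omega)) hV ((hg i).1 V hV x)
        (ih d σ h r r' e e' t a θin U δ Φ b H hΦ (hpow k (by omega)) (ch i) _ (hch i)
          (hszi i) (hg i).2 (hP.2 i).2 V hV x)
      have htop : Continuous fun u : E d × E d => (adj Φ a t n (Prog.mk N l c nd ch)).val V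
          (inpAdj x u.1 u.2) - a • (fderiv ℝ (progLine V (Prog.mk N l c nd ch) x) (x none)).adjoint u.1 :=
        ((continuous_val hV hTop).comp (continuous_inpAdj x)).sub
          (((ContinuousLinearMap.adjoint (fderiv ℝ (progLine V (Prog.mk N l c nd ch) x) (x none))).continuous.comp
            continuous_fst).const_smul a)
      refine (Sq.sum (fun i => (hI i).const_mul |c i|) fun i =>
        ((hI i).aesm).const_mul |c i|).mono_fun htop.norm.aestronglyMeasurable (fun u => ?_) ?_
      · rw [abs_norm, adjoint_line hV hP, val_adj]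
        simp only [smul_add, smul_sum, smul_smul, add_sub_add_left_eq_sub, ← sum_sub_distrib]
        refine (norm_sum_le _ _).trans (sum_le_sum fun i _ => le_of_eq ?_)
        rw [← norm_eq_abs, ← norm_smul, smul_sub, smul_sum]
        simp only [smul_smul, mul_comm (c i) a]
      · rw [Fintype.card_fin]
        refine (top_num (K := U ^ 16 * (U ^ (kb + 3 * Dp + 4) + U ^ k))
          (E0 := δ + (t * U ^ 8) ^ n / t) (w := wt x) (v := fun i => √(nd i).v) H.hU hN (by positivity)
          (by positivity) (wt_nonneg x) (fun i => (hP.2 i).1.scale_pos.le)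
          fun i => (hP.2 i).1.scale_le).trans ?_
        refine mul_le_mul_of_nonneg_right (mul_le_mul_of_nonneg_right (mul_le_mul_of_nonneg_right ?_
          (by positivity)) (topW_nonneg (Prog.mk N l c nd ch))) (wt_nonneg x)
        have a1 : U ^ (kb + 3 * Dp + 4) ≤ U ^ (k + kb + 3 * Dp + 4) := pow_le_pow_right₀ hU1 (by omega)
        have a2 : U ^ k ≤ U ^ (k + kb + 3 * Dp + 4) := pow_le_pow_right₀ hU1 (by omega)
        calc U * (U ^ 16 * (U ^ (kb + 3 * Dp + 4) + U ^ k))
            ≤ U * (U ^ 16 * (2 * U ^ (k + kb + 3 * Dp + 4))) :=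
              mul_le_mul_of_nonneg_left (mul_le_mul_of_nonneg_left (by linarith) (by positivity)) hU0.le
          _ ≤ U * (U ^ 16 * (U * U ^ (k + kb + 3 * Dp + 4))) :=
              mul_le_mul_of_nonneg_left (mul_le_mul_of_nonneg_left
                (mul_le_mul_of_nonneg_right H.hU (by positivity)) (by positivity)) hU0.le
          _ = U ^ (k + kb + 3 * Dp + 22) := by ring
          _ ≤ _ := pow_le_pow_right₀ hU1 (by omega)

end

end Vale.Agent.P347.Zero
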