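import Vale.Agent.P347.Zero.AdjRec

/-!
# P347, exponent 0: the error of extraction at one node

Along the exact rotation every input is a pair of standard Gaussians, so the surrogate of the node
and the child's adjoint are only ever measured there; off it only their Lipschitz constants enter.
-/

namespace Vale.Agent.P347.Zero

open MeasureTheory Real Finset
open scoped RealInnerProductSpace
open Vale.Agent.P347.Quarter (E γ)
open Vale.Agent.P347.Colour (Pt)

noncomputable section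

set_option linter.unusedSectionVars false

open Prog

variable {d n : ℕ} {t U δ wx : ℝ}

theorem continuous_pic {X : Type*} [NormedAddCommGroup X] [NormedSpace ℝ X] {N : ℕ}
    {T : Fin N → X → X} (hT : ∀ j, Continuous (T j)) (W : Fin N → Fin N → ℝ) :
    ∀ (m : ℕ) (l : Fin N), Continuous fun w : X => pic T W w m l
  | 0, _ => continuous_id
  | m + 1, l => continuous_id.add (continuous_finsetSum _ fun j _ =>
      ((hT j).comp (continuous_pic hT W m j)).const_smul (W l j))

theorem continuous_mk2 : Continuous fun p : E d × E d => mk2 p.1 p.2 :=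
  (PiLp.continuous_toLp 2 _).comp (continuous_pi fun k => by cases k <;> simp <;> fun_prop)

theorem Sq.zero {Ω : Type*} [MeasurableSpace Ω] {μ : Measure Ω} {B : ℝ} (hB : 0 ≤ B) :
    Sq μ (fun _ => (0 : ℝ)) B :=
  ⟨hB, by simp, by simp [sq_nonneg]⟩

/-- The quadrature data. -/
structure RotCtx (d n : ℕ) (t U : ℝ) : Prop where
  hU : 2 ≤ U
  ht : 0 < t
  hn : (n + 2 : ℝ) ≤ U
  hI : ∀ l j, |rInt n l j| ≤ U
  hE : ∀ j, |rExt n j| ≤ U
  htU : t * U ^ 9 ≤ 1
  hrot : ∀ (A : P2 d →L[ℝ] P2 d) (c : ℝ) (w : P2 d), (∀ y, ⟪y, A y⟫ = 0) → 0 ≤ c → c ≤ 1 →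
    (∀ y, ‖A y‖ ≤ c * ‖y‖) →
      (∀ l, ‖w + ∑ j, rInt n l j • A (rotC A w (rNode n j)) - rotC A w (rNode n l)‖
        ≤ U * c ^ n * ‖w‖) ∧
      ‖∑ j, rExt n j • rotC A w (rNode n j) - A w‖ ≤ U * c ^ n * ‖w‖

/-- A surrogate of a symmetric map at a point. -/
structure NodeSur (V : Pt d → ℝ) (Φn : Prog (Option Unit)) (p : E d) (M : E d →L[ℝ] E d)
    (U δ wx : ℝ) : Prop where
  lip : ∀ z z', ‖Φn.val V (fun o => o.elim z fun _ => p) - Φn.val V (fun o => o.elim z' fun _ => p)‖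
    ≤ 8 * U * ‖z - z'‖
  symm : ∀ u w, ⟪M u, w⟫ = ⟪u, M w⟫
  norm : ‖M‖ ≤ 2
  err : Sq (γ d) (fun z => ‖Φn.val V (fun o => o.elim z fun _ => p) - M z‖) (δ * (2 * U * wx))

variable {V : Pt d → ℝ} {Φn : Prog (Option Unit)} {p : E d} {M : E d →L[ℝ] E d}

/-- The exact path. -/
def rotY (M : E d →L[ℝ] E d) (t : ℝ) (n : ℕ) (j : Fin (n + 2)) (w : P2 d) : P2 d :=
  rotC (t • genJ M) w (rNode n j)

theorem NodeSur.skew (S : NodeSur V Φn p M U δ wx) (t : ℝ) (y : P2 d) :
    ⟪y, (t • genJ M) y⟫ = 0 := by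
  rw [_root_.smul_apply, real_inner_smul_right, genJ_skew S.symm y, mul_zero]

theorem NodeSur.gen_le (S : NodeSur V Φn p M U δ wx) (ht : 0 ≤ t) (y : P2 d) :
    ‖(t • genJ M) y‖ ≤ 4 * t * ‖y‖ := by
  rw [_root_.smul_apply, norm_smul, norm_eq_abs, abs_of_nonneg ht]
  nlinarith [norm_genJ_le S.norm y]

theorem NodeSur.continuous_val' (S : NodeSur V Φn p M U δ wx) (hU : 0 ≤ U) :
    Continuous fun z => Φn.val V (fun o => o.elim z fun _ => p) :=
  (LipschitzWith.of_dist_le_mul (K := (8 * U).toNNReal) fun z z' => by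
    rw [dist_eq_norm, dist_eq_norm, Real.coe_toNNReal _ (by positivity)]
    exact S.lip z z').continuous

theorem NodeSur.continuous_sur (S : NodeSur V Φn p M U δ wx) (hU : 0 ≤ U) (t : ℝ) :
    Continuous (surJ V Φn p t) :=
  (PiLp.continuous_toLp 2 _).comp (continuous_pi fun k =>
    (((S.continuous_val' hU).comp (pj !k).continuous).const_smul t).const_smul (sgn k))

theorem NodeSur.lip_sur (S : NodeSur V Φn p M U δ wx) (hU : 0 ≤ U) (ht : 0 ≤ t) (y y' : P2 d) :
    ‖surJ V Φn p t y - surJ V Φn p t y'‖ ≤ 16 * U * t * ‖y - y'‖ := by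
  have hk : ∀ k, ‖(surJ V Φn p t y - surJ V Φn p t y') k‖ ≤ t * (8 * U) * ‖y - y'‖ := fun k => by
    rw [PiLp.sub_apply]
    simp only [surJ, ← smul_sub, norm_smul, norm_eq_abs, abs_sgn, one_mul, abs_of_nonneg ht]
    refine (mul_le_mul_of_nonneg_left ((S.lip _ _).trans (mul_le_mul_of_nonneg_left
      (norm_comp_le (y - y') !k) (by positivity))) ht).trans (le_of_eq (by ring))
  exact (norm_le_comp _).trans ((add_le_add (hk true) (hk false)).trans (le_of_eq (by ring)))

theorem sur_comp (y : P2 d) (k : Bool) (ht : 0 ≤ t) :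
    ‖(surJ V Φn p t y - (t • genJ M) y) k‖
      = t * ‖Φn.val V (fun o => o.elim (y !k) fun _ => p) - M (y !k)‖ := by
  rw [PiLp.sub_apply]
  simp only [surJ, _root_.smul_apply, PiLp.smul_apply]
  cases k <;>
    simp only [genJ_true, genJ_false, sgn, cond_true, cond_false, Bool.not_true, Bool.not_false,
      neg_smul, one_smul, smul_neg, ← neg_sub', ← smul_sub, norm_neg, norm_smul, norm_eq_abs,
      abs_of_nonneg ht]

theorem card_bound (H : RotCtx d n t U) :
    √(Fintype.card (Fin (n + 2)) : ℝ) ≤ U ∧ (Fintype.card (Fin (n + 2)) : ℝ) ≤ U := by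
  have hU : (1 : ℝ) ≤ U := by linarith [H.hU]
  have h1 : ((Fintype.card (Fin (n + 2)) : ℕ) : ℝ) ≤ U := by
    rw [Fintype.card_fin]; push_cast; exact H.hn
  exact ⟨Real.sqrt_le_iff.2 ⟨by linarith, h1.trans (le_self_pow₀ hU two_ne_zero)⟩, h1⟩

theorem sq_sur (H : RotCtx d n t U) (S : NodeSur V Φn p M U δ wx) :
    Sq ((γ d).prod (γ d)) (fun u => ∑ j, ‖surJ V Φn p t (rotY M t n j (mk2 u.1 u.2))
      - (t • genJ M) (rotY M t n j (mk2 u.1 u.2))‖) (U * U * (8 * U * t * δ * wx)) := by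
  have hU : (0 : ℝ) ≤ U := by linarith [H.hU]
  have ht := H.ht
  have hYc : ∀ j, Continuous fun u : E d × E d => rotY M t n j (mk2 u.1 u.2) := fun j =>
    (rotI (t • genJ M) (S.skew t) (rNode n j)).continuous.comp continuous_mk2
  have hgc : Continuous fun z => ‖Φn.val V (fun o => o.elim z fun _ => p) - M z‖ :=
    ((S.continuous_val' hU).sub M.continuous).norm
  have hf : ∀ j, Continuous fun u : E d × E d => ‖surJ V Φn p t (rotY M t n j (mk2 u.1 u.2))
      - (t • genJ M) (rotY M t n j (mk2 u.1 u.2))‖ := fun j =>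
    (((S.continuous_sur hU t).comp (hYc j)).sub ((t • genJ M).continuous.comp (hYc j))).norm
  have h1 : ∀ j, Sq ((γ d).prod (γ d)) (fun u => ‖surJ V Φn p t (rotY M t n j (mk2 u.1 u.2))
      - (t • genJ M) (rotY M t n j (mk2 u.1 u.2))‖) (8 * U * t * δ * wx) := by
    intro j
    have hm := hgc.aestronglyMeasurable (μ := γ d)
    have hR := measurePreserving_rotC (d := d) (S.skew t) (rNode n j)
    have a1 := ((S.err.comp hm measurePreserving_fst).comp
      (hgc.comp continuous_fst).aestronglyMeasurable hR).const_mul t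
    have a2 := ((S.err.comp hm measurePreserving_snd).comp
      (hgc.comp continuous_snd).aestronglyMeasurable hR).const_mul t
    refine (a1.add a2 (continuous_const.mul (hgc.comp ((pj true).continuous.comp (hYc j)))).aestronglyMeasurable
      (continuous_const.mul (hgc.comp ((pj false).continuous.comp (hYc j)))).aestronglyMeasurable).mono_fun
      (hf j).aestronglyMeasurable (fun u => ?_) (le_of_eq (by rw [abs_of_pos ht]; ring))
    rw [abs_norm]
    refine (norm_le_comp _).trans (le_of_eq ?_)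
    rw [sur_comp _ true ht.le, sur_comp _ false ht.le]
    exact add_comm _ _
  refine (Sq.sum h1 fun j => (hf j).aestronglyMeasurable).mono_fun
    (continuous_finsetSum _ fun j _ => hf j).aestronglyMeasurable
    (fun u => le_of_eq (abs_of_nonneg (sum_nonneg fun _ _ => norm_nonneg _))) ?_
  have hB := (h1 0).nonneg
  rw [sum_const, card_univ, nsmul_eq_mul, ← mul_assoc]
  exact mul_le_mul_of_nonneg_right (mul_le_mul (card_bound H).1 (card_bound H).2 (Nat.cast_nonneg _) hU) hB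

theorem pow_four_le (H : RotCtx d n t U) : (4 * t) ^ n ≤ (t * U ^ 8) ^ n := by
  have ht := H.ht
  refine pow_le_pow_left₀ (by positivity) ?_ n
  have h4 : (4 : ℝ) ≤ U ^ 8 := by linarith [pow_le_pow_left₀ (by norm_num : (0 : ℝ) ≤ 2) H.hU 8]
  nlinarith [mul_le_mul_of_nonneg_left h4 ht.le]

theorem four_t_le (H : RotCtx d n t U) : 4 * t ≤ 1 := by
  have : (4 : ℝ) ≤ U ^ 9 := by linarith [pow_le_pow_left₀ (by norm_num : (0 : ℝ) ≤ 2) H.hU 9]
  nlinarith [mul_le_mul_of_nonneg_left this H.ht.le, H.htU]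

theorem pic_diff (H : RotCtx d n t U) (S : NodeSur V Φn p M U δ wx) (w : P2 d) :
    ∑ j, ‖pic (fun _ => surJ V Φn p t) (rInt n) w n j - rotY M t n j w‖
      ≤ 4 * U ^ 2 * (t * U ^ 8) ^ n * ‖w‖
        + 2 * U ^ 2 * ∑ j, ‖surJ V Φn p t (rotY M t n j w) - (t • genJ M) (rotY M t n j w)‖ := by
  have hU0 : 0 < U := by linarith [H.hU]
  have hU1 : (1 : ℝ) ≤ U := by linarith [H.hU]
  have ht := H.ht
  have hΛ : ∀ j, ∑ l, |rInt n l j| ≤ U * U := fun j => by
    refine (sum_le_sum fun l _ => H.hI l j).trans ?_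
    rw [sum_const, card_univ, nsmul_eq_mul]
    exact mul_le_mul_of_nonneg_right (card_bound H).2 hU0.le
  have h16 : 16 * U ^ 3 ≤ U ^ 8 := by
    have : (16 : ℝ) ≤ U ^ 5 := by linarith [pow_le_pow_left₀ (by norm_num : (0 : ℝ) ≤ 2) H.hU 5]
    nlinarith [mul_le_mul_of_nonneg_right this (pow_nonneg hU0.le 3)]
  have hρ : U * U * (16 * U * t) ≤ t * U ^ 8 := by nlinarith [mul_le_mul_of_nonneg_left h16 ht.le]
  have hρ2 : U * U * (16 * U * t) ≤ 1 / 2 := by
    have h9 : t * U ^ 8 * 2 ≤ t * U ^ 8 * U := mul_le_mul_of_nonneg_left H.hU (by positivity)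
    have e9 : t * U ^ 8 * U = t * U ^ 9 := by ring
    linarith [H.htU]
  refine (pic_err (A := fun _ => ⇑(t • genJ M)) (y := fun j => rotY M t n j w)
    (fun _ => S.lip_sur hU0.le ht.le) hΛ (by positivity) (by positivity) hρ2 n).trans ?_
  have h1 : ∑ l, ‖w - rotY M t n l w‖ ≤ 2 * U * ‖w‖ := by
    refine (sum_le_sum fun l _ => (norm_sub_le _ _).trans
      (le_of_eq (by rw [rotY, norm_rotC (S.skew t)]; ring :
        ‖w‖ + ‖rotY M t n l w‖ = 2 * ‖w‖))).trans ?_
    rw [sum_const, card_univ, nsmul_eq_mul]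
    exact (mul_le_mul_of_nonneg_right (card_bound H).2 (by positivity)).trans (le_of_eq (by ring))
  have h2 : ∑ l, ‖w + ∑ j, rInt n l j • (t • genJ M) (rotY M t n j w) - rotY M t n l w‖
      ≤ U * (U * (t * U ^ 8) ^ n * ‖w‖) := by
    refine (sum_le_sum fun l _ => ((H.hrot (t • genJ M) (4 * t) w (S.skew t) (by positivity)
      (four_t_le H) (S.gen_le ht.le)).1 l).trans (mul_le_mul_of_nonneg_right
        (mul_le_mul_of_nonneg_left (pow_four_le H) hU0.le) (norm_nonneg _))).trans ?_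
    rw [sum_const, card_univ, nsmul_eq_mul]
    exact mul_le_mul_of_nonneg_right (card_bound H).2 (by positivity)
  have h4 := mul_le_mul (pow_le_pow_left₀ (by positivity) hρ n) h1
    (sum_nonneg fun _ _ => norm_nonneg _) (by positivity)
  have h5 : 2 * U * ((t * U ^ 8) ^ n * ‖w‖) ≤ 2 * U ^ 2 * ((t * U ^ 8) ^ n * ‖w‖) :=
    mul_le_mul_of_nonneg_right (by nlinarith) (by positivity)
  nlinarith

/-- The child's adjoint along the exact path. -/
theorem sq_child (H : RotCtx d n t U) (S : NodeSur V Φn p M U δ wx) {Z : E d → E d → E d}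
    (hZc : Continuous fun u : E d × E d => Z u.1 u.2) {a B : ℝ} {Dt : E d →L[ℝ] E d}
    (hC : Sq ((γ d).prod (γ d)) (fun u => ‖Z u.1 u.2 - a • Dt u.1‖) B) :
    Sq ((γ d).prod (γ d)) (fun u => ∑ j, ‖Z (rotY M t n j (mk2 u.1 u.2) false)
      (rotY M t n j (mk2 u.1 u.2) true) - a • Dt (rotY M t n j (mk2 u.1 u.2) false)‖) (U * U * B) := by
  have hU : (0 : ℝ) ≤ U := by linarith [H.hU]
  have hec : Continuous fun v : E d × E d => ‖Z v.1 v.2 - a • Dt v.1‖ :=
    (hZc.sub ((Dt.continuous.comp continuous_fst).const_smul a)).norm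
  have hY : ∀ j, Continuous fun u : E d × E d =>
      (rotY M t n j (mk2 u.1 u.2) false, rotY M t n j (mk2 u.1 u.2) true) := fun j =>
    ((pj false).continuous.comp ((rotI (t • genJ M) (S.skew t) (rNode n j)).continuous.comp
      continuous_mk2)).prodMk ((pj true).continuous.comp
        ((rotI (t • genJ M) (S.skew t) (rNode n j)).continuous.comp continuous_mk2))
  have h1 := fun j => hC.comp hec.aestronglyMeasurable (MeasurePreserving.comp
    Measure.measurePreserving_swap (measurePreserving_rotC (d := d) (S.skew t) (rNode n j)))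
  refine (Sq.sum h1 fun j => (hec.comp (hY j)).aestronglyMeasurable).mono_fun
    (continuous_finsetSum _ fun j _ => hec.comp (hY j)).aestronglyMeasurable
    (fun u => le_of_eq (abs_of_nonneg (sum_nonneg fun _ _ => norm_nonneg _))) ?_
  rw [sum_const, card_univ, nsmul_eq_mul, ← mul_assoc]
  exact mul_le_mul_of_nonneg_right (mul_le_mul (card_bound H).1 (card_bound H).2 (Nat.cast_nonneg _) hU)
    hC.nonneg

/-- The pointwise estimate. -/
theorem item_pointwise (H : RotCtx d n t U) (S : NodeSur V Φn p M U δ wx) {Z : E d → E d → E d}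
    {G : ℝ} (hG : 0 ≤ G) (hZ : ∀ K η K' η', ‖Z K η - Z K' η'‖ ≤ G * (‖K - K'‖ + ‖η - η'‖))
    {a : ℝ} {Dt : E d →L[ℝ] E d} (hD : |a| * ‖Dt‖ ≤ G) (u : E d × E d) :
    ‖∑ j, (rExt n j / t) • Z (pic (fun _ => surJ V Φn p t) (rInt n) (mk2 u.1 u.2) n j false)
        (pic (fun _ => surJ V Φn p t) (rInt n) (mk2 u.1 u.2) n j true) - a • Dt (M u.1)‖
      ≤ 9 * U ^ 3 * G * (t * U ^ 8) ^ n / t * ‖mk2 u.1 u.2‖
        + 4 * U ^ 3 * G / t * ∑ j, ‖surJ V Φn p t (rotY M t n j (mk2 u.1 u.2))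
            - (t • genJ M) (rotY M t n j (mk2 u.1 u.2))‖
        + U / t * ∑ j, ‖Z (rotY M t n j (mk2 u.1 u.2) false) (rotY M t n j (mk2 u.1 u.2) true)
            - a • Dt (rotY M t n j (mk2 u.1 u.2) false)‖ := by
  have hU0 : 0 < U := by linarith [H.hU]
  have hU1 : (1 : ℝ) ≤ U := by linarith [H.hU]
  have ht := H.ht
  have hAw : t • M u.1 = ((t • genJ M) (mk2 u.1 u.2)) false := by simp
  have hD' := pic_diff H S (mk2 u.1 u.2)
  generalize hw : mk2 u.1 u.2 = w at hD' hAw ⊢
  generalize hSg : ∑ j, ‖surJ V Φn p t (rotY M t n j w) - (t • genJ M) (rotY M t n j w)‖ = Sv at hD' ⊢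
  generalize hpv : pic (fun _ => surJ V Φn p t) (rInt n) w n = pv at hD' ⊢
  have e : ∑ j, (rExt n j / t) • Z (pv j false) (pv j true) - a • Dt (M u.1)
      = ∑ j, (rExt n j / t) • (Z (pv j false) (pv j true) - Z (rotY M t n j w false) (rotY M t n j w true))
        + ∑ j, (rExt n j / t) • (Z (rotY M t n j w false) (rotY M t n j w true)
            - a • Dt (rotY M t n j w false))
        + a • Dt (t⁻¹ • (∑ j, rExt n j • rotY M t n j w - (t • genJ M) w) false) := by
    have e2 : a • Dt (t⁻¹ • (∑ j, rExt n j • rotY M t n j w - (t • genJ M) w) false)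
        = ∑ j, (rExt n j / t) • (a • Dt (rotY M t n j w false)) - a • Dt (M u.1) := by
      rw [PiLp.sub_apply, WithLp.ofLp_sum, Finset.sum_apply, ← hAw]
      simp only [PiLp.smul_apply, smul_sub, smul_sum, map_sub, map_sum, map_smul, smul_smul]
      congr 1
      · refine sum_congr rfl fun j _ => ?_
        congr 1
        field_simp
      · congr 1
        field_simp
    rw [e2]
    simp only [smul_sub, sum_sub_distrib]
    abel
  rw [e]
  have hr : ∀ j, |rExt n j / t| ≤ U / t := fun j => by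
    rw [abs_div, abs_of_pos ht]; exact div_le_div_of_nonneg_right (H.hE j) ht.le
  refine norm_add₃_le.trans ?_
  have b1 : ‖∑ j, (rExt n j / t) •
      (Z (pv j false) (pv j true) - Z (rotY M t n j w false) (rotY M t n j w true))‖
      ≤ U / t * (2 * G) * (4 * U ^ 2 * (t * U ^ 8) ^ n * ‖w‖ + 2 * U ^ 2 * Sv) := by
    refine (norm_sum_le _ _).trans (le_trans (sum_le_sum fun j _ => ?_)
      (le_trans (le_of_eq (mul_sum _ _ _).symm) (mul_le_mul_of_nonneg_left hD' (by positivity))))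
    rw [norm_smul, norm_eq_abs, mul_assoc]
    refine mul_le_mul (hr j) ((hZ _ _ _ _).trans ?_) (norm_nonneg _) (by positivity)
    rw [mul_assoc 2, mul_left_comm 2]
    refine mul_le_mul_of_nonneg_left ?_ hG
    have h1 := norm_comp_le (pv j - rotY M t n j w) false
    have h2 := norm_comp_le (pv j - rotY M t n j w) true
    simp only [PiLp.sub_apply] at h1 h2
    linarith
  have b2 : ‖∑ j, (rExt n j / t) • (Z (rotY M t n j w false) (rotY M t n j w true)
      - a • Dt (rotY M t n j w false))‖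
      ≤ U / t * ∑ j, ‖Z (rotY M t n j w false) (rotY M t n j w true) - a • Dt (rotY M t n j w false)‖ := by
    rw [mul_sum]
    refine (norm_sum_le _ _).trans (sum_le_sum fun j _ => ?_)
    rw [norm_smul, norm_eq_abs]
    exact mul_le_mul_of_nonneg_right (hr j) (norm_nonneg _)
  have b3 : ‖a • Dt (t⁻¹ • (∑ j, rExt n j • rotY M t n j w - (t • genJ M) w) false)‖
      ≤ G * (U * (t * U ^ 8) ^ n * ‖w‖ / t) := by
    rw [norm_smul, norm_eq_abs]
    refine (mul_le_mul_of_nonneg_left (Dt.le_opNorm _) (abs_nonneg _)).trans ?_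
    rw [← mul_assoc]
    refine mul_le_mul hD ?_ (norm_nonneg _) hG
    rw [norm_smul, norm_eq_abs, abs_of_pos (inv_pos.2 ht), inv_mul_eq_div]
    refine div_le_div_of_nonneg_right ((norm_comp_le _ _).trans
      ((H.hrot (t • genJ M) (4 * t) w (S.skew t) (by positivity) (four_t_le H) (S.gen_le ht.le)).2.trans
        ?_)) ht.le
    exact mul_le_mul_of_nonneg_right (mul_le_mul_of_nonneg_left (pow_four_le H) hU0.le) (norm_nonneg _)
  refine (add_le_add (add_le_add b1 b2) b3).trans ?_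
  have hq0 : 0 ≤ G * ((t * U ^ 8) ^ n * ‖w‖ / t) := by positivity
  generalize (t * U ^ 8) ^ n = q at hq0 ⊢
  have h3 : U ≤ U ^ 3 := le_self_pow₀ hU1 (by norm_num)
  have e4 : U / t * (2 * G) * (4 * U ^ 2 * q * ‖w‖ + 2 * U ^ 2 * Sv)
      = 8 * (U ^ 3 * (G * q * ‖w‖ / t)) + 4 * U ^ 3 * G / t * Sv := by field_simp; ring
  have h6 : G * (U * q * ‖w‖ / t) ≤ U ^ 3 * (G * q * ‖w‖ / t) := by
    calc G * (U * q * ‖w‖ / t) = U * (G * (q * ‖w‖ / t)) := by ring
      _ ≤ U ^ 3 * (G * (q * ‖w‖ / t)) := mul_le_mul_of_nonneg_right h3 hq0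
      _ = _ := by ring
  rw [e4, show 9 * U ^ 3 * G * q / t * ‖w‖ = 9 * (U ^ 3 * (G * q * ‖w‖ / t)) by ring]
  linarith

theorem item_num {q G Bc sd : ℝ} (hU : 2 ≤ U) (ht : 0 < t) (hδ : 0 ≤ δ) (hG : 0 ≤ G) (hq : 0 ≤ q)
    (hsd : 0 ≤ sd) (hwx : sd ≤ wx) (hBc : 0 ≤ Bc) :
    2 * (2 * (|9 * U ^ 3 * G * q / t| * (4 * sd) + |4 * U ^ 3 * G / t| * (U * U * (8 * U * t * δ * wx)))
      + |U / t| * (U * U * (Bc * t))) ≤ U ^ 16 * (G * (δ + q / t) * wx + Bc) := by
  have hU0 : 0 < U := by linarith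
  have hwx0 : 0 ≤ wx := hsd.trans hwx
  rw [abs_of_nonneg (by positivity), abs_of_nonneg (by positivity), abs_of_nonneg (by positivity)]
  rw [show 2 * (2 * (9 * U ^ 3 * G * q / t * (4 * sd) + 4 * U ^ 3 * G / t * (U * U * (8 * U * t * δ * wx)))
      + U / t * (U * U * (Bc * t)))
    = U ^ 3 * (144 * (G * (q / t) * sd)) + U ^ 6 * (128 * (G * δ * wx)) + U ^ 3 * (2 * Bc) by
      field_simp; ring]
  have hU1 : (1 : ℝ) ≤ U := by linarith
  have h3 : U ^ 3 ≤ U ^ 6 := pow_le_pow_right₀ hU1 (by norm_num)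
  have h9 : (512 : ℝ) ≤ U ^ 10 := by linarith [pow_le_pow_left₀ (by norm_num : (0 : ℝ) ≤ 2) hU 10]
  have t1 : G * (q / t) * sd ≤ G * (δ + q / t) * wx :=
    mul_le_mul (mul_le_mul_of_nonneg_left (le_add_of_nonneg_left hδ) hG) hwx hsd (by positivity)
  have t2 : G * δ * wx ≤ G * (δ + q / t) * wx :=
    mul_le_mul_of_nonneg_right (mul_le_mul_of_nonneg_left (le_add_of_nonneg_right (by positivity)) hG) hwx0
  have hX : 0 ≤ G * (δ + q / t) * wx := by positivity
  rw [show U ^ 16 = U ^ 10 * U ^ 6 by ring]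
  have a1 := mul_le_mul h3 (mul_le_mul_of_nonneg_left t1 (by norm_num : (0 : ℝ) ≤ 144))
    (by positivity) (by positivity)
  have a2 := mul_le_mul_of_nonneg_left (mul_le_mul_of_nonneg_left t2 (by norm_num : (0 : ℝ) ≤ 128))
    (show (0 : ℝ) ≤ U ^ 6 by positivity)
  have a3 := mul_le_mul_of_nonneg_right h3 (show (0 : ℝ) ≤ 2 * Bc by positivity)
  have a4 := mul_le_mul_of_nonneg_right h9 (show (0 : ℝ) ≤ U ^ 6 * (G * (δ + q / t) * wx + Bc) by positivity)
  have tot : U ^ 3 * (144 * (G * (q / t) * sd)) + U ^ 6 * (128 * (G * δ * wx)) + U ^ 3 * (2 * Bc)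
      ≤ 512 * (U ^ 6 * (G * (δ + q / t) * wx + Bc)) := by
    have b1 : 0 ≤ U ^ 6 * (G * (δ + q / t) * wx) := mul_nonneg (by positivity) hX
    have b2 : 0 ≤ U ^ 6 * Bc := mul_nonneg (by positivity) hBc
    linarith
  linarith

theorem Sq.three {Ω : Type*} [MeasurableSpace Ω] {μ : Measure Ω} {f g h k : Ω → ℝ} {A B C a b c B' : ℝ}
    (hf : Sq μ f A) (hg : Sq μ g B) (hh : Sq μ h C) (mf : AEStronglyMeasurable f μ)
    (mg : AEStronglyMeasurable g μ) (mh : AEStronglyMeasurable h μ) (mk' : AEStronglyMeasurable k μ)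
    (hle : ∀ z, |k z| ≤ a * f z + b * g z + c * h z)
    (hB : 2 * (2 * (|a| * A + |b| * B) + |c| * C) ≤ B') : Sq μ k B' :=
  (((hf.const_mul a).add (hg.const_mul b) (mf.const_mul a) (mg.const_mul b)).add (hh.const_mul c)
    ((mf.const_mul a).add (mg.const_mul b)) (mh.const_mul c)).mono_fun mk' hle hB

theorem continuous_item {T : P2 d → P2 d} {X : E d × E d → P2 d} (hX : Continuous X)
    (hT : Continuous T) {Z : E d → E d → E d} (hZc : Continuous fun u : E d × E d => Z u.1 u.2)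
    {F : E d → E d} (hF : Continuous F) :
    Continuous fun u : E d × E d => ‖∑ j, (rExt n j / t) •
      Z (pic (fun _ => T) (rInt n) (X u) n j false) (pic (fun _ => T) (rInt n) (X u) n j true)
        - F u.1‖ := by
  have hp : ∀ j, Continuous fun u : E d × E d => pic (fun _ => T) (rInt n) (X u) n j := fun j =>
    (continuous_pic (fun _ => hT) (rInt n) n j).comp hX
  have hj : ∀ j, Continuous fun u : E d × E d =>
      Z (pic (fun _ => T) (rInt n) (X u) n j false) (pic (fun _ => T) (rInt n) (X u) n j true) :=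
    fun j =>
      Continuous.comp (g := fun v : E d × E d => Z v.1 v.2)
        (f := fun u => ((pj false) (pic (fun _ => T) (rInt n) (X u) n j),
          (pj true) (pic (fun _ => T) (rInt n) (X u) n j))) hZc
        (((pj false).continuous.comp (hp j)).prodMk ((pj true).continuous.comp (hp j)))
  exact ((continuous_finsetSum _ fun j _ => (hj j).const_smul (rExt n j / t)).sub
    (hF.comp continuous_fst)).norm

/-- The error of one node: `Z` is the child's adjoint, `Dt` the exact one. -/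
theorem item_err (H : RotCtx d n t U) (S : NodeSur V Φn p M U δ wx) (hδ : 0 ≤ δ)
    (hwx : √(d : ℝ) ≤ wx) {Z : E d → E d → E d} (hZc : Continuous fun u : E d × E d => Z u.1 u.2)
    {G Bc : ℝ} (hG : 0 ≤ G) (hZ : ∀ K η K' η', ‖Z K η - Z K' η'‖ ≤ G * (‖K - K'‖ + ‖η - η'‖))
    {a : ℝ} {Dt : E d →L[ℝ] E d} (hD : |a| * ‖Dt‖ ≤ G)
    (hC : Sq ((γ d).prod (γ d)) (fun u => ‖Z u.1 u.2 - a • Dt u.1‖) (Bc * t)) :
    Sq ((γ d).prod (γ d))
      (fun u : E d × E d => ‖∑ j, (rExt n j / t) •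
          Z (pic (fun _ => surJ V Φn p t) (rInt n) (mk2 u.1 u.2) n j false)
            (pic (fun _ => surJ V Φn p t) (rInt n) (mk2 u.1 u.2) n j true) - a • Dt (M u.1)‖)
      (U ^ 16 * (G * (δ + (t * U ^ 8) ^ n / t) * wx + Bc)) := by
  have hU : (0 : ℝ) ≤ U := by linarith [H.hU]
  have ht := H.ht
  have hBc : 0 ≤ Bc := nonneg_of_mul_nonneg_left hC.nonneg ht
  have hTc := S.continuous_sur hU t
  have hY : ∀ j, Continuous fun u : E d × E d => rotY M t n j (mk2 u.1 u.2) := fun j =>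
    (rotI (t • genJ M) (S.skew t) (rNode n j)).continuous.comp continuous_mk2
  have hpc : ∀ j k, Continuous fun u : E d × E d =>
      pic (fun _ => surJ V Φn p t) (rInt n) (mk2 u.1 u.2) n j k := fun j k =>
    (pj k).continuous.comp ((continuous_pic (fun _ => hTc) _ _ _).comp continuous_mk2)
  have hw : Continuous fun u : E d × E d => ‖mk2 u.1 u.2‖ := continuous_mk2.norm
  have hS : Continuous fun u : E d × E d => ∑ j, ‖surJ V Φn p t (rotY M t n j (mk2 u.1 u.2))
      - (t • genJ M) (rotY M t n j (mk2 u.1 u.2))‖ := continuous_finsetSum _ fun j _ =>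
    ((hTc.comp (hY j)).sub ((t • genJ M).continuous.comp (hY j))).norm
  have hEC : Continuous fun u : E d × E d => ∑ j, ‖Z (rotY M t n j (mk2 u.1 u.2) false)
      (rotY M t n j (mk2 u.1 u.2) true) - a • Dt (rotY M t n j (mk2 u.1 u.2) false)‖ :=
    continuous_finsetSum _ fun j _ => ((hZc.comp (((pj false).continuous.comp (hY j)).prodMk
      ((pj true).continuous.comp (hY j)))).sub
        ((Dt.continuous.comp ((pj false).continuous.comp (hY j))).const_smul a)).norm
  have hg := continuous_item (X := fun u : E d × E d => mk2 u.1 u.2) continuous_mk2 hTc hZc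
    ((Dt.continuous.comp M.continuous).const_smul a) (n := n) (t := t)
  refine Sq.three (sq_norm_pair (d := d)) (sq_sur H S) (sq_child H S hZc hC) hw.aestronglyMeasurable
    hS.aestronglyMeasurable hEC.aestronglyMeasurable hg.aestronglyMeasurable
    (a := 9 * U ^ 3 * G * (t * U ^ 8) ^ n / t) (b := 4 * U ^ 3 * G / t) (c := U / t) (fun u => ?_) ?_
  · exact (le_of_eq (abs_norm _)).trans (item_pointwise H S hG hZ hD u)
  · exact item_num H.hU ht hδ hG (pow_nonneg (mul_nonneg ht.le (by positivity)) n)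
      (Real.sqrt_nonneg _) hwx hBc

end

end Vale.Agent.P347.Zero
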