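import Vale.Agent.P347.Quarter.Target

/-!
# P347, exponent 0: the interface between the posterior sampler and the outer chain
-/

namespace Vale.Agent.P347.Zero

open MeasureTheory Real
open Vale.Agent.P347.Colour (Pt Resp Impl)
open Vale.Agent.P347.Quarter
open Vale.Agent.P347.Quarter.Tgt (back)

noncomputable section

variable {d : ℕ}

/-- An approximate sampler of the proximal posterior at step `h`, with error `e` against tests. -/
def Approx (h e : ℝ) (S : (Pt d → Resp d) → (E d → ℝ) → E d → ℝ) : Prop :=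
  ∀ V : Pt d → ℝ, Colour.Cls (id : Fin d → Fin d) V → ∀ (u : E d → ℝ) (L : ℝ), Lip1 u L → ∀ z,
    |S (Colour.oracle V) u z - ∫ x, u x ∂back h V z| ≤ L * e * (√d + ‖z‖)

/-- For every exponent and every power, posterior samplers with few queries exist. -/
def PostStep : Prop :=
  ∀ ε : ℝ, 0 < ε → ∀ A : ℕ, ∃ (C : ℝ) (D : ℕ), ∀ d : ℕ, D ≤ d →
    ∃ q : ℕ, (q : ℝ) ≤ C * (d : ℝ) ^ ε ∧ ∃ S : (Pt d → Resp d) → (E d → ℝ) → E d → ℝ,
      Impl q S ∧ Approx ((d : ℝ) ^ (-ε)) (((d : ℝ) ^ A)⁻¹) S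

end

end Vale.Agent.P347.Zero
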