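import Vale.Agent.P347.Zero.Prog
import Vale.Agent.P347.Zero.PostStep

/-!
# P347, exponent 0: the two statements of the induction on the accuracy `A`

Losses are powers of `d ^ η`; every exponent is chosen before `η`, every constant after it.
A node at margin `m` is sampled at the scale `√v * d ^ (ε / 2 - m η)`, that is `e = h ^ (1/2) d ^ (m η)`.
-/

namespace Vale.Agent.P347.Zero

open MeasureTheory Real Finset
open Vale.Agent.P347.Quarter (E γ)
open Vale.Agent.P347.Colour (Pt)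

noncomputable section

/-- The threshold of the margin `m`. -/
def eAt (ε η m : ℝ) (d : ℕ) : ℝ := (d : ℝ) ^ (-ε / 2 + m * η)

/-- Every admissible node can be sampled from one sample of its argument, up to `d ^ (-A)`.
The scale exponent `κ` of the argument does not depend on the margin `m`. -/
def NodeOK (ε A : ℝ) : Prop :=
  ∀ α : ℝ, 0 ≤ α → ∃ κ : ℝ, 0 ≤ κ ∧ ∀ m : ℝ, 0 ≤ m → ∃ c η₀ : ℝ, 0 ≤ c ∧ 0 < η₀ ∧
    ∀ η : ℝ, 0 < η → η ≤ η₀ → ∃ C : ℝ, ∀ d : ℕ, C ≤ d → ∀ nd : Nd,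
      nd.Ok ((d : ℝ) ^ (-ε)) ((d : ℝ) ^ (-α * η)) →
      ∃ q : ℕ, (q : ℝ) ≤ C * (d : ℝ) ^ (c * η) ∧
        Smp (d := d) (σ := Unit) q (fun _ => nd.scale * (d : ℝ) ^ (-κ * η)) (fun _ => C)
          (√nd.v / eAt ε η m d) (C * √nd.v * (d : ℝ) ^ (-A)) (fun V x => nd.val V (x ()))

/-- How the top nodes of `G` can be sampled: node `i` with `q i` queries, error `ρ i`; all of them
are `L`-Lipschitz. -/
def TopOK (ε η m κ : ℝ) (d : ℕ) {σ : Type} (G : Prog σ) (q : Fin G.num → ℕ) (L : ℝ)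
    (ρ : Fin G.num → ℝ) : Prop :=
  0 ≤ L ∧ ∀ i, 0 ≤ ρ i ∧ Smp (d := d) (σ := Unit) (q i)
    (fun _ => (G.node i).scale * (d : ℝ) ^ (-κ * η)) (fun _ => L)
    (√(G.node i).v / eAt ε η m d) (ρ i) (fun V x => (G.node i).val V (x ()))

/-- The mean of a node programme over a Gaussian slot, the first one, can be sampled from samples of
the centre and of the other slots. The scale exponent `κ` depends neither on the margin `m` nor on
the exponent `κtop` of the top nodes; the top samplers are used a bounded number of times, and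
their Lipschitz constant multiplies no power of `d`. -/
def BinderOK (ε A : ℝ) : Prop :=
  ∀ (D : ℕ) (α κin s : ℝ), 0 ≤ α → 0 ≤ κin → 0 ≤ s → ∃ κ : ℝ, 0 ≤ κ ∧
    ∀ m κtop : ℝ, 0 ≤ m → 0 ≤ κtop → ∃ c η₀ : ℝ, 0 ≤ c ∧ 0 < η₀ ∧
      ∀ η : ℝ, 0 < η → η ≤ η₀ → ∀ Cs : ℝ, ∃ C : ℝ, ∀ d : ℕ, C ≤ d →
        ∀ (σ : Type) [Fintype σ] [DecidableEq σ], Fintype.card σ ≤ D →
        ∀ (G : Prog (Option σ)) (a β Γ : ℝ) (b : σ → ℝ) (qt : Fin G.num → ℕ)
          (Lt : ℝ) (ρt : Fin G.num → ℝ),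
          0 < a → a ≤ 1 → (∀ j, 0 ≤ b j) → (∀ j, G.lin j = 0) →
          G.depth ≤ D → (G.size : ℝ) ≤ Cs * (d : ℝ) ^ (s * η) →
          1 ≤ Γ → Γ ≤ Cs * (d : ℝ) ^ (s * η) → G.Grow d Γ →
          G.Adm ((d : ℝ) ^ (-ε)) ((d : ℝ) ^ (-α * η)) (eAt ε η m d)
            (fun o => o.elim (a * (d : ℝ) ^ (-κin * η)) b) β →
          TopOK ε η (m + 1 / 2) κtop d G qt Lt ρt →
          ∃ q : ℕ, (q : ℝ) ≤ C * (∑ i, (qt i : ℝ)) + C * (d : ℝ) ^ (c * η) ∧
            Smp (d := d) (σ := Option σ) q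
              (fun o => o.elim (a * (d : ℝ) ^ (-κ * η)) fun j => b j * (d : ℝ) ^ (-(κ + κtop) * η))
              (fun o => C * (Lt + 1) * ∑ i, |G.coef i| * (G.child i).grs (eAt ε η m d) o)
              β
              (C * Γ * (∑ i, |G.coef i| * ρt i
                + (Lt + 1) * (∑ i, |G.coef i| * √(G.node i).v) * (d : ℝ) ^ (-A)))
              (fun V x => ∫ ξ, G.val V (fun o => o.elim (x none + a • ξ) fun j => x (some j)) ∂γ d)

end

end Vale.Agent.P347.Zero
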