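import Vale.Agent.P347.Zero.AdjRot
import Vale.Agent.P347.Zero.Levels

/-!
# P347, exponent 0: the Picard programme of the rotation at a node

`U` bounds every constant and every power of `d ^ η` of the data; all conclusions are powers of
`U`, times a power of the angle `t` where a node programme appears.
-/

namespace Vale.Agent.P347.Zero

open MeasureTheory Real Finset
open Vale.Agent.P347.Quarter (E γ)
open Vale.Agent.P347.Colour (Pt)

noncomputable section

set_option linter.unusedSectionVars false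

/-- The input of the adjoint programme. -/
def inpAdj {d : ℕ} {σ : Type} (x : Inp d (Option σ)) (K η' : E d) : Inp d (Option (σ ⊕ Bool)) :=
  fun o => o.elim (x none) fun p => p.elim (fun j => x (some j)) fun k => bif k then K else η'

/-- Blurs of the adjoint programme. -/
def bAdj {σ : Type} (a θ : ℝ) (b : σ → ℝ) : Option (σ ⊕ Bool) → ℝ :=
  fun o => o.elim (a * θ) fun p => p.elim (fun j => b j * θ) fun _ => θ

namespace Prog

variable {d : ℕ} {σ τ : Type} [Fintype σ] [Fintype τ]

/-- The weight of the top nodes. -/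
def topW (P : Prog σ) : ℝ := ∑ i, |P.coef i| * √(P.node i).v

/-- The sensitivity of the top nodes. -/
def topG (e : ℝ) (P : Prog σ) (o : σ) : ℝ := ∑ i, |P.coef i| * (P.child i).grs e o

theorem topW_eq (P : Prog σ) : P.topW = P.top fun c nd _ => |c| * √nd.v := rfl

theorem topG_eq (e : ℝ) (P : Prog σ) (o : σ) :
    P.topG e o = P.top fun c _ Q => |c| * Q.grs e o := rfl

theorem topW_nonneg (P : Prog σ) : 0 ≤ P.topW := sum_nonneg fun _ _ => by positivity

theorem topG_nonneg {e : ℝ} (he : 0 ≤ e) (P : Prog σ) (o : σ) : 0 ≤ P.topG e o :=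
  sum_nonneg fun _ _ => mul_nonneg (abs_nonneg _) (grs_nonneg he _ _)

theorem grs_eq_topG (e : ℝ) (P : Prog σ) (o : σ) :
    P.grs e o = |P.lin o| + 4 / e * P.topG e o := grs_def e P o

/-- The nodes are admissible, their arguments too. -/
def Below (h r e : ℝ) (b : σ → ℝ) (P : Prog σ) : Prop :=
  ∀ i, (P.node i).Ok h r ∧ (P.child i).Adm h r e b (P.node i).scale

theorem Below.adm {h r e : ℝ} {b : σ → ℝ} {P : Prog σ} (hP : P.Below h r e b) {β : ℝ}
    (hβ : ∑ s, |P.lin s| * b s + P.topW / e ≤ β) : P.Adm h r e b β :=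
  (adm_def _ _ _ _ _ _).2 ⟨hβ, hP⟩

theorem Adm.below {h r e : ℝ} {b : σ → ℝ} {P : Prog σ} {β : ℝ} (hP : P.Adm h r e b β) :
    P.Below h r e b := ((adm_def _ _ _ _ _ _).1 hP).2

theorem Adm.topW_le {h r e : ℝ} {b : σ → ℝ} {P : Prog σ} {β : ℝ} (hP : P.Adm h r e b β)
    (he : 0 < e) (hb : ∀ s, 0 ≤ b s) : P.topW ≤ e * β := by
  have h1 := ((adm_def _ _ _ _ _ _).1 hP).1
  have h2 : 0 ≤ ∑ s, |P.lin s| * b s := sum_nonneg fun s _ => mul_nonneg (abs_nonneg _) (hb s)
  have h3 : P.topW / e ≤ β := le_trans (le_add_of_nonneg_left h2) h1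
  rw [div_le_iff₀ he] at h3
  linarith

/-- Finer slots and a larger threshold give a finer output. -/
theorem Adm.shrink {h r r' e e' κ : ℝ} {b b' : σ → ℝ} {P : Prog σ} {β : ℝ} (hP : P.Adm h r e b β)
    (he : 0 < e) (hκ : 0 < κ) (hκ1 : κ ≤ 1) (hb : ∀ s, 0 ≤ b s) (hb' : ∀ s, b' s ≤ κ * b s)
    (hee : e ≤ κ * e') (hr : r' ≤ r) : P.Adm h r' e' b' (κ * β) := by
  have hle : e ≤ e' := by nlinarith [mul_pos hκ he]
  refine Below.adm (fun i => ⟨(hP.below i).1.mono le_rfl hr,
    ((hP.below i).2.mono_blur (fun s => (hb' s).trans (mul_le_of_le_one_left (hb s) hκ1)) le_rfl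
      hr).mono he hle le_rfl⟩) ?_
  have h1 : ∑ s, |P.lin s| * b' s ≤ κ * ∑ s, |P.lin s| * b s := by
    rw [mul_sum]
    exact sum_le_sum fun s _ => le_of_le_of_eq
      (mul_le_mul_of_nonneg_left (hb' s) (abs_nonneg _)) (by ring)
  have h2 : P.topW / e' ≤ κ * (P.topW / e) := by
    rw [← mul_div_assoc, div_le_div_iff₀ (he.trans_le hle) he, mul_comm κ, mul_assoc]
    exact mul_le_mul_of_nonneg_left hee (topW_nonneg _)
  have h3 := mul_le_mul_of_nonneg_left ((adm_def _ _ _ _ _ _).1 hP).1 hκ.le
  rw [mul_add] at h3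
  exact (add_le_add h1 h2).trans h3

theorem continuous_val {V : Pt d → ℝ} (hV : Mem V) {h r e : ℝ} {b : σ → ℝ} {P : Prog σ} {β : ℝ}
    (hP : P.Adm h r e b β) : Continuous (P.val V : Inp d σ → E d) := by
  refine (LipschitzWith.of_dist_le_mul (K := (∑ o, P.grs 1 o).toNNReal) fun x y => ?_).continuous
  rw [dist_eq_norm, dist_eq_norm, Real.coe_toNNReal _ (sum_nonneg fun o _ => grs_nonneg zero_le_one _ _),
    sum_mul]
  refine (val_lip hV one_pos le_rfl hP x y).trans (sum_le_sum fun o _ => ?_)
  exact mul_le_mul_of_nonneg_left (norm_le_pi_norm (x - y) o) (grs_nonneg zero_le_one _ _)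

variable {κ : Type} [Fintype κ]

theorem topW_lc (w : κ → ℝ) (P : κ → Prog σ) : (lc w P).topW = ∑ k, |w k| * (P k).topW := by
  rw [topW_eq, top_lc]
  simp only [topW, top, mul_sum, abs_mul, mul_assoc]

theorem topG_lc (e : ℝ) (w : κ → ℝ) (P : κ → Prog σ) (o : σ) :
    (lc w P).topG e o = ∑ k, |w k| * (P k).topG e o := by
  rw [topG_eq, top_lc]
  simp only [topG, top, mul_sum, abs_mul, mul_assoc]

theorem topW_var [DecidableEq σ] (s : σ) : (var s).topW = 0 :=
  sum_eq_zero fun i _ => Fin.elim0 i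

theorem topG_var [DecidableEq σ] (e : ℝ) (s o : σ) : (var s).topG e o = 0 :=
  sum_eq_zero fun i _ => Fin.elim0 i

theorem size_var [DecidableEq σ] (s : σ) : (var s).size = 1 := by simp [var, size]

theorem grs_var [DecidableEq σ] (e : ℝ) (s o : σ) :
    (var s).grs e o = if o = s then 1 else 0 := by
  simp [var, grs, Pi.single_apply, apply_ite abs]

end Prog

open Prog

variable {d : ℕ} {σ : Type} [Fintype σ] [DecidableEq σ]

/-- The slots of the programme inside those of its adjoint. -/
def adjEmb : Option σ → Option (σ ⊕ Bool) := fun o => o.elim none fun j => some (.inl j)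

/-- The seed slots. -/
def sd (k : Bool) : Option (σ ⊕ Bool) := some (.inr k)

theorem adjEmb_injective : Function.Injective (adjEmb (σ := σ)) := by
  rintro (_ | i) (_ | j) h <;> simp_all [adjEmb]

theorem adjEmb_ne_sd (o : Option σ) (k : Bool) : adjEmb o ≠ sd k := by
  cases o <;> simp [adjEmb, sd]

theorem inpAdj_emb (x : Inp d (Option σ)) (K η : E d) (o : Option σ) :
    inpAdj x K η (adjEmb o) = x o := by
  cases o <;> rfl

/-- A programme over the larger slots. -/
def embP (P : Prog (Option σ)) : Prog (Option (σ ⊕ Bool)) := P.subst fun o => var (adjEmb o)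

theorem val_embP (V : Pt d → ℝ) (P : Prog (Option σ)) (x : Inp d (Option σ)) (K η : E d) :
    (embP P).val V (inpAdj x K η) = P.val V x := by
  simp only [embP, val_subst, val_var, inpAdj_emb]

theorem grs_embP {e : ℝ} (he : 0 ≤ e) (P : Prog (Option σ)) (o : Option σ) :
    (embP P).grs e (adjEmb o) ≤ P.grs e o := by
  refine (grs_subst he _ _ _).trans (le_of_eq ?_)
  simp [grs_var, adjEmb_injective.eq_iff]

theorem grs_embP_sd {e : ℝ} (he : 0 ≤ e) (P : Prog (Option σ)) (k : Bool) :
    (embP P).grs e (sd k) ≤ 0 := by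
  refine (grs_subst he _ _ _).trans (le_of_eq (sum_eq_zero fun o _ => ?_))
  simp [grs_var, (adjEmb_ne_sd o k).symm]

/-- The sign of a component of the generator. -/
def sgn (k : Bool) : ℝ := bif k then -1 else 1

theorem abs_sgn (k : Bool) : |sgn k| = 1 := by cases k <;> simp [sgn]

/-- A seed and a point for a node programme. -/
def selP {τ : Type} (z p : Prog τ) : Option Unit → Prog τ := fun o => o.elim z fun _ => p

/-- The weights of one Picard step. -/
def picW (t : ℝ) (n : ℕ) (l : Fin (n + 2)) (k : Bool) : Option (Fin (n + 2)) → ℝ :=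
  fun o => o.elim 1 fun j => sgn k * (t * rInt n l j)

/-- The Picard iterates of the rotation as programmes. -/
def pPic (Φn : Prog (Option Unit)) (pt : Prog (Option (σ ⊕ Bool))) (t : ℝ) (n : ℕ) :
    ℕ → Fin (n + 2) → Bool → Prog (Option (σ ⊕ Bool))
  | 0 => fun _ k => var (sd k)
  | m + 1 => fun l k => lc (picW t n l k)
      fun o => o.elim (var (sd k)) fun j => Φn.subst (selP (pPic Φn pt t n m j !k) pt)

/-- The surrogate of the generator. -/
def surJ (V : Pt d → ℝ) (Φn : Prog (Option Unit)) (p : E d) (t : ℝ) (y : P2 d) : P2 d :=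
  WithLp.toLp 2 fun k => sgn k • t • Φn.val V fun o => o.elim (y !k) fun _ => p

theorem val_pPic (V : Pt d → ℝ) (Φn : Prog (Option Unit)) (pt : Prog (Option (σ ⊕ Bool))) (t : ℝ)
    (n : ℕ) (x : Inp d (Option σ)) (K η : E d) : ∀ (m : ℕ) (l : Fin (n + 2)) (k : Bool),
    (pPic Φn pt t n m l k).val V (inpAdj x K η)
      = pic (fun _ => surJ V Φn (pt.val V (inpAdj x K η)) t) (rInt n) (mk2 K η) m l k
  | 0, l, k => by
    rw [pPic, val_var]
    cases k <;> rfl
  | m + 1, l, k => by
    rw [pPic, val_lc, Fintype.sum_option]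
    simp only [picW, Option.elim_none, Option.elim_some, one_smul, val_var, val_subst, pic]
    rw [PiLp.add_apply, WithLp.ofLp_sum, Finset.sum_apply]
    congr 1
    refine sum_congr rfl fun j _ => ?_
    rw [PiLp.smul_apply]
    simp only [surJ]
    rw [show (fun s => (selP (pPic Φn pt t n m j !k) pt s).val V (inpAdj x K η))
      = fun o => o.elim (pic (fun _ => surJ V Φn (pt.val V (inpAdj x K η)) t) (rInt n) (mk2 K η) m j
          !k) fun _ => pt.val V (inpAdj x K η) from funext fun o => by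
        cases o with
        | none => exact val_pPic V Φn pt t n x K η m j !k
        | some _ => rfl]
    simp only [smul_smul]
    congr 1
    ring

/-- What a node programme provides. -/
structure NodeAdj (d : ℕ) (h r' e' U δ : ℝ) (nd : Nd) (P : Prog (Option Unit)) (D₁ : ℕ) : Prop where
  lin : ∀ o, P.lin o = 0
  depth : P.depth ≤ D₁
  size : (P.size : ℝ) ≤ U
  grow : P.Grow d U
  topW : P.topW ≤ U
  coef : (∑ i, |P.coef i|) * nd.scale ≤ U
  below : P.Below h r' e' fun o => o.elim U⁻¹ fun _ => nd.scale * U⁻¹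
  gseed : ∀ i, (P.child i).grs e' none ≤ 2 * nd.scale
  gpt : ∀ i, (P.child i).grs e' (some ()) ≤ 2
  valBd : ∀ V, Mem V → ∀ y : Inp d (Option Unit), ‖P.val V y‖ ≤ U * wt y
  err : ∀ V, Mem V → ∀ x : E d, Sq (γ d)
    (fun z => ‖P.val V (fun o => o.elim z fun _ => x) - fderiv ℝ (nd.val V) x z‖) (δ * (√d + ‖x‖))

variable {h r' e' U δ : ℝ} {nd : Nd} {Φn : Prog (Option Unit)} {D₁ : ℕ}

theorem NodeAdj.topG_seed (H : NodeAdj d h r' e' U δ nd Φn D₁) (hs : 0 ≤ nd.scale) :
    Φn.topG e' none ≤ 2 * U := by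
  refine (sum_le_sum fun i _ => mul_le_mul_of_nonneg_left (H.gseed i) (abs_nonneg _)).trans ?_
  rw [← sum_mul]
  linarith [H.coef]

theorem NodeAdj.topG_pt (H : NodeAdj d h r' e' U δ nd Φn D₁) (hs : 0 < nd.scale) :
    Φn.topG e' (some ()) ≤ 2 * U / nd.scale := by
  refine (sum_le_sum fun i _ => mul_le_mul_of_nonneg_left (H.gpt i) (abs_nonneg _)).trans ?_
  rw [← sum_mul, le_div_iff₀ hs]
  linarith [H.coef]

theorem NodeAdj.lip (H : NodeAdj d h r' e' U δ nd Φn D₁) {V : Pt d → ℝ} (hV : Mem V)
    (he : 0 < e') (he1 : e' ≤ 1) (hs : 0 < nd.scale) (p z z' : E d) :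
    ‖Φn.val V (fun o => o.elim z fun _ => p) - Φn.val V (fun o => o.elim z' fun _ => p)‖
      ≤ 8 * U / e' * ‖z - z'‖ := by
  refine (val_lip hV he he1 (H.below.adm le_rfl) _ _).trans ?_
  rw [Fintype.sum_option]
  simp only [Option.elim_none, Option.elim_some, sub_self, norm_zero, mul_zero, sum_const_zero,
    add_zero]
  refine mul_le_mul_of_nonneg_right ?_ (norm_nonneg _)
  rw [grs_eq_topG, H.lin, abs_zero, zero_add, div_mul_eq_mul_div]
  exact div_le_div_of_nonneg_right (by linarith [H.topG_seed hs.le]) he.le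

/-- The bounds of the Picard programme. -/
structure PicBd (d : ℕ) {σ : Type} [Fintype σ] [DecidableEq σ] (h r' e' U t β : ℝ) (G : Option σ → ℝ)
    (b : Option (σ ⊕ Bool) → ℝ) (k : ℕ) (dep : ℕ) (P : Prog (Option (σ ⊕ Bool))) (c : Bool) :
    Prop where
  lin : ∀ o, P.lin o = if o = sd c then 1 else 0
  depth : P.depth ≤ dep
  size : (P.size : ℝ) ≤ U ^ k
  grow : P.Grow d (U ^ k)
  topW : P.topW ≤ t * U ^ 4
  adm : P.Adm h r' e' b β
  gseed : ∀ s, P.grs e' (sd s) ≤ 2
  gemb : ∀ o, P.grs e' (adjEmb o) ≤ G o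
  tseed : ∀ s, P.topG e' (sd s) ≤ t * U ^ 6
  temb : ∀ o, P.topG e' (adjEmb o) ≤ t * U ^ 6 * G o
  valBd : ∀ V, Mem (d := d) V → ∀ y, ‖P.val V y‖ ≤ U ^ k * wt y

theorem lin_pPic (hΦ : ∀ o, Φn.lin o = 0) (pt : Prog (Option (σ ⊕ Bool))) (t : ℝ) (n : ℕ) :
    ∀ (m : ℕ) (l : Fin (n + 2)) (k : Bool) (o : Option (σ ⊕ Bool)),
    (pPic Φn pt t n m l k).lin o = if o = sd k then 1 else 0
  | 0, l, k, o => by simp [pPic, Prog.var, Prog.lin, Pi.single_apply]
  | m + 1, l, k, o => by
    rw [pPic, lin_lc]
    simp only [Fintype.sum_option, Option.elim_none, Option.elim_some, lin_subst, hΦ, zero_mul,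
      sum_const_zero, mul_zero, add_zero, picW, one_mul]
    simp [Prog.var, Prog.lin, Pi.single_apply]

theorem exists_picBd (m D₁ D₀ : ℕ) : ∃ (k D' : ℕ), ∀ (d n : ℕ) (σ : Type) [Fintype σ]
    [DecidableEq σ] (h r' e' U δ t β : ℝ) (G : Option σ → ℝ) (b : Option (σ ⊕ Bool) → ℝ) (nd : Nd)
    (Φn : Prog (Option Unit)) (pt : Prog (Option (σ ⊕ Bool))),
    2 ≤ U → 0 < e' → e' ≤ 1 → 0 < t → 0 < nd.scale → (n + 2 : ℝ) ≤ U →
    (∀ l j, |rInt n l j| ≤ U) → (Fintype.card σ : ℝ) + 3 ≤ U →
    NodeAdj d h r' e' U δ nd Φn D₁ →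
    (∀ o, 0 ≤ b o) → (∀ s, b (sd s) + t * U ^ 4 / e' ≤ β) → β ≤ U⁻¹ → t * U ^ 7 ≤ e' →
    pt.depth ≤ D₀ → (pt.size : ℝ) ≤ U → pt.Grow d U →
    (∀ V, Mem (d := d) V → ∀ y, ‖pt.val V y‖ ≤ U * wt y) →
    pt.Adm h r' e' b (nd.scale * U⁻¹) →
    (∀ s, pt.grs e' (sd s) ≤ 0) → (∀ o, pt.grs e' (adjEmb o) ≤ nd.scale * G o) →
    (∀ o, 0 ≤ G o) →
    ∀ (l : Fin (n + 2)) (c : Bool), PicBd d h r' e' U t β G b k D' (pPic Φn pt t n m l c) c := by
  induction m with
  | zero =>
    refine ⟨1, 0, ?_⟩
    intro d n σ _ _ h r' e' U δ t β G b nd Φn pt hU he he1 ht hs hn hI hcard H hb hβ hβU htU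
      hptd hpts hptg hptv hpta hptk hpte hG l c
    have hU1 : (1 : ℝ) ≤ U ^ 1 := one_le_pow₀ (by linarith)
    rw [pPic]
    refine ⟨fun o => by simp [Prog.var, Prog.lin, Pi.single_apply], by simp [Prog.var, Prog.depth],
      ?_, fun i => i.elim0, ?_, ?_, fun s => ?_, fun o => ?_, fun s => ?_, fun o => ?_,
      fun V _ y => ?_⟩
    · rw [size_var, Nat.cast_one]; exact hU1
    · rw [topW_var]; positivity
    · exact adm_var ((le_add_of_nonneg_right (by positivity)).trans (hβ c))
    · rw [grs_var]; split <;> norm_num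
    · rw [grs_var, if_neg (adjEmb_ne_sd o c)]; exact hG o
    · rw [topG_var]; positivity
    · rw [topG_var]; exact mul_nonneg (by positivity) (hG o)
    · rw [val_var]
      refine le_trans ?_ (le_mul_of_one_le_left (wt_nonneg y) hU1)
      exact (single_le_sum (f := fun o => ‖y o‖) (fun _ _ => norm_nonneg _) (mem_univ (sd c))).trans
        (le_add_of_nonneg_left (Real.sqrt_nonneg _))
  | succ m ih =>
    obtain ⟨k, D', ih⟩ := ih
    refine ⟨k + 8, D₁ + max D' D₀, ?_⟩
    intro d n σ _ _ h r' e' U δ t β G b nd Φn pt hU he he1 ht hs hn hI hcard H hb hβ hβU htU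
      hptd hpts hptg hptv hpta hptk hpte hG l c
    have P := ih d n σ h r' e' U δ t β G b nd Φn pt hU he he1 ht hs hn hI hcard H hb hβ hβU htU
      hptd hpts hptg hptv hpta hptk hpte hG
    have hU0 : 0 < U := by linarith
    have hU1 : 1 ≤ U := by linarith
    have hUk : (1 : ℝ) ≤ U ^ k := one_le_pow₀ hU1
    set Q := fun j => selP (pPic Φn pt t n m j !c) pt with hQ
    have hQd : ∀ j s, (Q j s).depth ≤ max D' D₀ := by
      rintro j (_ | s)
      · exact (P j _).depth.trans (le_max_left _ _)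
      · exact hptd.trans (le_max_right _ _)
    have hwabs : ∀ j, |picW t n l c (some j)| ≤ t * U := fun j => by
      simp only [picW, Option.elim_some, abs_mul, abs_sgn, one_mul, abs_of_pos ht]
      exact mul_le_mul_of_nonneg_left (hI l j) ht.le
    have hlinS : ∀ j o, (Φn.subst (Q j)).lin o = 0 := fun j o => by
      simp [lin_subst, H.lin]
    have hWS : ∀ j, (Φn.subst (Q j)).topW ≤ U := fun j => by
      rw [topW_eq, top_subst]
      simp only [H.lin, zero_mul, abs_zero, top, sum_const_zero, add_zero]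
      exact H.topW
    have hTS : ∀ j o, (Φn.subst (Q j)).topG e' o
        ≤ Φn.topG e' none * (Q j none).grs e' o + Φn.topG e' (some ()) * (Q j (some ())).grs e' o := by
      intro j o
      rw [topG_eq, top_subst]
      simp only [H.lin, zero_mul, abs_zero, top, sum_const_zero, add_zero, topG, sum_mul,
        ← sum_add_distrib, mul_assoc, ← mul_add]
      refine sum_le_sum fun i _ => mul_le_mul_of_nonneg_left ?_ (abs_nonneg _)
      refine (grs_subst he.le _ _ _).trans (le_of_eq ?_)
      simp [Fintype.sum_option]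
    have hseed : ∀ j s, (Φn.subst (Q j)).topG e' (sd s) ≤ 4 * U := by
      intro j s
      refine (hTS j _).trans ?_
      have h1 : Φn.topG e' none * (Q j none).grs e' (sd s) ≤ 2 * U * 2 :=
        mul_le_mul (H.topG_seed hs.le) ((P j _).gseed s) (grs_nonneg he.le _ _) (by positivity)
      have h2 : Φn.topG e' (some ()) * (Q j (some ())).grs e' (sd s) ≤ 0 :=
        mul_nonpos_of_nonneg_of_nonpos (topG_nonneg he.le _ _) (hptk s)
      linarith
    have hemb : ∀ j o, (Φn.subst (Q j)).topG e' (adjEmb o) ≤ 4 * U * G o := by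
      intro j o
      refine (hTS j _).trans ?_
      have h1 : Φn.topG e' none * (Q j none).grs e' (adjEmb o) ≤ 2 * U * G o :=
        mul_le_mul (H.topG_seed hs.le) ((P j _).gemb o) (grs_nonneg he.le _ _) (by positivity)
      have h2 : Φn.topG e' (some ()) * (Q j (some ())).grs e' (adjEmb o)
          ≤ 2 * U / nd.scale * (nd.scale * G o) :=
        mul_le_mul (H.topG_pt hs) (hpte o) (grs_nonneg he.le _ _) (by positivity)
      rw [show 2 * U / nd.scale * (nd.scale * G o) = 2 * U * G o by field_simp] at h2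
      linarith
    have hsum : ∀ {f : Fin (n + 2) → ℝ} {B : ℝ}, 0 ≤ B → (∀ j, f j ≤ B) → (∀ j, 0 ≤ f j) →
        ∑ j, |picW t n l c (some j)| * f j ≤ t * U ^ 2 * B := by
      intro f B hB hf hf0
      refine (sum_le_sum fun j _ => mul_le_mul (hwabs j) (hf j) (hf0 j) (by positivity)).trans ?_
      rw [sum_const, card_univ, Fintype.card_fin, nsmul_eq_mul]
      have : ((n + 2 : ℕ) : ℝ) ≤ U := by push_cast; exact hn
      refine (mul_le_mul_of_nonneg_right this (by positivity)).trans (le_of_eq ?_)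
      ring
    have hTW : (pPic Φn pt t n (m + 1) l c).topW ≤ t * U ^ 2 * U := by
      rw [pPic, topW_lc, Fintype.sum_option]
      simp only [Option.elim_none, Option.elim_some, topW_var, mul_zero, zero_add]
      exact hsum hU0.le hWS fun j => topW_nonneg _
    have hTG : ∀ o, (pPic Φn pt t n (m + 1) l c).topG e' o
        = ∑ j, |picW t n l c (some j)| * (Φn.subst (Q j)).topG e' o := by
      intro o
      rw [pPic, topG_lc, Fintype.sum_option]
      simp only [Option.elim_none, Option.elim_some, topG_var, mul_zero, zero_add]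
      rfl
    have hts : ∀ s, (pPic Φn pt t n (m + 1) l c).topG e' (sd s) ≤ t * U ^ 3 * 4 := fun s => by
      rw [hTG]
      refine (hsum (by positivity) (fun j => hseed j s) fun j => topG_nonneg he.le _ _).trans
        (le_of_eq ?_)
      ring
    have hte : ∀ o, (pPic Φn pt t n (m + 1) l c).topG e' (adjEmb o) ≤ t * U ^ 3 * 4 * G o := fun o => by
      rw [hTG]
      refine (hsum (mul_nonneg (by positivity) (hG o)) (fun j => hemb j o)
        fun j => topG_nonneg he.le _ _).trans (le_of_eq ?_)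
      ring
    have h4 : (4 : ℝ) ≤ U ^ 2 := by nlinarith
    have h16 : t * U ^ 3 * 16 ≤ e' := by
      have h8 : (16 : ℝ) ≤ U ^ 4 := by
        nlinarith [pow_le_pow_left₀ (by norm_num : (0 : ℝ) ≤ 2) hU 4]
      nlinarith [mul_le_mul_of_nonneg_left h8 (show 0 ≤ t * U ^ 3 by positivity)]
    refine
      { lin := lin_pPic H.lin pt t n (m + 1) l c
        depth := ?_
        size := ?_
        grow := ?_
        topW := hTW.trans (le_of_eq_of_le (by ring) (mul_le_mul_of_nonneg_left
          (pow_le_pow_right₀ hU1 (by norm_num : 3 ≤ 4)) ht.le))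
        adm := ?_
        gseed := fun s => ?_
        gemb := fun o => ?_
        tseed := fun s => (hts s).trans ?_
        temb := fun o => (hte o).trans (mul_le_mul_of_nonneg_right ?_ (hG o))
        valBd := fun V hV y => ?_ }
    · rw [pPic]
      refine depth_lc fun o => ?_
      cases o with
      | none => simp [Prog.var, Prog.depth]
      | some j => exact depth_subst (hQd j) H.depth
    · rw [pPic]
      refine (Nat.cast_le.2 (size_lc_le _ _)).trans ?_
      have hS : ∀ j, ((Φn.subst (Q j)).size : ℝ) ≤ U * (3 * U ^ k * U) := fun j => by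
        refine (Nat.cast_le.2 (size_subst _ _)).trans ?_
        push_cast
        refine mul_le_mul H.size ?_ (by positivity) hU0.le
        rw [Fintype.sum_option]
        simp only [hQ, selP, Option.elim_none, Option.elim_some, univ_unique, sum_singleton]
        nlinarith [(P j !c).size, hpts]
      have hv : ((var (sd c) : Prog (Option (σ ⊕ Bool))).size : ℝ) = 1 := by
        rw [size_var, Nat.cast_one]
      push_cast
      rw [Fintype.sum_option]
      simp only [Option.elim_none, Option.elim_some, hv]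
      refine (add_le_add le_rfl (add_le_add le_rfl (sum_le_sum fun j _ => hS j))).trans ?_
      rw [sum_const, card_univ, Fintype.card_fin, nsmul_eq_mul]
      push_cast
      have h1 : ((n : ℝ) + 2) * (U * (3 * U ^ k * U)) ≤ U * (U * (3 * U ^ k * U)) :=
        mul_le_mul_of_nonneg_right hn (by positivity)
      have h3 : (1 : ℝ) ≤ U ^ k * U ^ 3 := one_le_mul_of_one_le_of_one_le hUk (one_le_pow₀ hU1)
      have h5 : (5 : ℝ) ≤ U ^ 5 := by
        linarith [pow_le_pow_left₀ (by norm_num : (0 : ℝ) ≤ 2) hU 5]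
      rw [show U ^ (k + 8) = U ^ k * U ^ 3 * U ^ 5 by ring]
      nlinarith [mul_le_mul_of_nonneg_left h5 (show 0 ≤ U ^ k * U ^ 3 by positivity)]
    · rw [pPic]
      refine grow_lc fun o => ?_
      cases o with
      | none => exact fun i => i.elim0
      | some j =>
        refine Grow.mono ?_ (grow_subst hU0.le (pow_nonneg hU0.le (k + 1)) (Q := Q j) (fun s => ?_)
          (fun s V hV y => ?_) H.grow)
        · simp only [Fintype.card_option, Fintype.card_unit]
          push_cast
          have h1 : (1 : ℝ) ≤ U ^ (k + 1) := one_le_pow₀ hU1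
          have h2 : U * (1 + 2 * U ^ (k + 1)) + U ^ (k + 1) ≤ U ^ (k + 1) * (4 * U) := by
            nlinarith
          refine h2.trans ?_
          rw [show U ^ (k + 8) = U ^ (k + 1) * U ^ 7 by ring]
          refine mul_le_mul_of_nonneg_left ?_ (by positivity)
          calc 4 * U ≤ U ^ 2 * U := mul_le_mul_of_nonneg_right h4 hU0.le
            _ = U ^ 3 := by ring
            _ ≤ U ^ 7 := pow_le_pow_right₀ hU1 (by norm_num)
        · cases s with
          | none => exact (P j _).grow.mono (pow_le_pow_right₀ hU1 (Nat.le_succ k))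
          | some u => exact hptg.mono (le_self_pow₀ hU1 (Nat.succ_ne_zero k))
        · cases s with
          | none =>
            exact le_trans ((P j !c).valBd V hV y)
              (mul_le_mul_of_nonneg_right (pow_le_pow_right₀ hU1 (Nat.le_succ k)) (wt_nonneg y))
          | some u =>
            exact le_trans (hptv V hV y)
              (mul_le_mul_of_nonneg_right (le_self_pow₀ hU1 (Nat.succ_ne_zero k)) (wt_nonneg y))
    · refine Below.adm ?_ ?_
      · intro i
        revert i
        rw [pPic]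
        refine (forall_ofFam _ _ _ _ fun _ nd Q => nd.Ok h r' ∧ Q.Adm h r' e' b nd.scale).2 ?_
        rintro ⟨(_ | j), i⟩
        · exact i.elim0
        · refine Adm.below (P := Φn.subst (Q j)) (adm_subst hb (fun s => ?_) (H.below.adm le_rfl)) i
          cases s with
          | none => exact ((P j _).adm.mono he le_rfl hβU)
          | some u => exact hpta
      · refine le_trans (le_of_eq ?_) (hβ c) |>.trans' (add_le_add le_rfl
          (div_le_div_of_nonneg_right (hTW.trans (le_of_eq_of_le (by ring) (mul_le_mul_of_nonneg_left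
            (pow_le_pow_right₀ hU1 (by norm_num : 3 ≤ 4)) ht.le))) he.le))
        rw [sum_eq_single (sd c) (fun o _ ho => by rw [lin_pPic H.lin, if_neg ho, abs_zero, zero_mul])
          (by simp), lin_pPic H.lin, if_pos rfl, abs_one, one_mul]
    · rw [grs_eq_topG, lin_pPic H.lin]
      have h5 : 4 / e' * (pPic Φn pt t n (m + 1) l c).topG e' (sd s) ≤ 1 := by
        rw [div_mul_eq_mul_div, div_le_one he]
        nlinarith [hts s]
      split <;> simp <;> linarith
    · rw [grs_eq_topG, lin_pPic H.lin, if_neg (adjEmb_ne_sd o c), abs_zero, zero_add,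
        div_mul_eq_mul_div, div_le_iff₀ he]
      nlinarith [hte o, mul_le_mul_of_nonneg_right h16 (hG o), mul_nonneg he.le (hG o)]
    · nlinarith [mul_le_mul_of_nonneg_left (show (4 : ℝ) ≤ U ^ 3 by nlinarith) (show 0 ≤ t * U ^ 3 by positivity)]
    · nlinarith [mul_le_mul_of_nonneg_left (show (4 : ℝ) ≤ U ^ 3 by nlinarith) (show 0 ≤ t * U ^ 3 by positivity)]
    · rw [pPic, val_lc, Fintype.sum_option]
      simp only [picW, Option.elim_none, Option.elim_some, one_smul, val_var]
      have hy : ‖y (sd c)‖ ≤ wt y :=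
        (single_le_sum (f := fun o => ‖y o‖) (fun _ _ => norm_nonneg _) (mem_univ (sd c))).trans
          (le_add_of_nonneg_left (Real.sqrt_nonneg _))
      have hj : ∀ j, ‖(sgn c * (t * rInt n l j)) • (Φn.subst (Q j)).val V y‖
          ≤ t * U * (U * (3 * U ^ k * U * wt y)) := by
        intro j
        rw [norm_smul, norm_eq_abs]
        refine mul_le_mul (hwabs j) ?_ (norm_nonneg _) (by positivity)
        rw [val_subst]
        refine (H.valBd V hV _).trans (mul_le_mul_of_nonneg_left ?_ hU0.le)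
        have hd : √(d : ℝ) ≤ wt y := le_add_of_nonneg_right (sum_nonneg fun _ _ => norm_nonneg _)
        show √(d : ℝ) + _ ≤ _
        rw [Fintype.sum_option]
        simp only [hQ, selP, Option.elim_none, Option.elim_some, univ_unique, sum_singleton]
        have h1 := (P j !c).valBd V hV y
        have h2 := hptv V hV y
        nlinarith [mul_nonneg (mul_nonneg (sub_nonneg.2 hUk) (sub_nonneg.2 hU1)) (wt_nonneg y),
          mul_nonneg (sub_nonneg.2 hUk) (wt_nonneg y), mul_nonneg (sub_nonneg.2 hU1) (wt_nonneg y)]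
      refine (norm_add_le _ _).trans ((add_le_add hy ((norm_sum_le _ _).trans
        (sum_le_sum fun j _ => hj j))).trans ?_)
      rw [sum_const, card_univ, Fintype.card_fin, nsmul_eq_mul]
      push_cast
      have htU1 : t * U ≤ 1 :=
        (mul_le_mul_of_nonneg_left (le_self_pow₀ hU1 (by norm_num)) ht.le).trans (htU.trans he1)
      have h1 : ((n : ℝ) + 2) * (t * U * (U * (3 * U ^ k * U * wt y)))
          ≤ U * (1 * (U * (3 * U ^ k * U * wt y))) :=
        mul_le_mul hn (mul_le_mul_of_nonneg_right htU1 (mul_nonneg hU0.le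
          (mul_nonneg (by positivity) (wt_nonneg y)))) (mul_nonneg (by positivity) (mul_nonneg hU0.le
          (mul_nonneg (by positivity) (wt_nonneg y)))) hU0.le
      have h5 : (4 : ℝ) ≤ U ^ 5 := h4.trans (pow_le_pow_right₀ hU1 (by norm_num))
      have h6 : (1 : ℝ) ≤ U ^ k * U ^ 3 := one_le_mul_of_one_le_of_one_le hUk (one_le_pow₀ hU1)
      refine (add_le_add le_rfl h1).trans ?_
      rw [show U ^ (k + 8) = U ^ k * U ^ 3 * U ^ 5 by ring]
      nlinarith [mul_le_mul_of_nonneg_left h5 (show 0 ≤ U ^ k * U ^ 3 * wt y from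
        mul_nonneg (by positivity) (wt_nonneg y)), mul_nonneg (sub_nonneg.2 h6) (wt_nonneg y)]

end

end Vale.Agent.P347.Zero
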