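import Vale.Agent.P347.Zero.AdjPic

/-!
# P347, exponent 0: the adjoint programme, by recursion on the programme

At every top node the child's adjoint is read at the rotated pair and differentiated at angle `0`
by finite differences: the `K`-slot receives `η`, the seed slot `ζ`, an orthogonal image of the pair.
-/

namespace Vale.Agent.P347.Zero

open MeasureTheory Real Finset
open scoped RealInnerProductSpace
open Vale.Agent.P347.Quarter (E γ)
open Vale.Agent.P347.Colour (Pt)

noncomputable section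

set_option linter.unusedSectionVars false

open Prog

variable {d : ℕ} {σ : Type} [Fintype σ] [DecidableEq σ]

namespace Prog

variable {τ : Type} [Fintype τ]

theorem topW_subst (Q : τ → Prog σ) (P : Prog τ) :
    (P.subst Q).topW = P.topW + ∑ s, |P.lin s| * (Q s).topW := by
  rw [topW_eq, top_subst]
  simp only [topW, top, mul_sum, abs_mul, mul_assoc]

theorem topG_subst {e : ℝ} (he : 0 ≤ e) (Q : τ → Prog σ) (P : Prog τ) (o : σ) :
    (P.subst Q).topG e o
      ≤ (∑ s, P.topG e s * (Q s).grs e o) + ∑ s, |P.lin s| * (Q s).topG e o := by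
  rw [topG_eq, top_subst]
  simp only [topG, top, mul_sum, abs_mul, mul_assoc, sum_mul]
  refine add_le_add ?_ le_rfl
  rw [sum_comm (f := fun s i => |P.coef i| * ((P.child i).grs e s * (Q s).grs e o))]
  refine sum_le_sum fun i _ => ?_
  rw [← mul_sum]
  exact mul_le_mul_of_nonneg_left (grs_subst he _ _ _) (abs_nonneg _)

theorem top_var [DecidableEq σ] {M : Type*} [AddCommMonoid M] (s : σ)
    (f : ℝ → Nd → Prog σ → M) : (var s).top f = 0 := sum_eq_zero fun i _ => Fin.elim0 i

end Prog

/-! ## The programme over the larger slots -/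

theorem size_embP (P : Prog (Option σ)) : (embP P).size = P.size := by
  induction P with
  | mk N l c nd ch ih =>
    simp only [embP] at ih ⊢
    rw [size_top, top_subst, top_mk', size]
    simp only [ih, top_var, sum_const_zero, add_zero]

theorem depth_embP {P : Prog (Option σ)} {D : ℕ} (h : P.depth ≤ D) : (embP P).depth ≤ D :=
  (depth_subst (D' := 0) (fun o => by simp [Prog.var, Prog.depth]) h).trans (le_of_eq (add_zero D))

theorem wt_emb_le (y : Inp d (Option (σ ⊕ Bool))) :
    wt (fun o => y (adjEmb o) : Inp d (Option σ)) ≤ wt y := by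
  refine add_le_add le_rfl ?_
  rw [← sum_image (g := adjEmb) (f := fun s => ‖y s‖) fun a _ b _ h => adjEmb_injective h]
  exact sum_le_sum_of_subset_of_nonneg (subset_univ _) fun _ _ _ => norm_nonneg _

theorem valBd_embP {Γ : ℝ} (hΓ : 0 ≤ Γ) {P : Prog (Option σ)}
    (h : ∀ V, Mem (d := d) V → ∀ x, ‖P.val V x‖ ≤ Γ * wt x) :
    ∀ V, Mem (d := d) V → ∀ y, ‖(embP P).val V y‖ ≤ Γ * wt y := by
  intro V hV y
  simp only [embP, val_subst, val_var]
  exact (h V hV _).trans (mul_le_mul_of_nonneg_left (wt_emb_le y) hΓ)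

theorem grow_embP {Γ : ℝ} (hΓ : 0 ≤ Γ) : ∀ {P : Prog (Option σ)}, P.Grow d Γ → (embP P).Grow d Γ := by
  intro P
  induction P with
  | mk N l c nd ch ih =>
    intro hP
    simp only [embP] at ih ⊢
    rw [subst, grow_ofFam]
    rintro (i | ⟨s, i⟩)
    · exact ⟨valBd_embP hΓ (hP i).1, ih i (hP i).2⟩
    · exact i.elim0

theorem Prog.Adm.embP {h r r' e e' κ : ℝ} {b : Option σ → ℝ} {b' : Option (σ ⊕ Bool) → ℝ}
    {P : Prog (Option σ)} {β : ℝ} (hP : P.Adm h r e b β) (he : 0 < e) (hκ : 0 < κ) (hκ1 : κ ≤ 1)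
    (hb : ∀ s, 0 ≤ b s) (hb0 : ∀ s, 0 ≤ b' s) (hb' : ∀ s, b' (adjEmb s) ≤ κ * b s)
    (hee : e ≤ κ * e') (hr : r' ≤ r) : (Zero.embP P).Adm h r' e' b' (κ * β) :=
  adm_subst hb0 (fun _ => adm_var le_rfl) (hP.shrink he hκ hκ1 hb hb' hee hr)

/-! ## The construction -/

/-- The rotated pair in the seed slots. -/
def sdS (p : Bool → Prog (Option (σ ⊕ Bool))) : Option (σ ⊕ Bool) → Prog (Option (σ ⊕ Bool)) :=
  fun o => o.elim (var none) fun s => s.elim (fun j => var (some (.inl j))) fun k => p !k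

/-- The weights of the adjoint. -/
def adjW (a t : ℝ) (n : ℕ) {N : ℕ} (l : Option σ → ℝ) (c : Fin N → ℝ) :
    Option (Fin N × Fin (n + 2)) → ℝ :=
  fun o => o.elim (a * l none) fun p => c p.1 * (rExt n p.2 / t)

/-- The adjoint programme. -/
def adj (Φ : Nd → Prog (Option Unit)) (a t : ℝ) (n : ℕ) :
    Prog (Option σ) → Prog (Option (σ ⊕ Bool))
  | Prog.mk _ l c nd ch =>
    lc (adjW a t n l c) fun o => o.elim (var (sd true)) fun p =>
      (adj Φ a t n (ch p.1)).subst (sdS (pPic (Φ (nd p.1)) (embP (ch p.1)) t n n p.2))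

theorem sdS_sd (p : Bool → Prog (Option (σ ⊕ Bool))) (k : Bool) : sdS p (sd k) = p !k := rfl

theorem sdS_emb (p : Bool → Prog (Option (σ ⊕ Bool))) (o : Option σ) :
    sdS p (adjEmb o) = var (adjEmb o) := by
  cases o <;> rfl

theorem sum_slots {M : Type*} [AddCommMonoid M] (f : Option (σ ⊕ Bool) → M) :
    ∑ s, f s = (∑ o, f (adjEmb o)) + (f (sd true) + f (sd false)) := by
  simp only [Fintype.sum_option, Fintype.sum_sum_type, Fintype.sum_bool, adjEmb, sd,
    Option.elim_none, Option.elim_some, add_assoc]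

theorem val_sdS (V : Pt d → ℝ) (p : Bool → Prog (Option (σ ⊕ Bool))) (x : Inp d (Option σ))
    (K η : E d) : (fun s => (sdS p s).val V (inpAdj x K η))
      = inpAdj x ((p false).val V (inpAdj x K η)) ((p true).val V (inpAdj x K η)) := by
  funext s
  rcases s with _ | (j | k)
  · exact val_var V _ _
  · exact val_var V _ _
  · cases k <;> rfl

/-- What the data provide. -/
structure AdjCtx (d : ℕ) {σ : Type} [Fintype σ] (h r r' e e' t a θin U δ : ℝ)
    (Φ : Nd → Prog (Option Unit)) (D₁ n : ℕ) (b : σ → ℝ) : Prop where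
  hU : 2 ≤ U
  he : 0 < e
  het : e ≤ t
  ht : 0 < t
  he1 : e' ≤ 1
  ha : 0 < a
  hθ : 0 < θin
  hθU : θin⁻¹ ≤ U
  hb : ∀ s, 0 ≤ b s
  hr : r' ≤ r
  hn : (n + 2 : ℝ) ≤ U
  hI : ∀ l j, |rInt n l j| ≤ U
  hE : ∀ j, |rExt n j| ≤ U
  hrot : ∀ (A : P2 d →L[ℝ] P2 d) (c : ℝ) (w : P2 d), (∀ y, ⟪y, A y⟫ = 0) → 0 ≤ c → c ≤ 1 →
    (∀ y, ‖A y‖ ≤ c * ‖y‖) →
      (∀ l, ‖w + ∑ j, rInt n l j • A (rotC A w (rNode n j)) - rotC A w (rNode n l)‖
        ≤ U * c ^ n * ‖w‖) ∧
      ‖∑ j, rExt n j • rotC A w (rNode n j) - A w‖ ≤ U * c ^ n * ‖w‖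
  hδ : 0 ≤ δ
  hcard : (Fintype.card σ : ℝ) + 3 ≤ U
  node : ∀ nd : Nd, nd.Ok h r → NodeAdj d h r' e' U δ nd (Φ nd) D₁

/-- The input blurs of the programme. -/
def bIn {σ : Type} (a θin : ℝ) (b : σ → ℝ) : Option σ → ℝ := fun o => o.elim (a * θin) b

/-- The bounds of the adjoint programme. -/
structure AdjBd (d : ℕ) {σ : Type} [Fintype σ] [DecidableEq σ] (h r' e e' a θ U : ℝ) (b : σ → ℝ)
    (k D' : ℕ) (P : Prog (Option σ)) (R : Prog (Option (σ ⊕ Bool))) : Prop where
  lin : ∀ o, R.lin o = if o = sd true then a * P.lin none else 0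
  depth : R.depth ≤ D'
  size : (R.size : ℝ) ≤ U ^ k
  grow : R.Grow d (U ^ k)
  topW : R.topW ≤ U ^ k * P.topW
  below : R.Below h r' e' (bAdj a θ b)
  tseed : ∀ s, R.topG e' (sd s) ≤ U ^ k * P.topW
  temb : ∀ o, R.topG e' (adjEmb o) ≤ U ^ k * P.topG e o

theorem lin_adj (Φ : Nd → Prog (Option Unit)) (hΦ : ∀ nd o, (Φ nd).lin o = 0) (a t : ℝ) (n : ℕ)
    (P : Prog (Option σ)) (o : Option (σ ⊕ Bool)) :
    (adj Φ a t n P).lin o = if o = sd true then a * P.lin none else 0 := by
  induction P generalizing o with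
  | mk N l c nd ch ih =>
    rw [adj, lin_lc, lin_mk]
    simp only [Fintype.sum_option, Option.elim_none, Option.elim_some, adjW, Fintype.sum_prod_type]
    have h2 : ∀ i j, ((adj Φ a t n (ch i)).subst
        (sdS (pPic (Φ (nd i)) (embP (ch i)) t n n j))).lin o
          = if o = sd false then a * (ch i).lin none else 0 := by
      intro i j
      rw [lin_subst]
      simp only [ih i]
      rw [sum_eq_single (sd true) (fun s _ hs => by rw [if_neg hs, zero_mul]) (by simp), if_pos rfl,
        sdS_sd, lin_pPic (hΦ _)]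
      simp
    simp only [h2]
    rw [sum_eq_zero fun i _ => (by rw [← sum_mul, ← mul_sum, ← Finset.sum_div, sum_rExt]; simp :
      ∑ j, c i * (rExt n j / t) * (if o = sd false then a * (ch i).lin none else 0) = 0), add_zero]
    simp [Prog.var, Prog.lin, Pi.single_apply]

/-- The bounds of one item of the combination. -/
structure ItemBd (d : ℕ) {σ : Type} [Fintype σ] [DecidableEq σ] (h r' e e' a t θ U : ℝ) (b : σ → ℝ)
    (k D' : ℕ) (sc : ℝ) (ch : Prog (Option σ)) (R : Prog (Option (σ ⊕ Bool))) : Prop where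
  depth : R.depth ≤ D'
  size : (R.size : ℝ) ≤ U ^ k
  grow : R.Grow d (U ^ k)
  topW : R.topW ≤ U ^ k * t * sc
  below : R.Below h r' e' (bAdj a θ b)
  tseed : ∀ s, R.topG e' (sd s) ≤ U ^ k * t * sc
  temb : ∀ o, R.topG e' (adjEmb o) ≤ U ^ k * t * ch.grs e o

theorem itemBd {h r r' e e' t a θin θ θc U δ : ℝ} {Φ : Nd → Prog (Option Unit)} {D₁ n : ℕ}
    {b : σ → ℝ} (H : AdjCtx d h r r' e e' t a θin U δ Φ D₁ n b) {k kp D' Dpic : ℕ}
    (he' : 0 < e') (hθ0 : 0 ≤ θ) (hθθc : θ ≤ θc) {sc : ℝ} (hsc : 0 < sc) {chi : Prog (Option σ)}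
    (hW : chi.topW ≤ e * sc) (hal : |a * chi.lin none| ≤ U * sc)
    {R : Prog (Option (σ ⊕ Bool))} (C : AdjBd d h r' e e' a θc U b k D' chi R)
    {p : Bool → Prog (Option (σ ⊕ Bool))}
    (Q : ∀ c, PicBd d h r' e' U t θc (fun o => chi.grs e o / sc) (bAdj a θ b) kp Dpic (p c) c) :
    ItemBd d h r' e e' a t θ U b (k + kp + 9) (D' + Dpic) sc chi (R.subst (sdS p)) := by
  have hU0 : 0 < U := by linarith [H.hU]
  have hU1 : (1 : ℝ) ≤ U := by linarith [H.hU]
  have ht0 := H.ht
  have he := H.he
  set K := U ^ k with hKdef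
  have hK1 : 1 ≤ K := one_le_pow₀ hU1
  have hbout : ∀ o, 0 ≤ bAdj a θ b o := fun o => by
    rcases o with _ | (j | s)
    · exact mul_nonneg H.ha.le hθ0
    · exact mul_nonneg (H.hb j) hθ0
    · exact hθ0
  have hts : 0 ≤ t * sc := mul_nonneg ht0.le hsc.le
  have hlin : ∀ (f : Option (σ ⊕ Bool) → ℝ),
      ∑ s, |R.lin s| * f s = |a * chi.lin none| * f (sd true) := by
    intro f
    rw [sum_eq_single (sd true) (fun s _ hs => by rw [C.lin, if_neg hs, abs_zero, zero_mul])
      (by simp), C.lin, if_pos rfl]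
  have hWt : chi.topW ≤ t * sc := hW.trans (mul_le_mul_of_nonneg_right H.het hsc.le)
  have hbig : ∀ j, j ≤ 7 → K ≤ U ^ (k + kp + 9) / 8 ∧ U * U ^ j ≤ U ^ (k + kp + 9) / 2 := by
    intro j hj
    constructor
    · rw [le_div_iff₀ (by norm_num)]
      calc K * 8 ≤ K * U ^ 3 := mul_le_mul_of_nonneg_left
            (by linarith [pow_le_pow_left₀ (by norm_num : (0 : ℝ) ≤ 2) H.hU 3]) (by positivity)
        _ = U ^ (k + 3) := by rw [hKdef]; ring
        _ ≤ _ := pow_le_pow_right₀ hU1 (by omega)
    · rw [le_div_iff₀ (by norm_num)]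
      calc U * U ^ j * 2 ≤ U * U ^ j * U := mul_le_mul_of_nonneg_left H.hU (by positivity)
        _ = U ^ (j + 2) := by ring
        _ ≤ _ := pow_le_pow_right₀ hU1 (by omega)
  refine ⟨?_, ?_, ?_, ?_, ?_, fun s => ?_, fun o => ?_⟩
  · refine depth_subst (fun s => ?_) C.depth
    rcases s with _ | (j' | u)
    · simp [sdS, Prog.var, Prog.depth]
    · simp [sdS, Prog.var, Prog.depth]
    · exact (Q !u).depth
  · have hkp : (1 : ℝ) ≤ U ^ kp := one_le_pow₀ hU1
    refine (Nat.cast_le.2 (size_subst _ _)).trans ?_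
    push_cast
    have hs1 : ∀ s, ((sdS p s).size : ℝ) ≤ U ^ kp := by
      rintro (_ | (j' | u))
      · simp [sdS, size_var, hkp]
      · simp [sdS, size_var, hkp]
      · exact (Q !u).size
    rw [show U ^ (k + kp + 9) = K * (U ^ kp * U ^ 9) by rw [hKdef]; ring]
    refine mul_le_mul C.size ?_ (by positivity) (by positivity)
    refine (add_le_add le_rfl (sum_le_sum fun s _ => hs1 s)).trans ?_
    rw [sum_const, card_univ, Fintype.card_option, Fintype.card_sum, Fintype.card_bool,
      nsmul_eq_mul]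
    push_cast
    have h1 : ((Fintype.card σ : ℝ) + 2 + 1) * U ^ kp ≤ U * U ^ kp :=
      mul_le_mul_of_nonneg_right (by linarith [H.hcard]) (by positivity)
    have h9 : U + 1 ≤ U ^ 9 := by
      nlinarith [H.hU, pow_le_pow_right₀ hU1 (show 2 ≤ 9 by norm_num)]
    nlinarith [mul_le_mul_of_nonneg_left h9 (show 0 ≤ U ^ kp by positivity)]
  · refine Grow.mono ?_ (grow_subst (by positivity) (pow_nonneg hU0.le kp) (Q := sdS p)
      (fun s => ?_) (fun s V hV y => ?_) C.grow)
    · simp only [Fintype.card_option, Fintype.card_sum, Fintype.card_bool]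
      push_cast
      have h1 : ((Fintype.card σ : ℝ) + 2 + 1) * U ^ kp ≤ U * U ^ kp :=
        mul_le_mul_of_nonneg_right (by linarith [H.hcard]) (by positivity)
      have hkp : (1 : ℝ) ≤ U ^ kp := one_le_pow₀ hU1
      have h4 : (1 : ℝ) + U + 1 ≤ U ^ 9 := by
        nlinarith [pow_le_pow_right₀ hU1 (show 3 ≤ 9 by norm_num),
          pow_le_pow_left₀ (by norm_num : (0 : ℝ) ≤ 2) H.hU 2]
      rw [show U ^ (k + kp + 9) = K * U ^ kp * U ^ 9 by rw [hKdef]; ring]
      nlinarith [mul_le_mul_of_nonneg_left h4 (show 0 ≤ K * U ^ kp by positivity),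
        mul_le_mul_of_nonneg_left h1 (show 0 ≤ K by positivity),
        mul_le_mul_of_nonneg_left hkp (show 0 ≤ K by positivity),
        mul_le_mul_of_nonneg_right hK1 (show 0 ≤ U ^ kp by positivity)]
    · rcases s with _ | (j' | u)
      · exact fun i => i.elim0
      · exact fun i => i.elim0
      · exact (Q !u).grow
    · rcases s with _ | (j' | u)
      · simp only [sdS, Option.elim_none, val_var]
        exact (single_le_sum (f := fun o => ‖y o‖) (fun _ _ => norm_nonneg _) (mem_univ none)).trans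
          ((le_add_of_nonneg_left (Real.sqrt_nonneg _)).trans
            (le_mul_of_one_le_left (wt_nonneg y) (one_le_pow₀ hU1)))
      · simp only [sdS, Option.elim_some, Sum.elim_inl, val_var]
        exact (single_le_sum (f := fun o => ‖y o‖) (fun _ _ => norm_nonneg _)
          (mem_univ (some (Sum.inl j')))).trans
          ((le_add_of_nonneg_left (Real.sqrt_nonneg _)).trans
            (le_mul_of_one_le_left (wt_nonneg y) (one_le_pow₀ hU1)))
      · exact (Q !u).valBd V hV y
  · rw [topW_subst, hlin fun s => (sdS p s).topW]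
    have h1 : |a * chi.lin none| * (sdS p (sd true)).topW ≤ U * sc * (t * U ^ 4) :=
      mul_le_mul hal (Q false).topW (topW_nonneg _) (mul_nonneg hU0.le hsc.le)
    have h2 : R.topW ≤ K * (t * sc) := C.topW.trans (mul_le_mul_of_nonneg_left hWt (by positivity))
    obtain ⟨h5, h6⟩ := hbig 4 (by norm_num)
    nlinarith [mul_le_mul_of_nonneg_right h5 hts, mul_le_mul_of_nonneg_right h6 hts]
  · refine Adm.below (adm_subst hbout (fun s => ?_) (C.below.adm le_rfl))
    rcases s with _ | (j' | u)
    · exact adm_var (mul_le_mul_of_nonneg_left hθθc H.ha.le)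
    · exact adm_var (mul_le_mul_of_nonneg_left hθθc (H.hb j'))
    · exact (Q !u).adm
  · refine (topG_subst he'.le _ _ _).trans ?_
    rw [hlin fun u => (sdS p u).topG e' (sd s), sum_slots]
    have h0 : ∑ o, R.topG e' (adjEmb o) * (sdS p (adjEmb o)).grs e' (sd s) = 0 :=
      sum_eq_zero fun o _ => by
        simp only [sdS_emb, grs_var, if_neg (adjEmb_ne_sd o s).symm, mul_zero]
    rw [h0, zero_add]
    have hc : ∀ u, R.topG e' (sd u) * (sdS p (sd u)).grs e' (sd s) ≤ K * (t * sc) * 2 := fun u =>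
      mul_le_mul ((C.tseed u).trans (mul_le_mul_of_nonneg_left hWt (by positivity)))
        ((Q !u).gseed s) (grs_nonneg he'.le _ _) (mul_nonneg (by positivity) hts)
    have h1 : |a * chi.lin none| * (sdS p (sd true)).topG e' (sd s) ≤ U * sc * (t * U ^ 6) :=
      mul_le_mul hal ((Q false).tseed s) (topG_nonneg he'.le _ _) (mul_nonneg hU0.le hsc.le)
    obtain ⟨h5, h6⟩ := hbig 6 (by norm_num)
    nlinarith [hc true, hc false, mul_le_mul_of_nonneg_right h5 hts,
      mul_le_mul_of_nonneg_right h6 hts]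
  · refine (topG_subst he'.le _ _ _).trans ?_
    rw [hlin fun u => (sdS p u).topG e' (adjEmb o), sum_slots]
    have hgr : 0 ≤ chi.grs e o := grs_nonneg he.le _ _
    have hg4 : chi.topG e o ≤ t * chi.grs e o := by
      have hx := topG_nonneg he.le chi o
      have h4 : 4 / e * chi.topG e o ≤ chi.grs e o := by
        rw [grs_eq_topG]; exact le_add_of_nonneg_left (abs_nonneg _)
      rw [div_mul_eq_mul_div, div_le_iff₀ he] at h4
      nlinarith [mul_le_mul_of_nonneg_right H.het hgr]
    have h0 : ∑ o', R.topG e' (adjEmb o') * (sdS p (adjEmb o')).grs e' (adjEmb o)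
        ≤ K * (t * chi.grs e o) := by
      simp only [sdS_emb, grs_var, adjEmb_injective.eq_iff, mul_ite, mul_one, mul_zero, sum_ite_eq,
        mem_univ, if_true]
      exact (C.temb o).trans (mul_le_mul_of_nonneg_left hg4 (by positivity))
    have hGo : sc * (chi.grs e o / sc) = chi.grs e o := mul_div_cancel₀ _ hsc.ne'
    have hc : ∀ u, R.topG e' (sd u) * (sdS p (sd u)).grs e' (adjEmb o)
        ≤ K * (t * chi.grs e o) := fun u => by
      refine (mul_le_mul ((C.tseed u).trans (mul_le_mul_of_nonneg_left hWt (by positivity)))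
        ((Q !u).gemb o) (grs_nonneg he'.le _ _)
        (mul_nonneg (by positivity) hts)).trans (le_of_eq ?_)
      rw [mul_assoc, mul_assoc, hGo]
    have h1 : |a * chi.lin none| * (sdS p (sd true)).topG e' (adjEmb o)
        ≤ U * U ^ 6 * (t * chi.grs e o) := by
      refine (mul_le_mul hal ((Q false).temb o) (topG_nonneg he'.le _ _)
        (mul_nonneg hU0.le hsc.le)).trans (le_of_eq ?_)
      linear_combination (U * U ^ 6 * t) * hGo
    obtain ⟨h5, h6⟩ := hbig 6 (by norm_num)
    have h0' : 0 ≤ t * chi.grs e o := mul_nonneg ht0.le hgr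
    nlinarith [h0, hc true, hc false, mul_le_mul_of_nonneg_right h5 h0',
      mul_le_mul_of_nonneg_right h6 h0']

/-- The combination of the items. -/
theorem combBd {h r r' e e' t a θin θ U δ : ℝ} {Φ : Nd → Prog (Option Unit)} {D₁ n : ℕ} {b : σ → ℝ}
    (H : AdjCtx d h r r' e e' t a θin U δ Φ D₁ n b) (hΦ : ∀ nd o, (Φ nd).lin o = 0) (he' : 0 < e')
    {k D' N : ℕ} {l : Option σ → ℝ} {c : Fin N → ℝ} {nd : Fin N → Nd}
    {ch : Fin N → Prog (Option σ)} (hN : (N : ℝ) ≤ U) (hsc : ∀ i, 0 ≤ (nd i).scale)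
    (hscv : ∀ i, (nd i).scale ≤ √(nd i).v)
    (I : ∀ i j, ItemBd d h r' e e' a t θ U b k D' (nd i).scale (ch i)
      ((adj Φ a t n (ch i)).subst (sdS (pPic (Φ (nd i)) (embP (ch i)) t n n j)))) :
    AdjBd d h r' e e' a θ U b (k + 5) D' (Prog.mk N l c nd ch)
      (adj Φ a t n (Prog.mk N l c nd ch)) := by
  have hU0 : 0 < U := by linarith [H.hU]
  have hU1 : (1 : ℝ) ≤ U := by linarith [H.hU]
  have ht0 := H.ht
  have hcomb : ∀ {f : Fin N → Fin (n + 2) → ℝ} {B : Fin N → ℝ},
      (∀ i, 0 ≤ B i) → (∀ i j, f i j ≤ U ^ k * t * B i) → (∀ i j, 0 ≤ f i j) →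
      ∑ p : Fin N × Fin (n + 2), |adjW a t n l c (some p)| * f p.1 p.2
        ≤ U ^ (k + 5) * ∑ i, |c i| * B i := by
    intro f B hB hf hf0
    rw [Fintype.sum_prod_type, mul_sum]
    refine sum_le_sum fun i _ => ?_
    refine (sum_le_sum fun j _ => mul_le_mul (le_of_eq_of_le (by
      simp only [adjW, Option.elim_some, abs_mul, abs_div, abs_of_pos ht0])
      (mul_le_mul_of_nonneg_left (div_le_div_of_nonneg_right (H.hE j) ht0.le) (abs_nonneg (c i))))
      (hf i j) (hf0 i j) (by positivity)).trans ?_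
    rw [sum_const, card_univ, Fintype.card_fin, nsmul_eq_mul,
      show |c i| * (U / t) * (U ^ k * t * B i) = U * U ^ k * (|c i| * B i) by field_simp]
    push_cast
    refine (mul_le_mul_of_nonneg_right H.hn
      (mul_nonneg (by positivity) (mul_nonneg (abs_nonneg _) (hB i)))).trans ?_
    rw [show U ^ (k + 5) = U ^ 3 * U * (U * U ^ k) by ring]
    rw [show U * (U * U ^ k * (|c i| * B i)) = 1 * U * (U * U ^ k) * (|c i| * B i) by ring]
    refine mul_le_mul_of_nonneg_right (mul_le_mul_of_nonneg_right (mul_le_mul_of_nonneg_right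
      (one_le_pow₀ hU1) hU0.le) (by positivity)) (mul_nonneg (abs_nonneg _) (hB i))
  have hscale : ∑ i, |c i| * (nd i).scale ≤ (Prog.mk N l c nd ch).topW :=
    sum_le_sum fun i _ => mul_le_mul_of_nonneg_left (hscv i) (abs_nonneg _)
  refine ⟨lin_adj Φ hΦ a t n _, ?_, ?_, ?_, ?_, ?_, fun s => ?_, fun o => ?_⟩
  · rw [adj]
    refine depth_lc fun o => ?_
    rcases o with _ | ⟨i, j⟩
    · simp [Prog.var, Prog.depth]
    · exact (I i j).depth
  · rw [adj]
    refine (Nat.cast_le.2 (size_lc_le _ _)).trans ?_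
    push_cast
    rw [Fintype.sum_option]
    simp only [Option.elim_none, Option.elim_some, size_var, Nat.cast_one]
    refine (add_le_add le_rfl (add_le_add le_rfl (sum_le_sum fun p _ => (I p.1 p.2).size))).trans ?_
    rw [sum_const, card_univ, Fintype.card_prod, Fintype.card_fin, Fintype.card_fin, nsmul_eq_mul]
    push_cast
    have h1 : (N : ℝ) * (n + 2) * U ^ k ≤ U * U * U ^ k :=
      mul_le_mul_of_nonneg_right (mul_le_mul hN H.hn (by positivity) hU0.le) (by positivity)
    have h2 : (1 : ℝ) ≤ U ^ k := one_le_pow₀ hU1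
    have h8 : (8 : ℝ) ≤ U ^ 3 := by linarith [pow_le_pow_left₀ (by norm_num : (0 : ℝ) ≤ 2) H.hU 3]
    have h3 : (1 : ℝ) ≤ U * U * U ^ k :=
      one_le_mul_of_one_le_of_one_le (one_le_mul_of_one_le_of_one_le hU1 hU1) h2
    rw [show U ^ (k + 5) = U * U * U ^ k * U ^ 3 by ring]
    nlinarith [mul_le_mul_of_nonneg_left h8 (show 0 ≤ U * U * U ^ k by positivity)]
  · rw [adj]
    refine grow_lc fun o => ?_
    rcases o with _ | ⟨i, j⟩
    · exact fun i => i.elim0
    · exact (I i j).grow.mono (pow_le_pow_right₀ hU1 (Nat.le_add_right _ _))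
  · rw [adj, topW_lc, Fintype.sum_option]
    simp only [Option.elim_none, Option.elim_some, topW_var, mul_zero, zero_add]
    exact (hcomb hsc (fun i j => (I i j).topW) fun i j => topW_nonneg _).trans
      (mul_le_mul_of_nonneg_left hscale (by positivity))
  · intro i
    revert i
    rw [adj]
    refine (forall_ofFam _ _ _ _ fun _ nd Q => nd.Ok h r' ∧ Q.Adm h r' e' _ nd.scale).2 ?_
    rintro ⟨(_ | ⟨i, j⟩), i'⟩
    · exact i'.elim0
    · exact (I i j).below i'
  · rw [adj, topG_lc, Fintype.sum_option]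
    simp only [Option.elim_none, Option.elim_some, topG_var, mul_zero, zero_add]
    exact (hcomb hsc (fun i j => (I i j).tseed s) fun i j => topG_nonneg he'.le _ _).trans
      (mul_le_mul_of_nonneg_left hscale (by positivity))
  · rw [adj, topG_lc, Fintype.sum_option]
    simp only [Option.elim_none, Option.elim_some, topG_var, mul_zero, zero_add]
    exact hcomb (fun i => grs_nonneg H.he.le _ o) (fun i j => (I i j).temb o)
      fun i j => topG_nonneg he'.le _ _

theorem exists_adjBd (n D₁ : ℕ) : ∀ Dp : ℕ, ∃ k D' : ℕ, 8 ≤ k ∧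
    ∀ (d : ℕ) (σ : Type) [Fintype σ] [DecidableEq σ] (h r r' e e' t a θin U δ : ℝ)
    (Φ : Nd → Prog (Option Unit)) (b : σ → ℝ), AdjCtx d h r r' e e' t a θin U δ Φ D₁ n b →
    (∀ nd o, (Φ nd).lin o = 0) →
    ∀ θ : ℝ, 0 ≤ θ → θ * U ^ k ≤ 1 → t * U ^ k ≤ e' →
    ∀ (P : Prog (Option σ)) (β : ℝ), P.depth ≤ Dp → (P.size : ℝ) ≤ U → P.Grow d U →
      P.Adm h r e (bIn a θin b) β →
      AdjBd d h r' e e' a θ U b k D' P (adj Φ a t n P) := by
  intro Dp
  induction Dp with
  | zero =>
    refine ⟨8, 0, le_rfl, fun d σ _ _ h r r' e e' t a θin U δ Φ b H hΦ θ hθ0 hθ ht P β hD hs hg hP =>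
      ?_⟩
    cases P with
    | mk N l c nd ch =>
      have hN : N = 0 := by
        by_contra hN
        exact absurd ((depth_le_iff _ _).1 hD ⟨0, Nat.pos_of_ne_zero hN⟩) (Nat.not_lt_zero _)
      subst hN
      have hU1 : (1 : ℝ) ≤ U := by linarith [H.hU]
      have e0 : (adj Φ a t n (Prog.mk 0 l c nd ch)).topW = 0 := by
        rw [adj, topW_lc, Fintype.sum_option]
        simp [topW_var]
      have e1 : ∀ o, (adj Φ a t n (Prog.mk 0 l c nd ch)).topG e' o = 0 := by
        intro o
        rw [adj, topG_lc, Fintype.sum_option]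
        simp [topG_var]
      refine ⟨lin_adj Φ hΦ a t n _, ?_, ?_, ?_, ?_, ?_, fun s => ?_, fun o => ?_⟩
      · rw [adj]
        refine depth_lc fun o => ?_
        rcases o with _ | ⟨i, j⟩
        · simp [Prog.var, Prog.depth]
        · exact i.elim0
      · rw [adj]
        refine (Nat.cast_le.2 (size_lc_le _ _)).trans ?_
        rw [Fintype.sum_option]
        simp [size_var]
        linarith [pow_le_pow_left₀ zero_le_two H.hU 8]
      · rw [adj]
        refine grow_lc fun o => ?_
        rcases o with _ | ⟨i, j⟩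
        · exact fun i => i.elim0
        · exact i.elim0
      · rw [e0]; exact mul_nonneg (by positivity) (topW_nonneg _)
      · intro i
        revert i
        rw [adj]
        refine (forall_ofFam _ _ _ _ fun _ nd Q => nd.Ok h r' ∧ Q.Adm h r' e' _ nd.scale).2 ?_
        rintro ⟨(_ | ⟨i, j⟩), i'⟩
        · exact i'.elim0
        · exact i.elim0
      · rw [e1]; exact mul_nonneg (by positivity) (topW_nonneg _)
      · rw [e1]; exact mul_nonneg (by positivity) (topG_nonneg H.he.le _ _)
  | succ Dp ih =>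
    obtain ⟨k, D', hk, ih⟩ := ih
    obtain ⟨kp, Dpic, hpic⟩ := exists_picBd n D₁ Dp
    refine ⟨k + kp + 16, D' + Dpic, by omega,
      fun d σ _ _ h r r' e e' t a θin U δ Φ b H hΦ θ hθ0 hθ ht P β hD hs hg hP => ?_⟩
    cases P with
    | mk N l c nd ch =>
      have hU0 : 0 < U := by linarith [H.hU]
      have hU1 : (1 : ℝ) ≤ U := by linarith [H.hU]
      have ht0 := H.ht
      have he := H.he
      set K := U ^ k with hKdef
      have hK1 : 1 ≤ K := one_le_pow₀ hU1
      have hpow : ∀ j, j ≤ k + kp + 16 → t * U ^ j ≤ e' := fun j hj =>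
        (mul_le_mul_of_nonneg_left (pow_le_pow_right₀ hU1 hj) ht0.le).trans ht
      have he' : 0 < e' := lt_of_lt_of_le (by positivity) (hpow 0 (Nat.zero_le _))
      have hte' : t ≤ e' := by simpa using hpow 0 (Nat.zero_le _)
      have hee' : e ≤ e' := H.het.trans hte'
      have hθj : ∀ j, j ≤ k + kp + 16 → θ * U ^ j ≤ 1 := fun j hj =>
        (mul_le_mul_of_nonneg_left (pow_le_pow_right₀ hU1 hj) hθ0).trans hθ
      have hbin : ∀ o, 0 ≤ bIn a θin b o := fun o => by
        cases o with
        | none => exact (mul_pos H.ha H.hθ).le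
        | some j => exact H.hb j
      have hbout : ∀ o, 0 ≤ bAdj a θ b o := fun o => by
        rcases o with _ | (j | s)
        · exact mul_nonneg H.ha.le hθ0
        · exact mul_nonneg (H.hb j) hθ0
        · exact hθ0
      set θc := K⁻¹ with hθc
      have hθc0 : 0 < θc := by positivity
      have hθθc : θ ≤ θc := by
        rw [hθc, ← one_div, le_div_iff₀ (by positivity)]
        exact hθj k (by omega)
      have hch : ∀ i, (ch i).depth ≤ Dp := fun i => by
        have : (ch i).depth < Dp + 1 := (depth_le_iff _ _).1 hD i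
        omega
      have hsz : 1 + ∑ i, (1 + ((ch i).size : ℝ)) ≤ U := by
        rw [size] at hs
        push_cast at hs
        exact hs
      have hszi : ∀ i, ((ch i).size : ℝ) ≤ U := fun i => by
        have := single_le_sum (f := fun i => 1 + ((ch i).size : ℝ)) (fun i _ => by positivity)
          (mem_univ i)
        linarith
      have hN : (N : ℝ) ≤ U := by
        have : ∑ _i : Fin N, (1 : ℝ) ≤ ∑ i, (1 + ((ch i).size : ℝ)) :=
          sum_le_sum fun i _ => le_add_of_nonneg_right (Nat.cast_nonneg _)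
        simp only [sum_const, card_univ, Fintype.card_fin, nsmul_eq_mul, mul_one] at this
        linarith
      have hok : ∀ i, (nd i).Ok h r := fun i => (hP.2 i).1
      have hadm : ∀ i, (ch i).Adm h r e (bIn a θin b) (nd i).scale := fun i => (hP.2 i).2
      have hgr : ∀ i, (∀ V, Mem (d := d) V → ∀ x, ‖(ch i).val V x‖ ≤ U * wt x) ∧ (ch i).Grow d U :=
        fun i => hg i
      have hsc : ∀ i, 0 < (nd i).scale := fun i => (hok i).scale_pos
      have hW : ∀ i, (ch i).topW ≤ e * (nd i).scale := fun i => (hadm i).topW_le he hbin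
      have hal : ∀ i, |a * (ch i).lin none| ≤ U * (nd i).scale := by
        intro i
        have h1 := ((adm_def _ _ _ _ _ _).1 (hadm i)).1
        have h2 : |(ch i).lin none| * (a * θin) ≤ ∑ s, |(ch i).lin s| * bIn a θin b s :=
          single_le_sum (f := fun s => |(ch i).lin s| * bIn a θin b s)
            (fun s _ => mul_nonneg (abs_nonneg _) (hbin s)) (mem_univ none)
        have h3 : |(ch i).lin none| * a * θin ≤ (nd i).scale := by
          have h4 : (0 : ℝ) ≤ (∑ i', |(ch i).coef i'| * √((ch i).node i').v) / e := by positivity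
          linarith
        rw [abs_mul, abs_of_pos H.ha, mul_comm a]
        calc |(ch i).lin none| * a = |(ch i).lin none| * a * θin * θin⁻¹ := by
              field_simp [H.hθ.ne']
          _ ≤ (nd i).scale * U := mul_le_mul h3 H.hθU (inv_nonneg.2 H.hθ.le) (hsc i).le
          _ = U * (nd i).scale := mul_comm _ _
      have C : ∀ i, AdjBd d h r' e e' a θc U b k D' (ch i) (adj Φ a t n (ch i)) := fun i =>
        ih d σ h r r' e e' t a θin U δ Φ b H hΦ θc hθc0.le
          (by rw [hθc, inv_mul_cancel₀ (by positivity)]) (hpow k (by omega))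
          (ch i) _ (hch i) (hszi i) (hgr i).2 (hadm i)
      set G : Fin N → Option σ → ℝ := fun i o => (ch i).grs e o / (nd i).scale with hGdef
      have hG0 : ∀ i o, 0 ≤ G i o := fun i o => div_nonneg (grs_nonneg he.le _ _) (hsc i).le
      have Q : ∀ i j c, PicBd d h r' e' U t θc (G i) (bAdj a θ b) kp Dpic
          (pPic (Φ (nd i)) (embP (ch i)) t n n j c) c := by
        intro i
        refine hpic d n σ h r' e' U δ t θc (G i) (bAdj a θ b) (nd i) (Φ (nd i)) (embP (ch i))
          H.hU he' H.he1 ht0 (hsc i) H.hn H.hI H.hcard (H.node _ (hok i)) hbout (fun s => ?_) ?_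
          (hpow 7 (by omega)) (depth_embP (hch i)) ?_ (grow_embP hU0.le (hgr i).2)
          (valBd_embP hU0.le (hgr i).1) ?_ (fun s => grs_embP_sd he'.le _ s) (fun o => ?_) (hG0 i)
        · show θ + t * U ^ 4 / e' ≤ θc
          have h1 : θ * (2 * K) ≤ 1 := (mul_le_mul_of_nonneg_left (by
            rw [pow_succ', ← hKdef]
            exact mul_le_mul_of_nonneg_right H.hU (by positivity) : 2 * K ≤ U ^ (k + 1)) hθ0).trans
              (hθj (k + 1) (by omega))
          have h2 : t * U ^ 4 * (2 * K) ≤ e' := by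
            refine le_trans ?_ (hpow (k + 5) (by omega))
            rw [show t * U ^ (k + 5) = t * U ^ 4 * (U * K) by rw [hKdef]; ring]
            exact mul_le_mul_of_nonneg_left (mul_le_mul_of_nonneg_right H.hU (zero_le_one.trans hK1))
              (by positivity)
          rw [hθc, inv_eq_one_div]
          have h3 : θ ≤ 1 / (2 * K) := by rw [le_div_iff₀ (by positivity)]; exact h1
          have h4 : t * U ^ 4 / e' ≤ 1 / (2 * K) := by
            rw [div_le_div_iff₀ he' (by positivity), one_mul]; exact h2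
          calc θ + t * U ^ 4 / e' ≤ 1 / (2 * K) + 1 / (2 * K) := add_le_add h3 h4
            _ = 1 / K := by field_simp; ring
        · rw [hθc]
          exact inv_anti₀ hU0 (le_self_pow₀ hU1 (by omega))
        · rw [size_embP]; exact hszi i
        · have hκU : θ ≤ U⁻¹ * θin ∧ θ ≤ U⁻¹ := by
            have h2 : θ * U * U ≤ 1 := by rw [mul_assoc, ← sq]; exact hθj 2 (by omega)
            have h3 : U⁻¹ ≤ θin := inv_le_of_inv_le₀ H.hθ H.hθU
            have h4 : θ ≤ U⁻¹ * U⁻¹ := by
              rw [← mul_inv, ← one_div, le_div_iff₀ (by positivity), ← mul_assoc]; exact h2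
            exact ⟨h4.trans (mul_le_mul_of_nonneg_left h3 (by positivity)),
              h4.trans (mul_le_of_le_one_right (by positivity) (inv_le_one_of_one_le₀ hU1))⟩
          have := (hadm i).embP he (inv_pos.2 hU0) (inv_le_one_of_one_le₀ hU1) hbin hbout
            (b' := bAdj a θ b) (fun o => ?_) (e' := e') ?_ H.hr
          · rwa [mul_comm] at this
          · cases o with
            | none =>
              show a * θ ≤ U⁻¹ * (a * θin)
              nlinarith [mul_le_mul_of_nonneg_left hκU.1 H.ha.le]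
            | some j =>
              show b j * θ ≤ U⁻¹ * b j
              nlinarith [mul_le_mul_of_nonneg_left hκU.2 (H.hb j)]
          · rw [inv_mul_eq_div, le_div_iff₀ hU0]
            exact (mul_le_mul_of_nonneg_right H.het hU0.le).trans (by simpa using hpow 1 (by omega))
        · show (embP (ch i)).grs e' (adjEmb o) ≤ (nd i).scale * ((ch i).grs e o / (nd i).scale)
          rw [mul_div_cancel₀ _ (hsc i).ne']
          exact (grs_embP he'.le _ _).trans (grs_anti he hee' _ _)
      have I : ∀ i j, ItemBd d h r' e e' a t θ U b (k + kp + 11) (D' + Dpic) (nd i).scale (ch i)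
          ((adj Φ a t n (ch i)).subst (sdS (pPic (Φ (nd i)) (embP (ch i)) t n n j))) := fun i j => by
        have h0 := itemBd H he' hθ0 hθθc (hsc i) (hW i) (hal i) (C i) (fun c => Q i j c)
        have hmono : U ^ (k + kp + 9) ≤ U ^ (k + kp + 11) := pow_le_pow_right₀ hU1 (by omega)
        exact ⟨h0.depth, h0.size.trans hmono, h0.grow.mono hmono,
          h0.topW.trans (mul_le_mul_of_nonneg_right (mul_le_mul_of_nonneg_right hmono ht0.le)
            (hsc i).le), h0.below,
          fun s => (h0.tseed s).trans (mul_le_mul_of_nonneg_right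
            (mul_le_mul_of_nonneg_right hmono ht0.le) (hsc i).le),
          fun o => (h0.temb o).trans (mul_le_mul_of_nonneg_right
            (mul_le_mul_of_nonneg_right hmono ht0.le) (grs_nonneg he.le _ _))⟩
      exact combBd H hΦ he' hN (fun i => (hsc i).le) (fun i => (hok i).scale_le) I

end

end Vale.Agent.P347.Zero
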