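import Vale.Agent.P347.Zero.Field

/-!
# P347, exponent 0: integration by parts against `exp (-Φ)` and the bound for one creation operator
-/

namespace Vale.Agent.P347.Zero

open Finset Real MeasureTheory
open scoped ContDiff

noncomputable section

set_option linter.unusedSectionVars false

variable {ι α : Type} [Fintype ι] [DecidableEq ι] [Fintype α] [DecidableEq α]

/-- A partial derivative. -/
def pd (j : α) (f : Sp α → ℝ) : Sp α → ℝ := fun z => fderiv ℝ f z (unitV j)

/-- The minus score of `exp (-Φ)`. -/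
def scP (Φ : Sp α → ℝ) : Sp α → α → ℝ := fun z j => pd j Φ z

/-- The creation operator in one coordinate. -/
def dd (Φ : Sp α → ℝ) (j : α) (f : Sp α → ℝ) : Sp α → ℝ := fun z => pd j Φ z * f z - pd j f z

/-- The integral against `exp (-Φ)`. -/
def EP (Φ : Sp α → ℝ) (f : Sp α → ℝ) : ℝ := ∫ z, exp (-Φ z) * f z

/-- A smooth potential of tempered growth with a Gaussian lower bound, normalised. -/
structure Pot (Φ : Sp α → ℝ) : Prop where
  temp : Φ.HasTemperateGrowth
  low : ∃ a > 0, ∃ b, ∀ z, a * ‖z‖ ^ 2 - b ≤ Φ z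
  prob : ∫ z, exp (-Φ z) = 1

/-- All components are of tempered growth. -/
def Temp (X : TF ι α) : Prop := ∀ i, (fun z => X z i).HasTemperateGrowth

theorem temp_pd {f : Sp α → ℝ} (hf : f.HasTemperateGrowth) (j : α) :
    (pd j f).HasTemperateGrowth := by
  have h1 : (fderiv ℝ f).HasTemperateGrowth := by
    refine ⟨hf.1.fderiv_right (by simp), fun n => ?_⟩
    obtain ⟨k, C, h⟩ := hf.2 (n + 1)
    exact ⟨k, C, fun x => norm_iteratedFDeriv_fderiv.trans_le (h x)⟩
  exact (ContinuousLinearMap.apply ℝ ℝ (unitV j)).hasTemperateGrowth.comp h1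

theorem temp_mul {f g : Sp α → ℝ} (hf : f.HasTemperateGrowth) (hg : g.HasTemperateGrowth) :
    (fun z => f z * g z).HasTemperateGrowth :=
  hf.mul hg

theorem temp_sq {f : Sp α → ℝ} (hf : f.HasTemperateGrowth) :
    (fun z => f z ^ 2).HasTemperateGrowth :=
  hf.pow 2

theorem temp_dd {Φ f : Sp α → ℝ} (hΦ : Φ.HasTemperateGrowth) (hf : f.HasTemperateGrowth) (j : α) :
    (dd Φ j f).HasTemperateGrowth :=
  ((temp_pd hΦ j).mul hf).sub (temp_pd hf j)

theorem Pot.integrable {Φ : Sp α → ℝ} (h : Pot Φ) {f : Sp α → ℝ} (hf : f.HasTemperateGrowth) :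
    Integrable fun z => exp (-Φ z) * f z := by
  obtain ⟨a, ha, b, hab⟩ := h.low
  obtain ⟨k, C, hC⟩ := hf.2 0
  have hg : Integrable fun z : Sp α => exp (-(a / 2) * ‖z‖ ^ 2) := by
    have h' := (GaussianFourier.integrable_cexp_neg_mul_sq_norm_add (V := Sp α) (b := (a / 2 : ℂ))
      (by simpa using ha) 0 0).norm
    simp only [Complex.norm_exp] at h'
    convert h' using 2 with z
    congr 1
    norm_cast
    simp
  refine Integrable.mono' (hg.const_mul (exp (b + (k : ℝ) ^ 2 / (2 * a)) * |C|)) ?_ ?_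
  · exact ((h.temp.1.continuous.neg.rexp).mul hf.1.continuous).aestronglyMeasurable
  · refine Filter.Eventually.of_forall fun z => ?_
    have h1 : ‖f z‖ ≤ |C| * exp ((k : ℝ) * ‖z‖) := by
      have := hC z
      rw [norm_iteratedFDeriv_zero] at this
      refine this.trans ?_
      rw [exp_nat_mul]
      refine mul_le_mul (le_abs_self C) (pow_le_pow_left₀ (by positivity) ?_ k) (by positivity)
        (abs_nonneg C)
      linarith [add_one_le_exp ‖z‖]
    rw [norm_mul, norm_of_nonneg (exp_pos _).le]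
    refine (mul_le_mul_of_nonneg_left h1 (exp_pos _).le).trans ?_
    rw [mul_left_comm, ← exp_add, mul_comm (exp (b + _)) |C|, mul_assoc, ← exp_add]
    refine mul_le_mul_of_nonneg_left (exp_le_exp.2 ?_) (abs_nonneg C)
    have h2 : (k : ℝ) * ‖z‖ ≤ a / 2 * ‖z‖ ^ 2 + (k : ℝ) ^ 2 / (2 * a) := by
      have e : a / 2 * ‖z‖ ^ 2 + (k : ℝ) ^ 2 / (2 * a) - k * ‖z‖
          = (a * ‖z‖ - k) ^ 2 / (2 * a) := by
        field_simp
        ring
      nlinarith [div_nonneg (sq_nonneg (a * ‖z‖ - k)) (by linarith : (0 : ℝ) ≤ 2 * a)]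
    linarith [hab z]

theorem Pot.EP_add {Φ f g : Sp α → ℝ} (h : Pot Φ) (hf : f.HasTemperateGrowth)
    (hg : g.HasTemperateGrowth) : EP Φ (fun z => f z + g z) = EP Φ f + EP Φ g := by
  unfold EP
  simp only [mul_add]
  exact integral_add (h.integrable hf) (h.integrable hg)

theorem Pot.EP_sum {κ : Type*} {Φ : Sp α → ℝ} (h : Pot Φ) (s : Finset κ) {f : κ → Sp α → ℝ}
    (hf : ∀ k ∈ s, (f k).HasTemperateGrowth) :
    EP Φ (fun z => ∑ k ∈ s, f k z) = ∑ k ∈ s, EP Φ (f k) := by
  unfold EP
  simp only [mul_sum]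
  exact integral_finsetSum _ fun k hk => h.integrable (hf k hk)

theorem Pot.EP_mono {Φ f g : Sp α → ℝ} (h : Pot Φ) (hf : f.HasTemperateGrowth)
    (hg : g.HasTemperateGrowth) (hle : ∀ z, f z ≤ g z) : EP Φ f ≤ EP Φ g :=
  integral_mono (h.integrable hf) (h.integrable hg)
    fun z => mul_le_mul_of_nonneg_left (hle z) (exp_pos _).le

theorem EP_smul (Φ : Sp α → ℝ) (c : ℝ) (f : Sp α → ℝ) :
    EP Φ (fun z => c * f z) = c * EP Φ f := by
  unfold EP
  rw [← integral_const_mul]
  simp only [mul_left_comm]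

theorem Pot.EP_const {Φ : Sp α → ℝ} (h : Pot Φ) (c : ℝ) : EP Φ (fun _ => c) = c := by
  unfold EP
  rw [integral_mul_const, h.prob, one_mul]

/-- The creation operator is adjoint to the partial derivative. -/
theorem Pot.adjoint {Φ f g : Sp α → ℝ} (h : Pot Φ) (hf : f.HasTemperateGrowth)
    (hg : g.HasTemperateGrowth) (j : α) :
    EP Φ (fun z => g z * dd Φ j f z) = EP Φ (fun z => pd j g z * f z) := by
  have hd : Differentiable ℝ f := hf.1.differentiable (by simp)
  have hdΦ : Differentiable ℝ Φ := h.temp.1.differentiable (by simp)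
  have hdg : Differentiable ℝ g := hg.1.differentiable (by simp)
  have e : ∀ z, fderiv ℝ (fun z => exp (-Φ z) * f z) z (unitV j)
      = exp (-Φ z) * (-dd Φ j f z) := by
    intro z
    rw [show (fun z => exp (-Φ z) * f z) = (fun x => exp ((-Φ) x)) * f from rfl,
      ((hdΦ z).hasFDerivAt.neg.exp.mul (hd z).hasFDerivAt).fderiv]
    simp only [dd, pd, add_apply, smul_apply, neg_apply, Pi.neg_apply, smul_eq_mul]
    ring
  have key := integral_mul_fderiv_eq_neg_fderiv_mul_of_integrable (μ := (volume : Measure (Sp α)))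
    (f := g) (g := fun z => exp (-Φ z) * f z) (v := unitV j) ?_ ?_ ?_
    (fun z _ => hdg z) (fun z _ => (hdΦ z).neg.exp.mul (hd z))
  · simp only [e] at key
    unfold EP
    have l1 : ∀ z, exp (-Φ z) * (g z * dd Φ j f z) = -(g z * (exp (-Φ z) * -dd Φ j f z)) :=
      fun z => by ring
    simp only [l1, integral_neg]
    rw [key, neg_neg]
    exact integral_congr_ae (Filter.Eventually.of_forall fun z => by simp only [pd]; ring)
  · have := h.integrable ((temp_pd hg j).mul hf)
    convert this using 2 with z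
    simp only [Pi.mul_apply, pd]
    ring
  · simp only [e]
    have := (h.integrable (hg.mul (temp_dd h.temp hf j))).neg
    convert this using 2 with z
    simp only [Pi.mul_apply, Pi.neg_apply]
    ring
  · have := h.integrable (hg.mul hf)
    convert this using 2 with z
    simp only [Pi.mul_apply]
    ring

theorem pd_comm {f : Sp α → ℝ} (hf : f.HasTemperateGrowth) (i j : α) (z : Sp α) :
    pd i (pd j f) z = pd j (pd i f) z := by
  have hd : DifferentiableAt ℝ (fderiv ℝ f) z :=
    ((hf.1.fderiv_right (m := ∞) (by simp)).differentiable (by simp)) z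
  have hsym : IsSymmSndFDerivAt ℝ f z :=
    (hf.1.contDiffAt (x := z)).isSymmSndFDerivAt (by simp; exact WithTop.coe_le_coe.2 le_top)
  unfold pd
  rw [fderiv_clm_apply hd (differentiableAt_const _),
    fderiv_clm_apply hd (differentiableAt_const _)]
  simpa using hsym.eq (unitV i) (unitV j)

theorem pd_dd {Φ f : Sp α → ℝ} (hΦ : Φ.HasTemperateGrowth) (hf : f.HasTemperateGrowth) (i j : α)
    (z : Sp α) : pd i (dd Φ j f) z = dd Φ j (pd i f) z + pd i (pd j Φ) z * f z := by
  have h1 : DifferentiableAt ℝ (pd j Φ) z := (temp_pd hΦ j).1.differentiable (by simp) z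
  have h2 : DifferentiableAt ℝ (pd j f) z := (temp_pd hf j).1.differentiable (by simp) z
  have h3 : DifferentiableAt ℝ f z := hf.1.differentiable (by simp) z
  have hc := pd_comm hf i j z
  have := ((h1.hasFDerivAt.mul h3.hasFDerivAt).sub h2.hasFDerivAt).fderiv
  show fderiv ℝ (fun z => pd j Φ z * f z - pd j f z) z (unitV i) = _
  rw [show (fun z => pd j Φ z * f z - pd j f z) = pd j Φ * f - pd j f from rfl, this]
  simp only [dd, pd, sub_apply, add_apply,
    smul_apply, smul_eq_mul] at hc ⊢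
  rw [hc]
  ring

theorem dlt_eq (Φ : Sp α → ℝ) (X : TF (Option ι) α) (z : Sp α) (i : ι → α) :
    dlt (scP Φ) X z i = ∑ j, dd Φ j (fun z => X z (ext j i)) z := rfl

theorem Temp.dlt {Φ : Sp α → ℝ} (hΦ : Φ.HasTemperateGrowth) {X : TF (Option ι) α} (hX : Temp X) :
    Temp (dlt (scP Φ) X) := fun i => by
  simp only [dlt_eq]
  exact Function.HasTemperateGrowth.sum fun j _ => temp_dd hΦ (hX _) j

theorem Temp.gradT {X : TF ι α} (hX : Temp X) : Temp (gradT X) := fun i =>
  temp_pd (hX (i ∘ some)) (i none)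

theorem Temp.sqT {X : TF ι α} (hX : Temp X) : (fun z => sqT (X z)).HasTemperateGrowth :=
  Function.HasTemperateGrowth.sum fun i _ => (hX i).pow 2

/-- Sums over tensors with one index in front. -/
theorem sum_option {M : Type*} [AddCommMonoid M] (F : (Option ι → α) → M) :
    ∑ i, F i = ∑ j : α, ∑ i : ι → α, F (ext j i) := by
  let e : α × (ι → α) ≃ (Option ι → α) :=
    { toFun := fun p => ext p.1 p.2
      invFun := fun f => (f none, f ∘ some)
      left_inv := fun p => rfl
      right_inv := fun f => funext fun o => by cases o <;> rfl }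
  rw [← e.sum_comp, Fintype.sum_prod_type]
  rfl

/-- The identity behind the bound for one creation operator. -/
theorem Pot.EP_sq_sum_dd {Φ : Sp α → ℝ} (h : Pot Φ) {A : α → Sp α → ℝ}
    (hA : ∀ j, (A j).HasTemperateGrowth) :
    EP Φ (fun z => (∑ j, dd Φ j (A j) z) ^ 2)
      = EP Φ (fun z => ∑ j, ∑ k, pd j (pd k Φ) z * A j z * A k z)
        + EP Φ (fun z => ∑ j, ∑ k, pd k (A j) z * pd j (A k) z) := by
  have td : ∀ j, (dd Φ j (A j)).HasTemperateGrowth := fun j => temp_dd h.temp (hA j) j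
  have tH : ∀ j k, (pd j (pd k Φ)).HasTemperateGrowth := fun j k => temp_pd (temp_pd h.temp k) j
  have tS : (fun z => ∑ k, dd Φ k (A k) z).HasTemperateGrowth :=
    Function.HasTemperateGrowth.sum fun k _ => td k
  have e0 : ∀ z, (∑ j, dd Φ j (A j) z) ^ 2 = ∑ j, (∑ k, dd Φ k (A k) z) * dd Φ j (A j) z :=
    fun z => by rw [sq, mul_sum]
  simp only [e0]
  rw [h.EP_sum univ (f := fun j z => (∑ k, dd Φ k (A k) z) * dd Φ j (A j) z)
    (fun j _ => tS.mul (td j))]
  have e1 : ∀ j, EP Φ (fun z => (∑ k, dd Φ k (A k) z) * dd Φ j (A j) z)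
      = ∑ k, EP Φ (fun z => pd j (dd Φ k (A k)) z * A j z) := by
    intro j
    simp only [sum_mul]
    rw [h.EP_sum univ (fun k _ => temp_mul (td k) (td j))]
    exact Finset.sum_congr rfl fun k _ => h.adjoint (hA j) (td k) j
  have e2 : ∀ j k, EP Φ (fun z => pd j (dd Φ k (A k)) z * A j z)
      = EP Φ (fun z => pd j (pd k Φ) z * A j z * A k z)
        + EP Φ (fun z => pd k (A j) z * pd j (A k) z) := by
    intro j k
    have e3 : ∀ z, pd j (dd Φ k (A k)) z * A j z
        = pd j (pd k Φ) z * A j z * A k z + A j z * dd Φ k (pd j (A k)) z := fun z => by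
      rw [pd_dd h.temp (hA k)]
      ring
    simp only [e3]
    rw [h.EP_add (temp_mul (temp_mul (tH j k) (hA j)) (hA k))
      (temp_mul (hA j) (temp_dd h.temp (temp_pd (hA k) j) k)), h.adjoint (temp_pd (hA k) j) (hA j) k]
  simp only [e1, e2, sum_add_distrib]
  congr 1
  · rw [h.EP_sum univ fun j _ => Function.HasTemperateGrowth.sum fun k _ =>
      temp_mul (temp_mul (tH j k) (hA j)) (hA k)]
    exact (Finset.sum_congr rfl fun j _ => h.EP_sum univ fun k _ =>
      temp_mul (temp_mul (tH j k) (hA j)) (hA k)).symm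
  · rw [h.EP_sum univ fun j _ => Function.HasTemperateGrowth.sum fun k _ =>
      temp_mul (temp_pd (hA j) k) (temp_pd (hA k) j)]
    exact (Finset.sum_congr rfl fun j _ => h.EP_sum univ fun k _ =>
      temp_mul (temp_pd (hA j) k) (temp_pd (hA k) j)).symm

/-- The `L²` bound for one creation operator. -/
theorem Pot.integral_dlt_sq_le {Φ : Sp α → ℝ} (h : Pot Φ) {c : ℝ}
    (hc : ∀ z, OpLE (fun j k => pd j (pd k Φ) z) c) {X : TF (Option ι) α} (hX : Temp X) :
    EP Φ (fun z => sqT (dlt (scP Φ) X z))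
      ≤ c * EP Φ (fun z => sqT (X z)) + EP Φ (fun z => sqT (gradT X z)) := by
  have td : Temp (Zero.dlt (scP Φ) X) := hX.dlt h.temp
  let A : (ι → α) → α → Sp α → ℝ := fun i j z => X z (ext j i)
  have hA : ∀ i j, (A i j).HasTemperateGrowth := fun i j => hX _
  have tA : ∀ i, (fun z => ∑ j, A i j z ^ 2).HasTemperateGrowth := fun i =>
    Function.HasTemperateGrowth.sum fun j _ => temp_sq (hA i j)
  have tP : ∀ i, (fun z => ∑ k, ∑ j, pd k (A i j) z ^ 2).HasTemperateGrowth := fun i =>
    Function.HasTemperateGrowth.sum fun k _ => Function.HasTemperateGrowth.sum fun j _ =>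
      temp_sq (temp_pd (hA i j) k)
  have key : ∀ i, EP Φ (fun z => (Zero.dlt (scP Φ) X z i) ^ 2)
      ≤ c * EP Φ (fun z => ∑ j, A i j z ^ 2) + EP Φ (fun z => ∑ k, ∑ j, pd k (A i j) z ^ 2) := by
    intro i
    simp only [dlt_eq]
    rw [h.EP_sq_sum_dd (hA i), ← EP_smul]
    refine add_le_add (h.EP_mono ?_ ((Function.HasTemperateGrowth.const c).mul (tA i)) ?_)
      (h.EP_mono ?_ (tP i) ?_)
    · exact Function.HasTemperateGrowth.sum fun j _ => Function.HasTemperateGrowth.sum fun k _ =>
        temp_mul (temp_mul (temp_pd (temp_pd h.temp k) j) (hA i j)) (hA i k)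
    · intro z
      refine (hc z (fun j => A i j z) fun k => A i k z).trans (le_of_eq ?_)
      rw [mul_assoc, ← sq, nrm_sq]
    · exact Function.HasTemperateGrowth.sum fun j _ => Function.HasTemperateGrowth.sum fun k _ =>
        temp_mul (temp_pd (hA i j) k) (temp_pd (hA i k) j)
    · intro z
      have hsum : ∑ j, ∑ k, (pd k (A i j) z ^ 2 + pd j (A i k) z ^ 2)
          = 2 * ∑ k, ∑ j, pd k (A i j) z ^ 2 := by
        simp only [sum_add_distrib]
        rw [sum_comm]
        ring
      have hle : ∑ j, ∑ k, 2 * (pd k (A i j) z * pd j (A i k) z)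
          ≤ ∑ j, ∑ k, (pd k (A i j) z ^ 2 + pd j (A i k) z ^ 2) :=
        sum_le_sum fun j _ => sum_le_sum fun k _ => by
          nlinarith [sq_nonneg (pd k (A i j) z - pd j (A i k) z)]
      simp only [← mul_sum] at hle
      linarith
  show EP Φ (fun z => ∑ i, _) ≤ _
  rw [h.EP_sum univ (f := fun i z => Zero.dlt (scP Φ) X z i ^ 2) fun i _ => temp_sq (td i)]
  refine (sum_le_sum fun i _ => key i).trans (le_of_eq ?_)
  rw [sum_add_distrib, ← mul_sum, ← h.EP_sum univ fun i _ => tA i,
    ← h.EP_sum univ fun i _ => tP i]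
  congr 1
  · congr 1
    congr 1
    funext z
    simp only [sqT, sum_option (fun i => X z i ^ 2)]
    rw [sum_comm]
  · congr 1
    funext z
    simp only [sqT, sum_option (fun i => Zero.gradT X z i ^ 2)]
    rw [sum_comm]
    refine sum_congr rfl fun k _ => ?_
    rw [sum_option (fun i => Zero.gradT X z (ext k i) ^ 2), sum_comm]
    rfl

end

end Vale.Agent.P347.Zero
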