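import Vale.Agent.P347.Colour.Lc
import Vale.Agent.P347.Quarter.Target

/-!
# P347, exponent zero: the Poincaré inequality for strongly log-concave laws

Obtained from the midpoint Prékopa–Leindler inequality, with the tilt `± t f`.
-/

namespace Vale.Agent.P347.Colour

open MeasureTheory Set Real Filter
open scoped Topology

noncomputable section

variable {κ : Type*} [Fintype κ] {m : ℝ} {W : (κ → ℝ) → ℝ}

/-- A power of the norm against a Gaussian weight. -/
theorem pow_le_exp_sq (k : ℕ) {b : ℝ} (hb : 0 < b) :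
    ∃ C : ℝ, 0 ≤ C ∧ ∀ r : ℝ, 0 ≤ r → (1 + r) ^ k ≤ C * exp (b * r ^ 2) := by
  refine ⟨exp (k + (k : ℝ) ^ 2 / (4 * b)), (exp_pos _).le, fun r hr => ?_⟩
  rw [← exp_add]
  have h1 : (1 + r) ^ k ≤ exp r ^ k :=
    pow_le_pow_left₀ (by linarith) (by linarith [add_one_le_exp r]) k
  refine h1.trans ?_
  rw [← exp_nat_mul]
  refine exp_le_exp.2 ?_
  have h2 : 0 ≤ (2 * b * r - k) ^ 2 / (4 * b) := by positivity
  have h3 : (2 * b * r - k) ^ 2 / (4 * b) = b * r ^ 2 - k * r + (k : ℝ) ^ 2 / (4 * b) := by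
    field_simp; ring
  nlinarith [Nat.cast_nonneg (α := ℝ) k]

/-- Functions of polynomial growth are integrable. -/
theorem SC.integrable_law_pow (h : SC m W) {f : (κ → ℝ) → ℝ} (hf : Measurable f) {C : ℝ} {k : ℕ}
    (hb : ∀ x, |f x| ≤ C * (1 + nr x) ^ k) : Integrable f (law W) := by
  have hC : 0 ≤ C := by
    have := (abs_nonneg _).trans (hb 0)
    simpa [nr_zero] using this
  obtain ⟨A, b, hbp, hg⟩ := h.grow
  obtain ⟨D, hD0, hD⟩ := pow_le_exp_sq k (half_pos hbp)
  have hc := h.cont
  have hi : Integrable fun x => f x * exp (-W x) := by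
    refine ((integrable_gauss (half_pos hbp)).const_mul (exp (-A) * (C * D))).mono'
      (by fun_prop) (ae_of_all _ fun x => ?_)
    rw [norm_eq_abs, abs_mul, abs_of_pos (exp_pos _)]
    have h1 : exp (-W x) ≤ exp (-A) * exp (-b * nr x ^ 2) := by
      rw [← exp_add]; exact exp_le_exp.2 (by linarith [hg x])
    have h2 := (hb x).trans (mul_le_mul_of_nonneg_left (hD _ (nr_nonneg x)) hC)
    refine (mul_le_mul h2 h1 (exp_pos _).le (by positivity)).trans (le_of_eq ?_)
    rw [show exp (-(b / 2) * nr x ^ 2) = exp (b / 2 * nr x ^ 2) * exp (-b * nr x ^ 2) by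
      rw [← exp_add]; ring_nf]
    ring
  rw [law]
  refine Integrable.smul_measure ?_ (ENNReal.inv_ne_top.2 ?_)
  · rw [integrable_withDensity_iff_integrable_smul' (by fun_prop)
      (ae_of_all _ fun x => ENNReal.ofReal_lt_top)]
    refine hi.congr (ae_of_all _ fun x => ?_)
    simp [ENNReal.toReal_ofReal (exp_pos _).le, mul_comm]
  · rw [h.mass]; exact (ENNReal.ofReal_pos.2 h.pos).ne'

/-- The squared gradient. -/
def grSq (f : (κ → ℝ) → ℝ) (x : κ → ℝ) : ℝ :=
  ∑ i, letI := Classical.decEq κ; fderiv ℝ f x (Pi.single i 1) ^ 2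

theorem grSq_nonneg (f : (κ → ℝ) → ℝ) (x : κ → ℝ) : 0 ≤ grSq f x :=
  Finset.sum_nonneg fun _ _ => sq_nonneg _

theorem continuous_grSq {f : (κ → ℝ) → ℝ} (hf : ContDiff ℝ 1 f) : Continuous (grSq f) := by
  classical
  exact continuous_finsetSum _ fun i _ =>
    ((hf.continuous_fderiv one_ne_zero).clm_apply continuous_const).pow 2

theorem abs_fderiv_le_grSq (f : (κ → ℝ) → ℝ) (x u : κ → ℝ) :
    |fderiv ℝ f x u| ≤ √(grSq f x) * nr u := by
  classical
  have e : fderiv ℝ f x u = ∑ i, fderiv ℝ f x (Pi.single i 1) * u i := by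
    conv_lhs => rw [pi_eq_sum_univ' u]
    simp [mul_comm]
  rw [e]
  refine abs_le_of_sq_le_sq ?_ (mul_nonneg (sqrt_nonneg _) (nr_nonneg u))
  refine (Finset.sum_mul_sq_le_sq_mul_sq _ _ _).trans (le_of_eq ?_)
  rw [mul_pow, sq_sqrt (grSq_nonneg f x), nr_sq]
  simp [grSq]

/-- The inequality for bounded functions with a local gradient bound. -/
theorem SC.poincare_core (h : SC m W) (hm : 0 < m) {ψ s : (κ → ℝ) → ℝ} (hψ : Continuous ψ)
    (hs : Continuous s) {B S M : ℝ} (hB : ∀ x, |ψ x| ≤ B) (hS : ∀ x, |s x| ≤ S)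
    (hloc : ∀ x z, |ψ x - ψ z|
      ≤ s (fun i => (x i + z i) / 2) * nr (x - z) + M * nr (x - z) ^ 2)
    (hmean : ∫ x, ψ x ∂law W = 0) :
    ∫ x, ψ x ^ 2 ∂law W ≤ (∫ x, s x ^ 2 ∂law W) / m := by
  have : IsProbabilityMeasure (law W) := h.isProb
  have hc := h.cont
  have hB0 : 0 ≤ B := (abs_nonneg _).trans (hB 0)
  have hS0 : 0 ≤ S := (abs_nonneg _).trans (hS 0)
  have hint : ∀ g : (κ → ℝ) → ℝ, Continuous g → (∃ K, ∀ x, |g x| ≤ K) → Integrable g (law W) :=
    fun g hg ⟨K, hK⟩ => (integrable_const K).mono' hg.aestronglyMeasurable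
      (ae_of_all _ fun x => by rw [norm_eq_abs]; exact hK x)
  set v := ∫ x, ψ x ^ 2 ∂law W
  set I := ∫ x, s x ^ 2 ∂law W
  have hI0 : 0 ≤ I := integral_nonneg fun x => sq_nonneg _
  have hS2 : ∀ x, s x ^ 2 ≤ S ^ 2 := fun x => by
    have := pow_le_pow_left₀ (abs_nonneg _) (hS x) 2
    rwa [sq_abs] at this
  -- one value of the tilt
  have key : ∀ t : ℝ, 0 < t → t * M < m / 4 → t ^ 2 / (2 * (m - 4 * t * M)) * S ^ 2 ≤ 1 →
      v ≤ I / (m - 4 * t * M) + S ^ 4 / (2 * (m - 4 * t * M) ^ 2) * t ^ 2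
        + (I / (2 * (m - 4 * t * M)) + S ^ 4 / (4 * (m - 4 * t * M) ^ 2) * t ^ 2) ^ 2 * t ^ 2 := by
    intro t ht htM hu1
    set μ := m - 4 * t * M with hμ
    have hμ0 : 0 < μ := by linarith
    set u := t ^ 2 / (2 * μ) with hu
    have hu0 : 0 ≤ u := by positivity
    have hu2 : ∀ x, 0 ≤ u * s x ^ 2 ∧ u * s x ^ 2 ≤ 1 := fun x =>
      ⟨by positivity, (mul_le_mul_of_nonneg_left (hS2 x) hu0).trans hu1⟩
    have hgr : ∀ c : ℝ, |c| ≤ t → ∀ x, -(t * B + 0 * nr x) ≤ c * ψ x := fun c hc x => by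
      have := (abs_mul c (ψ x)).trans_le (mul_le_mul hc (hB x) (abs_nonneg _) ht.le)
      linarith [(abs_le.1 this).1]
    have hF : ∀ c : ℝ, |c| ≤ t → Integrable fun x => exp (-(W x + c * ψ x)) := fun c hc' =>
      integrable_exp_of_grow (by fun_prop) (exists_grow_add h.grow (hgr c hc'))
    have hH : Integrable fun x => exp (-(W x + -(u * s x ^ 2))) :=
      integrable_exp_of_grow (by fun_prop)
        (exists_grow_add h.grow (c₀ := 1) (c₁ := 0) fun x => by linarith [(hu2 x).2])
    have hPL := prekopa_exp (e := 0) (hF t (abs_of_pos ht).le)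
      (hF (-t) (by rw [abs_neg, abs_of_pos ht])) hH (by fun_prop) (by fun_prop) (by fun_prop)
      (fun x z => by
        have h1 := h.mid x z
        set p : κ → ℝ := fun i => (x i + z i) / 2
        set r := nr (x - z)
        have h2 : -(s p * r + M * r ^ 2) ≤ ψ x - ψ z :=
          (abs_le.1 (hloc x z)).1
        have h3 := mul_le_mul_of_nonneg_left h2 ht.le
        have h4 : t * s p * r - μ / 4 * r ^ 2 ≤ 2 * (u * s p ^ 2) := by
          have e : 2 * (u * s p ^ 2) - (t * s p * r - μ / 4 * r ^ 2)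
              = (μ * r - 2 * t * s p) ^ 2 / (4 * μ) := by
            simp only [hu]; field_simp; ring
          have : 0 ≤ (μ * r - 2 * t * s p) ^ 2 / (4 * μ) := by positivity
          linarith
        nlinarith [h4, h3, h1, hμ])
    rw [exp_zero, one_mul] at hPL
    have hA : ∀ g : (κ → ℝ) → ℝ, ∫ x, exp (-(W x + g x))
        = (∫ x, exp (-g x) ∂law W) * ∫ x, exp (-W x) := fun g => by
      rw [h.integral_law, div_mul_cancel₀ _ h.pos.ne']
      congr 1; funext x; rw [← exp_add]; ring_nf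
    rw [hA fun x => t * ψ x, hA fun x => -t * ψ x, hA fun x => -(u * s x ^ 2)] at hPL
    simp only [neg_mul, neg_neg] at hPL
    set A := ∫ x, exp (-(t * ψ x)) ∂law W
    set A' := ∫ x, exp (t * ψ x) ∂law W
    set E₁ := ∫ x, exp (u * s x ^ 2) ∂law W
    have hbd : ∀ c : ℝ, ∃ K, ∀ x, |exp (c * ψ x)| ≤ K := fun c => ⟨exp (|c| * B), fun x => by
      rw [abs_of_pos (exp_pos _)]
      exact exp_le_exp.2 ((le_abs_self _).trans ((abs_mul _ _).trans_le
        (mul_le_mul_of_nonneg_left (hB x) (abs_nonneg _))))⟩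
    have hi1 : Integrable (fun x => exp (-(t * ψ x))) (law W) :=
      hint _ (by fun_prop) (by simpa [neg_mul] using hbd (-t))
    have hi2 : Integrable (fun x => exp (t * ψ x)) (law W) := hint _ (by fun_prop) (hbd t)
    have hiψ : Integrable ψ (law W) := hint ψ hψ ⟨B, hB⟩
    have hA1 : 1 ≤ A := by
      have : ∫ x, (1 - t * ψ x) ∂law W ≤ A := integral_mono ((integrable_const _).sub
        (hiψ.const_mul t)) hi1 fun x => by linarith [add_one_le_exp (-(t * ψ x))]
      rwa [integral_sub (integrable_const _) (hiψ.const_mul t), integral_const_mul, hmean,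
        integral_const, probReal_univ, one_smul, mul_zero, sub_zero] at this
    have hA1' : 1 ≤ A' := by
      have : ∫ x, (1 + t * ψ x) ∂law W ≤ A' := integral_mono ((integrable_const _).add
        (hiψ.const_mul t)) hi2 fun x => by linarith [add_one_le_exp (t * ψ x)]
      rwa [integral_add (integrable_const _) (hiψ.const_mul t), integral_const_mul, hmean,
        integral_const, probReal_univ, one_smul, mul_zero, add_zero] at this
    have hψ2 : Integrable (fun x => ψ x ^ 2) (law W) := hint _ (by fun_prop) ⟨B ^ 2, fun x => by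
      rw [abs_pow]; exact pow_le_pow_left₀ (abs_nonneg _) (hB x) 2⟩
    have hsum : 2 + t ^ 2 * v ≤ A + A' := by
      have hi : Integrable (fun x => t ^ 2 * ψ x ^ 2) (law W) := hψ2.const_mul _
      rw [← integral_add hi1 hi2]
      refine le_trans (le_of_eq ?_) (integral_mono ((integrable_const 2).add hi) (hi1.add hi2)
        fun x => ?_)
      · rw [Pi.add_def, integral_add (integrable_const 2) hi, integral_const, probReal_univ,
          one_smul, integral_const_mul]
      · simp only [Pi.add_apply]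
        have h1 : 1 + (t * ψ x) ^ 2 / 2 ≤ cosh (t * ψ x) := by
          set w := t * ψ x / 2
          have e : t * ψ x = 2 * w := by simp only [w]; ring
          rw [e, cosh_two_mul, cosh_sq]
          have hw2 : w ^ 2 ≤ sinh w ^ 2 := by
            have := self_le_sinh_iff.2 (abs_nonneg w)
            rw [← abs_sinh] at this
            exact sq_le_sq.2 this
          nlinarith
        rw [cosh_eq, mul_pow] at h1
        linarith
    have hs2 : Integrable (fun x => s x ^ 2) (law W) := hint _ (by fun_prop) ⟨S ^ 2, fun x => by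
      rw [abs_of_nonneg (sq_nonneg _)]; exact hS2 x⟩
    have hE : E₁ ≤ 1 + u * I + u ^ 2 * S ^ 4 := by
      refine (integral_mono (hint _ (by fun_prop) ⟨exp 1, fun x => by
          rw [abs_of_pos (exp_pos _)]; exact exp_le_exp.2 (hu2 x).2⟩)
        (((integrable_const (1 : ℝ)).add (hs2.const_mul u)).add (integrable_const (u ^ 2 * S ^ 4))) fun x => ?_).trans
        (le_of_eq ?_)
      · have h1 := (abs_le.1 (abs_exp_sub_one_sub_id_le (x := u * s x ^ 2)
          (by rw [abs_of_nonneg (hu2 x).1]; exact (hu2 x).2))).2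
        have h2 : (u * s x ^ 2) ^ 2 ≤ u ^ 2 * S ^ 4 := by
          rw [mul_pow, ← pow_mul]
          refine mul_le_mul_of_nonneg_left ?_ (sq_nonneg u)
          calc s x ^ (2 * 2) = (s x ^ 2) ^ 2 := by ring
            _ ≤ (S ^ 2) ^ 2 := pow_le_pow_left₀ (sq_nonneg _) (hS2 x) 2
            _ = S ^ 4 := by ring
        simp only [Pi.add_apply]
        linarith
      · rw [Pi.add_def, Pi.add_def, integral_add ((integrable_const (1 : ℝ)).fun_add (hs2.const_mul u)) (integrable_const _),
          integral_add (integrable_const _) (hs2.const_mul u), integral_const_mul]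
        simp [I]
    have hE0 : 0 ≤ E₁ := integral_nonneg fun x => (exp_pos _).le
    have hAA : A * A' ≤ E₁ ^ 2 := by
      have hZ := h.pos
      refine le_of_mul_le_mul_right (a := (∫ x, exp (-W x)) ^ 2) ?_ (by positivity)
      linarith [hPL]
    have hsq : E₁ ^ 2 ≤ (1 + u * I + u ^ 2 * S ^ 4) ^ 2 := pow_le_pow_left₀ hE0 hE 2
    have hv : t ^ 2 * v ≤ (1 + u * I + u ^ 2 * S ^ 4) ^ 2 - 1 := by
      nlinarith [mul_nonneg (sub_nonneg.2 hA1) (sub_nonneg.2 hA1')]
    refine le_of_mul_le_mul_left (hv.trans (le_of_eq ?_)) (pow_pos ht 2)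
    simp only [hu]
    field_simp
    ring
  -- let the tilt tend to zero
  set R : ℝ → ℝ := fun t => I / (m - 4 * t * M) + S ^ 4 / (2 * (m - 4 * t * M) ^ 2) * t ^ 2
    + (I / (2 * (m - 4 * t * M)) + S ^ 4 / (4 * (m - 4 * t * M) ^ 2) * t ^ 2) ^ 2 * t ^ 2
  have hR : Tendsto R (𝓝[>] 0) (𝓝 (I / m)) := by
    have hc' : ContinuousAt R 0 := by
      have hne : m - 4 * (0 : ℝ) * M ≠ 0 := by simpa using hm.ne'
      simp only [R]
      fun_prop (disch := simpa using hne)
    have := hc'.tendsto.mono_left (nhdsWithin_le_nhds (s := Ioi (0 : ℝ)))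
    simpa [R] using this
  refine ge_of_tendsto hR ?_
  have hev : ∀ᶠ t in 𝓝 (0 : ℝ), t * M < m / 4 ∧ t ^ 2 / (2 * (m - 4 * t * M)) * S ^ 2 ≤ 1 := by
    refine ((continuous_id.mul continuous_const).tendsto' 0 0 (by simp)).eventually
      (gt_mem_nhds (by positivity)) |>.and ?_
    have hc' : ContinuousAt (fun t : ℝ => t ^ 2 / (2 * (m - 4 * t * M)) * S ^ 2) 0 := by
      have hne : (2 : ℝ) * (m - 4 * 0 * M) ≠ 0 := by simp [hm.ne']
      fun_prop (disch := simpa using hne)
    have h0 := hc'.tendsto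
    simp only [ne_eq, OfNat.ofNat_ne_zero, not_false_eq_true, zero_pow, zero_div, zero_mul] at h0
    exact h0.eventually (ge_mem_nhds zero_lt_one)
  filter_upwards [hev.filter_mono nhdsWithin_le_nhds, self_mem_nhdsWithin] with t ht ht0
  exact key t ht0 ht.1 ht.2

theorem norm_le_nr (u : κ → ℝ) : ‖u‖ ≤ nr u :=
  (pi_norm_le_iff_of_nonneg (nr_nonneg u)).2 fun i => by
    rw [norm_eq_abs]; exact abs_apply_le_nr u i

/-- The inequality for a compactly supported `C¹` function. -/
theorem SC.poincare_compact (h : SC m W) (hm : 0 < m) {f : (κ → ℝ) → ℝ} (hf : ContDiff ℝ 1 f)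
    (hsupp : HasCompactSupport f) :
    ∫ x, (f x - ∫ z, f z ∂law W) ^ 2 ∂law W ≤ (∫ x, grSq f x ∂law W) / m := by
  have : IsProbabilityMeasure (law W) := h.isProb
  set I := ∫ z, f z ∂law W
  set D := fderiv ℝ f
  have hDc : Continuous D := hf.continuous_fderiv one_ne_zero
  have hDs : HasCompactSupport D := hsupp.fderiv ℝ
  obtain ⟨B, hB⟩ := hsupp.exists_bound_of_continuous hf.continuous
  obtain ⟨L, hL⟩ := hDs.exists_bound_of_continuous hDc
  have hL0 : 0 ≤ L := (norm_nonneg _).trans (hL 0)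
  set q := fun x => √(grSq f x)
  have hqc : Continuous q := (continuous_grSq hf).sqrt
  have hgb : ∃ S, ∀ x, |q x| ≤ S := by
    classical
    refine ⟨√(∑ _i : κ, L ^ 2), fun x => ?_⟩
    simp only [q, abs_of_nonneg (sqrt_nonneg _)]
    refine sqrt_le_sqrt (Finset.sum_le_sum fun i _ => sq_le_sq.2 ?_)
    rw [abs_of_nonneg hL0, ← norm_eq_abs]
    refine ((D x).le_opNorm _).trans ((mul_le_mul (hL x) ?_ (norm_nonneg _) hL0).trans_eq (mul_one L))
    exact (pi_norm_le_iff_of_nonneg zero_le_one).2 fun j => by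
      rcases eq_or_ne j i with rfl | hne <;> simp [*]
  obtain ⟨S, hS⟩ := hgb
  set g2 := fun x => grSq f x
  have hint : Integrable g2 (law W) := (integrable_const (S ^ 2)).mono'
    (continuous_grSq hf).aestronglyMeasurable (ae_of_all _ fun x => by
      have := pow_le_pow_left₀ (abs_nonneg _) (hS x) 2
      rw [sq_abs, sq_sqrt (grSq_nonneg f x)] at this
      rw [norm_eq_abs, abs_of_nonneg (grSq_nonneg f x)]; exact this)
  have hq1 : Integrable q (law W) := (integrable_const S).mono' hqc.aestronglyMeasurable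
    (ae_of_all _ fun x => by rw [norm_eq_abs]; exact hS x)
  -- a slightly larger gradient absorbs the modulus of continuity
  have main : ∀ ε : ℝ, 0 < ε → ∫ x, (f x - I) ^ 2 ∂law W
      ≤ ((∫ x, grSq f x ∂law W) + 2 * ε * (∫ x, q x ∂law W) + ε ^ 2) / m := by
    intro ε hε
    obtain ⟨δ, hδ, hu⟩ := Metric.uniformContinuous_iff.1
      (hDs.uniformContinuous_of_continuous hDc) ε hε
    have hloc : ∀ x z, |f x - f z| ≤ (q (fun i => (x i + z i) / 2) + ε) * nr (x - z)
        + L / δ * nr (x - z) ^ 2 := by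
      intro x z
      set r := nr (x - z)
      set p : κ → ℝ := fun i => (x i + z i) / 2
      have hr0 : 0 ≤ r := nr_nonneg _
      have hd : ∀ y, DifferentiableAt ℝ f y := hf.differentiable one_ne_zero
      rcases lt_or_ge r δ with hr | hr
      · have hx : x ∈ Metric.closedBall p (r / 2) := by
          rw [Metric.mem_closedBall, dist_eq_norm]
          exact (norm_le_nr _).trans_eq (nr_sub_mid x z)
        have hz : z ∈ Metric.closedBall p (r / 2) := by
          rw [Metric.mem_closedBall, dist_eq_norm]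
          refine (norm_le_nr _).trans_eq ?_
          rw [show (p : κ → ℝ) = fun i => (z i + x i) / 2 by funext i; simp [p, add_comm],
            nr_sub_mid, nr_sub_comm]
        have h1 := (convex_closedBall p (r / 2)).norm_image_sub_le_of_norm_fderiv_le'
          (fun y _ => hd y) (φ := D p) (C := ε) (fun y hy => ?_) hz hx
        · have h2 := (abs_fderiv_le_grSq f p (x - z))
          have h3 : ε * ‖x - z‖ ≤ ε * r := mul_le_mul_of_nonneg_left (norm_le_nr _) hε.le
          rw [norm_eq_abs] at h1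
          have h4 := abs_sub_abs_le_abs_sub (f x - f z) (D p (x - z))
          have : 0 ≤ L / δ * r ^ 2 := by positivity
          simp only [q, D] at *
          nlinarith
        · have hy' := Metric.mem_closedBall.1 hy
          rw [← dist_eq_norm]
          exact (hu (by linarith)).le
      · have h1 := convex_univ.norm_image_sub_le_of_norm_fderiv_le (fun y _ => hd y)
          (fun y _ => hL y) (Set.mem_univ z) (Set.mem_univ x)
        rw [norm_eq_abs] at h1
        have h2 : L * ‖x - z‖ ≤ L / δ * r ^ 2 := by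
          rw [div_mul_eq_mul_div, le_div_iff₀ hδ]
          nlinarith [mul_le_mul_of_nonneg_left (norm_le_nr (x - z)) (mul_nonneg hL0 hδ.le),
            mul_le_mul_of_nonneg_left hr (mul_nonneg hL0 hr0)]
        have : 0 ≤ (q p + ε) * r := mul_nonneg (add_nonneg (sqrt_nonneg _) hε.le) hr0
        linarith
    have hmean : ∫ x, (f x - I) ∂law W = 0 := by
      rw [integral_sub ((integrable_const B).mono' hf.continuous.aestronglyMeasurable
        (ae_of_all _ hB)) (integrable_const _), integral_const, probReal_univ, one_smul, sub_self]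
    refine (h.poincare_core hm (ψ := fun x => f x - I) (s := fun x => q x + ε) (by
      have := hf.continuous; fun_prop) (by fun_prop) (B := B + |I|) (S := S + ε) (fun x => ?_)
      (fun x => ?_) (M := L / δ) (fun x z => by simpa using hloc x z) hmean).trans
      (le_of_eq ?_)
    · exact (abs_sub _ _).trans (add_le_add (by simpa using hB x) le_rfl)
    · exact (abs_add_le _ _).trans (add_le_add (hS x) (abs_of_pos hε).le)
    · congr 1
      have e : ∀ x, (q x + ε) ^ 2 = g2 x + 2 * ε * q x + ε ^ 2 := fun x => by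
        simp only [q, g2, add_sq, sq_sqrt (grSq_nonneg f x)]; ring
      simp only [e]
      rw [integral_add (hint.fun_add (hq1.const_mul _)) (integrable_const _),
        integral_add hint (hq1.const_mul _), integral_const_mul]
      simp [g2]
  refine ge_of_tendsto (x := 𝓝[>] (0 : ℝ))
    (f := fun ε => ((∫ x, grSq f x ∂law W) + 2 * ε * (∫ x, q x ∂law W) + ε ^ 2) / m) ?_ ?_
  · refine Tendsto.mono_left ?_ nhdsWithin_le_nhds
    exact (by fun_prop : Continuous fun ε : ℝ =>
      ((∫ x, grSq f x ∂law W) + 2 * ε * (∫ x, q x ∂law W) + ε ^ 2) / m).tendsto' 0 _ (by simp [g2])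
  · filter_upwards [self_mem_nhdsWithin] with ε hε using main ε hε

/-- Cut-off approximations. -/
theorem exists_cutoff {f : (κ → ℝ) → ℝ} (hf : ContDiff ℝ 1 f) :
    ∃ (C : ℝ) (fn : ℕ → (κ → ℝ) → ℝ), (∀ n, ContDiff ℝ 1 (fn n)) ∧
      (∀ n, HasCompactSupport (fn n)) ∧ (∀ n x, |fn n x| ≤ |f x|) ∧
      (∀ x, ∀ᶠ n in atTop, ∀ᶠ y in 𝓝 x, fn n y = f y) ∧
      ∀ n x, grSq (fn n) x ≤ 2 * grSq f x + 2 * Fintype.card κ * C ^ 2 * f x ^ 2 := by
  classical
  let b : ContDiffBump (0 : κ → ℝ) := ⟨1, 2, zero_lt_one, one_lt_two⟩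
  have hb : ContDiff ℝ 1 (b : (κ → ℝ) → ℝ) := b.contDiff
  obtain ⟨C, hC⟩ := (b.hasCompactSupport.fderiv ℝ).exists_bound_of_continuous
    (hb.continuous_fderiv one_ne_zero)
  have hC0 : 0 ≤ C := (norm_nonneg _).trans (hC 0)
  set φ : ℕ → (κ → ℝ) → ℝ := fun n x => b (((n : ℝ) + 1)⁻¹ • x)
  set fn : ℕ → (κ → ℝ) → ℝ := fun n x => φ n x * f x
  have hφc : ∀ n, ContDiff ℝ 1 (φ n) := fun n => hb.comp (contDiff_id.const_smul _)
  have hfnc : ∀ n, ContDiff ℝ 1 (fn n) := fun n => (hφc n).mul hf
  have hfns : ∀ n, HasCompactSupport (fn n) := fun n =>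
    (b.hasCompactSupport.comp_smul (by positivity)).mul_right
  have hφ1 : ∀ n x, |φ n x| ≤ 1 := fun n x => by
    rw [abs_of_nonneg b.nonneg]; exact b.le_one
  have hfb : ∀ n x, |fn n x| ≤ |f x| := fun n x => by
    rw [abs_mul]; exact mul_le_of_le_one_left (abs_nonneg _) (hφ1 n x)
  have hloc : ∀ x, ∀ᶠ n in atTop, ∀ᶠ y in 𝓝 x, fn n y = f y := by
    intro x
    obtain ⟨N, hN⟩ := exists_nat_gt (‖x‖ + 1)
    filter_upwards [eventually_ge_atTop N] with n hn
    filter_upwards [Metric.ball_mem_nhds x zero_lt_one] with y hy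
    have h1 : φ n y = 1 := by
      refine b.one_of_mem_closedBall ?_
      rw [Metric.mem_closedBall, dist_zero_right, norm_smul, norm_inv, norm_eq_abs,
        abs_of_pos (by positivity), inv_mul_le_iff₀ (by positivity)]
      have h2 : ‖y‖ ≤ ‖x‖ + 1 := by
        rw [Metric.mem_ball, dist_eq_norm] at hy
        linarith [norm_sub_norm_le y x]
      have h3 : (N : ℝ) ≤ n := by exact_mod_cast hn
      show ‖y‖ ≤ ((n : ℝ) + 1) * 1
      linarith
    simp [fn, h1]
  have hgb : ∀ n x, grSq (fn n) x ≤ 2 * grSq f x + 2 * Fintype.card κ * C ^ 2 * f x ^ 2 := by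
    intro n x
    have hd := (((hφc n).differentiable one_ne_zero x).hasFDerivAt.mul
      ((hf.differentiable one_ne_zero x).hasFDerivAt)).fderiv
    have hφd : ∀ i, |fderiv ℝ (φ n) x (Pi.single i 1)| ≤ C := fun i => by
      have e := ((hb.differentiable one_ne_zero _).hasFDerivAt.comp x
        ((hasFDerivAt_id x).const_smul ((n : ℝ) + 1)⁻¹)).fderiv
      rw [show fderiv ℝ (φ n) x = _ from e]
      simp only [ContinuousLinearMap.comp_apply, smul_apply, ContinuousLinearMap.id_apply,
        map_smul, smul_eq_mul, abs_mul]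
      refine (mul_le_of_le_one_left (abs_nonneg _) ?_).trans ?_
      · rw [abs_inv, abs_of_pos (by positivity)]
        exact inv_le_one_of_one_le₀ (by linarith [Nat.cast_nonneg (α := ℝ) n])
      · rw [← norm_eq_abs]
        refine ((fderiv ℝ (b : (κ → ℝ) → ℝ) _).le_opNorm _).trans
          ((mul_le_mul (hC _) ?_ (norm_nonneg _) hC0).trans_eq (mul_one C))
        exact (pi_norm_le_iff_of_nonneg zero_le_one).2 fun j => by
          rcases eq_or_ne j i with rfl | hne <;> simp [*]
    rw [show 2 * grSq f x + 2 * (Fintype.card κ : ℝ) * C ^ 2 * f x ^ 2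
        = ∑ i, (2 * fderiv ℝ f x (Pi.single i 1) ^ 2 + 2 * C ^ 2 * f x ^ 2) by
      simp [grSq, Finset.sum_add_distrib, Finset.mul_sum]; ring]
    refine Finset.sum_le_sum fun i _ => ?_
    rw [show fderiv ℝ (fn n) x = _ from hd]
    simp only [add_apply, smul_apply, smul_eq_mul]
    set a := φ n x * fderiv ℝ f x (Pi.single i 1)
    set c := f x * fderiv ℝ (φ n) x (Pi.single i 1)
    have ha : a ^ 2 ≤ fderiv ℝ f x (Pi.single i 1) ^ 2 := sq_le_sq.2 (by
      rw [abs_mul]; exact mul_le_of_le_one_left (abs_nonneg _) (hφ1 n x))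
    have hc : c ^ 2 ≤ C ^ 2 * f x ^ 2 := by
      rw [mul_pow, mul_comm]
      exact mul_le_mul_of_nonneg_right (sq_le_sq.2 (by rw [abs_of_nonneg hC0]; exact hφd i))
        (sq_nonneg _)
    nlinarith [sq_nonneg (a - c)]
  exact ⟨C, fn, hfnc, hfns, hfb, hloc, hgb⟩

/-- The Poincaré inequality. -/
theorem SC.poincare (h : SC m W) (hm : 0 < m) {f : (κ → ℝ) → ℝ} (hf : ContDiff ℝ 1 f)
    (hf2 : Integrable (fun x => f x ^ 2) (law W)) (hg2 : Integrable (grSq f) (law W)) :
    ∫ x, (f x - ∫ z, f z ∂law W) ^ 2 ∂law W ≤ (∫ x, grSq f x ∂law W) / m := by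
  have : IsProbabilityMeasure (law W) := h.isProb
  obtain ⟨C, fn, hfnc, hfns, hfb, hloc, hgb⟩ := exists_cutoff hf
  -- limits
  have hi1 : Integrable f (law W) :=
    ((integrable_const (1 : ℝ)).add hf2).mono' hf.continuous.aestronglyMeasurable
      (ae_of_all _ fun x => by
        rw [norm_eq_abs, Pi.add_apply]; nlinarith [sq_abs (f x), sq_nonneg (|f x| - 1)])
  set I := ∫ z, f z ∂law W
  set In : ℕ → ℝ := fun n => ∫ z, fn n z ∂law W
  have hIn : Tendsto In atTop (𝓝 I) :=
    tendsto_integral_of_dominated_convergence (fun x => |f x|)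
      (fun n => (hfnc n).continuous.aestronglyMeasurable) hi1.abs
      (fun n => ae_of_all _ fun x => by rw [norm_eq_abs]; exact hfb n x)
      (ae_of_all _ fun x => tendsto_nhds_of_eventually_eq
        ((hloc x).mono fun n hn => hn.self_of_nhds))
  have hInb : ∀ n, |In n| ≤ ∫ z, |f z| ∂law W := fun n =>
    (norm_integral_le_of_norm_le (f := fn n) hi1.abs (ae_of_all _ fun x => by
      rw [norm_eq_abs]; exact hfb n x))
  have hlim : ∀ x, Tendsto (fun n => fn n x) atTop (𝓝 (f x)) := fun x =>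
    tendsto_nhds_of_eventually_eq ((hloc x).mono fun n hn => hn.self_of_nhds)
  set J := ∫ z, |f z| ∂law W
  have hdom : Integrable (fun x => 2 * f x ^ 2 + 2 * J ^ 2) (law W) :=
    (hf2.const_mul 2).fun_add (integrable_const _)
  have hvar : Tendsto (fun n => ∫ x, (fn n x - In n) ^ 2 ∂law W) atTop
      (𝓝 (∫ x, (f x - I) ^ 2 ∂law W)) := by
    refine tendsto_integral_of_dominated_convergence (fun x => 2 * f x ^ 2 + 2 * J ^ 2)
      (fun n => ?_) hdom (fun n => ae_of_all _ fun x => ?_) (ae_of_all _ fun x => ?_)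
    · exact (((hfnc n).continuous.sub continuous_const).pow 2).aestronglyMeasurable
    swap
    · exact ((hlim x).sub hIn).pow 2
    rw [norm_eq_abs, abs_of_nonneg (sq_nonneg _)]
    have h1 := pow_le_pow_left₀ (abs_nonneg _) (hfb n x) 2
    have h2 := pow_le_pow_left₀ (abs_nonneg _) (hInb n) 2
    rw [sq_abs, sq_abs] at h1
    rw [sq_abs] at h2
    nlinarith [sq_nonneg (fn n x + In n)]
  set K : ℝ := 2 * Fintype.card κ * C ^ 2
  have hdom' : Integrable (fun x => 2 * grSq f x + K * f x ^ 2) (law W) :=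
    (hg2.const_mul 2).fun_add (hf2.const_mul K)
  have hlim' : ∀ x, Tendsto (fun n => grSq (fn n) x) atTop (𝓝 (grSq f x)) := fun x =>
    tendsto_nhds_of_eventually_eq ((hloc x).mono fun n hn => by
      have e : fderiv ℝ (fn n) x = fderiv ℝ f x := Filter.EventuallyEq.fderiv_eq hn
      unfold grSq; rw [e])
  have hgr0 : Tendsto (fun n => ∫ x, grSq (fn n) x ∂law W) atTop (𝓝 (∫ x, grSq f x ∂law W)) := by
    refine tendsto_integral_of_dominated_convergence (fun x => 2 * grSq f x + K * f x ^ 2)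
      (fun n => ?_) hdom' (fun n => ae_of_all _ fun x => ?_) (ae_of_all _ hlim')
    · exact (continuous_grSq (hfnc n)).aestronglyMeasurable
    · rw [norm_eq_abs, abs_of_nonneg (grSq_nonneg _ _)]; exact hgb n x
  have hgr := hgr0.div_const m
  exact le_of_tendsto_of_tendsto' hvar hgr fun n => h.poincare_compact hm (hfnc n) (hfns n)

end

end Vale.Agent.P347.Colour

namespace Vale.Agent.P347.Quarter.Tgt

open MeasureTheory Real WithLp

noncomputable section

variable {d : ℕ} {m : ℝ} {U : Colour.Pt d → ℝ}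

/-- The Poincaré inequality on Euclidean space. -/
theorem lawE_poincare (hU : Colour.SC m U) (hm : 0 < m) {f : E d → ℝ} (hf : ContDiff ℝ 1 f)
    (hf2 : Integrable (fun x => f x ^ 2) (lawE U))
    (hg2 : Integrable (fun x => ‖fderiv ℝ f x‖ ^ 2) (lawE U)) :
    ∫ x, (f x - ∫ z, f z ∂lawE U) ^ 2 ∂lawE U ≤ (∫ x, ‖fderiv ℝ f x‖ ^ 2 ∂lawE U) / m := by
  have := hU.isProb
  let L : Colour.Pt d ≃L[ℝ] E d := (PiLp.continuousLinearEquiv 2 ℝ fun _ : Fin d => ℝ).symm
  have hfL : ContDiff ℝ 1 fun x : Colour.Pt d => f (toLp 2 x) := hf.comp PiLp.contDiff_toLp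
  have hd : ∀ x, Colour.grSq (fun x : Colour.Pt d => f (toLp 2 x)) x
      ≤ ‖fderiv ℝ f (toLp 2 x)‖ ^ 2 := by
    intro x
    have e := ((hf.differentiable one_ne_zero (L x)).hasFDerivAt.comp x L.hasFDerivAt).fderiv
    set A := fderiv ℝ f (toLp 2 x)
    have e2 : Colour.grSq (fun x : Colour.Pt d => f (toLp 2 x)) x
        = ∑ i, A (EuclideanSpace.single i 1) ^ 2 := by
      classical
      unfold Colour.grSq
      refine Finset.sum_congr rfl fun i _ => ?_
      rw [show fderiv ℝ (fun x : Colour.Pt d => f (toLp 2 x)) x = _ from e]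
      have : L (Pi.single i 1) = EuclideanSpace.single i (1 : ℝ) := by ext j; simp [L]
      simp only [ContinuousLinearMap.comp_apply, ContinuousLinearEquiv.coe_coe]
      rw [← this]
      simp [A, L]
      congr
      exact Subsingleton.elim _ _
    rw [e2]
    set S := ∑ i, A (EuclideanSpace.single i 1) ^ 2
    have hS : 0 ≤ S := Finset.sum_nonneg fun i _ => sq_nonneg _
    set u : E d := toLp 2 fun i => A (EuclideanSpace.single i 1)
    have hu : u = ∑ i, u i • EuclideanSpace.single i (1 : ℝ) := by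
      simpa using ((EuclideanSpace.basisFun (Fin d) ℝ).sum_repr u).symm
    have h1 : A u = S := by
      rw [hu, map_sum]; simp [S, u, sq]
    have h2 : ‖u‖ = √S := by
      rw [EuclideanSpace.norm_eq]; simp [S, u]
    have h3 := (le_abs_self _).trans ((Real.norm_eq_abs _).symm.le.trans (A.le_opNorm u))
    rw [h1, h2] at h3
    rcases eq_or_lt_of_le hS with h0 | h0
    · rw [← h0]; positivity
    · have h4 : √S ≤ ‖A‖ := by
        refine le_of_mul_le_mul_right ?_ (sqrt_pos.2 h0)
        rwa [mul_self_sqrt hS]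
      have := pow_le_pow_left₀ (sqrt_nonneg _) h4 2
      rwa [sq_sqrt hS] at this
  have h2' : Integrable (fun x => f (toLp 2 x) ^ 2) (Colour.law U) :=
    (integrable_map_equiv (MeasurableEquiv.toLp 2 (Colour.Pt d)) (fun x => f x ^ 2)).1 hf2
  have hg' : Integrable (fun x => ‖fderiv ℝ f (toLp 2 x)‖ ^ 2) (Colour.law U) :=
    (integrable_map_equiv (MeasurableEquiv.toLp 2 (Colour.Pt d))
      (fun x => ‖fderiv ℝ f x‖ ^ 2)).1 hg2
  have hgr : Integrable (Colour.grSq fun x : Colour.Pt d => f (toLp 2 x)) (Colour.law U) :=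
    hg'.mono' (Colour.continuous_grSq hfL).aestronglyMeasurable (ae_of_all _ fun x => by
      rw [norm_eq_abs, abs_of_nonneg (Colour.grSq_nonneg _ _)]; exact hd x)
  rw [integral_lawE U fun x => (f x - ∫ z, f z ∂lawE U) ^ 2, integral_lawE U f,
    integral_lawE U fun x => ‖fderiv ℝ f x‖ ^ 2]
  exact (hU.poincare hm hfL h2' hgr).trans
    (div_le_div_of_nonneg_right (integral_mono hgr hg' hd) hm.le)

end

end Vale.Agent.P347.Quarter.Tgt
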