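import Vale.Agent.P347.Zero.Node
import Vale.Agent.P347.Zero.Creation
import Vale.Agent.P347.Zero.Poincare

/-!
# P347, exponent 0: the posterior family

`exv V v x f` is the posterior mean of `f`, `rho` the smoothed density and `uPot` its minus logarithm.
Posterior means of functions of polynomial growth are quotients of Laplace transforms, hence jointly
smooth; the derivative in `x` multiplies by the score `q1`.
-/

namespace Vale.Agent.P347.Zero

open MeasureTheory Real Set WithLp Filter Topology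
open Vale.Agent.P347.Quarter (E γ gOf)
open Vale.Agent.P347.Quarter.Tgt (back lawE integral_lawE)
open Vale.Agent.P347.Colour (oracle)
open scoped RealInnerProductSpace ContDiff

noncomputable section

variable {d : ℕ}

/-- The unnormalised target density. -/
def dV (V : Colour.Pt d → ℝ) (w : E d) : ℝ := exp (-V (ofLp w))

/-- The smoothed density. -/
def rho (V : Colour.Pt d → ℝ) (v : ℝ) (x : E d) : ℝ := Quarter.G v (dV V) x

/-- The minus logarithm of the smoothed density. -/
def uPot (V : Colour.Pt d → ℝ) (v : ℝ) (x : E d) : ℝ := -log (rho V v x)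

/-- The posterior mean of `f`. -/
def exv (V : Colour.Pt d → ℝ) (v : ℝ) (x : E d) (f : E d → ℝ) : ℝ := ∫ w, f w ∂back v V x

/-! ## Polynomial growth -/

/-- Measurable of polynomial growth. -/
def Gr (f : E d → ℝ) : Prop := Measurable f ∧ ∃ (k : ℕ) (C : ℝ), ∀ w, |f w| ≤ C * (1 + ‖w‖) ^ k

theorem gr_const (c : ℝ) : Gr fun _ : E d => c := ⟨measurable_const, 0, |c|, fun w => by simp⟩

theorem Gr.mul {f g : E d → ℝ} (hf : Gr f) (hg : Gr g) : Gr fun w => f w * g w := by
  obtain ⟨hm, k, C, hC⟩ := hf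
  obtain ⟨hm', k', C', hC'⟩ := hg
  refine ⟨hm.mul hm', k + k', C * C', fun w => ?_⟩
  rw [abs_mul, pow_add, mul_mul_mul_comm]
  exact mul_le_mul (hC w) (hC' w) (abs_nonneg _) ((abs_nonneg _).trans (hC w))

theorem Gr.add {f g : E d → ℝ} (hf : Gr f) (hg : Gr g) : Gr fun w => f w + g w := by
  obtain ⟨hm, k, C, hC⟩ := hf
  obtain ⟨hm', k', C', hC'⟩ := hg
  refine ⟨hm.add hm', k + k', |C| + |C'|, fun w => ?_⟩
  have h1 : (1 : ℝ) ≤ 1 + ‖w‖ := le_add_of_nonneg_right (norm_nonneg w)
  have a := (hC w).trans (mul_le_mul (le_abs_self C)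
    (pow_le_pow_right₀ h1 (Nat.le_add_right k k')) (by positivity) (abs_nonneg C))
  have b := (hC' w).trans (mul_le_mul (le_abs_self C')
    (pow_le_pow_right₀ h1 (Nat.le_add_left k' k)) (by positivity) (abs_nonneg C'))
  exact (abs_add_le _ _).trans ((add_le_add a b).trans_eq (add_mul _ _ _).symm)

theorem Gr.const_mul {f : E d → ℝ} (hf : Gr f) (c : ℝ) : Gr fun w => c * f w := (gr_const c).mul hf

theorem Gr.sub {f g : E d → ℝ} (hf : Gr f) (hg : Gr g) : Gr fun w => f w - g w := by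
  simpa [sub_eq_add_neg] using hf.add (hg.const_mul (-1))

theorem Gr.sq {f : E d → ℝ} (hf : Gr f) : Gr fun w => f w ^ 2 := by
  simpa [pow_two] using hf.mul hf

theorem gr_sum {κ : Type*} (s : Finset κ) {f : κ → E d → ℝ} (hf : ∀ i ∈ s, Gr (f i)) :
    Gr fun w => ∑ i ∈ s, f i w := by
  classical
  induction s using Finset.induction_on with
  | empty => simpa using gr_const (d := d) 0
  | insert i s hi ih =>
    simp only [Finset.sum_insert hi]
    exact (hf i (Finset.mem_insert_self _ _)).add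
      (ih fun j hj => hf j (Finset.mem_insert_of_mem hj))

theorem Gr.of_le {f : E d → ℝ} (hm : Measurable f) {C : ℝ}
    (h : ∀ w, |f w| ≤ C * (1 + ‖w‖)) : Gr f := ⟨hm, 1, C, fun w => by simpa using h w⟩

theorem gr_coord (i : Fin d) : Gr fun w : E d => w i :=
  Gr.of_le (by fun_prop) (C := 1) fun w => by
    rw [one_mul, ← norm_eq_abs]; linarith [PiLp.norm_apply_le w i]

theorem gr_norm_sq : Gr fun w : E d => ‖w‖ ^ 2 :=
  (Gr.of_le measurable_norm (C := 1) fun w => by rw [abs_norm]; linarith).sq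

/-- A linear exponential tilt is integrable against a Gaussian weight. -/
theorem Gr.integrable_gauss {f : E d → ℝ} (hf : Gr f) (R : ℝ) :
    Integrable fun w => |f w| * exp (R * ‖w‖ - ‖w‖ ^ 2 / 2) := by
  obtain ⟨hm, k, C, hC⟩ := hf
  have hg : Integrable fun w : E d => exp (-(1 / 4) * ‖w‖ ^ 2) := by
    have h' := (GaussianFourier.integrable_cexp_neg_mul_sq_norm_add (V := E d) (b := ((1 / 4 : ℝ) : ℂ))
      (by norm_num) 0 0).norm
    simp only [Complex.norm_exp] at h'
    convert h' using 2 with w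
    norm_cast
    simp
  refine (hg.const_mul (|C| * exp ((R + k) ^ 2))).mono' (by fun_prop) (ae_of_all _ fun w => ?_)
  have h1 : |f w| ≤ |C| * exp (k * ‖w‖) := by
    refine (hC w).trans (mul_le_mul (le_abs_self C) ?_ (by positivity) (abs_nonneg C))
    rw [exp_nat_mul]
    exact pow_le_pow_left₀ (by positivity) (by linarith [add_one_le_exp ‖w‖]) k
  rw [norm_mul, norm_eq_abs, abs_abs, norm_of_nonneg (exp_pos _).le]
  refine (mul_le_mul_of_nonneg_right h1 (exp_pos _).le).trans ?_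
  rw [mul_assoc, mul_assoc, ← exp_add, ← exp_add]
  refine mul_le_mul_of_nonneg_left (exp_le_exp.2 ?_) (abs_nonneg C)
  nlinarith [sq_nonneg (‖w‖ / 2 - (R + k))]

/-! ## The Laplace transform of the target -/

variable {V : Colour.Pt d → ℝ} {v : ℝ}

theorem dV_pos (w : E d) : 0 < dV V w := exp_pos _

theorem dV_le (hV : Colour.Cls (id : Fin d → Fin d) V) (w : E d) :
    dV V w ≤ exp (-‖w‖ ^ 2 / 2) := by
  have h := hV.lower (ofLp w)
  rw [Colour.nr, toLp_ofLp] at h
  exact exp_le_exp.2 (by linarith)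

theorem dV_le_one (hV : Colour.Cls (id : Fin d → Fin d) V) (w : E d) : dV V w ≤ 1 :=
  (dV_le hV w).trans (exp_le_one_iff.2 (by nlinarith [sq_nonneg ‖w‖]))

theorem continuous_dV (hV : Colour.Cls (id : Fin d → Fin d) V) : Continuous (dV V) := by
  have := hV.continuous
  unfold dV; fun_prop

/-- The transform of `f` against the target, in the parameters `(a, b)`. -/
def lap (V : Colour.Pt d → ℝ) (f : E d → ℝ) (p : ℝ × E d) : ℝ :=
  ∫ w, f w * (dV V w * exp (-p.1 * ‖w‖ ^ 2 + ⟪w, p.2⟫))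

theorem lap_bound (hV : Colour.Cls (id : Fin d → Fin d) V) (f : E d → ℝ) {p : ℝ × E d}
    (hp : 0 ≤ p.1) {R : ℝ} (hR : ‖p.2‖ ≤ R) (w : E d) :
    |f w * (dV V w * exp (-p.1 * ‖w‖ ^ 2 + ⟪w, p.2⟫))|
      ≤ |f w| * exp (R * ‖w‖ - ‖w‖ ^ 2 / 2) := by
  rw [abs_mul, abs_mul, abs_of_pos (dV_pos w), abs_of_pos (exp_pos _)]
  refine mul_le_mul_of_nonneg_left ((mul_le_mul_of_nonneg_right (dV_le hV w) (exp_pos _).le).trans
    ?_) (abs_nonneg _)
  rw [← exp_add]
  refine exp_le_exp.2 ?_
  have := (abs_real_inner_le_norm w p.2).trans (mul_le_mul_of_nonneg_left hR (norm_nonneg _))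
  nlinarith [(abs_le.1 this).2, mul_nonneg hp (sq_nonneg ‖w‖)]

theorem lap_integrable (hV : Colour.Cls (id : Fin d → Fin d) V) {f : E d → ℝ} (hf : Gr f)
    {p : ℝ × E d} (hp : 0 ≤ p.1) :
    Integrable fun w => f w * (dV V w * exp (-p.1 * ‖w‖ ^ 2 + ⟪w, p.2⟫)) :=
  (hf.integrable_gauss ‖p.2‖).mono' (hf.1.aestronglyMeasurable.mul
    (((continuous_dV hV).mul (by fun_prop)).aestronglyMeasurable))
    (ae_of_all _ fun w => by rw [norm_eq_abs]; exact lap_bound hV f hp le_rfl w)

theorem lap_one_pos (hV : Colour.Cls (id : Fin d → Fin d) V) {p : ℝ × E d} (hp : 0 ≤ p.1) :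
    0 < lap V (fun _ => 1) p := by
  have h := lap_integrable hV (gr_const (1 : ℝ)) hp
  refine (integral_pos_iff_support_of_nonneg (fun w => ?_) h).2 ?_
  · have := dV_pos (V := V) w; positivity
  · rw [show Function.support (fun w => (1 : ℝ) * (dV V w * exp (-p.1 * ‖w‖ ^ 2 + ⟪w, p.2⟫)))
      = Set.univ from Set.eq_univ_of_forall fun w => by simp [(dV_pos (V := V) w).ne']]
    exact Measure.measure_univ_pos.2 (NeZero.ne _)

/-- The derivative of the transform. -/
def lapD (V : Colour.Pt d → ℝ) (f : E d → ℝ) (p : ℝ × E d) : ℝ × E d →L[ℝ] ℝ :=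
  (-lap V (fun w => f w * ‖w‖ ^ 2) p) • ContinuousLinearMap.fst ℝ ℝ (E d)
    + ∑ i, lap V (fun w => f w * w i) p •
      ((EuclideanSpace.proj i : E d →L[ℝ] ℝ).comp (ContinuousLinearMap.snd ℝ ℝ (E d)))

theorem hasFDerivAt_lap (hV : Colour.Cls (id : Fin d → Fin d) V) {f : E d → ℝ} (hf : Gr f)
    {p : ℝ × E d} (hp : 0 < p.1) : HasFDerivAt (lap V f) (lapD V f p) p := by
  set F : ℝ × E d → E d → ℝ := fun q w => f w * (dV V w * exp (-q.1 * ‖w‖ ^ 2 + ⟪w, q.2⟫))
  set L : E d → ℝ × E d →L[ℝ] ℝ := fun w => (-‖w‖ ^ 2) • ContinuousLinearMap.fst ℝ ℝ (E d)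
    + (innerSL ℝ w).comp (ContinuousLinearMap.snd ℝ ℝ (E d))
  have hLc : Continuous L := by unfold L; fun_prop
  have hLn : ∀ w, ‖L w‖ ≤ ‖w‖ ^ 2 + ‖w‖ := fun w =>
    (L w).opNorm_le_bound (by positivity) fun q => by
      simp only [L, add_apply, smul_apply, ContinuousLinearMap.coe_fst',
        ContinuousLinearMap.comp_apply, ContinuousLinearMap.coe_snd', innerSL_apply_apply, smul_eq_mul,
        norm_eq_abs]
      refine (abs_add_le _ _).trans ?_
      rw [abs_mul, abs_neg, abs_of_nonneg (sq_nonneg ‖w‖)]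
      nlinarith [abs_real_inner_le_norm w q.2, norm_fst_le q, norm_snd_le q, norm_eq_abs q.1,
        norm_nonneg w, sq_nonneg ‖w‖, mul_le_mul_of_nonneg_left (norm_fst_le q) (sq_nonneg ‖w‖),
        mul_le_mul_of_nonneg_left (norm_snd_le q) (norm_nonneg w)]
  have hg : Gr fun w => |f w| * (‖w‖ ^ 2 + ‖w‖) :=
    Gr.mul ⟨hf.1.abs, hf.2.imp fun k => fun ⟨C, h⟩ => ⟨C, fun w => by rw [abs_abs]; exact h w⟩⟩
      (gr_norm_sq.add (Gr.of_le measurable_norm (C := 1) fun w => by rw [abs_norm]; linarith))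
  have hs : {q : ℝ × E d | 0 < q.1 ∧ ‖q.2‖ < ‖p.2‖ + 1} ∈ 𝓝 p :=
    IsOpen.mem_nhds ((isOpen_lt continuous_const continuous_fst).inter
      (isOpen_lt continuous_snd.norm continuous_const)) ⟨hp, lt_add_one _⟩
  have hd : ∀ q w, HasFDerivAt (F · w) (F q w • L w) q := by
    intro q w
    have h1 : HasFDerivAt (fun q : ℝ × E d => -q.1 * ‖w‖ ^ 2 + ⟪w, q.2⟫) (L w) q := by
      refine (((hasFDerivAt_fst (p := q)).neg.mul_const (‖w‖ ^ 2)).add
        ((innerSL ℝ w).hasFDerivAt.comp q hasFDerivAt_snd)).congr_fderiv ?_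
      ext r <;> simp [L]
    refine ((h1.exp.const_mul (dV V w)).const_mul (f w)).congr_fderiv ?_
    simp only [F, smul_smul]
  have hFm : ∀ q, AEStronglyMeasurable (F q) volume := fun q =>
    hf.1.aestronglyMeasurable.mul (((continuous_dV hV).mul (by fun_prop)).aestronglyMeasurable)
  have hi : Integrable fun w => F p w • L w :=
    (hg.integrable_gauss ‖p.2‖).mono' ((hFm p).smul hLc.aestronglyMeasurable)
      (ae_of_all _ fun w => by
        rw [norm_smul, norm_eq_abs, abs_mul |f w|, abs_abs, abs_of_nonneg (by positivity : 0 ≤ ‖w‖ ^ 2 + ‖w‖),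
          mul_right_comm |f w|]
        exact mul_le_mul (lap_bound hV f hp.le le_rfl w) (hLn w) (norm_nonneg _) (by positivity))
  have h := hasFDerivAt_integral_of_dominated_of_fderiv_le (𝕜 := ℝ) hs (Eventually.of_forall hFm)
    (lap_integrable hV hf hp.le) ((hFm p).smul hLc.aestronglyMeasurable)
    (bound := fun w => |(|f w| * (‖w‖ ^ 2 + ‖w‖))| * exp ((‖p.2‖ + 1) * ‖w‖ - ‖w‖ ^ 2 / 2))
    (ae_of_all _ fun w q hq => by
      rw [norm_smul, norm_eq_abs, abs_mul |f w|, abs_abs,
        abs_of_nonneg (by positivity : 0 ≤ ‖w‖ ^ 2 + ‖w‖), mul_right_comm |f w|]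
      exact mul_le_mul (lap_bound hV f hq.1.le hq.2.le w) (hLn w) (norm_nonneg _) (by positivity))
    (hg.integrable_gauss _) (ae_of_all _ fun w q _ => hd q w)
  refine h.congr_fderiv (ContinuousLinearMap.ext fun r => ?_)
  rw [ContinuousLinearMap.integral_apply hi]
  have e : ∀ w, (F p w • L w) r = -r.1 * (f w * ‖w‖ ^ 2 * (dV V w * exp (-p.1 * ‖w‖ ^ 2 + ⟪w, p.2⟫)))
      + ∑ i, r.2 i * (f w * w i * (dV V w * exp (-p.1 * ‖w‖ ^ 2 + ⟪w, p.2⟫))) := fun w => by
    rw [Finset.sum_congr rfl fun i _ => (show r.2 i * (f w * w i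
      * (dV V w * exp (-p.1 * ‖w‖ ^ 2 + ⟪w, p.2⟫))) = (w i * r.2 i) * F p w by simp only [F]; ring),
      ← Finset.sum_mul]
    simp [F, L, PiLp.inner_apply, mul_comm]
    ring
  simp only [e]
  rw [integral_add ((lap_integrable hV (hf.mul gr_norm_sq) hp.le).const_mul _)
    (integrable_finsetSum _ fun i _ => (lap_integrable hV (hf.mul (gr_coord i)) hp.le).const_mul _),
    integral_const_mul, integral_finsetSum _ fun i _ =>
      (lap_integrable hV (hf.mul (gr_coord i)) hp.le).const_mul _]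
  simp [lapD, lap, integral_const_mul, mul_comm]

theorem contDiffOn_lap (hV : Colour.Cls (id : Fin d → Fin d) V) {f : E d → ℝ} (hf : Gr f) :
    ContDiffOn ℝ ∞ (lap V f) (Ioi 0 ×ˢ univ) := by
  have ho : IsOpen (Ioi (0 : ℝ) ×ˢ (univ : Set (E d))) := isOpen_Ioi.prod isOpen_univ
  refine contDiffOn_infty.2 fun n => ?_
  induction n generalizing f with
  | zero =>
    exact contDiffOn_zero.2 fun q hq => (hasFDerivAt_lap hV hf hq.1).continuousAt.continuousWithinAt
  | succ n ih =>
    rw [Nat.cast_succ, contDiffOn_succ_iff_fderiv_of_isOpen ho]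
    refine ⟨fun q hq => (hasFDerivAt_lap hV hf hq.1).differentiableAt.differentiableWithinAt,
      by simp, ?_⟩
    refine ContDiffOn.congr (f := lapD V f) ?_ fun q hq => (hasFDerivAt_lap hV hf hq.1).fderiv
    unfold lapD
    exact ((ih (hf.mul gr_norm_sq)).neg.smul contDiffOn_const).add
      (ContDiffOn.sum fun i _ => (ih (hf.mul (gr_coord i))).smul contDiffOn_const)

/-! ## Posterior means -/

/-- The parameters of the posterior at `(v, x)`. -/
def par (v : ℝ) (x : E d) : ℝ × E d := (1 / (2 * v), v⁻¹ • x)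

theorem par_pos (hv : 0 < v) (x : E d) : 0 < (par v x).1 := by simp only [par]; positivity

theorem exp_kernel (hv : 0 < v) (x w : E d) : exp (-(‖w - x‖ ^ 2 / (2 * v)))
    = exp (-(‖x‖ ^ 2 / (2 * v))) * exp (-(par v x).1 * ‖w‖ ^ 2 + ⟪w, (par v x).2⟫) := by
  rw [← exp_add]
  congr 1
  simp only [par, inner_smul_right, norm_sub_sq_real]
  field_simp
  ring

/-- Integrals over the coordinates. -/
theorem integral_pt (f : E d → ℝ) : ∫ n : Colour.Pt d, f (toLp 2 n) = ∫ w : E d, f w :=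
  (PiLp.volume_preserving_toLp (Fin d)).integral_comp (MeasurableEquiv.toLp 2 _).measurableEmbedding f

theorem sc_back (hV : Colour.Cls (id : Fin d → Fin d) V) (hv : 0 < v) (x : E d) :
    Colour.SC (1 + 1 / v) (Colour.W (1 / v) V (ofLp x)) :=
  hV.sc_W (one_div_pos.2 hv) _

theorem exv_eq_lap (hV : Colour.Cls (id : Fin d → Fin d) V) (hv : 0 < v) (x : E d) (f : E d → ℝ) :
    exv V v x f = lap V f (par v x) / lap V (fun _ => 1) (par v x) := by
  have key : ∀ h : E d → ℝ, ∫ n, h (toLp 2 n) * exp (-Colour.W (1 / v) V (ofLp x) n)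
      = exp (-(‖x‖ ^ 2 / (2 * v))) * lap V h (par v x) := by
    intro h
    rw [lap, ← integral_const_mul,
      ← integral_pt (fun w => exp (-(‖x‖ ^ 2 / (2 * v)))
        * (h w * (dV V w * exp (-(par v x).1 * ‖w‖ ^ 2 + ⟪w, (par v x).2⟫))))]
    refine integral_congr_ae (ae_of_all _ fun n => ?_)
    have hk := exp_kernel hv x (toLp 2 n)
    have e : exp (-Colour.W (1 / v) V (ofLp x) n)
        = dV V (toLp 2 n) * exp (-(‖toLp 2 n - x‖ ^ 2 / (2 * v))) := by
      rw [dV, ← exp_add]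
      congr 1
      simp [Colour.W, Colour.nr, toLp_sub]
      ring
    dsimp only
    rw [e, hk]
    ring
  rw [exv, back, integral_lawE, (sc_back hV hv x).integral_law, key f]
  have h1 := key fun _ => 1
  simp only [one_mul] at h1
  rw [h1, mul_div_mul_left _ _ (exp_pos _).ne']

theorem isProb_back (hV : Colour.Cls (id : Fin d → Fin d) V) (hv : 0 < v) (x : E d) :
    IsProbabilityMeasure (back v V x) := Quarter.Tgt.lawE_prob (sc_back hV hv x)

theorem Gr.integrable_back {f : E d → ℝ} (hf : Gr f) (hV : Colour.Cls (id : Fin d → Fin d) V)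
    (hv : 0 < v) (x : E d) : Integrable f (back v V x) := by
  obtain ⟨hm, k, C, hC⟩ := hf
  exact (integrable_map_equiv (MeasurableEquiv.toLp 2 (Colour.Pt d)) f).2
    ((sc_back hV hv x).integrable_law_pow (hm.comp (by fun_prop)) fun n => hC (toLp 2 n))

section
variable (hV : Colour.Cls (id : Fin d → Fin d) V) (hv : 0 < v)
include hV hv

theorem exv_const (x : E d) (c : ℝ) : exv V v x (fun _ => c) = c := by
  have := isProb_back hV hv x
  simp [exv]

theorem exv_add (x : E d) {f g : E d → ℝ} (hf : Gr f) (hg : Gr g) :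
    exv V v x (fun w => f w + g w) = exv V v x f + exv V v x g :=
  integral_add (hf.integrable_back hV hv x) (hg.integrable_back hV hv x)

theorem exv_sub (x : E d) {f g : E d → ℝ} (hf : Gr f) (hg : Gr g) :
    exv V v x (fun w => f w - g w) = exv V v x f - exv V v x g :=
  integral_sub (hf.integrable_back hV hv x) (hg.integrable_back hV hv x)

theorem exv_sum (x : E d) {κ : Type*} (s : Finset κ) {f : κ → E d → ℝ}
    (hf : ∀ i ∈ s, Gr (f i)) :
    exv V v x (fun w => ∑ i ∈ s, f i w) = ∑ i ∈ s, exv V v x (f i) :=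
  integral_finsetSum _ fun i hi => (hf i hi).integrable_back hV hv x

theorem exv_mono (x : E d) {f g : E d → ℝ} (hf : Gr f) (hg : Gr g) (h : ∀ w, f w ≤ g w) :
    exv V v x f ≤ exv V v x g :=
  integral_mono (hf.integrable_back hV hv x) (hg.integrable_back hV hv x) h

end

theorem exv_const_mul (x : E d) (c : ℝ) (f : E d → ℝ) :
    exv V v x (fun w => c * f w) = c * exv V v x f := integral_const_mul c f

theorem contDiffOn_exv (hV : Colour.Cls (id : Fin d → Fin d) V) {f : E d → ℝ} (hf : Gr f) :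
    ContDiffOn ℝ ∞ (fun p : ℝ × E d => exv V p.1 p.2 f) (Ioi 0 ×ˢ univ) := by
  have hp : ContDiffOn ℝ ∞ (fun p : ℝ × E d => par p.1 p.2) (Ioi 0 ×ˢ univ) := by
    have hne : ∀ p ∈ Ioi (0 : ℝ) ×ˢ (univ : Set (E d)), p.1 ≠ 0 := fun p hp => ne_of_gt hp.1
    unfold par
    exact (contDiffOn_const.div (contDiffOn_const.mul contDiff_fst.contDiffOn)
      fun p hp => mul_ne_zero two_ne_zero (hne p hp)).prodMk
        ((contDiff_fst.contDiffOn.inv hne).smul contDiff_snd.contDiffOn)
  have hm : MapsTo (fun p : ℝ × E d => par p.1 p.2) (Ioi 0 ×ˢ univ) (Ioi 0 ×ˢ univ) :=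
    fun p hp => ⟨par_pos (mem_Ioi.1 hp.1) _, trivial⟩
  refine ContDiffOn.congr (f := fun p : ℝ × E d =>
    lap V f (par p.1 p.2) / lap V (fun _ => 1) (par p.1 p.2)) ?_ fun p hp => exv_eq_lap hV hp.1 p.2 f
  exact ((contDiffOn_lap hV hf).comp hp hm).div ((contDiffOn_lap hV (gr_const 1)).comp hp hm)
    fun p hp => (lap_one_pos hV (par_pos (mem_Ioi.1 hp.1) _).le).ne'

theorem contDiff_exv (hV : Colour.Cls (id : Fin d → Fin d) V) (hv : 0 < v) {f : E d → ℝ}
    (hf : Gr f) : ContDiff ℝ ∞ fun x => exv V v x f :=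
  contDiffOn_univ.1 ((contDiffOn_exv hV hf).comp (f := fun x : E d => (v, x))
    (contDiff_const.prodMk contDiff_id).contDiffOn fun _ _ => ⟨hv, trivial⟩)

/-! ## The mean gradient -/

theorem gr_gOf (hV : Colour.Cls (id : Fin d → Fin d) V) (i : Fin d) :
    Gr fun w => gOf (oracle V) w i := by
  have hg := Quarter.pot_gOf hV
  refine Gr.of_le ((PiLp.continuous_apply 2 _ i).comp hg.smooth.continuous).measurable (C := 2)
    fun w => ?_
  have := (PiLp.norm_apply_le (gOf (oracle V) w) i).trans (Quarter.Tgt.pot_lin hg w)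
  rw [norm_eq_abs] at this
  nlinarith

theorem Nv_apply (hV : Colour.Cls (id : Fin d → Fin d) V) (hv : 0 < v) (x : E d) (i : Fin d) :
    Nv V v x i = exv V v x fun w => gOf (oracle V) w i := by
  have hg := Quarter.pot_gOf hV
  have hi : Integrable (gOf (oracle V)) (back v V x) :=
    ((Gr.of_le measurable_norm (C := 1) fun w => by rw [abs_norm]; linarith).const_mul
      2).integrable_back hV hv x |>.mono' hg.smooth.continuous.aestronglyMeasurable
      (ae_of_all _ fun w => Quarter.Tgt.pot_lin hg w)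
  exact ((EuclideanSpace.proj i : E d →L[ℝ] ℝ).integral_comp_comm hi).symm

theorem Nv_contDiffOn (hV : Colour.Cls (id : Fin d → Fin d) V) :
    ContDiffOn ℝ ∞ (fun p : ℝ × E d => Nv V p.1 p.2) (Ioi 0 ×ˢ univ) :=
  contDiffOn_piLp' 2 fun i => (contDiffOn_exv hV (gr_gOf hV i)).congr fun p hp =>
    Nv_apply hV (mem_Ioi.1 hp.1) p.2 i

theorem Nv_smooth (hV : Colour.Cls (id : Fin d → Fin d) V) (hv : 0 < v) :
    ContDiff ℝ ∞ (Nv V v) ∧ SmoothTF (vecT (Nv V v)) := by
  have h : ∀ i, ContDiff ℝ ∞ fun x => Nv V v x i := fun i => by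
    simpa only [Nv_apply hV hv] using contDiff_exv hV hv (gr_gOf hV i)
  exact ⟨contDiff_piLp' 2 h, fun i => h (i ())⟩

/-- The score of the posterior in `x`. -/
def q1 (V : Colour.Pt d → ℝ) (v : ℝ) (h : Fin d) (x w : E d) : ℝ := (w h - x h) / v + Nv V v x h

theorem gr_q1 (h : Fin d) (x : E d) : Gr (q1 V v h x) := by
  have := (((gr_coord h).sub (gr_const (x h))).const_mul v⁻¹).add (gr_const (Nv V v x h))
  unfold q1
  simpa only [div_eq_inv_mul] using this

/-- The mean of a coordinate. -/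
theorem exv_coord (hV : Colour.Cls (id : Fin d → Fin d) V) (hv : 0 < v) (x : E d) (h : Fin d) :
    exv V v x (fun w => w h) = x h - v * Nv V v x h := by
  have k := Quarter.Tgt.back_ibp hV hv x (F := fun _ => EuclideanSpace.single h (1 : ℝ))
    contDiff_const (B := 1) (fun _ => by simp) (K := 0) fun _ => by simp
  have e : ∀ w : E d, ⟪EuclideanSpace.single h (1 : ℝ), v • gOf (oracle V) w + w - x⟫
      = (v * gOf (oracle V) w h + w h) - x h := fun w => by
    simp [EuclideanSpace.inner_single_left]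
  simp only [e] at k
  simp [Quarter.Tgt.tr] at k
  change exv V v x (fun w => v * gOf (oracle V) w h + w h - x h) = 0 at k
  rw [exv_sub hV hv x (((gr_gOf hV h).const_mul v).add (gr_coord h)) (gr_const _),
    exv_add hV hv x ((gr_gOf hV h).const_mul v) (gr_coord h), exv_const_mul, exv_const hV hv,
    ← Nv_apply hV hv] at k
  linarith

theorem exv_mul_q1 (hV : Colour.Cls (id : Fin d → Fin d) V) (hv : 0 < v) (x : E d) (h : Fin d)
    {f : E d → ℝ} (hf : Gr f) : exv V v x (fun w => f w * q1 V v h x w)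
      = (exv V v x (fun w => f w * w h) - exv V v x f * exv V v x fun w => w h) / v := by
  have e : ∀ w, f w * q1 V v h x w = v⁻¹ * (f w * w h) + (Nv V v x h - x h / v) * f w := fun w => by
    simp only [q1]; field_simp; ring
  simp only [e]
  rw [exv_add hV hv x ((hf.mul (gr_coord h)).const_mul _) (hf.const_mul _), exv_const_mul,
    exv_const_mul, exv_coord hV hv]
  field_simp
  ring

theorem exv_q1 (hV : Colour.Cls (id : Fin d → Fin d) V) (hv : 0 < v) (x : E d) (h : Fin d) :
    exv V v x (q1 V v h x) = 0 := by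
  have k := exv_mul_q1 hV hv x h (f := fun _ => (1 : ℝ)) (gr_const _)
  simpa [exv_const hV hv] using k

/-- Differentiating a posterior mean multiplies by the score. -/
theorem pd_exv (hV : Colour.Cls (id : Fin d → Fin d) V) (hv : 0 < v) {f : E d → ℝ} (hf : Gr f)
    (h : Fin d) (x : E d) :
    pd h (fun x => exv V v x f) x = exv V v x fun w => f w * q1 V v h x w := by
  have hp : HasFDerivAt (fun x : E d => par v x)
      ((0 : E d →L[ℝ] ℝ).prod (v⁻¹ • ContinuousLinearMap.id ℝ (E d))) x :=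
    (hasFDerivAt_const _ x).prodMk ((hasFDerivAt_id x).const_smul v⁻¹)
  have h1 := fun (φ : E d → ℝ) (hφ : Gr φ) =>
    (hasFDerivAt_lap hV hφ (par_pos hv x)).comp x hp
  have hne := (lap_one_pos hV (par_pos hv x).le).ne'
  have k := (h1 f hf).mul ((hasDerivAt_inv hne).comp_hasFDerivAt x (h1 _ (gr_const 1)))
  rw [pd, show (fun x => exv V v x f)
    = fun x => lap V f (par v x) * (lap V (fun _ => 1) (par v x))⁻¹ from
      funext fun x => by rw [exv_eq_lap hV hv x f, div_eq_mul_inv]]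
  refine (DFunLike.congr_fun k.fderiv (unitV h)).trans ?_
  rw [exv_mul_q1 hV hv x h hf, exv_eq_lap hV hv, exv_eq_lap hV hv, exv_eq_lap hV hv]
  simp [lapD, unitV]
  field_simp
  ring

theorem pd_Nv (hV : Colour.Cls (id : Fin d → Fin d) V) (hv : 0 < v) (o h : Fin d) (x : E d) :
    pd h (fun x => Nv V v x o) x = exv V v x fun w => gOf (oracle V) w o * q1 V v h x w := by
  simp only [Nv_apply hV hv]
  exact pd_exv hV hv (gr_gOf hV o) h x

theorem pd_Nv_symm (hV : Colour.Cls (id : Fin d → Fin d) V) (hv : 0 < v) (o h : Fin d) (x : E d) :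
    pd h (fun x => Nv V v x o) x = pd o (fun x => Nv V v x h) x := by
  have e : ∀ o h : Fin d, pd h (fun x => Nv V v x o) x
      = ((if o = h then 1 else 0) - exv V v x (fun w => w o * q1 V v h x w)) / v := by
    intro o h
    rw [show (fun x => Nv V v x o) = fun x => (x o - exv V v x fun w => w o) / v from funext fun x => by
      rw [exv_coord hV hv]; field_simp; ring, ← pd_exv hV hv (gr_coord o) h x]
    have h1 := ((EuclideanSpace.proj o : E d →L[ℝ] ℝ).hasFDerivAt (x := x)).sub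
      (((contDiff_exv hV hv (gr_coord o)).differentiable (by simp)) x).hasFDerivAt
    refine (DFunLike.congr_fun (h1.mul_const v⁻¹).fderiv (unitV h)).trans ?_
    simp [pd, unitV, PiLp.single_apply, eq_comm]
    ring
  rw [e, e, exv_mul_q1 hV hv x h (gr_coord o), exv_mul_q1 hV hv x o (gr_coord h)]
  simp only [eq_comm (a := o), mul_comm (exv V v x fun w => w o)]
  rw [show (fun w : E d => w o * w h) = fun w => w h * w o from funext fun w => mul_comm _ _]

theorem fderiv_Nv_apply (hV : Colour.Cls (id : Fin d → Fin d) V) (hv : 0 < v) (x u : E d)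
    (o : Fin d) : fderiv ℝ (Nv V v) x u o = ∑ h, u h * pd h (fun x => Nv V v x o) x := by
  have hd := ((Nv_smooth hV hv).1.differentiable (by simp) x).hasFDerivAt
  have h1 := ((EuclideanSpace.proj o : E d →L[ℝ] ℝ).hasFDerivAt.comp x hd).fderiv
  have hu : u = ∑ i, u i • unitV i := by
    simpa [unitV] using ((EuclideanSpace.basisFun (Fin d) ℝ).sum_repr u).symm
  conv_lhs => rw [hu]
  simp only [pd, map_sum, map_smul]
  rw [show fderiv ℝ (fun x => Nv V v x o) x = _ from h1]
  simp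

theorem Nv_symm (hV : Colour.Cls (id : Fin d → Fin d) V) (hv : 0 < v) (x u w : E d) :
    ⟪fderiv ℝ (Nv V v) x u, w⟫ = ⟪u, fderiv ℝ (Nv V v) x w⟫ := by
  simp only [PiLp.inner_apply, RCLike.inner_apply, conj_trivial, fderiv_Nv_apply hV hv,
    Finset.mul_sum, Finset.sum_mul]
  rw [Finset.sum_comm]
  refine Finset.sum_congr rfl fun i _ => Finset.sum_congr rfl fun j _ => ?_
  rw [pd_Nv_symm hV hv j i]
  ring

/-! ## Poincaré under the posterior -/

theorem exv_sq_sub_le (hV : Colour.Cls (id : Fin d → Fin d) V) (hv : 0 < v) (x : E d) {f : E d → ℝ}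
    (hf : Gr f) (hf1 : ContDiff ℝ 1 f) (hdf : Gr fun w => ‖fderiv ℝ f w‖) :
    exv V v x (fun w => (f w - exv V v x f) ^ 2)
      ≤ v * exv V v x fun w => ‖fderiv ℝ f w‖ ^ 2 := by
  have h0 : 0 ≤ exv V v x fun w => ‖fderiv ℝ f w‖ ^ 2 :=
    integral_nonneg fun w => sq_nonneg _
  refine (Quarter.Tgt.lawE_poincare (sc_back hV hv x) (by positivity) hf1
    (hf.sq.integrable_back hV hv x) (hdf.sq.integrable_back hV hv x)).trans ?_
  rw [div_le_iff₀ (by positivity)]
  calc _ = v * (exv V v x fun w => ‖fderiv ℝ f w‖ ^ 2) * (1 / v) := by field_simp; rfl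
    _ ≤ _ := by gcongr; linarith

/-- The Cauchy–Schwarz inequality. -/
theorem abs_exv_mul_le (hV : Colour.Cls (id : Fin d → Fin d) V) (hv : 0 < v) (x : E d)
    {f g : E d → ℝ} (hf : Gr f) (hg : Gr g) {P Q : ℝ} (hP : 0 ≤ P) (hQ : 0 ≤ Q)
    (hfP : exv V v x (fun w => f w ^ 2) ≤ P ^ 2) (hgQ : exv V v x (fun w => g w ^ 2) ≤ Q ^ 2) :
    |exv V v x fun w => f w * g w| ≤ P * Q := by
  set A := exv V v x fun w => f w ^ 2
  set B := exv V v x fun w => f w * g w
  set C := exv V v x fun w => g w ^ 2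
  have hd : discrim C (2 * B) A ≤ 0 := by
    refine discrim_le_zero fun t => ?_
    have h0 : 0 ≤ exv V v x (fun w => (f w + t * g w) ^ 2) := integral_nonneg fun w => sq_nonneg _
    have e : ∀ w, (f w + t * g w) ^ 2 = f w ^ 2 + (t * t * g w ^ 2 + 2 * t * (f w * g w)) := fun w => by
      ring
    simp only [e] at h0
    rw [exv_add hV hv x hf.sq ((hg.sq.const_mul _).add ((hf.mul hg).const_mul _)),
      exv_add hV hv x (hg.sq.const_mul _) ((hf.mul hg).const_mul _), exv_const_mul,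
      exv_const_mul] at h0
    linarith
  have hA : 0 ≤ A := integral_nonneg fun w => sq_nonneg _
  have hC : 0 ≤ C := integral_nonneg fun w => sq_nonneg _
  refine abs_le_of_sq_le_sq ?_ (mul_nonneg hP hQ)
  rw [mul_pow]
  simp only [discrim] at hd
  nlinarith [mul_le_mul hfP hgQ hC (sq_nonneg P)]

theorem hasFDerivAt_inner_left (u w : E d) :
    HasFDerivAt (fun w : E d => ⟪u, w⟫) (innerSL ℝ u) w := (innerSL ℝ u).hasFDerivAt

theorem gr_inner (u : E d) {F : E d → E d} (hF : ∀ i, Gr fun w => F w i) :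
    Gr fun w => ⟪u, F w⟫ := by
  simp only [PiLp.inner_apply, RCLike.inner_apply, conj_trivial]
  exact gr_sum _ fun i _ => (hF i).mul (gr_const _)

theorem exv_inner (hV : Colour.Cls (id : Fin d → Fin d) V) (hv : 0 < v) (x u : E d)
    {F : E d → E d} (hF : ∀ i, Gr fun w => F w i) :
    exv V v x (fun w => ⟪u, F w⟫) = ∑ i, exv V v x (fun w => F w i) * u i := by
  simp only [PiLp.inner_apply, RCLike.inner_apply, conj_trivial]
  rw [exv_sum hV hv x _ fun i _ => (hF i).mul (gr_const _)]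
  exact Finset.sum_congr rfl fun i _ => integral_mul_const _ _

theorem exv_var_g (hV : Colour.Cls (id : Fin d → Fin d) V) (hv : 0 < v) (x u : E d) :
    exv V v x (fun w => (⟪u, gOf (oracle V) w⟫ - ⟪u, Nv V v x⟫) ^ 2) ≤ v * (2 * ‖u‖) ^ 2 := by
  have hg := Quarter.pot_gOf hV
  have hgr := gr_inner u (gr_gOf hV)
  have hd : ∀ w, HasFDerivAt (fun w => ⟪u, gOf (oracle V) w⟫)
      ((innerSL ℝ u).comp (fderiv ℝ (gOf (oracle V)) w)) w := fun w =>
    (innerSL ℝ u).hasFDerivAt.comp w (hg.smooth.differentiable one_ne_zero w).hasFDerivAt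
  have hn : ∀ w, ‖fderiv ℝ (fun w => ⟪u, gOf (oracle V) w⟫) w‖ ≤ 2 * ‖u‖ := fun w => by
    rw [(hd w).fderiv]
    refine (ContinuousLinearMap.opNorm_comp_le _ _).trans ?_
    rw [innerSL_apply_norm, mul_comm (2 : ℝ)]
    exact mul_le_mul_of_nonneg_left (Quarter.Tgt.pot_norm hg w) (norm_nonneg _)
  have hc : ContDiff ℝ 1 fun w => ⟪u, gOf (oracle V) w⟫ := (innerSL ℝ u).contDiff.comp hg.smooth
  have hdg : Gr fun w => ‖fderiv ℝ (fun w => ⟪u, gOf (oracle V) w⟫) w‖ :=
    Gr.of_le (hc.continuous_fderiv one_ne_zero).norm.measurable (C := 2 * ‖u‖) fun w => by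
      rw [abs_norm]; nlinarith [hn w, norm_nonneg w, norm_nonneg u]
  have hm : exv V v x (fun w => ⟪u, gOf (oracle V) w⟫) = ⟪u, Nv V v x⟫ := by
    rw [exv_inner hV hv x u (gr_gOf hV)]
    simp [PiLp.inner_apply, Nv_apply hV hv, mul_comm]
  have k := exv_sq_sub_le hV hv x hgr hc hdg
  rw [hm] at k
  refine k.trans (mul_le_mul_of_nonneg_left ((exv_mono hV hv x hdg.sq (gr_const ((2 * ‖u‖) ^ 2))
    fun w => pow_le_pow_left₀ (norm_nonneg _) (hn w) 2).trans_eq (exv_const hV hv x _)) hv.le)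

theorem exv_var_coord (hV : Colour.Cls (id : Fin d → Fin d) V) (hv : 0 < v) (x u : E d) :
    exv V v x (fun w => (⟪u, w⟫ - ⟪u, x - v • Nv V v x⟫) ^ 2) ≤ v * ‖u‖ ^ 2 := by
  have hgr := gr_inner u (F := fun w : E d => w) gr_coord
  have hn : ∀ w, ‖fderiv ℝ (fun w : E d => ⟪u, w⟫) w‖ = ‖u‖ := fun w => by
    rw [(hasFDerivAt_inner_left u w).fderiv, innerSL_apply_norm]
  have hdg : Gr fun w => ‖fderiv ℝ (fun w : E d => ⟪u, w⟫) w‖ := by
    simpa only [hn] using gr_const ‖u‖
  have hm : exv V v x (fun w => ⟪u, w⟫) = ⟪u, x - v • Nv V v x⟫ := by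
    rw [exv_inner hV hv x u (F := fun w : E d => w) gr_coord]
    simp [PiLp.inner_apply, exv_coord hV hv, mul_comm]
  have k := exv_sq_sub_le hV hv x hgr (innerSL ℝ u).contDiff hdg
  simpa only [hm, hn, exv_const hV hv] using k

theorem Nv_fderiv_le (hV : Colour.Cls (id : Fin d → Fin d) V) (hv : 0 < v) (x : E d) :
    ‖fderiv ℝ (Nv V v) x‖ ≤ 2 := by
  refine Quarter.Tgt.norm_le_of_quad zero_le_two (Nv_symm hV hv x) fun u => ?_
  set f := fun w => ⟪u, gOf (oracle V) w⟫ - ⟪u, Nv V v x⟫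
  set g := fun w : E d => v⁻¹ * (⟪u, w⟫ - ⟪u, x - v • Nv V v x⟫)
  have hf : Gr f := (gr_inner u (gr_gOf hV)).sub (gr_const _)
  have hg : Gr g := ((gr_inner u (F := fun w : E d => w) gr_coord).sub (gr_const _)).const_mul _
  have e : ⟪fderiv ℝ (Nv V v) x u, u⟫ = exv V v x fun w => f w * g w := by
    have e1 : ∀ w, g w = ∑ h, u h * q1 V v h x w := fun w => by
      simp only [g, PiLp.inner_apply, RCLike.inner_apply, conj_trivial, mul_sub, Finset.mul_sum,
        ← Finset.sum_sub_distrib]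
      refine Finset.sum_congr rfl fun h _ => ?_
      simp [q1]; field_simp; ring
    simp only [e1, Finset.mul_sum]
    rw [exv_sum hV hv x _ fun h _ => hf.mul ((gr_q1 h x).const_mul _)]
    simp only [PiLp.inner_apply, RCLike.inner_apply, conj_trivial, fderiv_Nv_apply hV hv,
      Finset.mul_sum]
    rw [Finset.sum_comm]
    refine Finset.sum_congr rfl fun h _ => ?_
    have e2 : ∀ w, f w * (u h * q1 V v h x w)
        = u h * ((∑ o, u o * (gOf (oracle V) w o * q1 V v h x w))
          - ⟪u, Nv V v x⟫ * q1 V v h x w) := fun w => by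
      simp only [f, ← mul_assoc, ← Finset.sum_mul, PiLp.inner_apply, RCLike.inner_apply,
        conj_trivial]
      simp only [mul_comm (gOf (oracle V) w _)]
      ring
    simp only [e2]
    rw [exv_const_mul, exv_sub hV hv x
      (gr_sum _ fun o _ => ((gr_gOf hV o).mul (gr_q1 h x)).const_mul _) ((gr_q1 h x).const_mul _),
      exv_const_mul, exv_q1 hV hv, mul_zero, sub_zero,
      exv_sum hV hv x _ fun o _ => ((gr_gOf hV o).mul (gr_q1 h x)).const_mul _, Finset.mul_sum]
    refine Finset.sum_congr rfl fun o _ => ?_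
    rw [exv_const_mul, pd_Nv hV hv]
    ring
  rw [e]
  have hg2 : exv V v x (fun w => g w ^ 2) ≤ (‖u‖ / √v) ^ 2 := by
    simp only [g, mul_pow]
    rw [exv_const_mul, div_pow, sq_sqrt hv.le]
    refine (mul_le_mul_of_nonneg_left (exv_var_coord hV hv x u) (sq_nonneg _)).trans_eq ?_
    field_simp
  refine (abs_exv_mul_le hV hv x hf hg (by positivity : (0 : ℝ) ≤ √v * (2 * ‖u‖)) (by positivity)
    ((exv_var_g hV hv x u).trans_eq (by rw [mul_pow √v, sq_sqrt hv.le])) hg2).trans_eq ?_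
  field_simp

theorem Nv_lip (hV : Colour.Cls (id : Fin d → Fin d) V) (hv : 0 < v) (x y : E d) :
    ‖Nv V v x - Nv V v y‖ ≤ 2 * ‖x - y‖ :=
  convex_univ.norm_image_sub_le_of_norm_fderiv_le (fun z _ => (Nv_smooth hV hv).1.differentiable
    (by simp) z) (fun z _ => Nv_fderiv_le hV hv z) (mem_univ y) (mem_univ x)

theorem exv_dist_sq_le (hV : Colour.Cls (id : Fin d → Fin d) V) (hv : 0 < v) (x : E d) :
    exv V v x (fun w => ‖w - x‖ ^ 2) ≤ v * d + v ^ 2 * ‖Nv V v x‖ ^ 2 := by
  simp only [EuclideanSpace.norm_sq_eq, norm_eq_abs, sq_abs, PiLp.sub_apply, Finset.mul_sum]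
  rw [exv_sum hV hv x _ fun i _ => ((gr_coord i).sub (gr_const (x i))).sq,
    show v * (d : ℝ) = ∑ _i : Fin d, v by simp [mul_comm], ← Finset.sum_add_distrib]
  refine Finset.sum_le_sum fun i _ => ?_
  have hi := exv_var_coord hV hv x (EuclideanSpace.single i 1)
  simp only [EuclideanSpace.inner_single_left, map_one, one_mul, PiLp.norm_single, norm_one,
    one_pow, mul_one, PiLp.sub_apply, PiLp.smul_apply, smul_eq_mul] at hi
  set m := x i - v * Nv V v x i with hm
  have e : ∀ w : E d, (w i - x i) ^ 2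
      = (w i - m) ^ 2 + (2 * (m - x i) * w i - (m ^ 2 - x i ^ 2)) := fun w => by ring
  simp only [e]
  rw [exv_add hV hv x ((gr_coord i).sub (gr_const m)).sq (((gr_coord i).const_mul _).sub (gr_const _)),
    exv_sub hV hv x ((gr_coord i).const_mul _) (gr_const _), exv_const_mul, exv_const hV hv,
    exv_coord hV hv]
  have : 2 * (m - x i) * (x i - v * Nv V v x i) - (m ^ 2 - x i ^ 2) = v ^ 2 * Nv V v x i ^ 2 := by
    rw [hm]; ring
  linarith

theorem Nv_sub_g_le (hV : Colour.Cls (id : Fin d → Fin d) V) (hv : 0 < v) (hv' : v ≤ 1 / 4)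
    (x : E d) : ‖Nv V v x - gOf (oracle V) x‖
      ≤ 4 * √(v * d) + 4 * v * ‖gOf (oracle V) x‖ := by
  set g := gOf (oracle V)
  set u := Nv V v x - g x
  have hg := Quarter.pot_gOf hV
  have hs : ∀ i, Gr fun w => (g w - g x) i := fun i => by
    simpa using (gr_gOf hV i).sub (gr_const (g x i))
  have hgr := gr_inner u hs
  have hdist : Gr fun w => ‖w - x‖ :=
    Gr.of_le (by fun_prop) (C := 1 + ‖x‖) fun w => by
      rw [abs_norm]
      nlinarith [norm_sub_le w x, norm_nonneg w, norm_nonneg x]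
  have e : exv V v x (fun w => ⟪u, g w - g x⟫ * 1) = ‖u‖ ^ 2 := by
    simp only [mul_one]
    rw [exv_inner hV hv x u hs, EuclideanSpace.norm_sq_eq]
    refine Finset.sum_congr rfl fun i _ => ?_
    simp only [PiLp.sub_apply]
    rw [exv_sub hV hv x (gr_gOf hV i) (gr_const _), exv_const hV hv, ← Nv_apply hV hv,
      norm_eq_abs, sq_abs, sq]
    simp [u]
  set S := √(v * d) + v * ‖Nv V v x‖
  have hS : exv V v x (fun w => ⟪u, g w - g x⟫ ^ 2) ≤ (‖u‖ * (2 * S)) ^ 2 := by
    refine (exv_mono hV hv x hgr.sq (hdist.sq.const_mul ((2 * ‖u‖) ^ 2)) fun w => ?_).trans ?_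
    · rw [← sq_abs, ← mul_pow]
      refine pow_le_pow_left₀ (abs_nonneg _) ((abs_real_inner_le_norm _ _).trans ?_) 2
      rw [mul_assoc, mul_left_comm]
      refine mul_le_mul_of_nonneg_left ?_ (norm_nonneg _)
      exact convex_univ.norm_image_sub_le_of_norm_fderiv_le
        (fun y _ => hg.smooth.differentiable one_ne_zero y)
        (fun y _ => Quarter.Tgt.pot_norm hg y) (mem_univ x) (mem_univ w)
    · rw [exv_const_mul, show (‖u‖ * (2 * S)) ^ 2 = (2 * ‖u‖) ^ 2 * S ^ 2 by ring]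
      refine mul_le_mul_of_nonneg_left ((exv_dist_sq_le hV hv x).trans ?_) (sq_nonneg _)
      nlinarith [sq_sqrt (show 0 ≤ v * d by positivity), mul_nonneg (mul_nonneg hv.le (sqrt_nonneg (v * d))) (norm_nonneg (Nv V v x))]
  have k := abs_exv_mul_le hV hv x hgr (gr_const 1) (P := ‖u‖ * (2 * S)) (Q := 1) (by positivity)
    zero_le_one hS (by simp [exv_const hV hv])
  rw [e, abs_of_nonneg (sq_nonneg _), mul_one] at k
  have h1 : ‖u‖ ≤ 2 * S := by
    rcases (norm_nonneg u).eq_or_lt with h | h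
    · rw [← h]; positivity
    · exact le_of_mul_le_mul_left (by linarith) h
  have h2 : ‖Nv V v x‖ ≤ ‖g x‖ + ‖u‖ := by
    simpa [u] using norm_add_le (g x) u
  nlinarith [norm_nonneg u, sqrt_nonneg (v * d), norm_nonneg (g x), norm_nonneg (Nv V v x)]

theorem Nv_norm_le (hV : Colour.Cls (id : Fin d → Fin d) V) (hv : 0 < v) (hv' : v ≤ 1 / 4)
    (x : E d) : ‖Nv V v x‖ ≤ 4 * (√(v * d) + ‖x‖) := by
  have h1 := Nv_sub_g_le hV hv hv' x
  have h2 := Quarter.Tgt.pot_lin (Quarter.pot_gOf hV) x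
  have h3 : ‖Nv V v x‖ ≤ ‖gOf (oracle V) x‖ + ‖Nv V v x - gOf (oracle V) x‖ := by
    simpa using norm_add_le (gOf (oracle V) x) (Nv V v x - gOf (oracle V) x)
  nlinarith [norm_nonneg (gOf (oracle V) x), norm_nonneg x,
    mul_le_mul_of_nonneg_right hv' (norm_nonneg (gOf (oracle V) x))]

/-! ## The smoothed density -/

theorem integrable_dV_shift (hV : Colour.Cls (id : Fin d → Fin d) V) (s : ℝ) (x : E d) :
    Integrable (fun w => dV V (x + s • w)) (γ d) :=
  Integrable.of_bound ((continuous_dV hV).comp (by fun_prop)).aestronglyMeasurable 1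
    (ae_of_all _ fun w => by rw [norm_of_nonneg (dV_pos _).le]; exact dV_le_one hV _)

theorem rho_pos (hV : Colour.Cls (id : Fin d → Fin d) V) (v : ℝ) (x : E d) :
    0 < rho V v x :=
  integral_exp_pos (integrable_dV_shift hV (√v) x)

theorem uPot_nonneg (hV : Colour.Cls (id : Fin d → Fin d) V) (v : ℝ) (x : E d) :
    0 ≤ uPot V v x := by
  refine neg_nonneg.2 (log_nonpos (rho_pos hV v x).le ?_)
  refine (integral_mono (integrable_dV_shift hV (√v) x) (integrable_const 1)
    fun w => dV_le_one hV _).trans_eq ?_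
  simp

/-- The mass of the centred Gaussian kernel of variance `1`. -/
def gMass (d : ℕ) : ℝ := ∫ w : E d, exp (-(‖w‖ ^ 2 / 2))

theorem G_eq_lap (hV : Colour.Cls (id : Fin d → Fin d) V) (hv : 0 < v) (x : E d) (f : E d → ℝ) :
    Quarter.G v (fun w => f w * dV V w) x
      = exp (-(‖x‖ ^ 2 / (2 * v))) * lap V f (par v x) / (√v ^ d * gMass d) := by
  have ha : 0 < 1 / v := one_div_pos.2 hv
  have hq := Quarter.Tgt.quad_integral ha fun w => f (x + w) * dV V (x + w)
  rw [(Colour.sc_quad ha).integral_law, one_div_one_div] at hq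
  rw [Quarter.G, ← hq]
  have e0 : ∀ n : Colour.Pt d, exp (-(1 / v / 2 * Colour.nr n ^ 2))
      = exp (-(‖toLp 2 n‖ ^ 2 / (2 * v))) := fun n => by
    congr 1; simp [Colour.nr]; ring
  simp only [e0]
  rw [integral_pt (fun w => f (x + w) * dV V (x + w) * exp (-(‖w‖ ^ 2 / (2 * v)))),
    integral_pt (fun w => exp (-(‖w‖ ^ 2 / (2 * v))))]
  congr 1
  · rw [lap, ← integral_const_mul, ← integral_sub_right_eq_self
      (fun w => f (x + w) * dV V (x + w) * exp (-(‖w‖ ^ 2 / (2 * v)))) x]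
    refine integral_congr_ae (ae_of_all _ fun w => ?_)
    have := exp_kernel hv x w
    simp only [add_sub_cancel, this]
    ring
  · have h := Measure.integral_comp_smul (volume : Measure (E d))
      (fun w => exp (-(‖w‖ ^ 2 / 2))) (√v)⁻¹
    simp only [norm_smul, norm_inv, norm_eq_abs, abs_of_nonneg (sqrt_nonneg v), mul_pow, inv_pow,
      sq_sqrt hv.le, inv_inv, finrank_euclideanSpace, Fintype.card_fin, smul_eq_mul] at h
    rw [abs_of_nonneg (pow_nonneg (sqrt_nonneg v) d)] at h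
    rw [gMass, ← h]
    refine integral_congr_ae (ae_of_all _ fun w => ?_)
    congr 1
    field_simp

/-- Posterior means are quotients of Gaussian smoothings. -/
theorem exv_eq (hV : Colour.Cls (id : Fin d → Fin d) V) (hv : 0 < v) (x : E d) (f : E d → ℝ) :
    exv V v x f = Quarter.G v (fun w => f w * dV V w) x / rho V v x := by
  have h1 := G_eq_lap hV hv x fun _ => 1
  simp only [one_mul] at h1
  have hne := (rho_pos hV v x).ne'
  rw [rho, show Quarter.G v (dV V) x = _ from h1] at hne ⊢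
  rw [G_eq_lap hV hv, exv_eq_lap hV hv]
  simp only [ne_eq, div_eq_zero_iff, mul_eq_zero, not_or] at hne
  obtain ⟨⟨-, h2⟩, -, h3⟩ := hne
  field_simp

theorem uPot_contDiffOn (hV : Colour.Cls (id : Fin d → Fin d) V) :
    ContDiffOn ℝ ∞ (fun p : ℝ × E d => uPot V p.1 p.2) (Ioi 0 ×ˢ univ) := by
  have hne : ∀ p ∈ Ioi (0 : ℝ) ×ˢ (univ : Set (E d)), 0 < p.1 := fun p hp => hp.1
  have hp : ContDiffOn ℝ ∞ (fun p : ℝ × E d => par p.1 p.2) (Ioi 0 ×ˢ univ) := by
    unfold par
    exact (contDiffOn_const.div (contDiffOn_const.mul contDiff_fst.contDiffOn)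
      fun p hp => mul_ne_zero two_ne_zero (hne p hp).ne').prodMk
        ((contDiff_fst.contDiffOn.inv fun p hp => (hne p hp).ne').smul contDiff_snd.contDiffOn)
  have hm : MapsTo (fun p : ℝ × E d => par p.1 p.2) (Ioi 0 ×ˢ univ) (Ioi 0 ×ˢ univ) :=
    fun p hp => ⟨par_pos (hne p hp) _, trivial⟩
  have e : ∀ p ∈ Ioi (0 : ℝ) ×ˢ (univ : Set (E d)), rho V p.1 p.2 = exp (-(‖p.2‖ ^ 2 / (2 * p.1)))
      * lap V (fun _ => 1) (par p.1 p.2) / (√p.1 ^ d * gMass d) := fun p hp => by
    have := G_eq_lap hV (hne p hp) p.2 fun _ => 1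
    simp only [one_mul] at this
    exact this
  have hr : ContDiffOn ℝ ∞ (fun p : ℝ × E d => rho V p.1 p.2) (Ioi 0 ×ˢ univ) := by
    refine ContDiffOn.congr (ContDiffOn.div ?_ ?_ ?_) e
    · exact (((contDiff_snd.norm_sq ℝ).contDiffOn.div
        (contDiffOn_const.mul contDiff_fst.contDiffOn)
        fun p hp => mul_ne_zero two_ne_zero (hne p hp).ne').neg.exp).mul
          ((contDiffOn_lap hV (gr_const 1)).comp hp hm)
    · exact ((contDiff_fst.contDiffOn.sqrt fun p hp => (hne p hp).ne').pow d).mul contDiffOn_const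
    · intro p hp h0
      have := rho_pos hV p.1 p.2
      rw [e p hp, h0, div_zero] at this
      exact this.ne' rfl
  exact (hr.log fun p hp => (rho_pos hV p.1 p.2).ne').neg

theorem hasFDerivAt_dV (hV : Colour.Cls (id : Fin d → Fin d) V) (w : E d) :
    HasFDerivAt (dV V) (-(dV V w) • innerSL ℝ (gOf (oracle V) w)) w := by
  have h1 : HasFDerivAt (fun w : E d => V (ofLp w)) _ w :=
    ((hV.smooth.differentiable two_ne_zero (ofLp w)).hasFDerivAt).comp w
      (PiLp.continuousLinearEquiv 2 ℝ fun _ : Fin d => ℝ).hasFDerivAt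
  refine h1.neg.exp.congr_fderiv (ContinuousLinearMap.ext fun u => ?_)
  have e0 : ⟪gOf (oracle V) w, u⟫ = fderiv ℝ V (ofLp w) (ofLp u) := by
    conv_rhs => rw [pi_eq_sum_univ' (ofLp u)]
    simp [gOf, oracle, PiLp.inner_apply]
  simp [dV, e0, PiLp.coe_continuousLinearEquiv]

theorem norm_fderiv_dV_le (hV : Colour.Cls (id : Fin d → Fin d) V) (w : E d) :
    ‖fderiv ℝ (dV V) w‖ ≤ 2 := by
  rw [(hasFDerivAt_dV hV w).fderiv, norm_smul, innerSL_apply_norm, norm_neg,
    norm_of_nonneg (dV_pos w).le]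
  refine (mul_le_mul (dV_le hV w) (Quarter.Tgt.pot_lin (Quarter.pot_gOf hV) w) (norm_nonneg _)
    (exp_pos _).le).trans ?_
  rw [neg_div, exp_neg, inv_mul_le_iff₀ (exp_pos _)]
  nlinarith [add_one_le_exp (‖w‖ ^ 2 / 2), sq_nonneg (‖w‖ - 1)]

theorem contDiff_dV (hV : Colour.Cls (id : Fin d → Fin d) V) : ContDiff ℝ 1 (dV V) := by
  unfold dV
  exact ((hV.smooth.of_le (by norm_num)).comp PiLp.contDiff_ofLp).neg.exp

/-- `Nv` is the gradient of `uPot`. -/
theorem hasGradientAt_uPot (hV : Colour.Cls (id : Fin d → Fin d) V) (hv : 0 < v) (x : E d) :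
    HasGradientAt (uPot V v) (Nv V v x) x := by
  have hd := Quarter.hasFDerivAt_avg (contDiff_dV hV) le_rfl (C := 2)
    (fun y => by simpa using norm_fderiv_dV_le hV y) (√v) x
  have k := (hd.log (rho_pos hV v x).ne').neg
  rw [hasGradientAt_iff_hasFDerivAt]
  refine k.congr_fderiv (ContinuousLinearMap.ext fun u => ?_)
  have hi : Integrable (fun w => fderiv ℝ (dV V) (x + √v • w)) (γ d) :=
    Integrable.of_bound (((contDiff_dV hV).continuous_fderiv one_ne_zero).comp
      (by fun_prop)).aestronglyMeasurable 2 (ae_of_all _ fun w => norm_fderiv_dV_le hV _)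
  have e : (∫ w, fderiv ℝ (dV V) (x + √v • w) ∂γ d) u
      = -(rho V v x * ⟪Nv V v x, u⟫) := by
    rw [ContinuousLinearMap.integral_apply hi]
    simp only [(hasFDerivAt_dV hV _).fderiv, smul_apply, innerSL_apply_apply, smul_eq_mul, neg_mul,
      integral_neg]
    congr 1
    have h2 := exv_eq hV hv x fun w => ⟪u, gOf (oracle V) w⟫
    rw [exv_inner hV hv x u (gr_gOf hV), eq_div_iff (rho_pos hV v x).ne'] at h2
    rw [mul_comm, show ⟪Nv V v x, u⟫ = ∑ i, exv V v x (fun w => gOf (oracle V) w i) * u i by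
      simp [PiLp.inner_apply, Nv_apply hV hv, mul_comm], h2, Quarter.G]
    refine integral_congr_ae (ae_of_all _ fun w => ?_)
    dsimp only
    rw [real_inner_comm u]
    ring
  simp only [neg_apply, smul_apply, smul_eq_mul, InnerProductSpace.toDual_apply_apply]
  change -((rho V v x)⁻¹ * (∫ w, fderiv ℝ (dV V) (x + √v • w) ∂γ d) u) = _
  rw [e]
  field_simp [(rho_pos hV v x).ne']

/-- The heat equation for the logarithm. -/
theorem hasDerivAt_uPot (hV : Colour.Cls (id : Fin d → Fin d) V) (hv : 0 < v) (x : E d) :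
    HasDerivAt (fun s => uPot V s x)
      ((Quarter.Tgt.tr (fderiv ℝ (Nv V v) x) - ‖Nv V v x‖ ^ 2) / 2) v := by
  have hdc := contDiff_dV hV
  have hd : HasDerivAt (fun s => rho V s x)
      (∫ w, fderiv ℝ (dV V) (x + √v • w) ((1 / (2 * √v)) • w) ∂γ d) v := by
    refine (hasDerivAt_integral_of_dominated_loc_of_deriv_le (μ := γ d)
      (F := fun s w => dV V (x + √s • w))
      (F' := fun s w => fderiv ℝ (dV V) (x + √s • w) ((1 / (2 * √s)) • w))
      (bound := fun w => 2 * (1 / (2 * √(v / 2)) * ‖w‖)) (Ioi_mem_nhds (by linarith : v / 2 < v))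
      (Eventually.of_forall fun s => ((continuous_dV hV).comp (by fun_prop)).aestronglyMeasurable)
      (integrable_dV_shift hV (√v) x) ?_ (ae_of_all _ fun w s hs => ?_)
      ((Quarter.γ_norm_integrable.const_mul _).const_mul _) (ae_of_all _ fun w s hs => ?_)).2
    · exact (((hdc.continuous_fderiv one_ne_zero).comp (by fun_prop)).clm_apply
        (by fun_prop)).aestronglyMeasurable
    · rw [mem_Ioi] at hs
      have hs0 : 0 < s := by linarith
      refine (ContinuousLinearMap.le_opNorm _ _).trans (mul_le_mul (norm_fderiv_dV_le hV _) ?_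
        (norm_nonneg _) zero_le_two)
      rw [norm_smul, norm_of_nonneg (by positivity : (0 : ℝ) ≤ 1 / (2 * √s))]
      gcongr
    · rw [mem_Ioi] at hs
      exact (hdc.differentiable one_ne_zero _).hasFDerivAt.comp_hasDerivAt s
        (((Real.hasDerivAt_sqrt (by linarith : s ≠ 0)).smul_const w).const_add x)
  refine ((hd.log (rho_pos hV v x).ne').neg).congr_deriv ?_
  set g := gOf (oracle V)
  have hgm : ∀ i, Measurable fun y => g y i * dV V y := fun i =>
    (gr_gOf hV i).1.mul (continuous_dV hV).measurable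
  have hgb : ∀ i y, |g y i * dV V y| ≤ 2 := fun i y => by
    rw [abs_mul, abs_of_pos (dV_pos y)]
    have h := norm_fderiv_dV_le hV y
    rw [(hasFDerivAt_dV hV y).fderiv, norm_smul, innerSL_apply_norm, norm_neg,
      norm_of_nonneg (dV_pos y).le] at h
    have h' := PiLp.norm_apply_le (g y) i
    rw [norm_eq_abs] at h'
    nlinarith [dV_pos (V := V) y]
  have key : ∀ i, ∫ w, w i * (g (x + √v • w) i * dV V (x + √v • w)) ∂γ d
      = √v * (rho V v x * (pd i (fun y => Nv V v y i) x - Nv V v x i ^ 2)) := by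
    intro i
    obtain ⟨-, hder, -⟩ := Quarter.G_contDiff hv (hgm i) (hgb i)
    have h1 := hder x (unitV i)
    have eG : Quarter.G v (fun y => g y i * dV V y)
        = fun y => rho V v y * Nv V v y i := funext fun y => by
      rw [Nv_apply hV hv, exv_eq hV hv, mul_div_cancel₀ _ (rho_pos hV v y).ne']
    have hu := (hasGradientAt_iff_hasFDerivAt.1 (hasGradientAt_uPot hV hv x))
    have hr : HasFDerivAt (rho V v) (-(rho V v x) • innerSL ℝ (Nv V v x)) x := by
      have he : rho V v = fun y => exp (-uPot V v y) := funext fun y => by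
        rw [uPot, neg_neg, exp_log (rho_pos hV v y)]
      rw [he]
      refine hu.neg.exp.congr_fderiv (ContinuousLinearMap.ext fun u => ?_)
      simp [InnerProductSpace.toDual_apply_apply]
    have hN := (((Nv_smooth hV hv).2 (fun _ => i)).differentiable (by simp) x).hasFDerivAt
    rw [eG] at h1
    rw [show fderiv ℝ (fun y => rho V v y * Nv V v y i) x = _ from (hr.mul hN).fderiv] at h1
    simp [unitV, vecT, EuclideanSpace.inner_single_right, div_mul_eq_mul_div] at h1
    rw [integral_div] at h1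
    rw [eq_div_iff (sqrt_ne_zero'.2 hv)] at h1
    rw [← h1]
    simp [pd, unitV, vecT]
    ring
  have e : ∀ w, fderiv ℝ (dV V) (x + √v • w) ((1 / (2 * √v)) • w)
      = -(1 / (2 * √v)) * ∑ i, w i * (g (x + √v • w) i * dV V (x + √v • w)) := fun w => by
    rw [(hasFDerivAt_dV hV _).fderiv]
    simp [PiLp.inner_apply, Finset.mul_sum, g]
    exact Finset.sum_congr rfl fun i _ => by ring
  have hint : ∀ i, Integrable (fun w : E d => w i * (g (x + √v • w) i * dV V (x + √v • w))) (γ d) :=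
    fun i => (Quarter.γ_norm_integrable.mul_const 2).mono' (Measurable.aestronglyMeasurable
      ((gr_coord i).1.mul ((hgm i).comp (by fun_prop)))) (ae_of_all _ fun w => by
        rw [norm_mul]
        exact mul_le_mul (PiLp.norm_apply_le w i) (hgb i _) (norm_nonneg _) (norm_nonneg _))
  simp only [e]
  rw [integral_const_mul, integral_finsetSum _ fun i _ => hint i]
  simp only [key, ← Finset.mul_sum, Finset.sum_sub_distrib]
  rw [EuclideanSpace.norm_sq_eq, Quarter.Tgt.tr]
  have ht : ∀ i, fderiv ℝ (Nv V v) x (EuclideanSpace.single i 1) i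
      = pd i (fun y => Nv V v y i) x := fun i => by
    rw [fderiv_Nv_apply hV hv, Finset.sum_eq_single i (fun j _ hj => by simp [hj]) (by simp)]
    simp
  simp only [ht, norm_eq_abs, sq_abs]
  field_simp [(rho_pos hV v x).ne', sqrt_ne_zero'.2 hv]

end

end Vale.Agent.P347.Zero
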