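import Vale.Agent.P347.Zero.Prog
import Vale.Agent.P347.Zero.Posterior

/-!
# P347, exponent 0: the calculus of programmes

`ofFam` builds a programme from a family over any finite type, `lc` is a linear combination and
`subst` puts programmes into the slots. Every quantity of a programme is a sum over its top nodes,
so the rules are equalities of sums. `val_lip` bounds the value's variation by `grs`.
-/

namespace Vale.Agent.P347.Zero

open MeasureTheory ProbabilityTheory Real Finset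
open Vale.Agent.P347.Quarter (E γ)
open Vale.Agent.P347.Colour (Pt)

noncomputable section

set_option linter.unusedSectionVars false

namespace Prog

variable {d : ℕ} {σ τ : Type} [Fintype σ] [Fintype τ] {κ : Type} [Fintype κ]

/-- A programme with top nodes indexed by a finite type. -/
def ofFam (l : σ → ℝ) (c : κ → ℝ) (nd : κ → Nd) (ch : κ → Prog σ) : Prog σ :=
  mk (Fintype.card κ) l (fun i => c ((Fintype.equivFin κ).symm i))
    (fun i => nd ((Fintype.equivFin κ).symm i)) fun i => ch ((Fintype.equivFin κ).symm i)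

@[simp] theorem lin_ofFam (l : σ → ℝ) (c : κ → ℝ) (nd : κ → Nd) (ch : κ → Prog σ) :
    (ofFam l c nd ch).lin = l := rfl

@[simp] theorem lin_mk {n : ℕ} (l : σ → ℝ) (c : Fin n → ℝ) (nd : Fin n → Nd)
    (ch : Fin n → Prog σ) : (mk n l c nd ch).lin = l := rfl

/-- A sum over the top nodes. -/
def top {M : Type*} [AddCommMonoid M] (P : Prog σ) (f : ℝ → Nd → Prog σ → M) : M :=
  ∑ i, f (P.coef i) (P.node i) (P.child i)

@[simp] theorem top_ofFam {M : Type*} [AddCommMonoid M] (l : σ → ℝ) (c : κ → ℝ) (nd : κ → Nd)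
    (ch : κ → Prog σ) (f : ℝ → Nd → Prog σ → M) :
    (ofFam l c nd ch).top f = ∑ k, f (c k) (nd k) (ch k) :=
  (Fintype.equivFin κ).symm.sum_comp fun k => f (c k) (nd k) (ch k)

@[simp] theorem top_mk' {M : Type*} [AddCommMonoid M] {n : ℕ} (l : σ → ℝ) (c : Fin n → ℝ)
    (nd : Fin n → Nd) (ch : Fin n → Prog σ) (f : ℝ → Nd → Prog σ → M) :
    (mk n l c nd ch).top f = ∑ i, f (c i) (nd i) (ch i) := rfl

theorem forall_ofFam (l : σ → ℝ) (c : κ → ℝ) (nd : κ → Nd) (ch : κ → Prog σ)
    (p : ℝ → Nd → Prog σ → Prop) :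
    (∀ i, p ((ofFam l c nd ch).coef i) ((ofFam l c nd ch).node i) ((ofFam l c nd ch).child i)) ↔
      ∀ k, p (c k) (nd k) (ch k) :=
  (Fintype.equivFin κ).symm.forall_congr_left.trans
    ⟨fun h k => by simpa [ofFam, coef, node, child] using h k,
      fun h k => by simpa [ofFam, coef, node, child] using h k⟩

theorem val_top (V : Pt d → ℝ) (P : Prog σ) (x : Inp d σ) :
    P.val V x = ∑ s, P.lin s • x s + P.top fun c nd Q => c • nd.val V (Q.val V x) :=
  val_def V P x

theorem grs_top (e : ℝ) (P : Prog σ) (o : σ) :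
    P.grs e o = |P.lin o| + 4 / e * P.top fun c _ Q => |c| * Q.grs e o :=
  grs_def e P o

theorem val_ofFam (V : Pt d → ℝ) (l : σ → ℝ) (c : κ → ℝ) (nd : κ → Nd) (ch : κ → Prog σ)
    (x : Inp d σ) : (ofFam l c nd ch).val V x
      = ∑ s, l s • x s + ∑ k, c k • (nd k).val V ((ch k).val V x) := by
  rw [val_top, top_ofFam, lin_ofFam]

theorem grs_ofFam (e : ℝ) (l : σ → ℝ) (c : κ → ℝ) (nd : κ → Nd) (ch : κ → Prog σ) (o : σ) :
    (ofFam l c nd ch).grs e o = |l o| + 4 / e * ∑ k, |c k| * (ch k).grs e o := by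
  rw [grs_top, top_ofFam, lin_ofFam]

theorem adm_ofFam (h r e : ℝ) (b : σ → ℝ) (l : σ → ℝ) (c : κ → ℝ) (nd : κ → Nd)
    (ch : κ → Prog σ) (β : ℝ) : (ofFam l c nd ch).Adm h r e b β ↔
      ∑ s, |l s| * b s + (∑ k, |c k| * √(nd k).v) / e ≤ β ∧
        ∀ k, (nd k).Ok h r ∧ (ch k).Adm h r e b (nd k).scale := by
  rw [adm_def]
  refine and_congr ?_ (forall_ofFam l c nd ch fun _ n Q => n.Ok h r ∧ Q.Adm h r e b n.scale)
  have := top_ofFam l c nd ch fun c n _ => |c| * √n.v
  rw [top] at this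
  rw [this, lin_ofFam]

theorem grow_ofFam (Γ : ℝ) (l : σ → ℝ) (c : κ → ℝ) (nd : κ → Nd) (ch : κ → Prog σ) :
    (ofFam l c nd ch).Grow d Γ ↔
      ∀ k, (∀ V : Pt d → ℝ, Mem V → ∀ x : Inp d σ, ‖(ch k).val V x‖ ≤ Γ * wt x) ∧
        (ch k).Grow d Γ := by
  rw [grow_def]
  exact forall_ofFam l c nd ch fun _ _ Q =>
    (∀ V : Pt d → ℝ, Mem V → ∀ x : Inp d σ, ‖Q.val V x‖ ≤ Γ * wt x) ∧ Q.Grow d Γ

theorem depth_le_iff (P : Prog σ) (D : ℕ) : P.depth ≤ D ↔ ∀ i, (P.child i).depth < D := by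
  cases P with
  | mk n l c nd ch =>
    rw [depth, Finset.sup_le_iff]
    simp only [mem_univ, true_implies, Nat.lt_iff_add_one_le]
    rfl

theorem depth_ofFam_le {l : σ → ℝ} {c : κ → ℝ} {nd : κ → Nd} {ch : κ → Prog σ} {D : ℕ} :
    (ofFam l c nd ch).depth ≤ D ↔ ∀ k, (ch k).depth < D := by
  rw [depth_le_iff]
  exact forall_ofFam l c nd ch fun _ _ Q => Q.depth < D

theorem size_top (P : Prog σ) : P.size = 1 + P.top fun _ _ Q => 1 + Q.size := by
  cases P; rfl

theorem size_ofFam (l : σ → ℝ) (c : κ → ℝ) (nd : κ → Nd) (ch : κ → Prog σ) :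
    (ofFam l c nd ch).size = 1 + ∑ k, (1 + (ch k).size) := by rw [size_top, top_ofFam]

theorem one_le_size (P : Prog σ) : 1 ≤ P.size := by rw [size_top]; omega

/-- A slot as a programme. -/
def var [DecidableEq σ] (s : σ) : Prog σ := mk 0 (Pi.single s 1) Fin.elim0 Fin.elim0 Fin.elim0

theorem val_var [DecidableEq σ] (V : Pt d → ℝ) (s : σ) (x : Inp d σ) : (var s).val V x = x s := by
  simp [var, val, Pi.single_apply, ite_smul]

theorem adm_var [DecidableEq σ] {h r e : ℝ} {b : σ → ℝ} {s : σ} {β : ℝ} (hb : b s ≤ β) :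
    (var s).Adm h r e b β := by
  refine ⟨?_, fun i => Fin.elim0 i⟩
  simpa [Pi.single_apply, apply_ite abs, ite_mul] using hb

/-- A linear combination. -/
def lc (w : κ → ℝ) (P : κ → Prog σ) : Prog σ :=
  ofFam (fun o => ∑ k, w k * (P k).lin o) (fun p : Σ k, Fin (P k).num => w p.1 * (P p.1).coef p.2)
    (fun p => (P p.1).node p.2) fun p => (P p.1).child p.2

@[simp] theorem lin_lc (w : κ → ℝ) (P : κ → Prog σ) :
    (lc w P).lin = fun o => ∑ k, w k * (P k).lin o := rfl

theorem top_lc {M : Type*} [AddCommMonoid M] (w : κ → ℝ) (P : κ → Prog σ)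
    (f : ℝ → Nd → Prog σ → M) :
    (lc w P).top f = ∑ k, (P k).top fun c nd Q => f (w k * c) nd Q := by
  rw [lc, top_ofFam, Fintype.sum_sigma]
  rfl

theorem val_lc (V : Pt d → ℝ) (w : κ → ℝ) (P : κ → Prog σ) (x : Inp d σ) :
    (lc w P).val V x = ∑ k, w k • (P k).val V x := by
  rw [val_top, top_lc, lin_lc]
  simp only [val_top V (P _) x, top, smul_add, smul_sum, smul_smul, sum_add_distrib, sum_smul]
  rw [sum_comm]

theorem adm_lc {h r e : ℝ} {b : σ → ℝ} {w β : κ → ℝ} {P : κ → Prog σ} {B : ℝ}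
    (hb : ∀ s, 0 ≤ b s) (hP : ∀ k, (P k).Adm h r e b (β k))
    (hB : ∑ k, |w k| * β k ≤ B) : (lc w P).Adm h r e b B := by
  refine (adm_ofFam _ _ _ _ _ _ _ _ _).2
    ⟨?_, fun p => ((adm_def _ _ _ _ _ _).1 (hP p.1)).2 p.2⟩
  refine le_trans (le_trans (add_le_add (sum_le_sum fun o _ => mul_le_mul_of_nonneg_right
      (abs_sum_le_sum_abs _ _) (hb o)) le_rfl) (le_of_eq ?_))
    ((sum_le_sum fun k _ => mul_le_mul_of_nonneg_left ((adm_def _ _ _ _ _ _).1 (hP k)).1
      (abs_nonneg (w k))).trans hB)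
  simp only [abs_mul, sum_mul, mul_assoc, Fintype.sum_sigma]
  rw [sum_comm, Finset.sum_div, ← sum_add_distrib]
  refine sum_congr rfl fun k _ => ?_
  simp [mul_add, mul_sum, mul_div_assoc, Finset.sum_div]

theorem grs_lc {e : ℝ} (w : κ → ℝ) (P : κ → Prog σ) (o : σ) :
    (lc w P).grs e o ≤ ∑ k, |w k| * (P k).grs e o := by
  rw [grs_top, top_lc, lin_lc]
  simp only [grs_top e (P _) o, top, mul_add, sum_add_distrib, mul_sum, abs_mul]
  refine add_le_add ((abs_sum_le_sum_abs _ _).trans (le_of_eq (by simp [abs_mul]))) (le_of_eq ?_)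
  exact sum_congr rfl fun k _ => sum_congr rfl fun i _ => by ring

theorem depth_lc {w : κ → ℝ} {P : κ → Prog σ} {D : ℕ} (hP : ∀ k, (P k).depth ≤ D) :
    (lc w P).depth ≤ D :=
  depth_ofFam_le.2 fun p => (depth_le_iff _ _).1 (hP p.1) p.2

theorem size_lc_le (w : κ → ℝ) (P : κ → Prog σ) : (lc w P).size ≤ 1 + ∑ k, (P k).size := by
  rw [size_top, top_lc]
  exact Nat.add_le_add_left (sum_le_sum fun k _ => by rw [size_top (P k)]; exact Nat.le_add_left _ _) 1

theorem grow_lc {Γ : ℝ} {w : κ → ℝ} {P : κ → Prog σ} (hP : ∀ k, (P k).Grow d Γ) :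
    (lc w P).Grow d Γ :=
  (grow_ofFam Γ _ _ _ _).2 fun p => (grow_def Γ _).1 (hP p.1) p.2

/-- Substitution of programmes for the slots. -/
def subst (Q : τ → Prog σ) : Prog τ → Prog σ
  | mk n l c nd ch =>
    ofFam (fun o => ∑ s, l s * (Q s).lin o)
      (Sum.elim c fun p : Σ s, Fin (Q s).num => l p.1 * (Q p.1).coef p.2)
      (Sum.elim nd fun p => (Q p.1).node p.2)
      (Sum.elim (fun i => subst Q (ch i)) fun p => (Q p.1).child p.2)

@[simp] theorem lin_subst (Q : τ → Prog σ) (P : Prog τ) :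
    (P.subst Q).lin = fun o => ∑ s, P.lin s * (Q s).lin o := by cases P; rfl

theorem top_subst {M : Type*} [AddCommMonoid M] (Q : τ → Prog σ) (P : Prog τ)
    (f : ℝ → Nd → Prog σ → M) :
    (P.subst Q).top f = P.top (fun c nd C => f c nd (C.subst Q))
      + ∑ s, (Q s).top fun c nd C => f (P.lin s * c) nd C := by
  cases P with
  | mk n l c nd ch =>
    rw [subst, top_ofFam, Fintype.sum_sum_type]
    simp only [Sum.elim_inl, Sum.elim_inr, Fintype.sum_sigma]
    rfl

theorem val_subst (V : Pt d → ℝ) (Q : τ → Prog σ) (P : Prog τ) (x : Inp d σ) :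
    (P.subst Q).val V x = P.val V fun s => (Q s).val V x := by
  induction P with
  | mk n l c nd ch ih =>
    rw [val_top, top_subst, lin_subst, top_mk']
    simp only [val, lin_mk, ih, val_top V (Q _) x, top, smul_add, smul_sum,
      smul_smul, sum_add_distrib, sum_smul]
    rw [sum_comm]
    abel

theorem adm_subst {h r e : ℝ} {b : σ → ℝ} {bP : τ → ℝ} (hb : ∀ s, 0 ≤ b s) {Q : τ → Prog σ}
    (hQ : ∀ s, (Q s).Adm h r e b (bP s)) :
    ∀ {P : Prog τ} {β : ℝ}, P.Adm h r e bP β → (P.subst Q).Adm h r e b β := by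
  intro P
  induction P with
  | mk n l c nd ch ih =>
    intro β hP
    rw [subst]
    refine (adm_ofFam _ _ _ _ _ _ _ _ _).2 ⟨?_, ?_⟩
    · refine le_trans ?_ hP.1
      simp only [Fintype.sum_sum_type, Sum.elim_inl, Sum.elim_inr, Fintype.sum_sigma, abs_mul,
        mul_assoc, ← mul_sum, add_div]
      have h1 : ∀ s, |l s| * ((∑ o, |(Q s).lin o| * b o) + (∑ i, |(Q s).coef i| * √((Q s).node i).v) / e)
          ≤ |l s| * bP s := fun s =>
        mul_le_mul_of_nonneg_left ((adm_def _ _ _ _ _ _).1 (hQ s)).1 (abs_nonneg _)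
      have h2 := sum_le_sum fun s (_ : s ∈ univ) => h1 s
      simp only [mul_add, sum_add_distrib, ← mul_div_assoc, ← Finset.sum_div] at h2
      have h3 : ∑ o, |∑ s, l s * (Q s).lin o| * b o ≤ ∑ s, |l s| * ∑ o, |(Q s).lin o| * b o := by
        refine (sum_le_sum fun o _ => mul_le_mul_of_nonneg_right (abs_sum_le_sum_abs _ _) (hb o)).trans
          (le_of_eq ?_)
        simp only [abs_mul, sum_mul, mul_sum, mul_assoc]
        rw [sum_comm]
      linarith
    · rintro (i | p)
      · exact ⟨(hP.2 i).1, ih i (hP.2 i).2⟩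
      · exact ((adm_def _ _ _ _ _ _).1 (hQ p.1)).2 p.2

theorem grs_subst {e : ℝ} (he : 0 ≤ e) (Q : τ → Prog σ) (P : Prog τ) (o : σ) :
    (P.subst Q).grs e o ≤ ∑ s, P.grs e s * (Q s).grs e o := by
  induction P with
  | mk n l c nd ch ih =>
    rw [grs_top, top_subst, lin_subst, top_mk']
    simp only [grs, lin_mk, top, add_mul, sum_add_distrib, abs_mul, mul_assoc]
    have h1 : |∑ s, l s * (Q s).lin o| ≤ ∑ s, |l s| * |(Q s).lin o| :=
      (abs_sum_le_sum_abs _ _).trans (le_of_eq (by simp [abs_mul]))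
    have h2 : ∑ s, |l s| * (Q s).grs e o
        = ∑ s, |l s| * |(Q s).lin o|
          + 4 / e * ∑ s, ∑ i, |l s| * (|(Q s).coef i| * ((Q s).child i).grs e o) := by
      simp only [grs_def e (Q _) o, mul_add, sum_add_distrib, mul_sum]
      refine congrArg₂ (· + ·) rfl (sum_congr rfl fun s _ => sum_congr rfl fun i _ => ?_)
      ring
    have h3 : 4 / e * ∑ i, |c i| * ((ch i).subst Q).grs e o
        ≤ ∑ s, 4 / e * ((∑ i, |c i| * (ch i).grs e s) * (Q s).grs e o) := by
      rw [← mul_sum]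
      refine mul_le_mul_of_nonneg_left ?_ (by positivity)
      simp only [sum_mul]
      rw [sum_comm]
      refine sum_le_sum fun i _ => ?_
      simp only [mul_assoc, ← mul_sum]
      exact mul_le_mul_of_nonneg_left (ih i) (abs_nonneg _)
    rw [mul_add]
    linarith

theorem depth_subst {Q : τ → Prog σ} {D' : ℕ} (hQ : ∀ s, (Q s).depth ≤ D') :
    ∀ {P : Prog τ} {D : ℕ}, P.depth ≤ D → (P.subst Q).depth ≤ D + D' := by
  intro P
  induction P with
  | mk n l c nd ch ih =>
    intro D hD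
    have hch := (depth_le_iff _ _).1 hD
    rw [subst]
    refine depth_ofFam_le.2 ?_
    rintro (i | p)
    · have : (ch i).depth < D := hch i
      have := ih i (le_refl (ch i).depth)
      simp only [Sum.elim_inl]
      omega
    · have := (depth_le_iff _ _).1 (hQ p.1) p.2
      simp only [Sum.elim_inr]
      omega

theorem size_subst (Q : τ → Prog σ) (P : Prog τ) :
    (P.subst Q).size ≤ P.size * (1 + ∑ s, (Q s).size) := by
  induction P with
  | mk n l c nd ch ih =>
    rw [subst, size_ofFam, Fintype.sum_sum_type, Fintype.sum_sigma, size]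
    simp only [Sum.elim_inl, Sum.elim_inr]
    set S := 1 + ∑ s, (Q s).size with hS
    have h1 : ∑ i, (1 + ((ch i).subst Q).size) ≤ ∑ i, (1 + (ch i).size) * S :=
      sum_le_sum fun i _ => by
        rw [Nat.add_mul]
        exact Nat.add_le_add (by omega) (ih i)
    have h2 : ∑ s, ∑ i, (1 + ((Q s).child i).size) ≤ ∑ s, (Q s).size :=
      sum_le_sum fun s _ => by rw [size_top (Q s)]; exact Nat.le_add_left _ _
    rw [← sum_mul] at h1
    rw [Nat.add_mul, one_mul]
    omega

theorem Grow.mono {Γ Γ' : ℝ} (h : Γ ≤ Γ') : ∀ {P : Prog σ}, P.Grow d Γ → P.Grow d Γ' := by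
  intro P
  induction P with
  | mk n l c nd ch ih =>
    intro hP i
    exact ⟨fun V hV x => ((hP i).1 V hV x).trans (mul_le_mul_of_nonneg_right h (wt_nonneg x)),
      ih i (hP i).2⟩

theorem grow_subst {Γ ΓQ : ℝ} (hΓ : 0 ≤ Γ) (hΓQ : 0 ≤ ΓQ) {Q : τ → Prog σ}
    (hQ : ∀ s, (Q s).Grow d ΓQ)
    (hv : ∀ s, ∀ V : Pt d → ℝ, Mem V → ∀ x : Inp d σ, ‖(Q s).val V x‖ ≤ ΓQ * wt x) :
    ∀ {P : Prog τ}, P.Grow d Γ →
      (P.subst Q).Grow d (Γ * (1 + Fintype.card τ * ΓQ) + ΓQ) := by
  intro P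
  induction P with
  | mk n l c nd ch ih =>
    intro hP
    have hP' := (grow_def Γ _).1 hP
    have hle : Γ * (1 + Fintype.card τ * ΓQ) ≤ Γ * (1 + Fintype.card τ * ΓQ) + ΓQ :=
      le_add_of_nonneg_right hΓQ
    have hle' : ΓQ ≤ Γ * (1 + Fintype.card τ * ΓQ) + ΓQ := le_add_of_nonneg_left (by positivity)
    rw [subst, grow_ofFam]
    rintro (i | p)
    · refine ⟨fun V hV x => ?_, ih i (hP' i).2⟩
      simp only [Sum.elim_inl]
      rw [val_subst]
      refine ((hP' i).1 V hV _).trans ?_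
      refine le_trans ?_ (mul_le_mul_of_nonneg_right hle (wt_nonneg x))
      rw [mul_assoc]
      refine mul_le_mul_of_nonneg_left ?_ hΓ
      have h1 : ∑ s, ‖(Q s).val V x‖ ≤ Fintype.card τ * (ΓQ * wt x) :=
        (sum_le_sum fun s _ => hv s V hV x).trans (le_of_eq (by simp))
      have h2 : √(d : ℝ) ≤ wt x := le_add_of_nonneg_right (sum_nonneg fun _ _ => norm_nonneg _)
      show √(d : ℝ) + _ ≤ _
      linarith
    · obtain ⟨h1, h2⟩ := (grow_def ΓQ _).1 (hQ p.1) p.2
      exact ⟨fun V hV x => (h1 V hV x).trans (mul_le_mul_of_nonneg_right hle' (wt_nonneg x)),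
        h2.mono hle'⟩

/-- Smaller blurs, weaker node conditions. -/
theorem Adm.mono_blur {h h' r r' e : ℝ} {b b' : σ → ℝ} (hb : ∀ s, b' s ≤ b s) (hh : h ≤ h')
    (hr : r' ≤ r) : ∀ {P : Prog σ} {β : ℝ}, P.Adm h r e b β → P.Adm h' r' e b' β := by
  intro P
  induction P with
  | mk n l c nd ch ih =>
    intro β hP
    exact ⟨le_trans (add_le_add (sum_le_sum fun s _ =>
      mul_le_mul_of_nonneg_left (hb s) (abs_nonneg _)) le_rfl) hP.1,
      fun i => ⟨(hP.2 i).1.mono hh hr, ih i (hP.2 i).2⟩⟩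

theorem grs_anti {e e' : ℝ} (he : 0 < e) (h : e ≤ e') (P : Prog σ) (o : σ) :
    P.grs e' o ≤ P.grs e o := by
  induction P with
  | mk n l c nd ch ih =>
    simp only [grs]
    refine add_le_add le_rfl (mul_le_mul (div_le_div_of_nonneg_left (by norm_num) he h)
      (sum_le_sum fun i _ => mul_le_mul_of_nonneg_left (ih i) (abs_nonneg _))
      (sum_nonneg fun i _ => mul_nonneg (abs_nonneg _) (grs_nonneg (he.le.trans h) _ _))
      (by positivity))

/-- The sensitivity times the blur is at most the output scale, up to the depth. -/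
theorem grs_blur {h r e : ℝ} {b : σ → ℝ} (he : 0 < e) (hb : ∀ s, 0 ≤ b s) :
    ∀ {P : Prog σ} {β : ℝ}, P.Adm h r e b β → ∀ o, P.grs e o * b o ≤ 5 ^ P.depth * β := by
  intro P
  induction P with
  | mk n l c nd ch ih =>
    intro β hP o
    set D := (mk n l c nd ch).depth with hD
    have hS : 0 ≤ (∑ i, |c i| * √(nd i).v) / e := by positivity
    have hch : ∀ i, 4 / e * (|c i| * ((ch i).grs e o * b o))
        ≤ 4 * 5 ^ (D - 1) * (|c i| * √(nd i).v / e) := by
      intro i
      have h1 : (ch i).depth ≤ D - 1 := by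
        have : (ch i).depth < D := (depth_le_iff (mk n l c nd ch) D).1 le_rfl i
        omega
      have h3 : (ch i).grs e o * b o ≤ 5 ^ (D - 1) * √(nd i).v :=
        (ih i (hP.2 i).2 o).trans (mul_le_mul (pow_le_pow_right₀ (by norm_num) h1)
          (hP.2 i).1.scale_le (hP.2 i).1.scale_pos.le (by positivity))
      refine (mul_le_mul_of_nonneg_left (mul_le_mul_of_nonneg_left h3 (abs_nonneg _))
        (by positivity)).trans (le_of_eq ?_)
      ring
    have hlin : |l o| * b o ≤ ∑ s, |l s| * b s :=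
      single_le_sum (f := fun s => |l s| * b s) (fun s _ => mul_nonneg (abs_nonneg _) (hb s))
        (mem_univ o)
    have hl0 : 0 ≤ ∑ s, |l s| * b s := sum_nonneg fun s _ => mul_nonneg (abs_nonneg _) (hb s)
    have h5 : (1 : ℝ) ≤ 5 ^ D := one_le_pow₀ (by norm_num)
    have h1 := sum_le_sum fun i (_ : i ∈ univ) => hch i
    rw [← mul_sum, ← mul_sum, ← Finset.sum_div] at h1
    rw [grs_def]
    show (|l o| + 4 / e * ∑ i, |c i| * (ch i).grs e o) * b o ≤ _
    rw [add_mul, mul_assoc, sum_mul]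
    simp only [mul_assoc] at h1 ⊢
    rcases Nat.eq_zero_or_pos D with h0 | h0
    · have : n = 0 := by
        by_contra hn
        have := (depth_le_iff (mk n l c nd ch) D).1 le_rfl ⟨0, Nat.pos_of_ne_zero hn⟩
        omega
      subst this
      simp only [univ_eq_empty, sum_empty, mul_zero, add_zero, h0, pow_zero, one_mul]
      have := hP.1
      simp only [univ_eq_empty, sum_empty, zero_div, add_zero] at this
      linarith
    · have h45 : (4 : ℝ) * 5 ^ (D - 1) ≤ 5 ^ D := by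
        nth_rewrite 2 [← Nat.succ_pred_eq_of_pos h0]
        rw [pow_succ']
        exact mul_le_mul_of_nonneg_right (by norm_num) (by positivity)
      have hβ := hP.1
      nlinarith [mul_le_mul_of_nonneg_left hβ (pow_nonneg (by norm_num : (0 : ℝ) ≤ 5) D),
        mul_le_mul_of_nonneg_right h45 hS, mul_le_mul_of_nonneg_right h5 hl0]

/-- The same for the top nodes alone. -/
theorem grs_blur_top {h r e : ℝ} {b : σ → ℝ} (he : 0 < e) (hb : ∀ s, 0 ≤ b s) {P : Prog σ} {β : ℝ}
    (hP : P.Adm h r e b β) (o : σ) :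
    ∑ i, |P.coef i| * (P.child i).grs e o * b o ≤ 5 ^ P.depth * ∑ i, |P.coef i| * √(P.node i).v := by
  rw [mul_sum]
  refine sum_le_sum fun i _ => ?_
  have hi := ((adm_def _ _ _ _ _ _).1 hP).2 i
  have h1 : (P.child i).depth ≤ P.depth := ((depth_le_iff P P.depth).1 le_rfl i).le
  rw [mul_assoc, mul_left_comm (5 ^ P.depth)]
  exact mul_le_mul_of_nonneg_left ((grs_blur he hb hi.2 o).trans (mul_le_mul
    (pow_le_pow_right₀ (by norm_num) h1) hi.1.scale_le hi.1.scale_pos.le (by positivity)))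
    (abs_nonneg _)

end Prog

/-- Nodes are `2`-Lipschitz. -/
theorem Nd.val_lip {d : ℕ} {V : Pt d → ℝ} (hV : Mem V) (nd : Nd) (hv : 0 < nd.v) (x y : E d) :
    ‖nd.val V x - nd.val V y‖ ≤ 2 * ‖x - y‖ := by
  have hlip : ∀ p q, ‖Nv V nd.v p - Nv V nd.v q‖ ≤ 2 * ‖p - q‖ := Nv_lip hV hv
  have hc : Continuous (Nv V nd.v) := (LipschitzWith.of_dist_le_mul (K := 2) (f := Nv V nd.v)
    fun a c => by simpa [dist_eq_norm] using hlip a c).continuous
  have hi : ∀ p, Integrable (fun w : E d => Nv V nd.v (p + √(nd.a ^ 2) • w)) (γ d) := fun p =>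
    Integrable.mono' ((((IsGaussian.integrable_id (μ := γ d)).norm.const_mul (2 * √(nd.a ^ 2)))).add
        (integrable_const ‖Nv V nd.v p‖))
      (hc.comp (by fun_prop)).aestronglyMeasurable (ae_of_all _ fun w => by
        have h := hlip (p + √(nd.a ^ 2) • w) p
        rw [add_sub_cancel_left, norm_smul, norm_eq_abs, abs_of_nonneg (Real.sqrt_nonneg _)] at h
        have h2 := norm_le_norm_add_norm_sub' (Nv V nd.v (p + √(nd.a ^ 2) • w)) (Nv V nd.v p)
        simp only [Pi.add_apply, id]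
        linarith)
  simp only [Nd.val, Quarter.G]
  rw [← integral_sub (hi x) (hi y)]
  refine (norm_integral_le_integral_norm _).trans ((integral_mono ((hi x).sub (hi y)).norm
    (integrable_const (2 * ‖x - y‖)) fun w => ?_).trans (le_of_eq (by simp)))
  refine (hlip _ _).trans (le_of_eq ?_)
  rw [add_sub_add_right_eq_sub]

/-- The value varies at most like the sensitivities. -/
theorem Prog.val_lip {d : ℕ} {σ : Type} [Fintype σ] {V : Pt d → ℝ} (hV : Mem V) {h r e e' : ℝ}
    {b : σ → ℝ} (he' : 0 < e') (he1 : e' ≤ 1) : ∀ {P : Prog σ} {β : ℝ}, P.Adm h r e b β →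
      ∀ x y : Inp d σ, ‖P.val V x - P.val V y‖ ≤ ∑ o, P.grs e' o * ‖x o - y o‖ := by
  intro P
  induction P with
  | mk n l c nd ch ih =>
    intro β hP x y
    simp only [Prog.val, Prog.grs, add_mul, sum_add_distrib]
    rw [add_sub_add_comm, ← sum_sub_distrib, ← sum_sub_distrib]
    refine (norm_add_le _ _).trans (add_le_add ?_ ?_)
    · refine (norm_sum_le _ _).trans (le_of_eq (sum_congr rfl fun o _ => ?_))
      rw [← smul_sub, norm_smul, norm_eq_abs]
    · refine (norm_sum_le _ _).trans ?_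
      simp only [mul_sum, sum_mul]
      rw [sum_comm]
      refine sum_le_sum fun i _ => ?_
      rw [← smul_sub, norm_smul, norm_eq_abs]
      have h1 : (2 : ℝ) ≤ 4 / e' := by
        rw [le_div_iff₀ he']; linarith
      refine (mul_le_mul_of_nonneg_left (((nd i).val_lip hV (hP.2 i).1.v_pos _ _).trans
        (mul_le_mul h1 (ih i (hP.2 i).2 x y) (norm_nonneg _) (by positivity))) (abs_nonneg _)).trans
        (le_of_eq ?_)
      simp only [mul_sum]
      exact sum_congr rfl fun o _ => by ring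

end

end Vale.Agent.P347.Zero
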