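import Vale.Agent.P347.Zero.Interp
import Vale.Agent.P347.Zero.ProgOps
import Vale.Agent.P347.Quarter.Gauss
import Vale.Agent.P347.Quarter.Target

/-!
# P347, exponent 0: the rotation which extracts a linear map from Gaussian inputs

For a symmetric `M` the linear flow `η' = M ζ`, `ζ' = -M η` preserves the pair of standard
Gaussians, and the derivative of `η` at `0` is `M K`. The flow is reached by Picard iteration on
collocation nodes from a surrogate of `M`, exact in `L²` against a standard Gaussian.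
-/

namespace Vale.Agent.P347.Zero

open MeasureTheory ProbabilityTheory Real Finset WithLp NormedSpace
open scoped RealInnerProductSpace ContDiff
open Vale.Agent.P347.Quarter (E γ)
open Vale.Agent.P347.Colour (Pt)

noncomputable section

set_option linter.unusedSectionVars false

variable {d : ℕ}

/-! ## The differential of a node -/

theorem Nd.hasFDerivAt {V : Pt d → ℝ} (hV : Mem V) {nd : Nd} (hv : 0 < nd.v) (x : E d) :
    HasFDerivAt (nd.val V) (∫ w, fderiv ℝ (Nv V nd.v) (x + √(nd.a ^ 2) • w) ∂γ d) x :=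
  Quarter.hasFDerivAt_avg ((Nv_smooth hV hv).1.of_le (by simp)) le_rfl (C := 2)
    (fun y => by simpa using Nv_fderiv_le hV hv y) _ x

theorem Nd.differentiable {V : Pt d → ℝ} (hV : Mem V) {nd : Nd} (hv : 0 < nd.v) :
    Differentiable ℝ (nd.val V) := fun x => (Nd.hasFDerivAt hV hv x).differentiableAt

theorem Nd.norm_fderiv_le {V : Pt d → ℝ} (hV : Mem V) {nd : Nd} (hv : 0 < nd.v) (x : E d) :
    ‖fderiv ℝ (nd.val V) x‖ ≤ 2 := by
  have h : LipschitzWith 2 (nd.val V) := LipschitzWith.of_dist_le_mul fun a c => by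
    simpa [dist_eq_norm] using nd.val_lip hV hv a c
  simpa using norm_fderiv_le_of_lipschitz ℝ h (x₀ := x)

theorem Nd.fderiv_symm {V : Pt d → ℝ} (hV : Mem V) {nd : Nd} (hv : 0 < nd.v) (x u w : E d) :
    ⟪fderiv ℝ (nd.val V) x u, w⟫ = ⟪u, fderiv ℝ (nd.val V) x w⟫ := by
  rw [(Nd.hasFDerivAt hV hv x).fderiv]
  have hi : Integrable (fun z : E d => fderiv ℝ (Nv V nd.v) (x + √(nd.a ^ 2) • z)) (γ d) :=
    (integrable_const (2 : ℝ)).mono'
      ((((Nv_smooth hV hv).1.continuous_fderiv (by simp)).comp (by fun_prop)).aestronglyMeasurable)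
      (ae_of_all _ fun z => Nv_fderiv_le hV hv _)
  rw [ContinuousLinearMap.integral_apply hi, ContinuousLinearMap.integral_apply hi,
    real_inner_comm, ← integral_inner (hi.apply_continuousLinearMap u),
    ← integral_inner (hi.apply_continuousLinearMap w)]
  refine integral_congr_ae (ae_of_all _ fun z => ?_)
  exact (real_inner_comm _ _).trans (Nv_symm hV hv _ u w)

/-! ## Pairs -/

/-- Pairs: `true` for the vector, `false` for the extraction seed. -/
abbrev P2 (d : ℕ) := PiLp 2 fun _ : Bool => E d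

/-- A pair. -/
def mk2 (K η : E d) : P2 d := toLp 2 fun k => bif k then K else η

@[simp] theorem mk2_true (K η : E d) : mk2 K η true = K := rfl

@[simp] theorem mk2_false (K η : E d) : mk2 K η false = η := rfl

theorem norm_comp_le (y : P2 d) (k : Bool) : ‖y k‖ ≤ ‖y‖ := PiLp.norm_apply_le y k

theorem norm_le_comp (y : P2 d) : ‖y‖ ≤ ‖y true‖ + ‖y false‖ := by
  rw [PiLp.norm_eq_of_L2, Real.sqrt_le_left (by positivity)]
  rw [Fintype.sum_bool]
  nlinarith [norm_nonneg (y true), norm_nonneg (y false)]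

theorem norm_mk2_le (K η : E d) : ‖mk2 K η‖ ≤ ‖K‖ + ‖η‖ := norm_le_comp _

/-- The coordinate projections. -/
def pj (k : Bool) : P2 d →L[ℝ] E d := PiLp.proj 2 (fun _ : Bool => E d) k

@[simp] theorem pj_apply (k : Bool) (y : P2 d) : pj k y = y k := rfl

/-- The generator of the rotation. -/
def genJ (M : E d →L[ℝ] E d) : P2 d →L[ℝ] P2 d :=
  (PiLp.continuousLinearEquiv 2 ℝ fun _ : Bool => E d).symm.toContinuousLinearMap.comp
    (ContinuousLinearMap.pi fun k => bif k then -(M.comp (pj false)) else M.comp (pj true))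

@[simp] theorem genJ_true (M : E d →L[ℝ] E d) (y : P2 d) : genJ M y true = -M (y false) := rfl

@[simp] theorem genJ_false (M : E d →L[ℝ] E d) (y : P2 d) : genJ M y false = M (y true) := rfl

theorem genJ_skew {M : E d →L[ℝ] E d} (hM : ∀ u w, ⟪M u, w⟫ = ⟪u, M w⟫) (y : P2 d) :
    ⟪y, genJ M y⟫ = 0 := by
  rw [PiLp.inner_apply, Fintype.sum_bool, genJ_true, genJ_false, inner_neg_right,
    ← hM (y false) (y true), real_inner_comm (M (y false))]
  ring

theorem norm_genJ_le {M : E d →L[ℝ] E d} (hM : ‖M‖ ≤ 2) (y : P2 d) : ‖genJ M y‖ ≤ 4 * ‖y‖ := by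
  refine (norm_le_comp _).trans ?_
  rw [genJ_true, genJ_false, norm_neg]
  have h1 := M.le_of_opNorm_le hM (y false)
  have h2 := M.le_of_opNorm_le hM (y true)
  linarith [norm_comp_le y true, norm_comp_le y false]

/-! ## The rotation -/

section Flow

variable {X : Type*} [NormedAddCommGroup X] [InnerProductSpace ℝ X] [CompleteSpace X]

/-- The flow of the generator `A`. -/
def rotC (A : X →L[ℝ] X) (w : X) (u : ℝ) : X := exp (u • A) w

theorem rotC_hasDerivAt (A : X →L[ℝ] X) (w : X) (u : ℝ) :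
    HasDerivAt (rotC A w) (rotC A (A w) u) u := by
  have h := hasDerivAt_exp_smul_const (𝔸 := X →L[ℝ] X) A u
  exact (ContinuousLinearMap.apply ℝ X w).hasFDerivAt.comp_hasDerivAt u h

theorem rotC_hasDerivAt' (A : X →L[ℝ] X) (w : X) (u : ℝ) :
    HasDerivAt (rotC A w) (A (rotC A w u)) u := by
  have h := hasDerivAt_exp_smul_const' (𝔸 := X →L[ℝ] X) A u
  exact (ContinuousLinearMap.apply ℝ X w).hasFDerivAt.comp_hasDerivAt u h

theorem rotC_comm (A : X →L[ℝ] X) (w : X) (u : ℝ) : rotC A (A w) u = A (rotC A w u) :=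
  (rotC_hasDerivAt A w u).unique (rotC_hasDerivAt' A w u)

@[simp] theorem rotC_zero (A : X →L[ℝ] X) (w : X) : rotC A w 0 = w := by
  simp [rotC]

theorem norm_rotC {A : X →L[ℝ] X} (hA : ∀ y, ⟪y, A y⟫ = 0) (w : X) (u : ℝ) :
    ‖rotC A w u‖ = ‖w‖ := by
  have hd : ∀ s, HasDerivAt (fun s => ‖rotC A w s‖ ^ 2) 0 s := fun s => by
    simpa [hA] using (rotC_hasDerivAt' A w s).norm_sq
  have h : ‖rotC A w u‖ ^ 2 = ‖rotC A w 0‖ ^ 2 :=
    is_const_of_deriv_eq_zero (f := fun s => ‖rotC A w s‖ ^ 2) (fun s => (hd s).differentiableAt)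
      (fun s => (hd s).deriv) u 0
  rw [rotC_zero] at h
  exact (sq_eq_sq₀ (norm_nonneg _) (norm_nonneg _)).1 h

theorem contDiff_rotC (A : X →L[ℝ] X) : ∀ (n : ℕ) (w : X), ContDiff ℝ n (rotC A w)
  | 0, w => contDiff_zero.2 (continuous_iff_continuousAt.2 fun u => (rotC_hasDerivAt A w u).continuousAt)
  | n + 1, w => by
    rw [Nat.cast_succ, contDiff_succ_iff_deriv]
    refine ⟨fun u => (rotC_hasDerivAt A w u).differentiableAt, by simp, ?_⟩
    rw [funext fun u => (rotC_hasDerivAt A w u).deriv]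
    exact contDiff_rotC A n (A w)

theorem iteratedDeriv_rotC (A : X →L[ℝ] X) : ∀ (n : ℕ) (w : X),
    iteratedDeriv n (rotC A w) = rotC A ((A ^ n) w)
  | 0, w => by simp
  | n + 1, w => by
    rw [iteratedDeriv_succ', funext fun u => (rotC_hasDerivAt A w u).deriv,
      iteratedDeriv_rotC A n (A w), pow_succ]
    rfl

theorem norm_pow_le {A : X →L[ℝ] X} {c : ℝ} (hc : 0 ≤ c) (hA : ∀ y, ‖A y‖ ≤ c * ‖y‖) :
    ∀ (n : ℕ) (w : X), ‖(A ^ n) w‖ ≤ c ^ n * ‖w‖
  | 0, w => by simp
  | n + 1, w => by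
    rw [pow_succ', mul_apply_eq_comp, pow_succ', mul_assoc]
    exact (hA _).trans (mul_le_mul_of_nonneg_left (norm_pow_le hc hA n w) hc)

/-- The flow at a fixed time as an isometry. -/
def rotI (A : X →L[ℝ] X) (hA : ∀ y, ⟪y, A y⟫ = 0) (u : ℝ) : X →ₗᵢ[ℝ] X where
  toFun y := rotC A y u
  map_add' y z := map_add (exp (u • A) : X →L[ℝ] X) y z
  map_smul' c y := map_smul (exp (u • A) : X →L[ℝ] X) c y
  norm_map' y := norm_rotC hA y u

end Flow

/-- The pair of standard Gaussians is invariant. -/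
theorem measurePreserving_rotC {A : P2 d →L[ℝ] P2 d} (hA : ∀ y, ⟪y, A y⟫ = 0) (u : ℝ) :
    MeasurePreserving (fun p : E d × E d =>
      (rotC A (mk2 p.1 p.2) u true, rotC A (mk2 p.1 p.2) u false))
      ((γ d).prod (γ d)) ((γ d).prod (γ d)) := by
  let R' : P2 d ≃ₗᵢ[ℝ] P2 d := (rotI A hA u).toLinearIsometryEquiv rfl
  have hp := measurePreserving_pair (d := d)
  have hL : (γs d Bool).map (toLp 2) = stdGaussian (P2 d) := by
    rw [γs, γ]; exact Quarter.map_toLp_pi
  have hm2 : Measurable fun p : E d × E d => mk2 p.1 p.2 :=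
    (WithLp.measurable_toLp _ _).comp (measurable_pi_lambda _ fun k => by
      cases k <;> simp <;> fun_prop)
  have hA2 : ((γ d).prod (γ d)).map (fun p : E d × E d => mk2 p.1 p.2) = stdGaussian (P2 d) := by
    rw [← hp.map_eq, Measure.map_map hm2 hp.measurable, ← hL]
    congr 1
    funext ξ
    exact congrArg (toLp 2) (funext fun k => by cases k <;> rfl)
  have hpr : Measurable fun y : P2 d => (y true, y false) :=
    ((pj true).continuous.measurable).prodMk (pj false).continuous.measurable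
  refine ⟨hpr.comp (R'.continuous.measurable.comp hm2), ?_⟩
  show ((γ d).prod (γ d)).map ((fun y : P2 d => (y true, y false)) ∘
    (⇑R' ∘ fun p : E d × E d => mk2 p.1 p.2)) = _
  rw [← Measure.map_map hpr (R'.continuous.measurable.comp hm2),
    ← Measure.map_map R'.continuous.measurable hm2, hA2, stdGaussian_map, ← hA2,
    Measure.map_map hpr hm2]
  exact Measure.map_id

/-! ## Collocation on `[-1, 1]` -/

/-- The nodes. -/
def rNode (n : ℕ) : Fin (n + 2) → ℝ := eqNode (n + 1) (-1) 1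

/-- The integration weights from `0`. -/
def rInt (n : ℕ) (l j : Fin (n + 2)) : ℝ := ∫ s in (0 : ℝ)..rNode n l, lw (rNode n) j s

/-- The extraction weights. -/
def rExt (n : ℕ) (j : Fin (n + 2)) : ℝ := lw' (rNode n) j 0

theorem rNode_mem (n : ℕ) (l : Fin (n + 2)) : rNode n l ∈ Set.Icc (-1 : ℝ) 1 :=
  eqNode_mem (by norm_num) l

theorem sum_rExt (n : ℕ) : ∑ j, rExt n j = 0 := by
  have := sum_lw'_pow (v := rNode n) (eqNode_injective (by norm_num)) (k := 0) (Nat.zero_le _) 0 0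
  simpa [rExt] using this

theorem exists_rot_bound (n : ℕ) : ∃ C : ℝ, 1 ≤ C ∧ (∀ l j, |rInt n l j| ≤ C) ∧
    (∀ j, |rExt n j| ≤ C) ∧ ∀ (d : ℕ) (A : P2 d →L[ℝ] P2 d) (c : ℝ) (w : P2 d),
      (∀ y, ⟪y, A y⟫ = 0) → 0 ≤ c → c ≤ 1 → (∀ y, ‖A y‖ ≤ c * ‖y‖) →
        (∀ l, ‖w + ∑ j, rInt n l j • A (rotC A w (rNode n j)) - rotC A w (rNode n l)‖
          ≤ C * c ^ n * ‖w‖) ∧
        ‖∑ j, rExt n j • rotC A w (rNode n j) - A w‖ ≤ C * c ^ n * ‖w‖ := by
  obtain ⟨C₀, hC₀, hB⟩ := exists_eqNode_bound (n + 1)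
  set B₁ := ∑ l, ∑ j, |rInt n l j|
  set B₂ := ∑ j, |rExt n j|
  set P₁ := (1 + C₀) * ((2 : ℝ) ^ (n + 1) / (n + 1).factorial * 2)
  set P₂ := ((2 : ℝ) ^ n / n.factorial + C₀ / 2 * ((2 : ℝ) ^ (n + 1) / (n + 1).factorial)) * 2
  have hB1 : 0 ≤ B₁ := by positivity
  have hB2 : 0 ≤ B₂ := by positivity
  have hP1 : 0 ≤ P₁ := by positivity
  have hP2 : 0 ≤ P₂ := by positivity
  refine ⟨1 + B₁ + B₂ + P₁ + P₂, by linarith, fun l j => ?_, fun j => ?_,
    fun d A c w hA hc hc1 hAc => ?_⟩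
  · have h1 := single_le_sum (f := fun j => |rInt n l j|) (fun _ _ => abs_nonneg _) (mem_univ j)
    have h2 := single_le_sum (f := fun l => ∑ j, |rInt n l j|)
      (fun _ _ => sum_nonneg fun _ _ => abs_nonneg _) (mem_univ l)
    linarith
  · have h1 := single_le_sum (f := fun j => |rExt n j|) (fun _ _ => abs_nonneg _) (mem_univ j)
    linarith
  have hI : (-1 : ℝ) < 1 := by norm_num
  have hv : Function.Injective (rNode n) := eqNode_injective hI
  have htop : ∀ (m : ℕ) (w' : P2 d), n ≤ m + 1 →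
      topI m (rotC A w') (-1) 1 ≤ 2 * (c ^ n * ‖w'‖) := by
    intro m w' hm
    have hb : ∀ s ∈ Set.Icc (-1 : ℝ) 1,
        ‖iteratedDerivWithin (m + 1) (rotC A w') (Set.Icc (-1) 1) s‖ ≤ c ^ n * ‖w'‖ := by
      intro s hs
      rw [iteratedDerivWithin_eq_iteratedDeriv (uniqueDiffOn_Icc hI)
        (contDiff_rotC A _ w').contDiffAt hs, iteratedDeriv_rotC, norm_rotC hA]
      exact (norm_pow_le hc hAc _ _).trans (mul_le_mul_of_nonneg_right
        (pow_le_pow_of_le_one hc hc1 hm) (norm_nonneg _))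
    rw [topI]
    refine (le_abs_self _).trans ?_
    rw [← Real.norm_eq_abs]
    refine (intervalIntegral.norm_integral_le_of_norm_le_const
      (C := c ^ n * ‖w'‖) fun s hs => ?_).trans
        (le_of_eq (show c ^ n * ‖w'‖ * |(1 : ℝ) - -1| = 2 * (c ^ n * ‖w'‖) by norm_num; ring))
    rw [norm_norm]
    exact hb s (Set.Ioc_subset_Icc_self (by rwa [Set.uIoc_of_le hI.le] at hs))
  have hcw : 0 ≤ c ^ n * ‖w‖ := by positivity
  refine ⟨fun l => ?_, ?_⟩
  · have hAw : ‖A w‖ ≤ ‖w‖ := (hAc w).trans (mul_le_of_le_one_left (norm_nonneg _) hc1)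
    have hbd : ∀ s ∈ Set.Icc (-1 : ℝ) 1,
        ‖rotC A (A w) s - ∑ j, lw (rNode n) j s • rotC A (A w) (rNode n j)‖
          ≤ P₁ * (c ^ n * ‖w‖) := by
      intro s hs
      refine (interp_bound (f := rotC A (A w)) hI hv (rNode_mem n)
        (contDiff_rotC A _ _).contDiffOn hs).trans ?_
      have h1 : (1 : ℝ) + ∑ j, |lw (rNode n) j s| ≤ 1 + C₀ := by
        have := (hB _ _ _ hI hs).1
        simp only [rNode]
        linarith
      have h2 := (htop (n + 1) (A w) (by omega)).trans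
        (mul_le_mul_of_nonneg_left (mul_le_mul_of_nonneg_left hAw (pow_nonneg hc n)) zero_le_two)
      rw [show P₁ * (c ^ n * ‖w‖) = (1 + C₀) * (2 ^ (n + 1) / (n + 1).factorial * (2 * (c ^ n * ‖w‖)))
        by simp only [P₁]; ring, show ((1 : ℝ) - -1) = 2 by norm_num]
      exact mul_le_mul h1 (mul_le_mul_of_nonneg_left h2 (by positivity))
        (mul_nonneg (by positivity) (topI_nonneg _ _ hI.le)) (by linarith)
    have hF : Continuous (rotC A (A w)) := (contDiff_rotC A 0 _).continuous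
    have hG : Continuous fun s => ∑ j, lw (rNode n) j s • rotC A (A w) (rNode n j) :=
      continuous_finsetSum _ fun j _ => (lw_continuous _ j).smul continuous_const
    have e1 : (∫ s in (0 : ℝ)..rNode n l, rotC A (A w) s) = rotC A w (rNode n l) - w := by
      rw [intervalIntegral.integral_eq_sub_of_hasDerivAt (fun s _ => rotC_hasDerivAt A w s)
        (hF.intervalIntegrable _ _), rotC_zero]
    have e2 : (∫ s in (0 : ℝ)..rNode n l, ∑ j, lw (rNode n) j s • rotC A (A w) (rNode n j))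
        = ∑ j, rInt n l j • A (rotC A w (rNode n j)) := by
      simp only [rInt, ← intervalIntegral.integral_smul_const, ← rotC_comm]
      exact intervalIntegral.integral_finsetSum
        fun j _ => ((lw_continuous _ j).smul continuous_const).intervalIntegrable _ _
    rw [show w + ∑ j, rInt n l j • A (rotC A w (rNode n j)) - rotC A w (rNode n l)
      = -((rotC A w (rNode n l) - w) - ∑ j, rInt n l j • A (rotC A w (rNode n j))) by abel,
      norm_neg, ← e1, ← e2, ← intervalIntegral.integral_sub (hF.intervalIntegrable _ _)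
        (hG.intervalIntegrable _ _)]
    have hn := rNode_mem n l
    refine (intervalIntegral.norm_integral_le_of_norm_le_const fun s hs => hbd s ?_).trans ?_
    · rcases le_total 0 (rNode n l) with h | h
      · rw [Set.uIoc_of_le h] at hs; exact ⟨by linarith [hs.1], hs.2.trans hn.2⟩
      · rw [Set.uIoc_of_ge h] at hs; exact ⟨hn.1.trans hs.1.le, by linarith [hs.2]⟩
    · have h3 : |rNode n l - 0| ≤ 1 := by rw [sub_zero]; exact abs_le.2 hn
      refine (mul_le_of_le_one_right (by positivity) h3).trans ?_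
      nlinarith
  · have hd : derivWithin (rotC A w) (Set.Icc (-1) 1) 0 = A w := by
      rw [((rotC_hasDerivAt A w 0).hasDerivWithinAt).derivWithin
        (uniqueDiffOn_Icc hI 0 ⟨by norm_num, by norm_num⟩), rotC_zero]
    have h0 := interp_deriv_bound (f := rotC A w) (t := 0) hI hv (rNode_mem n)
      (contDiff_rotC A _ _).contDiffOn ⟨by norm_num, by norm_num⟩
    rw [hd, norm_sub_rev] at h0
    refine h0.trans ?_
    have h1 : (∑ j, |lw' (rNode n) j 0|) ≤ C₀ / 2 := by
      have := (hB (-1) 1 0 hI ⟨by norm_num, by norm_num⟩).2.1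
      rwa [show ((1 : ℝ) - -1) = 2 by norm_num] at this
    have h2 : ((1 : ℝ) - -1) ^ n / n.factorial
        + (∑ j, |lw' (rNode n) j 0|) * (((1 : ℝ) - -1) ^ (n + 1) / (n + 1).factorial) ≤ P₂ / 2 := by
      rw [show ((1 : ℝ) - -1) = 2 by norm_num]
      simp only [P₂, mul_div_assoc, mul_div_cancel_right₀ _ (two_ne_zero (α := ℝ))]
      exact add_le_add le_rfl (mul_le_mul_of_nonneg_right h1 (by positivity))
    refine (mul_le_mul h2 (htop (n + 1) w (by omega)) (topI_nonneg _ _ hI.le) (by positivity)).trans ?_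
    nlinarith

/-! ## Picard iteration -/

variable {X : Type*} [NormedAddCommGroup X] [NormedSpace ℝ X] {N : ℕ}

/-- The Picard iterates. -/
def pic (T : Fin N → X → X) (W : Fin N → Fin N → ℝ) (w : X) : ℕ → Fin N → X
  | 0 => fun _ => w
  | m + 1 => fun l => w + ∑ j, W l j • T j (pic T W w m j)

theorem pic_err {T A : Fin N → X → X} {W : Fin N → Fin N → ℝ} {w : X} {L Λ : ℝ} {y : Fin N → X}
    (hT : ∀ j a b, ‖T j a - T j b‖ ≤ L * ‖a - b‖) (hW : ∀ j, ∑ l, |W l j| ≤ Λ) (hL : 0 ≤ L)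
    (hΛ : 0 ≤ Λ) (h2 : Λ * L ≤ 1 / 2) (m : ℕ) :
    ∑ l, ‖pic T W w m l - y l‖ ≤ (Λ * L) ^ m * (∑ l, ‖w - y l‖)
      + 2 * (∑ l, ‖w + ∑ j, W l j • A j (y j) - y l‖ + Λ * ∑ j, ‖T j (y j) - A j (y j)‖) := by
  set S := ∑ l, ‖w + ∑ j, W l j • A j (y j) - y l‖ + Λ * ∑ j, ‖T j (y j) - A j (y j)‖
  have hS : 0 ≤ S := by positivity
  induction m with
  | zero =>
    simp only [pic, pow_zero, one_mul]
    linarith
  | succ m ih =>
    have h1 : ∀ l, ‖pic T W w (m + 1) l - y l‖ ≤ (∑ j, |W l j| * (L * ‖pic T W w m j - y j‖))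
        + (∑ j, |W l j| * ‖T j (y j) - A j (y j)‖) + ‖w + ∑ j, W l j • A j (y j) - y l‖ := by
      intro l
      have e : pic T W w (m + 1) l - y l = ∑ j, W l j • (T j (pic T W w m j) - T j (y j))
          + ∑ j, W l j • (T j (y j) - A j (y j)) + (w + ∑ j, W l j • A j (y j) - y l) := by
        simp only [pic, smul_sub, sum_sub_distrib]
        abel
      rw [e]
      refine norm_add₃_le.trans (add_le_add (add_le_add ?_ ?_) le_rfl)
      · refine (norm_sum_le _ _).trans (sum_le_sum fun j _ => ?_)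
        rw [norm_smul, norm_eq_abs]
        exact mul_le_mul_of_nonneg_left (hT j _ _) (abs_nonneg _)
      · exact (norm_sum_le _ _).trans (le_of_eq (sum_congr rfl fun j _ => by
          rw [norm_smul, norm_eq_abs]))
    have h3 : ∀ u : Fin N → ℝ, (∀ j, 0 ≤ u j) → ∑ l, ∑ j, |W l j| * u j ≤ Λ * ∑ j, u j := by
      intro u hu
      rw [sum_comm, mul_sum]
      exact sum_le_sum fun j _ => by rw [← sum_mul]; exact mul_le_mul_of_nonneg_right (hW j) (hu j)
    calc ∑ l, ‖pic T W w (m + 1) l - y l‖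
        ≤ Λ * L * ∑ l, ‖pic T W w m l - y l‖ + S := by
          refine (sum_le_sum fun l _ => h1 l).trans ?_
          simp only [sum_add_distrib]
          have := h3 (fun j => L * ‖pic T W w m j - y j‖) fun j => by positivity
          rw [← mul_sum, ← mul_assoc] at this
          linarith [h3 (fun j => ‖T j (y j) - A j (y j)‖) fun j => norm_nonneg _]
      _ ≤ _ := by
          have h4 := mul_le_mul_of_nonneg_left ih (by positivity : 0 ≤ Λ * L)
          rw [pow_succ]
          nlinarith [mul_le_mul_of_nonneg_right h2 hS]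

/-! ## Square means -/

/-- The square mean of `f` is at most `B ^ 2`, and exists. -/
structure Sq {Ω : Type*} [MeasurableSpace Ω] (μ : Measure Ω) (f : Ω → ℝ) (B : ℝ) : Prop where
  nonneg : 0 ≤ B
  int : Integrable (fun z => f z ^ 2) μ
  le : ∫ z, f z ^ 2 ∂μ ≤ B ^ 2

variable {Ω : Type*} [MeasurableSpace Ω] {μ : Measure Ω} {f g : Ω → ℝ} {B B' : ℝ}

theorem Sq.mono_fun (h : Sq μ f B) (hg : AEStronglyMeasurable g μ)
    (hle : ∀ z, |g z| ≤ f z) (hB : B ≤ B') : Sq μ g B' := by
  have h2 : ∀ z, g z ^ 2 ≤ f z ^ 2 := fun z =>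
    sq_le_sq' (by linarith [neg_abs_le (g z), hle z]) (by linarith [le_abs_self (g z), hle z])
  have hi : Integrable (fun z => g z ^ 2) μ := h.int.mono' (hg.pow 2)
    (ae_of_all _ fun z => by rw [Real.norm_eq_abs, abs_of_nonneg (sq_nonneg _)]; exact h2 z)
  exact ⟨h.nonneg.trans hB, hi,
    (integral_mono hi h.int h2).trans (h.le.trans (pow_le_pow_left₀ h.nonneg hB 2))⟩

theorem Sq.add (h : Sq μ f B) (h' : Sq μ g B') (hf : AEStronglyMeasurable f μ)
    (hg : AEStronglyMeasurable g μ) : Sq μ (fun z => f z + g z) (2 * (B + B')) := by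
  have hi : Integrable (fun z => 2 * f z ^ 2 + 2 * g z ^ 2) μ :=
    (h.int.const_mul 2).add (h'.int.const_mul 2)
  have h2 : ∀ z, (f z + g z) ^ 2 ≤ 2 * f z ^ 2 + 2 * g z ^ 2 := fun z => by
    nlinarith [sq_nonneg (f z - g z)]
  have hj : Integrable (fun z => (f z + g z) ^ 2) μ := hi.mono' ((hf.add hg).pow 2)
    (ae_of_all _ fun z => by rw [Real.norm_eq_abs, abs_of_nonneg (sq_nonneg _)]; exact h2 z)
  refine ⟨by linarith [h.nonneg, h'.nonneg], hj, (integral_mono hj hi h2).trans ?_⟩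
  rw [integral_add (h.int.const_mul 2) (h'.int.const_mul 2), integral_const_mul, integral_const_mul]
  nlinarith [h.le, h'.le, mul_nonneg h.nonneg h'.nonneg, sq_nonneg B, sq_nonneg B']

theorem Sq.const_mul (h : Sq μ f B) (c : ℝ) : Sq μ (fun z => c * f z) (|c| * B) := by
  refine ⟨mul_nonneg (abs_nonneg c) h.nonneg, ?_, ?_⟩
  · simpa [mul_pow] using h.int.const_mul (c ^ 2)
  · simp only [mul_pow, integral_const_mul, sq_abs]
    exact mul_le_mul_of_nonneg_left h.le (sq_nonneg c)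

theorem Sq.sum {ι : Type*} [Fintype ι] {f : ι → Ω → ℝ} {B : ι → ℝ} (h : ∀ i, Sq μ (f i) (B i))
    (hf : ∀ i, AEStronglyMeasurable (f i) μ) :
    Sq μ (fun z => ∑ i, f i z) (√(Fintype.card ι) * ∑ i, B i) := by
  have hB0 : 0 ≤ ∑ i, B i := sum_nonneg fun i _ => (h i).nonneg
  have hi : Integrable (fun z => Fintype.card ι * ∑ i, f i z ^ 2) μ :=
    (integrable_finsetSum _ fun i _ => (h i).int).const_mul _
  have h2 : ∀ z, (∑ i, f i z) ^ 2 ≤ Fintype.card ι * ∑ i, f i z ^ 2 := fun z =>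
    sq_sum_le_card_mul_sum_sq
  have hj : Integrable (fun z => (∑ i, f i z) ^ 2) μ :=
    hi.mono' ((Finset.aestronglyMeasurable_fun_sum _ fun i _ => hf i).pow 2)
      (ae_of_all _ fun z => by rw [Real.norm_eq_abs, abs_of_nonneg (sq_nonneg _)]; exact h2 z)
  refine ⟨by positivity, hj, (integral_mono hj hi h2).trans ?_⟩
  rw [integral_const_mul, integral_finsetSum _ fun i _ => (h i).int, mul_pow,
    sq_sqrt (Nat.cast_nonneg _)]
  refine mul_le_mul_of_nonneg_left ((sum_le_sum fun i _ => (h i).le).trans ?_) (Nat.cast_nonneg _)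
  exact sum_sq_le_sq_sum_of_nonneg fun i _ => (h i).nonneg

theorem Sq.comp {Ω' : Type*} [MeasurableSpace Ω'] {ν : Measure Ω'} {T : Ω' → Ω}
    (h : Sq μ f B) (hf : AEStronglyMeasurable f μ) (hT : MeasurePreserving T ν μ) :
    Sq ν (fun z => f (T z)) B := by
  refine ⟨h.nonneg, (hT.integrable_comp (hf.pow 2)).2 h.int, ?_⟩
  have e := integral_map (μ := ν) hT.measurable.aemeasurable (f := fun z => f z ^ 2)
    (by rw [hT.map_eq]; exact hf.pow 2)
  rw [hT.map_eq] at e
  rw [← e]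
  exact h.le

theorem sq_norm_gauss : Sq (γ d) (fun z => ‖z‖) √d := by
  refine ⟨Real.sqrt_nonneg _, Quarter.γ_sq_integrable, ?_⟩
  rw [sq_sqrt (Nat.cast_nonneg _)]
  exact le_of_eq Quarter.γ_norm_sq

theorem sq_norm_pair : Sq ((γ d).prod (γ d)) (fun p : E d × E d => ‖mk2 p.1 p.2‖) (4 * √d) := by
  have hm : Continuous fun p : E d × E d => mk2 p.1 p.2 :=
    (PiLp.continuous_toLp 2 _).comp (continuous_pi fun k => by cases k <;> simp <;> fun_prop)
  have hn : AEStronglyMeasurable (fun z : E d => ‖z‖) (γ d) := by fun_prop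
  exact ((sq_norm_gauss.comp hn measurePreserving_fst).add (sq_norm_gauss.comp hn measurePreserving_snd)
    (by fun_prop) (by fun_prop)).mono_fun hm.norm.aestronglyMeasurable
    (fun p => by simpa using norm_mk2_le p.1 p.2) (le_of_eq (by ring))

end

end Vale.Agent.P347.Zero
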