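import Vale.Agent.P347.Quarter.SeedGauss

/-!
# P347, exponent 0: linear images of independent standard Gaussians

Two linear images with the same Gram matrix have the same law: this gives the splitting lemma,
sums of independent Gaussians and rotations.
-/

namespace Vale.Agent.P347.Zero

open MeasureTheory ProbabilityTheory Real WithLp Finset
open scoped RealInnerProductSpace
open Vale.Agent.P347.Quarter (E γ)

noncomputable section

set_option linter.unusedSectionVars false

variable {d : ℕ} {ι κ κ' : Type} [Fintype ι] [Fintype κ] [Fintype κ']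

/-- The law of `κ` independent standard Gaussian vectors. -/
def γs (d : ℕ) (κ : Type) [Fintype κ] : Measure (κ → E d) := Measure.pi fun _ => γ d

instance : IsProbabilityMeasure (γs d κ) := by unfold γs; infer_instance

/-- The linear image with coefficients `A`. -/
def lin (A : ι → κ → ℝ) (x : κ → E d) : ι → E d := fun i => ∑ j, A i j • x j

@[fun_prop]
theorem continuous_lin (A : ι → κ → ℝ) : Continuous (lin A : (κ → E d) → ι → E d) := by
  unfold lin; fun_prop

@[fun_prop]
theorem measurable_lin (A : ι → κ → ℝ) : Measurable (lin A : (κ → E d) → ι → E d) :=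
  (continuous_lin A).measurable

theorem charFun_lin (A : ι → κ → ℝ) (t : PiLp 2 fun _ : ι => E d) :
    charFun (((γs d κ).map (lin A)).map (toLp 2)) t
      = Complex.exp (-((∑ i, ∑ i', (∑ j, A i j * A i' j) * ⟪t i, t i'⟫ : ℝ) : ℂ) / 2) := by
  rw [Measure.map_map (by fun_prop) (measurable_lin A)]
  set s : PiLp 2 fun _ : κ => E d := toLp 2 fun j => ∑ i, A i j • t i
  have h : charFun ((γs d κ).map (toLp 2 ∘ lin A)) t = charFun ((γs d κ).map (toLp 2)) s := by
    rw [charFun_apply, charFun_apply, integral_map (by fun_prop) (by fun_prop),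
      integral_map (by fun_prop) (by fun_prop)]
    refine integral_congr_ae (ae_of_all _ fun x => ?_)
    simp only [Function.comp_apply]
    rw [PiLp.inner_apply (toLp 2 (lin A x)) t, PiLp.inner_apply (toLp 2 x) s]
    simp only [lin, s, sum_inner, inner_sum, real_inner_smul_left, real_inner_smul_right]
    rw [sum_comm]
  rw [h, γs, γ, Quarter.map_toLp_pi, charFun_stdGaussian]
  congr 2
  have e : ‖s‖ ^ 2 = ∑ i, ∑ i', (∑ j, A i j * A i' j) * ⟪t i, t i'⟫ := by
    rw [PiLp.norm_sq_eq_of_L2]
    simp only [s, ← real_inner_self_eq_norm_sq, sum_inner, inner_sum, real_inner_smul_left,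
      real_inner_smul_right, sum_mul]
    rw [sum_comm]
    refine sum_congr rfl fun i _ => ?_
    rw [sum_comm]
    exact sum_congr rfl fun i' _ => sum_congr rfl fun j _ => by
      rw [real_inner_comm (t i) (t i')]; ring
  rw [← e]
  push_cast
  rfl

/-- Equal Gram matrices give equal laws. -/
theorem map_lin_eq (A : ι → κ → ℝ) (B : ι → κ' → ℝ)
    (h : ∀ i i', ∑ j, A i j * A i' j = ∑ j, B i j * B i' j) :
    (γs d κ).map (lin A) = (γs d κ').map (lin B) := by
  have hA : IsProbabilityMeasure ((γs d κ).map (lin A)) :=
    Measure.isProbabilityMeasure_map (measurable_lin A).aemeasurable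
  have hB : IsProbabilityMeasure ((γs d κ').map (lin B)) :=
    Measure.isProbabilityMeasure_map (measurable_lin B).aemeasurable
  have hp : ((γs d κ).map (lin A)).map (toLp 2) = ((γs d κ').map (lin B)).map (toLp 2) := by
    refine Measure.ext_of_charFun (funext fun t => ?_)
    simp only [charFun_lin, h]
  have := congrArg (fun μ : Measure (PiLp 2 fun _ : ι => E d) => μ.map ofLp) hp
  simpa [Measure.map_map, Measurable.comp, Function.comp_def,
    show Measurable (ofLp : PiLp 2 (fun _ : ι => E d) → ι → E d) by fun_prop,
    show Measurable (toLp 2 : (ι → E d) → PiLp 2 fun _ : ι => E d) by fun_prop] using this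

/-- Integrals against linear images. -/
theorem integral_lin_eq (A : ι → κ → ℝ) (B : ι → κ' → ℝ)
    (h : ∀ i i', ∑ j, A i j * A i' j = ∑ j, B i j * B i' j) {F : Type*} [NormedAddCommGroup F]
    [NormedSpace ℝ F] {f : (ι → E d) → F} (hf : StronglyMeasurable f) :
    ∫ x, f (lin A x) ∂γs d κ = ∫ x, f (lin B x) ∂γs d κ' := by
  rw [← integral_map (measurable_lin A).aemeasurable hf.aestronglyMeasurable, map_lin_eq A B h,
    integral_map (measurable_lin B).aemeasurable hf.aestronglyMeasurable]

/-- The law of one coordinate. -/
theorem measurePreserving_coord (s : κ) :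
    MeasurePreserving (fun ξ : κ → E d => ξ s) (γs d κ) (γ d) :=
  measurePreserving_eval (fun _ : κ => γ d) s

theorem integral_coord (s : κ) {F : Type*} [NormedAddCommGroup F] [NormedSpace ℝ F]
    {f : E d → F} (hf : StronglyMeasurable f) :
    ∫ ξ, f (ξ s) ∂γs d κ = ∫ w, f w ∂γ d := by
  have h := measurePreserving_coord (d := d) s
  conv_rhs => rw [← h.map_eq]
  rw [integral_map h.measurable.aemeasurable hf.aestronglyMeasurable]

/-- A pair of standard Gaussians as two coordinates. -/
theorem measurePreserving_pair :
    MeasurePreserving (fun ξ : Bool → E d => (ξ true, ξ false)) (γs d Bool) ((γ d).prod (γ d)) := by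
  refine ⟨by fun_prop, (Measure.prod_eq fun s t hs ht => ?_).symm⟩
  rw [Measure.map_apply (by fun_prop) (hs.prod ht), γs,
    show (fun ξ : Bool → E d => (ξ true, ξ false)) ⁻¹' (s ×ˢ t)
      = Set.univ.pi fun k : Bool => bif k then s else t by
      ext ξ; simp [and_comm], Measure.pi_pi]
  simp

/-- The sum of two independent Gaussians. -/
theorem integral_two {F : Type*} [NormedAddCommGroup F] [NormedSpace ℝ F] (a c e : ℝ)
    (h : a ^ 2 + c ^ 2 = e ^ 2) {f : E d → F} (hf : StronglyMeasurable f) :
    ∫ p : E d × E d, f (a • p.1 + c • p.2) ∂(γ d).prod (γ d) = ∫ w, f (e • w) ∂γ d := by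
  have key := integral_lin_eq (d := d) (ι := Unit) (κ := Bool) (κ' := Unit)
    (fun _ k => bif k then a else c) (fun _ _ => e) (by intro _ _; simp [← sq, h])
    (f := fun v => f (v ())) (hf.comp_measurable (by fun_prop))
  have hm := measurePreserving_pair (d := d)
  rw [← hm.map_eq, integral_map (f := fun p : E d × E d => f (a • p.1 + c • p.2))
      hm.measurable.aemeasurable (hf.comp_measurable (by fun_prop)).aestronglyMeasurable,
    ← integral_coord () (f := fun w => f (e • w)) (hf.comp_measurable (by fun_prop))]
  simpa [lin] using key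

end

end Vale.Agent.P347.Zero
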