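import Vale.Agent.P347.Zero.Posterior
import Vale.Agent.P347.Zero.Gram

/-!
# P347, exponent 0: the bridge between two variances

A posterior mean at variance `v` is an average, over the point `t` of the posterior curve, of
smoothed posterior means at a smaller variance `v'`: both sides are one linear image of standard
Gaussians with the same Gram matrix.
-/

namespace Vale.Agent.P347.Zero

open MeasureTheory Real WithLp
open Vale.Agent.P347.Quarter (E γ gOf Lip1)
open Vale.Agent.P347.Quarter.Tgt (back)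
open Vale.Agent.P347.Colour (oracle)
open scoped RealInnerProductSpace

noncomputable section

variable {d : ℕ} {V : Colour.Pt d → ℝ} {v : ℝ}

/-- The density, against the standard Gaussian, of the point `t` of the posterior curve. -/
def wCur (V : Colour.Pt d → ℝ) (v : ℝ) (x : E d) (t : ℝ) (z : E d) : ℝ :=
  rho V (v - t ^ 2) (x + t • z) / rho V v x

/-- Linear growth. -/
def LinGr (f : E d → ℝ) : Prop := Continuous f ∧ ∃ C, ∀ w, |f w| ≤ C * (1 + ‖w‖)

theorem LinGr.gr {f : E d → ℝ} (hf : LinGr f) : Gr f :=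
  hf.2.elim fun _ h => Gr.of_le hf.1.measurable h

theorem linGr_gOf (hV : Colour.Cls (id : Fin d → Fin d) V) (i : Fin d) :
    LinGr fun w => gOf (oracle V) w i := by
  have hg := Quarter.pot_gOf hV
  refine ⟨(PiLp.continuous_apply 2 _ i).comp hg.smooth.continuous, 2, fun w => ?_⟩
  have := (PiLp.norm_apply_le (gOf (oracle V) w) i).trans (Quarter.Tgt.pot_lin hg w)
  rw [norm_eq_abs] at this
  linarith [norm_nonneg w]

theorem linGr_exv (hV : Colour.Cls (id : Fin d → Fin d) V) (hv : 0 < v) {f : E d → ℝ}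
    (hf : LinGr f) : LinGr fun y => exv V v y f := by
  refine ⟨(contDiff_exv hV hv hf.gr).continuous, ?_⟩
  obtain ⟨C, hC⟩ := hf.2
  have hC0 : 0 ≤ C := by simpa using (abs_nonneg _).trans (hC 0)
  set K := √(v * d) + v * ‖Nv V v 0‖
  refine ⟨C * (1 + K + (1 + 2 * v)), fun y => ?_⟩
  have hd : Gr fun w => ‖w - y‖ := Gr.of_le (by fun_prop) (C := 1 + ‖y‖) fun w => by
    rw [abs_norm]; nlinarith [norm_sub_le w y, norm_nonneg w, norm_nonneg y]
  have h1 : |exv V v y fun w => ‖w - y‖ * 1| ≤ (√(v * d) + v * ‖Nv V v y‖) * 1 := by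
    refine abs_exv_mul_le hV hv y hd (gr_const 1) (by positivity) zero_le_one
      ((exv_dist_sq_le hV hv y).trans ?_) (by simp [exv_const hV hv])
    nlinarith [sq_sqrt (show 0 ≤ v * d by positivity), norm_nonneg (Nv V v y),
      mul_nonneg (mul_nonneg hv.le (sqrt_nonneg (v * d))) (norm_nonneg (Nv V v y))]
  simp only [mul_one] at h1
  have hN : ‖Nv V v y‖ ≤ ‖Nv V v 0‖ + 2 * ‖y‖ := by
    have := Nv_lip hV hv y 0
    rw [sub_zero] at this
    linarith [norm_le_norm_sub_add (Nv V v y) (Nv V v 0)]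
  have h2 : exv V v y (fun w => C * (1 + ‖y‖) + C * ‖w - y‖) ≤ C * (1 + K + (1 + 2 * v)) * (1 + ‖y‖) := by
    rw [exv_add hV hv y (gr_const _) (hd.const_mul C), exv_const hV hv, exv_const_mul]
    have h3 := mul_le_mul_of_nonneg_left ((le_abs_self _).trans h1) hC0
    have h4 := mul_le_mul_of_nonneg_left hN (mul_nonneg hC0 hv.le)
    nlinarith [mul_nonneg hC0 (norm_nonneg y), mul_nonneg hC0 hv.le,
      mul_nonneg (mul_nonneg hC0 (show 0 ≤ K by positivity)) (norm_nonneg y),
      mul_nonneg (mul_nonneg hC0 hv.le) (norm_nonneg y)]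
  refine le_trans ?_ h2
  have e : exv V v y (fun w => -(C * (1 + ‖y‖) + C * ‖w - y‖))
      = -exv V v y (fun w => C * (1 + ‖y‖) + C * ‖w - y‖) := integral_neg _
  have hb : ∀ w, |f w| ≤ C * (1 + ‖y‖) + C * ‖w - y‖ := fun w => by
    nlinarith [hC w, mul_le_mul_of_nonneg_left (norm_le_norm_sub_add w y) hC0]
  refine abs_le.2 ⟨e ▸ exv_mono hV hv y ?_ hf.gr fun w => (abs_le.1 (hb w)).1,
    exv_mono hV hv y hf.gr ((gr_const _).add (hd.const_mul C)) fun w => (abs_le.1 (hb w)).2⟩
  simpa using ((gr_const (C * (1 + ‖y‖))).add (hd.const_mul C)).const_mul (-1)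

/-- Splitting off the first of finitely many Gaussians. -/
theorem integral_γs_succ {n : ℕ} {f : (Fin (n + 1) → E d) → ℝ}
    (hf : Integrable f (γs d (Fin (n + 1)))) :
    ∫ ξ, f ξ ∂γs d (Fin (n + 1)) = ∫ a, ∫ ξ', f (Fin.cons a ξ') ∂γs d (Fin n) ∂γ d := by
  have hm : MeasurePreserving
      (MeasurableEquiv.piFinSuccAbove (fun _ : Fin (n + 1) => E d) 0).symm
      ((γ d).prod (γs d (Fin n))) (γs d (Fin (n + 1))) :=
    (measurePreserving_piFinSuccAbove (fun _ => γ d) 0).symm _
  rw [← hm.integral_comp']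
  refine (integral_prod _ ((hm.integrable_comp_emb
    (MeasurableEquiv.measurableEmbedding _)).2 hf)).trans ?_
  simp [Fin.consEquiv]

theorem integral_γs_zero (f : (Fin 0 → E d) → ℝ) : ∫ ξ, f ξ ∂γs d (Fin 0) = f default := by
  rw [γs, Measure.pi_of_empty (fun _ : Fin 0 => γ d) default, integral_dirac]

theorem integrable_norm_γs {κ : Type} [Fintype κ] (j : κ) :
    Integrable (fun ξ : κ → E d => ‖ξ j‖) (γs d κ) := by
  have h := measurePreserving_coord (d := d) j
  exact (h.integrable_comp measurable_norm.aestronglyMeasurable).2 Quarter.γ_norm_integrable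

/-- A bounded factor against a factor of linear growth. -/
theorem integrable_lin_mul {κ : Type} [Fintype κ] (hV : Colour.Cls (id : Fin d → Fin d) V)
    {F : E d → ℝ} (hF : LinGr F) (x : E d) (A : Bool → κ → ℝ) :
    Integrable (fun ξ : κ → E d => F (x + lin A ξ true) * dV V (x + lin A ξ false)) (γs d κ) := by
  obtain ⟨C, hC⟩ := hF.2
  have hC0 : 0 ≤ C := by simpa using (abs_nonneg _).trans (hC 0)
  refine (((integrable_const (1 + ‖x‖)).add (integrable_finsetSum Finset.univ fun j _ =>
    (integrable_norm_γs (d := d) j).const_mul |A true j|)).const_mul C).mono'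
    ((hF.1.comp (by fun_prop)).mul ((continuous_dV hV).comp (by fun_prop))).aestronglyMeasurable
    (ae_of_all _ fun ξ => ?_)
  rw [norm_eq_abs, abs_mul, abs_of_pos (dV_pos _)]
  refine (mul_le_of_le_one_right (abs_nonneg _) (dV_le_one hV _)).trans ((hC _).trans ?_)
  refine mul_le_mul_of_nonneg_left ?_ hC0
  have h1 : ‖lin A ξ true‖ ≤ ∑ j, |A true j| * ‖ξ j‖ := by
    refine (norm_sum_le _ _).trans (Finset.sum_le_sum fun j _ => ?_)
    rw [norm_smul, norm_eq_abs]
  simp only [Pi.add_apply, Finset.sum_apply]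
  linarith [norm_add_le x (lin A ξ true)]

theorem integral_wCur_mul (hV : Colour.Cls (id : Fin d → Fin d) V) {v v' t κ a : ℝ}
    (hv' : 0 < v') (hle : v' ≤ v) (ht : t ^ 2 ≤ v) (hκ : κ * t = v - v')
    (ha : κ ^ 2 + a ^ 2 = v - v') (x : E d) {f : E d → ℝ} (hf : LinGr f) :
    exv V v x f
      = ∫ z, wCur V v x t z * Quarter.G (a ^ 2) (fun y => exv V v' y f) (x + κ • z) ∂γ d := by
  have hv : 0 < v := hv'.trans_le hle
  set F := fun y => exv V v' y f
  have hF : LinGr F := linGr_exv hV hv' hf
  set c := √(v - v')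
  set s := √(v - t ^ 2)
  set a' := √(a ^ 2)
  let A : Bool → Fin 3 → ℝ := fun b => bif b then ![κ, a', 0] else ![t, 0, s]
  let B : Bool → Fin 2 → ℝ := fun b => bif b then ![c, 0] else ![c, √v']
  have hgram : ∀ i i', ∑ j, A i j * A i' j = ∑ j, B i j * B i' j := by
    have e1 : c ^ 2 = v - v' := sq_sqrt (by linarith)
    have e2 : s ^ 2 = v - t ^ 2 := sq_sqrt (by linarith)
    have e3 : a' ^ 2 = a ^ 2 := sq_sqrt (sq_nonneg a)
    have e4 : √v' ^ 2 = v' := sq_sqrt hv'.le
    intro i i'
    cases i <;> cases i' <;> simp [A, B, Fin.sum_univ_three, Fin.sum_univ_two] <;> nlinarith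
  set Ψ : (Bool → E d) → ℝ := fun p => F (x + p true) * dV V (x + p false)
  have hΨ : Continuous Ψ :=
    (hF.1.comp (by fun_prop)).mul ((continuous_dV hV).comp (by fun_prop))
  have key := integral_lin_eq (d := d) A B hgram hΨ.stronglyMeasurable
  have iA : Integrable (fun ξ => Ψ (lin A ξ)) (γs d (Fin 3)) := integrable_lin_mul hV hF x A
  have iB : Integrable (fun ξ => Ψ (lin B ξ)) (γs d (Fin 2)) := integrable_lin_mul hV hF x B
  -- the right-hand Gram realisation
  have eB : ∫ ξ, Ψ (lin B ξ) ∂γs d (Fin 2) = exv V v x f * rho V v x := by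
    rw [integral_γs_succ iB]
    have e : ∀ e1, ∫ ξ, Ψ (lin B (Fin.cons e1 ξ)) ∂γs d (Fin 1)
        = ∫ e2, f (x + c • e1 + √v' • e2) * dV V (x + c • e1 + √v' • e2) ∂γ d := by
      intro e1
      have i1 : Integrable (fun ξ => Ψ (lin B (Fin.cons e1 ξ))) (γs d (Fin 1)) := by
        have := integrable_lin_mul hV (F := fun _ => F (x + c • e1))
          ⟨continuous_const, |F (x + c • e1)|, fun w => by
            nlinarith [norm_nonneg w, abs_nonneg (F (x + c • e1))]⟩ (x + c • e1)
          (fun b => bif b then ![0] else ![√v'])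
        refine this.congr (ae_of_all _ fun ξ => ?_)
        simp [Ψ, lin, B, Fin.sum_univ_two, add_assoc]
      rw [integral_γs_succ i1]
      simp only [integral_γs_zero]
      simp [Ψ, lin, B, Fin.sum_univ_two, add_assoc]
      rw [integral_const_mul]
      have h0 := exv_eq hV hv' (x + c • e1) f
      rw [eq_div_iff (rho_pos hV v' _).ne', rho, Quarter.G, Quarter.G] at h0
      simpa [F, add_assoc] using h0
    simp only [e]
    rw [exv_eq hV hv, div_mul_cancel₀ _ (rho_pos hV v x).ne', Quarter.G]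
    have hm : StronglyMeasurable fun w => f (x + w) * dV V (x + w) :=
      ((hf.1.comp (by fun_prop)).mul ((continuous_dV hV).comp (by fun_prop))).stronglyMeasurable
    have h2 := integral_two (d := d) c √v' √v
      (by rw [sq_sqrt (by linarith), sq_sqrt hv'.le, sq_sqrt hv.le]; ring) hm
    rw [← h2, integral_prod (f := fun p : E d × E d =>
      f (x + (c • p.1 + √v' • p.2)) * dV V (x + (c • p.1 + √v' • p.2)))]
    · simp [add_assoc]
    · obtain ⟨C, hC⟩ := hf.2
      have hC0 : 0 ≤ C := by simpa using (abs_nonneg _).trans (hC 0)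
      refine ((((Quarter.γ_norm_integrable.comp_fst (γ d)).const_mul c).add
        ((Quarter.γ_norm_integrable.comp_snd (γ d)).const_mul √v')).add
        (integrable_const (1 + ‖x‖))).const_mul C |>.mono'
        (((hf.1.comp (by fun_prop)).mul ((continuous_dV hV).comp (by fun_prop))).aestronglyMeasurable)
        (ae_of_all _ fun p => ?_)
      rw [norm_eq_abs, abs_mul, abs_of_pos (dV_pos _)]
      refine (mul_le_of_le_one_right (abs_nonneg _) (dV_le_one hV _)).trans ((hC _).trans ?_)
      refine mul_le_mul_of_nonneg_left ?_ hC0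
      simp only [Pi.add_apply]
      have := norm_add_le x (c • p.1 + √v' • p.2)
      have := norm_add_le (c • p.1) (√v' • p.2)
      rw [norm_smul, norm_smul, norm_eq_abs, norm_eq_abs, abs_of_nonneg (sqrt_nonneg _),
        abs_of_nonneg (sqrt_nonneg _)] at this
      linarith
  -- the left-hand one
  have eA : ∫ ξ, Ψ (lin A ξ) ∂γs d (Fin 3)
      = ∫ z, rho V (v - t ^ 2) (x + t • z) * Quarter.G (a ^ 2) F (x + κ • z) ∂γ d := by
    rw [integral_γs_succ iA]
    refine integral_congr_ae (ae_of_all _ fun z => ?_)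
    have i2 : Integrable (fun ξ : Fin 2 → E d =>
        F (x + κ • z + a' • ξ 0) * dV V (x + t • z + s • ξ 1)) (γs d (Fin 2)) := by
      obtain ⟨C, hC⟩ := hF.2
      have hC0 : 0 ≤ C := by simpa using (abs_nonneg _).trans (hC 0)
      refine (((integrable_norm_γs (d := d) (0 : Fin 2)).const_mul a').add
        (integrable_const (1 + ‖x + κ • z‖))).const_mul C |>.mono'
        ((hF.1.comp (by fun_prop)).mul
          ((continuous_dV hV).comp (by fun_prop))).aestronglyMeasurable (ae_of_all _ fun ξ => ?_)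
      rw [norm_eq_abs, abs_mul, abs_of_pos (dV_pos _)]
      refine (mul_le_of_le_one_right (abs_nonneg _) (dV_le_one hV _)).trans ((hC _).trans ?_)
      refine mul_le_mul_of_nonneg_left ?_ hC0
      simp only [Pi.add_apply]
      have := norm_add_le (x + κ • z) (a' • ξ 0)
      rw [norm_smul, norm_eq_abs, abs_of_nonneg (sqrt_nonneg _)] at this
      linarith
    have e : ∀ ξ : Fin 2 → E d, Ψ (lin A (Fin.cons z ξ))
        = F (x + κ • z + a' • ξ 0) * dV V (x + t • z + s • ξ 1) := fun ξ => by
      simp [Ψ, lin, A, Fin.sum_univ_three, add_assoc,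
        show (Fin.cons z ξ : Fin 3 → E d) 2 = ξ 1 from rfl]
    simp only [e]
    rw [integral_γs_succ i2]
    have e' : ∀ r, ∫ ξ : Fin 1 → E d, F (x + κ • z + a' • (Fin.cons r ξ : Fin 2 → E d) 0)
        * dV V (x + t • z + s • (Fin.cons r ξ : Fin 2 → E d) 1) ∂γs d (Fin 1)
        = F (x + κ • z + a' • r) * rho V (v - t ^ 2) (x + t • z) := by
      intro r
      simp only [Fin.cons_zero, Fin.cons_one]
      rw [integral_const_mul]
      congr 1
      exact integral_coord (d := d) (0 : Fin 1) (f := fun w => dV V (x + t • z + s • w))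
        ((continuous_dV hV).comp (by fun_prop)).stronglyMeasurable
    simp only [e']
    rw [integral_mul_const, mul_comm]
    rfl
  rw [eA, eB] at key
  simp only [wCur, div_mul_eq_mul_div]
  rw [integral_div, key, mul_div_cancel_right₀ _ (rho_pos hV v x).ne']

theorem integral_wCur (hV : Colour.Cls (id : Fin d → Fin d) V) {v t : ℝ}
    (hv : 0 < v) (ht : t ^ 2 ≤ v) (x : E d) : ∫ z, wCur V v x t z ∂γ d = 1 := by
  have h := integral_wCur_mul hV hv le_rfl ht (κ := 0) (a := 0) (by simp) (by simp) x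
    (f := fun _ => 1) ⟨continuous_const, 1, fun w => by simp⟩
  simpa [exv_const hV hv, Quarter.G] using h.symm

theorem integrable_wCur_mul (hV : Colour.Cls (id : Fin d → Fin d) V) {v t : ℝ} (hv : 0 < v)
    (ht : t ^ 2 < v) (x : E d) {F : E d → ℝ} (hF : Continuous F) {C : ℝ}
    (hC : ∀ z, |F z| ≤ C * (1 + ‖z‖)) : Integrable (fun z => wCur V v x t z * F z) (γ d) := by
  have hs : (0 : ℝ) < v - t ^ 2 := by linarith
  have hrc : Continuous fun z => rho V (v - t ^ 2) (x + t • z) := by
    have h : (fun y => rho V (v - t ^ 2) y) = fun y => exp (-uPot V (v - t ^ 2) y) := funext fun y => by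
      rw [uPot, neg_neg, exp_log (rho_pos hV _ y)]
    have hu : Continuous (uPot V (v - t ^ 2)) :=
      continuous_iff_continuousAt.2 fun y =>
        (hasGradientAt_iff_hasFDerivAt.1 (hasGradientAt_uPot hV hs y)).continuousAt
    rw [show (fun z => rho V (v - t ^ 2) (x + t • z))
      = fun z => exp (-uPot V (v - t ^ 2) (x + t • z)) from funext fun z => congrFun h _]
    fun_prop
  refine (((integrable_const 1).add Quarter.γ_norm_integrable).const_mul
    ((rho V v x)⁻¹ * C)).mono' ((hrc.div_const _).mul hF).aestronglyMeasurable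
    (ae_of_all _ fun z => ?_)
  have hr := rho_pos hV v x
  have hr' := rho_pos hV (v - t ^ 2) (x + t • z)
  have h1 : rho V (v - t ^ 2) (x + t • z) ≤ 1 := by
    refine (integral_mono (integrable_dV_shift hV _ _) (integrable_const 1)
      fun w => dV_le_one hV _).trans_eq ?_
    simp
  have h2 : wCur V v x t z ≤ (rho V v x)⁻¹ := by
    rw [wCur, div_eq_mul_inv]; exact mul_le_of_le_one_left (inv_nonneg.2 hr.le) h1
  rw [norm_eq_abs, abs_mul,
    abs_of_nonneg (show 0 ≤ wCur V v x t z from div_nonneg hr'.le hr.le), Pi.add_apply, mul_assoc]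
  exact mul_le_mul h2 (hC z) (abs_nonneg _) (inv_nonneg.2 hr.le)

/-- The mean gradient at `v` is an average of the nodes at a smaller variance `v'`. -/
theorem bridge (hV : Colour.Cls (id : Fin d → Fin d) V) {v v' t κ a : ℝ}
    (hv' : 0 < v') (hle : v' ≤ v) (ht : t ^ 2 < v) (hκ : κ * t = v - v')
    (ha : κ ^ 2 + a ^ 2 = v - v') (x : E d) :
    Nv V v x = ∫ z, wCur V v x t z • (Nd.mk v' a).val V (x + κ • z) ∂γ d := by
  have hv : 0 < v := hv'.trans_le hle
  have hN : LipschitzWith 2 (Nv V v') :=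
    LipschitzWith.of_dist_le_mul fun p q => by
      simpa [dist_eq_norm] using Nv_lip hV hv' p q
  have hNb : ∀ y, ‖Nv V v' y‖ ≤ ‖Nv V v' 0‖ + 2 * ‖y‖ := fun y => by
    have := Nv_lip hV hv' y 0
    rw [sub_zero] at this
    linarith [norm_le_norm_sub_add (Nv V v' y) (Nv V v' 0)]
  set a' := √(a ^ 2)
  have hint : ∀ y, Integrable (fun w => Nv V v' (y + a' • w)) (γ d) := fun y =>
    (((Quarter.γ_norm_integrable.const_mul (2 * a')).add
      (integrable_const (‖Nv V v' 0‖ + 2 * ‖y‖))).mono'
      (hN.continuous.comp (by fun_prop)).aestronglyMeasurable (ae_of_all _ fun w => by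
        refine (hNb _).trans ?_
        have := norm_add_le y (a' • w)
        rw [norm_smul, norm_eq_abs, abs_of_nonneg (sqrt_nonneg _)] at this
        simp only [Pi.add_apply]
        linarith))
  have hcomp : ∀ y i, (Nd.mk v' a).val V y i
      = Quarter.G (a ^ 2) (fun y => exv V v' y fun w => gOf (oracle V) w i) y := fun y i => by
    simp only [Nd.val, Quarter.G, ← Nv_apply hV hv']
    exact ((EuclideanSpace.proj i : E d →L[ℝ] ℝ).integral_comp_comm (hint y)).symm
  have hlip : LipschitzWith 2 fun y => (Nd.mk v' a).val V y :=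
    LipschitzWith.of_dist_le_mul fun p q => by
      simp only [dist_eq_norm, Nd.val, Quarter.G, NNReal.coe_ofNat]
      rw [← integral_sub (hint p) (hint q)]
      refine (norm_integral_le_of_norm_le_const (C := 2 * ‖p - q‖) (ae_of_all _ fun w => ?_)).trans
        (le_of_eq (by simp))
      simpa [a'] using Nv_lip hV hv' (p + a' • w) (q + a' • w)
  have hI : Integrable (fun z => wCur V v x t z • (Nd.mk v' a).val V (x + κ • z)) (γ d) := by
    refine (Integrable.of_eval_piLp fun i => ?_)
    simp only [PiLp.smul_apply, smul_eq_mul]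
    refine integrable_wCur_mul hV hv ht x
      ((PiLp.continuous_apply 2 _ i).comp (hlip.continuous.comp (by fun_prop)))
      (C := ‖(Nd.mk v' a).val V x‖ + 2 * |κ|) fun z => ?_
    have h1 := hlip.dist_le_mul (x + κ • z) x
    rw [dist_eq_norm, dist_eq_norm, add_sub_cancel_left, norm_smul, norm_eq_abs,
      NNReal.coe_ofNat] at h1
    have h2 := PiLp.norm_apply_le ((Nd.mk v' a).val V (x + κ • z)) i
    rw [norm_eq_abs] at h2
    nlinarith [norm_le_norm_sub_add ((Nd.mk v' a).val V (x + κ • z)) ((Nd.mk v' a).val V x),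
      norm_nonneg z, abs_nonneg κ, norm_nonneg ((Nd.mk v' a).val V x)]
  ext i
  rw [Nv_apply hV hv, integral_wCur_mul hV hv' hle ht.le hκ ha x (linGr_gOf hV i)]
  refine Eq.trans ?_ ((EuclideanSpace.proj i : E d →L[ℝ] ℝ).integral_comp_comm hI)
  exact integral_congr_ae (ae_of_all _ fun z => by simp [hcomp])

/-- The same identity for the posterior laws. -/
theorem bridge_law (hV : Colour.Cls (id : Fin d → Fin d) V) {v v' t κ a : ℝ}
    (hv' : 0 < v') (hle : v' ≤ v) (ht : t ^ 2 ≤ v) (hκ : κ * t = v - v')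
    (ha : κ ^ 2 + a ^ 2 = v - v') (ha0 : 0 ≤ a) (x : E d) {u : E d → ℝ} {L : ℝ} (hu : Lip1 u L) :
    ∫ w, u w ∂back v V x
      = ∫ z, wCur V v x t z * ∫ ξ, (∫ w, u w ∂back v' V (x + κ • z + a • ξ)) ∂γ d ∂γ d := by
  have h := integral_wCur_mul hV hv' hle ht hκ ha x (f := u)
    ⟨hu.smooth.continuous, 1, fun w => by nlinarith [hu.bdd w, norm_nonneg w]⟩
  simpa [exv, Quarter.G, sqrt_sq ha0] using h

/-- The posterior kernel is `1`-Lipschitz for the transport distance. -/
theorem exv_lip (hV : Colour.Cls (id : Fin d → Fin d) V) (hv : 0 < v) {u : E d → ℝ} {L : ℝ}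
    (hL : 0 ≤ L) (hu : ContDiff ℝ 1 u) (hl : ∀ w, ‖fderiv ℝ u w‖ ≤ L) (x y : E d) :
    |exv V v x u - exv V v y u| ≤ L * ‖x - y‖ := by
  have hgr : Gr u := Gr.of_le hu.continuous.measurable (C := |u 0| + L) fun w => by
    have := convex_univ.norm_image_sub_le_of_norm_fderiv_le (𝕜 := ℝ)
      (fun z _ => hu.differentiable one_ne_zero z) (fun z _ => hl z) (Set.mem_univ 0) (Set.mem_univ w)
    rw [sub_zero, norm_eq_abs] at this
    nlinarith [abs_sub_abs_le_abs_sub (u w) (u 0), norm_nonneg w, abs_nonneg (u 0)]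
  have hdg : Gr fun w => ‖fderiv ℝ u w‖ :=
    Gr.of_le (hu.continuous_fderiv one_ne_zero).norm.measurable (C := L) fun w => by
      rw [abs_norm]; nlinarith [hl w, norm_nonneg w]
  have hd : ∀ z, ‖fderiv ℝ (fun x => exv V v x u) z‖ ≤ L := by
    intro z
    refine ContinuousLinearMap.opNorm_le_bound _ hL fun h => ?_
    set m := exv V v z u
    set g := fun w : E d => v⁻¹ * (⟪h, w⟫ - ⟪h, z - v • Nv V v z⟫)
    have hg : Gr g :=
      ((gr_inner h (F := fun w : E d => w) gr_coord).sub (gr_const _)).const_mul _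
    have e : fderiv ℝ (fun x => exv V v x u) z h = exv V v z fun w => (u w - m) * g w := by
      have hsum : h = ∑ i, h i • unitV i := by
        simpa [unitV] using ((EuclideanSpace.basisFun (Fin d) ℝ).sum_repr h).symm
      conv_lhs => rw [hsum, map_sum]
      have e1 : ∀ w, (u w - m) * g w
          = ∑ i, h i * (u w * q1 V v i z w - m * q1 V v i z w) := fun w => by
        simp only [g, PiLp.inner_apply, RCLike.inner_apply, conj_trivial, mul_sub, Finset.mul_sum,
          ← Finset.sum_sub_distrib]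
        refine Finset.sum_congr rfl fun i _ => ?_
        simp [q1]; field_simp; ring
      simp only [e1]
      rw [exv_sum hV hv z _ fun i _ => ((hgr.mul (gr_q1 i z)).sub ((gr_q1 i z).const_mul m)).const_mul _]
      refine Finset.sum_congr rfl fun i _ => ?_
      rw [map_smul, smul_eq_mul, exv_const_mul,
        exv_sub hV hv z (hgr.mul (gr_q1 i z)) ((gr_q1 i z).const_mul m), exv_const_mul,
        exv_q1 hV hv, mul_zero, sub_zero, ← pd_exv hV hv hgr]
      rfl
    rw [norm_eq_abs, e]
    have h1 : exv V v z (fun w => (u w - m) ^ 2) ≤ (√v * L) ^ 2 := by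
      refine (exv_sq_sub_le hV hv z hgr hu hdg).trans ?_
      rw [mul_pow, sq_sqrt hv.le]
      exact mul_le_mul_of_nonneg_left ((exv_mono hV hv z hdg.sq (gr_const (L ^ 2))
        fun w => pow_le_pow_left₀ (norm_nonneg _) (hl w) 2).trans_eq (exv_const hV hv z _)) hv.le
    have h2 : exv V v z (fun w => g w ^ 2) ≤ (‖h‖ / √v) ^ 2 := by
      simp only [g, mul_pow]
      rw [exv_const_mul, div_pow, sq_sqrt hv.le]
      refine (mul_le_mul_of_nonneg_left (exv_var_coord hV hv z h) (sq_nonneg _)).trans_eq ?_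
      field_simp
    refine (abs_exv_mul_le hV hv z (hgr.sub (gr_const m)) hg (by positivity) (by positivity) h1
      h2).trans_eq ?_
    field_simp
  simpa [norm_eq_abs] using convex_univ.norm_image_sub_le_of_norm_fderiv_le
    (fun z _ => (contDiff_exv hV hv hgr).differentiable (by simp) z) (fun z _ => hd z)
    (Set.mem_univ y) (Set.mem_univ x)

end

end Vale.Agent.P347.Zero
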