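import Vale.Agent.P347.Zero.CurAdj
import Vale.Agent.P347.Zero.Bridge

/-!
# P347, exponent 0: the parameters of one bridge step, and what a programme for the curve gives
-/

namespace Vale.Agent.P347.Zero

open MeasureTheory Real Finset Set
open Vale.Agent.P347.Quarter (E γ Lip1)
open Vale.Agent.P347.Colour (Pt)

noncomputable section

variable {d m : ℕ}

/-- The parameters of a bridge step from `v` to `q * q * v`. -/
theorem bridge_params {v q : ℝ} (hv : 0 < v) (hq : 0 < q) (hq4 : q ≤ 1 / 4) :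
    ∃ t κ a : ℝ, 0 < t ∧ t ≤ √v ∧ t ^ 2 = v - q * q * v / 2 ∧ 0 ≤ κ ∧ κ ≤ t ∧
      κ * t = v - q * q * v ∧ κ ^ 2 + a ^ 2 = v - q * q * v ∧ 0 ≤ a ∧ a ≤ q * √v ∧
      q * √v / 2 ≤ a := by
  have hqq : q * q ≤ 1 / 16 := (mul_le_mul hq4 hq4 hq.le (by norm_num)).trans (by norm_num)
  set v' := q * q * v with hv'
  have hv'0 : 0 < v' := by positivity
  have hv'v : v' ≤ v / 16 := (mul_le_mul_of_nonneg_right hqq hv.le).trans (le_of_eq (by ring))
  set t := √(v - v' / 2)
  have ht2 : t ^ 2 = v - v' / 2 := Real.sq_sqrt (by linarith)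
  have ht0 : 0 < t := Real.sqrt_pos.2 (by linarith)
  have hne : v - v' / 2 ≠ 0 := by linarith
  have ha2 : √((v - v') * (v' / 2) / (v - v' / 2)) ^ 2 = (v - v') * (v' / 2) / (v - v' / 2) :=
    Real.sq_sqrt (div_nonneg (mul_nonneg (by linarith) (by linarith)) (by linarith))
  refine ⟨t, (v - v') / t, √((v - v') * (v' / 2) / (v - v' / 2)), ht0,
    Real.sqrt_le_sqrt (by linarith), ht2, div_nonneg (by linarith) ht0.le, ?_,
    div_mul_cancel₀ _ ht0.ne', ?_, Real.sqrt_nonneg _, ?_, ?_⟩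
  · rw [div_le_iff₀ ht0, ← sq, ht2]
    linarith
  · rw [ha2, div_pow, ht2, ← add_div, div_eq_iff hne]
    ring
  · refine Real.sqrt_le_iff.2 ⟨by positivity, ?_⟩
    rw [div_le_iff₀ (by linarith), mul_pow, Real.sq_sqrt hv.le, sq q, ← hv']
    nlinarith
  · refine Real.le_sqrt_of_sq_le ?_
    rw [le_div_iff₀ (by linarith), div_pow, mul_pow, Real.sq_sqrt hv.le, sq q, ← hv']
    nlinarith

variable {v T c : ℝ} {τ : Fin m → ℝ} {w : ℝ → Fin m → ℝ}

/-- The bridge programme is admissible at the output scale and tame. -/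
theorem bridge_adm (hd : CurData v T c τ w) {h e q κ a γ' : ℝ} (K : ℕ) (hh : v ≤ h) (he : 0 < e)
    (hq : 0 < q) (hq4 : q ≤ 1 / 4) (hκ : 0 ≤ κ) (hκT : κ ≤ T) (ha : q * √v / 2 ≤ a)
    (hTe : T * √v / e ≤ γ') (hγ : c * γ' ≤ q / 4) (h8 : 8 * c * T * √v / e ≤ 1)
    (hsmall : T * (q * q) + √v * (q * q) + c * T ^ 2 * √v / e ≤ √(v - T ^ 2)) :
    (shiftP κ (pcur v τ w K T)).Adm h 1 e (bs (q * q * q) (√v * (q * q * q))) a ∧
      (shiftP κ (pcur v τ w K T)).grs e none ≤ 2 * √v ∧
      (shiftP κ (pcur v τ w K T)).grs e (some ()) ≤ 2 := by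
  have hT := hd.T_nonneg
  have hc : 0 ≤ c := zero_le_one.trans hd.c_one
  have hTv : T ≤ √v := Real.le_sqrt_of_sq_le hd.T_sq.le
  have hTt : T ∈ Icc 0 T := ⟨hT, le_rfl⟩
  have hq32 : q * q * q ≤ q * q := mul_le_of_le_one_right (mul_self_nonneg q) (by linarith)
  have hsm : T * (q * q * q) + √v * (q * q * q) + c * T ^ 2 * √v / e ≤ √(v - T ^ 2) := by
    linarith [mul_le_mul_of_nonneg_left hq32 hT,
      mul_le_mul_of_nonneg_left hq32 (Real.sqrt_nonneg v)]
  have hqs : 0 ≤ q * √v := mul_nonneg hq.le (Real.sqrt_nonneg v)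
  have hqq : q * q ≤ 1 / 16 := (mul_le_mul hq4 hq4 hq.le (by norm_num)).trans (by norm_num)
  have hq8 : T * (q * q * q) + √v * (q * q * q) ≤ q * √v / 8 := by
    have h1 := mul_le_mul_of_nonneg_right hTv (by positivity : 0 ≤ q * q * q)
    have h2 := mul_le_mul_of_nonneg_left hqq hqs
    linarith [show √v * (q * q * q) = q * √v * (q * q) by ring]
  have hc8 : c * T ^ 2 * √v / e ≤ q * √v / 4 :=
    calc c * T ^ 2 * √v / e = c * T * (T * √v / e) := by ring
      _ ≤ c * √v * γ' :=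
        mul_le_mul (mul_le_mul_of_nonneg_left hTv hc) hTe (by positivity) (by positivity)
      _ = √v * (c * γ') := by ring
      _ ≤ √v * (q / 4) := mul_le_mul_of_nonneg_left hγ (Real.sqrt_nonneg v)
      _ = q * √v / 4 := by ring
  refine ⟨hd.shift_adm hh he (by positivity) hsm K hTt hκ hκT (by linarith), ?_, ?_⟩
  · rw [shiftP_grs_none hκ]
    have h := mul_le_mul (hκT.trans hTv) (hd.grs_le he h8 K hTt).1
      (Prog.grs_nonneg he.le _ _) (Real.sqrt_nonneg v)
    linarith
  · rw [shiftP_grs_some hκ (pcur_lin v τ w K T).2]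
    have h4 : κ * (8 * c * T / e) ≤ 8 * c * T * √v / e := by
      rw [mul_comm κ, mul_div_right_comm (8 * c * T) (√v)]
      exact mul_le_mul_of_nonneg_left (hκT.trans hTv) (by positivity)
    linarith [mul_le_mul_of_nonneg_left (hd.grs_le he h8 K hTt).2 hκ]

/-- The mean of a difference is at most its quadratic mean. -/
theorem integral_norm_le_of_sq {g : E d → E d} (hg : Continuous g) {r : ℝ} (hr : 0 < r)
    (hi : Integrable (fun z => ‖g z‖ ^ 2) (γ d)) (hb : ∫ z, ‖g z‖ ^ 2 ∂γ d ≤ r ^ 2) :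
    Integrable (fun z => ‖g z‖) (γ d) ∧ ∫ z, ‖g z‖ ∂γ d ≤ r := by
  have hle : ∀ z, ‖g z‖ ≤ ‖g z‖ ^ 2 / (2 * r) + r / 2 := fun z => by
    field_simp
    nlinarith [sq_nonneg (‖g z‖ - r)]
  have hI : Integrable (fun z => ‖g z‖ ^ 2 / (2 * r) + r / 2) (γ d) :=
    (hi.div_const _).add (integrable_const _)
  have hn : Integrable (fun z => ‖g z‖) (γ d) :=
    hI.mono' hg.norm.aestronglyMeasurable (Filter.Eventually.of_forall fun z => by
      rw [norm_norm]; exact hle z)
  refine ⟨hn, (integral_mono hn hI hle).trans ?_⟩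
  rw [integral_add (hi.div_const _) (integrable_const _), integral_div, integral_const,
    probReal_univ, one_smul]
  have := div_le_div_of_nonneg_right hb (by positivity : (0 : ℝ) ≤ 2 * r)
  rw [show r ^ 2 / (2 * r) = r / 2 by field_simp] at this
  linarith

variable {V : Pt d → ℝ} {v' t κ a r B : ℝ} {x : E d} {Y Z : E d → E d}

/-- The mean through the transport. -/
theorem bridge_mean (hV : Mem V) (hv : 0 < v) (hv' : 0 < v') (hle : v' ≤ v) (ht : t ^ 2 < v)
    (hκ : 0 ≤ κ) (hκ1 : κ ≤ 1) (hκv : κ ≤ √v) (hκt : κ * t = v - v')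
    (hsum : κ ^ 2 + a ^ 2 = v - v') (hY : Continuous Y) (hZ : Continuous Z)
    (hYn : ∀ z, ‖Y z‖ ≤ B + 13 * ‖z‖) (hZn : ∀ z, ‖Z z‖ ≤ B + 13 * ‖z‖)
    (htr : ∀ f : E d → ℝ, Measurable f → ∫ z, f (Z z) ∂γ d = ∫ z, wCur V v x t z * f z ∂γ d)
    (hi : Integrable (fun z => ‖Y z - Z z‖) (γ d)) (hb : ∫ z, ‖Y z - Z z‖ ∂γ d ≤ r) :
    ‖Nv V v x - ∫ z, (Nd.mk v' a).val V (x + κ • Y z) ∂γ d‖ ≤ 2 * √v * r := by
  set nd := Nd.mk v' a
  have hlip := nd.val_lip hV hv'
  have hc : Continuous (nd.val V) := (LipschitzWith.of_dist_le_mul (K := 2) (f := nd.val V)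
    fun p p' => by simpa [dist_eq_norm] using hlip p p').continuous
  have hgr : ∀ p : E d, ‖nd.val V (x + κ • p)‖ ≤ ‖nd.val V x‖ + 2 * ‖p‖ := fun p => by
    have h1 := hlip (x + κ • p) x
    rw [add_sub_cancel_left, norm_smul, Real.norm_eq_abs, abs_of_nonneg hκ] at h1
    linarith [mul_le_of_le_one_left (norm_nonneg p) hκ1,
      norm_le_norm_add_norm_sub' (nd.val V (x + κ • p)) (nd.val V x)]
  have hint : ∀ g : E d → E d, Continuous g → (∀ z, ‖g z‖ ≤ B + 13 * ‖z‖) →
      Integrable (fun z => nd.val V (x + κ • g z)) (γ d) := fun g hg hgn => by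
    refine ((integrable_const (‖nd.val V x‖ + 2 * B)).add
      (Quarter.γ_norm_integrable.const_mul 26)).mono' (hc.comp (by fun_prop)).aestronglyMeasurable
      (Filter.Eventually.of_forall fun z => ?_)
    simp only [Pi.add_apply]
    linarith [hgr (g z), hgn z]
  have i1 := hint _ hZ hZn
  have i2 := hint _ hY hYn
  have hbr : Nv V v x = ∫ z, nd.val V (x + κ • Z z) ∂γ d := by
    ext i
    rw [bridge hV hv' hle ht hκt hsum x]
    have hm : Measurable fun z : E d => nd.val V (x + κ • z) i :=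
      ((PiLp.continuous_apply 2 _ i).comp (hc.comp (by fun_prop))).measurable
    have hw : Integrable (fun z => wCur V v x t z • nd.val V (x + κ • z)) (γ d) := by
      refine Integrable.of_eval_piLp fun j => ?_
      simp only [PiLp.smul_apply, smul_eq_mul]
      refine integrable_wCur_mul hV hv ht x ((PiLp.continuous_apply 2 _ j).comp
        (hc.comp (by fun_prop))) (C := ‖nd.val V x‖ + 2) fun z => ?_
      have h2 := PiLp.norm_apply_le (nd.val V (x + κ • z)) j
      rw [Real.norm_eq_abs] at h2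
      refine h2.trans ((hgr z).trans ?_)
      linarith [norm_nonneg z, mul_nonneg (norm_nonneg (nd.val V x)) (norm_nonneg z)]
    refine ((EuclideanSpace.proj i : E d →L[ℝ] ℝ).integral_comp_comm hw).symm.trans
      (Eq.trans ?_ ((EuclideanSpace.proj i : E d →L[ℝ] ℝ).integral_comp_comm i1))
    refine Eq.trans ?_ (htr _ hm).symm
    exact integral_congr_ae (Filter.Eventually.of_forall fun z => by simp [nd])
  rw [hbr, ← integral_sub i1 i2]
  refine (norm_integral_le_integral_norm _).trans ((integral_mono (i1.sub i2).norm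
    (hi.const_mul (2 * √v)) fun z => ?_).trans ?_)
  · refine (hlip _ _).trans ?_
    rw [add_sub_add_left_eq_sub, ← smul_sub, norm_smul, Real.norm_eq_abs, abs_of_nonneg hκ,
      norm_sub_rev, mul_assoc]
    exact mul_le_mul_of_nonneg_left (mul_le_mul_of_nonneg_right hκv (norm_nonneg _)) zero_le_two
  · rw [integral_const_mul]
    exact mul_le_mul_of_nonneg_left hb (by positivity)

/-- Tests through the transport. -/
theorem bridge_test (hV : Mem V) (hv' : 0 < v') (hle : v' ≤ v) (ht : t ^ 2 ≤ v) (hκ : 0 ≤ κ)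
    (hκv : κ ≤ √v) (hκt : κ * t = v - v') (hsum : κ ^ 2 + a ^ 2 = v - v') (ha : 0 ≤ a)
    (hY : Continuous Y) (hZ : Continuous Z)
    (htr : ∀ f : E d → ℝ, Measurable f → ∫ z, f (Z z) ∂γ d = ∫ z, wCur V v x t z * f z ∂γ d)
    (hi : Integrable (fun z => ‖Y z - Z z‖) (γ d)) (hb : ∫ z, ‖Y z - Z z‖ ∂γ d ≤ r)
    {u : E d → ℝ} {L : ℝ} (hu : Lip1 u L) :
    |∫ w, u w ∂Quarter.Tgt.back v V x
      - ∫ z, ∫ ξ, (∫ w, u w ∂Quarter.Tgt.back v' V (x + κ • Y z + a • ξ)) ∂γ d ∂γ d|
      ≤ L * √v * r := by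
  have hL : 0 ≤ L := (norm_nonneg _).trans (hu.lip 0)
  have hub : ∀ y, |exv V v' y u| ≤ 1 := fun y => by
    have := isProb_back hV hv' y
    rw [exv, ← Real.norm_eq_abs]
    exact (norm_integral_le_of_norm_le_const (μ := Quarter.Tgt.back v' V y)
      (Filter.Eventually.of_forall fun w => by rw [Real.norm_eq_abs]; exact hu.bdd w)).trans
      (le_of_eq (by rw [probReal_univ, mul_one]))
  have hexc : Continuous fun y => exv V v' y u :=
    (LipschitzWith.of_dist_le_mul (K := L.toNNReal) fun p p' => by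
      rw [Real.dist_eq, dist_eq_norm, Real.coe_toNNReal _ hL]
      exact exv_lip hV hv' hL hu.smooth hu.lip p p').continuous
  set F := fun p => ∫ ξ, exv V v' (p + a • ξ) u ∂γ d
  have hξi : ∀ p, Integrable (fun ξ => exv V v' (p + a • ξ) u) (γ d) := fun p =>
    Integrable.of_bound (hexc.comp (by fun_prop)).aestronglyMeasurable 1
      (Filter.Eventually.of_forall fun ξ => by rw [Real.norm_eq_abs]; exact hub _)
  have hFl : ∀ p p', |F p - F p'| ≤ L * ‖p - p'‖ := fun p p' => by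
    simp only [F]
    rw [← integral_sub (hξi p) (hξi p'), ← Real.norm_eq_abs]
    refine (norm_integral_le_of_norm_le_const (μ := γ d) (C := L * ‖p - p'‖)
      (Filter.Eventually.of_forall fun ξ => ?_)).trans
      (le_of_eq (by rw [probReal_univ, mul_one]))
    have := exv_lip hV hv' hL hu.smooth hu.lip (p + a • ξ) (p' + a • ξ)
    rw [add_sub_add_right_eq_sub] at this
    rwa [Real.norm_eq_abs]
  have hFb : ∀ p, |F p| ≤ 1 := fun p => by
    rw [← Real.norm_eq_abs]
    exact (norm_integral_le_of_norm_le_const (μ := γ d)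
      (Filter.Eventually.of_forall fun ξ => by rw [Real.norm_eq_abs]; exact hub _)).trans
      (le_of_eq (by rw [probReal_univ, mul_one]))
  have hFc : Continuous F := (LipschitzWith.of_dist_le_mul (K := L.toNNReal) fun p p' => by
    rw [Real.dist_eq, dist_eq_norm, Real.coe_toNNReal _ hL]; exact hFl p p').continuous
  have hint : ∀ g : E d → E d, Continuous g → Integrable (fun z => F (x + κ • g z)) (γ d) :=
    fun g hg => Integrable.of_bound (hFc.comp (by fun_prop)).aestronglyMeasurable 1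
      (Filter.Eventually.of_forall fun z => by rw [Real.norm_eq_abs]; exact hFb _)
  have i1 := hint _ hZ
  have i2 := hint _ hY
  show |∫ w, u w ∂Quarter.Tgt.back v V x - ∫ z, F (x + κ • Y z) ∂γ d| ≤ _
  rw [bridge_law hV hv' hle ht hκt hsum ha x hu,
    show (∫ z, wCur V v x t z * ∫ ξ,
        (∫ w, u w ∂Quarter.Tgt.back v' V (x + κ • z + a • ξ)) ∂γ d ∂γ d)
      = ∫ z, F (x + κ • Z z) ∂γ d from
      (htr (fun z => F (x + κ • z)) (hFc.comp (by fun_prop)).measurable).symm,
    ← integral_sub i1 i2]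
  refine (abs_integral_le_integral_abs).trans ((integral_mono (i1.sub i2).abs
    (hi.const_mul (L * √v)) fun z => ?_).trans ?_)
  · refine (hFl _ _).trans ?_
    rw [add_sub_add_left_eq_sub, ← smul_sub, norm_smul, Real.norm_eq_abs, abs_of_nonneg hκ,
      norm_sub_rev, mul_assoc]
    exact mul_le_mul_of_nonneg_left (mul_le_mul_of_nonneg_right hκv (norm_nonneg _)) hL
  · rw [integral_const_mul]
    exact mul_le_mul_of_nonneg_left hb (mul_nonneg hL (Real.sqrt_nonneg v))

end

end Vale.Agent.P347.Zero
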