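import Vale.Agent.P347.Zero.NodeAdj
import Vale.Agent.P347.Zero.CurBridge

/-!
# P347, exponent 0: programmes for the posterior curve, for the differential of a node and for the
bridge (slot `none` is the Gaussian seed, slot `some ()` the point)
-/

namespace Vale.Agent.P347.Zero

open MeasureTheory Real Finset Set
open Vale.Agent.P347.Quarter (E γ Lip1)
open Vale.Agent.P347.Colour (Pt)

noncomputable section

/-- The Picard–collocation programme of the posterior curve at time `T`. -/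
theorem exists_cur_prog {ε : ℝ} (hε : 0 < ε) (A : ℝ) :
    ∃ (D : ℕ) (s η₀ : ℝ), 0 ≤ s ∧ 0 < η₀ ∧ ∀ η : ℝ, 0 < η → η ≤ η₀ → ∃ C : ℝ, ∀ d : ℕ, C ≤ d →
      ∀ v T : ℝ, 0 < v → v ≤ (d : ℝ) ^ (-ε) → 0 ≤ T → T ^ 2 + v * (d : ℝ) ^ (-3 * η) ≤ v →
      ∃ P : Prog (Option Unit),
        P.lin none = 1 ∧ P.lin (some ()) = 0 ∧ P.depth ≤ D ∧ (P.size : ℝ) ≤ C * (d : ℝ) ^ (s * η) ∧
        (∑ i, |P.coef i|) ≤ C * T ∧ P.Grow d C ∧
        (∀ i, (P.node i).a = 0 ∧ v * (d : ℝ) ^ (-3 * η) ≤ (P.node i).v ∧ (P.node i).v ≤ v) ∧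
        (∀ e : ℝ, eAt ε η 0 d ≤ e → ∀ i, (P.node i).Ok ((d : ℝ) ^ (-ε)) 1 ∧
          (P.child i).Adm ((d : ℝ) ^ (-ε)) 1 e
            (fun o => o.elim ((d : ℝ) ^ (-2 * η)) fun _ => √v * (d : ℝ) ^ (-2 * η))
            (P.node i).scale ∧
          (P.child i).grs e none ≤ 2 * √v ∧ (P.child i).grs e (some ()) ≤ 2) ∧
        ∀ V, Mem (d := d) V →
          (∀ y : Inp d (Option Unit), ‖P.val V y‖ ≤ C * wt y) ∧
          ∀ (x : E d) (Z : E d → ℝ → E d), Continuous (fun z => Z z T) →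
            (∀ z, IsCur V v x T z (Z z)) →
              Integrable (fun z => ‖P.val V (inp2 z x) - Z z T‖ ^ 2) (γ d) ∧
              ∫ z, ‖P.val V (inp2 z x) - Z z T‖ ^ 2 ∂γ d
                ≤ (C * (d : ℝ) ^ (-A) * (√d + ‖x‖)) ^ 2 := by
  obtain ⟨K, s, η₀, hs, hη₀, hF⟩ := exists_family hε A
  refine ⟨K, s, η₀, hs, hη₀, fun η hη hη' => ?_⟩
  obtain ⟨Cf, hCf1, hfam⟩ := hF η hη hη'
  obtain ⟨B, hB1, hB⟩ := exists_dim_h hε (δ := 1 / 4) (by norm_num)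
  refine ⟨max (max Cf 3) B, fun d hd v T hv hvh hT hTv => ?_⟩
  set C := max (max Cf 3) B
  have hCf : Cf ≤ C := le_max_of_le_left (le_max_left _ _)
  have hC3 : 3 ≤ C := le_max_of_le_left (le_max_right _ _)
  have hd1 : (1 : ℝ) ≤ d := hB1.trans ((le_max_right _ _).trans hd)
  have hd0 : (0 : ℝ) < d := zero_lt_one.trans_le hd1
  have hp : 1 ≤ (d : ℝ) ^ (s * η) := one_le_rpow hd1 (mul_nonneg hs hη.le)
  rcases hT.eq_or_lt with rfl | hT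
  · refine ⟨Prog.mk 0 (fun o => o.elim 1 fun _ => 0) Fin.elim0 Fin.elim0 Fin.elim0, rfl, rfl,
      by simp [Prog.depth], ?_, ?_, fun i => i.elim0, fun i => i.elim0, fun _ _ i => i.elim0,
      fun V _ => ⟨fun y => ?_, fun x Z _ hZ => ?_⟩⟩
    · simp only [Prog.size, Finset.univ_eq_empty, Finset.sum_empty, add_zero, Nat.cast_one]
      exact one_le_mul_of_one_le_of_one_le (by linarith) hp
    · rw [mul_zero]
      exact le_of_eq (Finset.sum_eq_zero fun i _ => Fin.elim0 i)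
    · simp only [Prog.val, sum_opt, Option.elim, one_smul, zero_smul, add_zero,
        Finset.univ_eq_empty, Finset.sum_empty]
      have h1 : ‖y none‖ ≤ wt y := by
        rw [wt_opt]; linarith [Real.sqrt_nonneg (d : ℝ), norm_nonneg (y (some ()))]
      exact h1.trans (le_mul_of_one_le_left (wt_nonneg y) (by linarith))
    · simp only [Prog.val, sum_opt, Option.elim, one_smul, zero_smul, add_zero,
        Finset.univ_eq_empty, Finset.sum_empty, inp2, (hZ _).1, sub_self, norm_zero,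
        zero_pow two_ne_zero, integral_zero]
      exact ⟨integrable_const 0, sq_nonneg _⟩
  obtain ⟨m, τ, w, c, hcd, hcC, hsize, he, hL2⟩ :=
    hfam d (hCf.trans hd) v T hv hvh hT hTv
  have hTt : T ∈ Icc 0 T := ⟨hT.le, le_rfl⟩
  have hTsv : T ≤ √v := Real.le_sqrt_of_sq_le hcd.T_sq.le
  refine ⟨pcur v τ w K T, (pcur_lin v τ w K T).1, (pcur_lin v τ w K T).2, hcd.depth_le K T, ?_, ?_,
    hcd.grow d hC3 K T, fun i => ?_, fun e hee i => ?_, fun V hV => ⟨fun y => ?_, fun x Z _ hZ => ?_⟩⟩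
  · exact ((Nat.cast_le.2 (hcd.size_le K T)).trans hsize).trans
      (mul_le_mul_of_nonneg_right hCf (zero_le_one.trans hp))
  · exact (hcd.coef_sum K hTt).trans (mul_le_mul_of_nonneg_right (hcC.trans hCf) hT.le)
  · obtain ⟨h1, h2, h3⟩ := hcd.node_facts K T i
    exact ⟨h1, by linarith, h3⟩
  · have he0 : 0 < e := (rpow_pos_of_pos hd0 _).trans_le hee
    obtain ⟨h1, h2⟩ := hcd.children_adm hvh he0 (rpow_nonneg hd0.le _) (he e hee).2 K hTt i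
    obtain ⟨h3, h4⟩ := hcd.child_grs he0 (he e hee).1 K T i
    exact ⟨h1, h2, h3.trans (mul_le_mul_of_nonneg_left hTsv zero_le_two), h4⟩
  · exact (hcd.val_le hV K hTt y).1.trans (mul_le_mul_of_nonneg_right (by linarith) (wt_nonneg y))
  · obtain ⟨h1, h2⟩ := hL2 V hV x Z hZ T hTt
    refine ⟨h1, h2.trans (pow_le_pow_left₀ (by positivity) ?_ 2)⟩
    gcongr

/-- A programme for the differential of a node applied to a Gaussian vector. -/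
theorem exists_node_adj {ε : ℝ} (hε : 0 < ε) (A α : ℝ) (hα : 0 ≤ α) :
    ∃ (D : ℕ) (s η₀ : ℝ), 0 ≤ s ∧ 0 < η₀ ∧ ∀ η : ℝ, 0 < η → η ≤ η₀ → ∃ C : ℝ, ∀ d : ℕ, C ≤ d →
      ∀ nd : Nd, nd.Ok ((d : ℝ) ^ (-ε)) ((d : ℝ) ^ (-α * η)) →
      ∃ P : Prog (Option Unit),
        (∀ o, P.lin o = 0) ∧ P.depth ≤ D ∧ (P.size : ℝ) ≤ C * (d : ℝ) ^ (s * η) ∧
        P.Grow d C ∧
        (∑ i, |P.coef i| * √(P.node i).v) ≤ C * (d : ℝ) ^ (s * η) ∧
        (∑ i, |P.coef i|) * nd.scale ≤ C * (d : ℝ) ^ (s * η) ∧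
        (∀ e : ℝ, eAt ε η 0 d ≤ e → ∀ i,
          (P.node i).Ok ((d : ℝ) ^ (-ε)) ((d : ℝ) ^ (-(α + s) * η)) ∧
          nd.scale * (d : ℝ) ^ (-s * η) ≤ (P.node i).scale ∧
          (P.child i).Adm ((d : ℝ) ^ (-ε)) ((d : ℝ) ^ (-(α + s) * η)) e
            (fun o => o.elim ((d : ℝ) ^ (-s * η)) fun _ => nd.scale * (d : ℝ) ^ (-s * η))
            (P.node i).scale ∧
          (P.child i).grs e none ≤ 2 * nd.scale ∧ (P.child i).grs e (some ()) ≤ 2) ∧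
        ∀ V, Mem (d := d) V →
          (∀ y : Inp d (Option Unit), ‖P.val V y‖ ≤ C * (d : ℝ) ^ (s * η) * wt y) ∧
          ∀ x : E d,
            Integrable (fun z => ‖P.val V (inp2 z x) - fderiv ℝ (nd.val V) x z‖ ^ 2) (γ d) ∧
            ∫ z, ‖P.val V (inp2 z x) - fderiv ℝ (nd.val V) x z‖ ^ 2 ∂γ d
              ≤ (C * (d : ℝ) ^ (-A) * (√d + ‖x‖)) ^ 2 := by
  obtain ⟨K, sf, η₀, hsf, hη₀, hF⟩ := exists_family hε A
  refine ⟨K + 1, sf + α + 2, η₀, by linarith, hη₀, fun η hη hη' => ?_⟩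
  obtain ⟨Cf, hCf1, hfam⟩ := hF η hη hη'
  set M := ⌈2 * A / η⌉₊ with hM
  obtain ⟨C₀, hC₀, hleb⟩ := exists_eqNode_bound (M + 1)
  have hlw : ∀ T : ℝ, 0 < T → (∑ j, |lw' (eqNode (M + 1) 0 T) j 0|) ≤ C₀ / T := fun T hT => by
    simpa using (hleb 0 T 0 hT ⟨le_rfl, hT.le⟩).2.1
  obtain ⟨Cg, hCg, hgauss⟩ := exists_gauss_adj M
  obtain ⟨Cc, hCc, hcurve⟩ := exists_curve_adj M
  obtain ⟨B₁, hB₁, g₁⟩ := exists_rpow_ge (half_pos hη) 4
  obtain ⟨B₂, hB₂, g₂⟩ := exists_dim_h hε (δ := 1 / 4) (by norm_num)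
  obtain ⟨C, hc1, hc2, hc3, hc4, hc5, hc6, hc7⟩ : ∃ C : ℝ, Cf ≤ C ∧ B₁ ≤ C ∧ B₂ ≤ C ∧
      40 * C₀ ≤ C ∧ 2 * (M + 3 : ℝ) * Cf ≤ C ∧ 3 ≤ C ∧
      8 * C₀ ^ 2 * (M + 2 : ℝ) ^ 2 * Cf ^ 2 + 2 * Cc + Cg ≤ C :=
    ⟨max (max (max Cf B₁) (max B₂ (40 * C₀))) (max (max (2 * (M + 3 : ℝ) * Cf) 3)
      (8 * C₀ ^ 2 * (M + 2 : ℝ) ^ 2 * Cf ^ 2 + 2 * Cc + Cg)), by
      refine ⟨?_, ?_, ?_, ?_, ?_, ?_, ?_⟩ <;> simp only [le_max_iff, le_refl, true_or, or_true]⟩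
  refine ⟨C, fun d hd nd hnd => ?_⟩
  obtain ⟨v, a⟩ := nd
  have hd1 : (1 : ℝ) ≤ d := hB₁.trans (hc2.trans hd)
  have hv : 0 < v := hnd.v_pos
  have hvh : v ≤ (d : ℝ) ^ (-ε) := hnd.v_le
  have hG := g₁ _ (hc2.trans hd)
  have hh := g₂ d (hc3.trans hd)
  have hsum : 0 ≤ 8 * C₀ ^ 2 * (M + 2 : ℝ) ^ 2 * Cf ^ 2 := by positivity
  have hCsq : C ≤ C ^ 2 := by nlinarith
  rcases hnd.a_ge with ha | ⟨ha, har⟩
  · obtain rfl : a = 0 := ha
    obtain ⟨hq0, hq4, -⟩ := q_facts hd1 hη hG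
    have hsv : 0 < √v := Real.sqrt_pos.2 hv
    have hT2 : (√v * (d : ℝ) ^ (-η)) ^ 2 = v * ((d : ℝ) ^ (-η)) ^ 2 := by
      rw [mul_pow, Real.sq_sqrt hv.le]
    have hTv : (√v * (d : ℝ) ^ (-η)) ^ 2 + v * (d : ℝ) ^ (-3 * η) ≤ v := by
      rw [hT2]
      have h3 : (d : ℝ) ^ (-3 * η) ≤ (d : ℝ) ^ (-η) :=
        rpow_le_rpow_of_exponent_le hd1 (by linarith)
      nlinarith [mul_le_mul_of_nonneg_left h3 hv.le, mul_le_mul_of_nonneg_left hq4 hq0.le]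
    obtain ⟨m, τ, w, c, hcd, -, hsize, he, hL2⟩ :=
      hfam d (hc1.trans hd) v _ hv hvh (mul_pos hsv hq0) hTv
    exact node_adj_plain hη hα hd1 hh hG hM (by linarith) (by linarith) hC₀ hCc hCf1 hv hvh
      (by linarith) hc4 hc5 hc6 (by linarith) hlw
      (fun V hV x Z hZ => hcurve d V hV v _ (by linarith) (mul_pos hsv hq0)
        (by linarith [mul_le_mul_of_nonneg_left hq4 hsv.le]) x Z hZ)
      hcd hsize he hL2
  · refine node_adj_smooth hη hd1 hh hG hM (by linarith) (by linarith) hC₀ hv hvh ha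
      hnd.a_le har (by linarith) hc4 ?_ (by linarith) hlw
      (fun V hV T hT h2T x => hgauss d V hV v a T hv ha hT h2T x)
    exact le_trans (le_mul_of_one_le_right (by positivity) hCf1) hc5

/-- One bridge step: the point `P + a ξ` is a posterior point at the variance `q ^ 2 v`. -/
theorem exists_bridge {ε : ℝ} (hε : 0 < ε) (A : ℝ) :
    ∃ (D : ℕ) (s η₀ : ℝ), 0 ≤ s ∧ 0 < η₀ ∧ ∀ η : ℝ, 0 < η → η ≤ η₀ → ∃ C : ℝ, ∀ d : ℕ, C ≤ d →
      ∀ v : ℝ, 0 < v → v ≤ (d : ℝ) ^ (-ε) →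
      ∃ (P : Prog (Option Unit)) (a : ℝ),
        a ≤ (d : ℝ) ^ (-η) * √v ∧ (d : ℝ) ^ (-2 * η) * √v ≤ a ∧
        P.depth ≤ D ∧ (P.size : ℝ) ≤ C * (d : ℝ) ^ (s * η) ∧ P.Grow d C ∧
        (∀ i, (P.node i).a = 0) ∧
        (∀ e : ℝ, eAt ε η 0 d ≤ e →
          P.Adm ((d : ℝ) ^ (-ε)) 1 e
            (fun o => o.elim ((d : ℝ) ^ (-3 * η)) fun _ => √v * (d : ℝ) ^ (-3 * η)) a ∧
          P.grs e none ≤ 2 * √v ∧ P.grs e (some ()) ≤ 2) ∧
        ∀ V, Mem (d := d) V →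
          (∀ y : Inp d (Option Unit), ‖P.val V y‖ ≤ C * wt y) ∧
          ∀ x : E d,
            ‖Nv V v x - ∫ z, (Nd.mk ((d : ℝ) ^ (-2 * η) * v) a).val V (P.val V (inp2 z x)) ∂γ d‖
              ≤ C * √v * (d : ℝ) ^ (-A) * (√d + ‖x‖) ∧
            ∀ (u : E d → ℝ) (L : ℝ), Lip1 u L →
              |∫ w, u w ∂Quarter.Tgt.back v V x - ∫ z, ∫ ξ, (∫ w, u w
                  ∂Quarter.Tgt.back ((d : ℝ) ^ (-2 * η) * v) V (P.val V (inp2 z x) + a • ξ)) ∂γ d ∂γ d|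
                ≤ L * C * √v * (d : ℝ) ^ (-A) * (√d + ‖x‖) := by
  obtain ⟨K, s, η₀, hs, hη₀, hF⟩ := exists_family hε A
  refine ⟨K, s, min η₀ (ε / 4), hs, lt_min hη₀ (by linarith), fun η hη hη' => ?_⟩
  simp only [le_min_iff] at hη'
  obtain ⟨Cf, hCf1, hfam⟩ := hF η hη hη'.1
  obtain ⟨B₁, hB₁, g₁⟩ := exists_rpow_ge hη 4
  obtain ⟨B₂, hB₂, g₂⟩ := exists_rpow_ge (show 0 < ε / 4 by linarith) (4 * Cf)
  obtain ⟨B₃, hB₃, g₃⟩ := exists_dim_h hε (δ := 1 / 16) (by norm_num)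
  obtain ⟨C, hc1, hc2, hc3, hc4, hc5⟩ : ∃ C : ℝ, 2 * Cf ≤ C ∧ B₁ ≤ C ∧ B₂ ≤ C ∧ B₃ ≤ C ∧ 3 ≤ C :=
    ⟨max (max (max (2 * Cf) B₁) (max B₂ B₃)) 3, by
      refine ⟨?_, ?_, ?_, ?_, ?_⟩ <;> simp only [le_max_iff, le_refl, true_or, or_true]⟩
  refine ⟨C, fun d hd v hv hvh => ?_⟩
  have hd1 : (1 : ℝ) ≤ d := hB₁.trans (hc2.trans hd)
  have hd0 : (0 : ℝ) < d := zero_lt_one.trans_le hd1
  have hv16 : v ≤ 1 / 16 := hvh.trans (g₃ d (hc4.trans hd))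
  set q := (d : ℝ) ^ (-η) with hq
  have hq0 : 0 < q := rpow_pos_of_pos hd0 _
  have hq4 : q ≤ 1 / 4 := by
    rw [hq, rpow_neg hd0.le, one_div]
    exact inv_anti₀ (by norm_num) (g₁ _ (hc2.trans hd))
  have hq2 : (d : ℝ) ^ (-2 * η) = q * q := by rw [hq, ← rpow_add hd0]; ring_nf
  have hq3 : (d : ℝ) ^ (-3 * η) = q * q * q := by
    rw [hq, ← rpow_add hd0, ← rpow_add hd0]; ring_nf
  obtain ⟨t, κ, a, ht0, htv, ht2, hκ0, hκt, hκv, hsum, ha0, ha_hi, ha_lo⟩ :=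
    bridge_params hv hq0 hq4
  have hv'0 : 0 < q * q * v := by positivity
  have hv'v : q * q * v ≤ v :=
    mul_le_of_le_one_left hv.le (mul_le_one₀ (by linarith) hq0.le (by linarith))
  obtain ⟨m, τ, w, c, hcd, hcC, hsize, he, hL2⟩ :=
    hfam d (by linarith) v t hv hvh ht0 (by
      rw [ht2, hq3]
      nlinarith [mul_le_mul_of_nonneg_right hq4 hv'0.le])
  rw [hq2, hq3]
  have htt : t ∈ Icc 0 t := ⟨ht0.le, le_rfl⟩
  have hγ : c * (d : ℝ) ^ (-ε / 2) ≤ q / 4 := by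
    have h : (d : ℝ) ^ (-ε / 2) ≤ q * (d : ℝ) ^ (-(ε / 4)) := by
      rw [hq, ← rpow_add hd0]
      exact rpow_le_rpow_of_exponent_le hd1 (by linarith [hη'.2])
    refine (mul_le_mul_of_nonneg_left h (zero_le_one.trans hcd.c_one)).trans ?_
    rw [mul_left_comm, div_eq_mul_inv]
    refine mul_le_mul_of_nonneg_left ?_ hq0.le
    rw [rpow_neg hd0.le, mul_inv_le_iff₀ (rpow_pos_of_pos hd0 _)]
    have h4 := g₂ _ (hc3.trans hd)
    rw [div_eq_mul_inv] at h4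
    linarith
  have hκs : κ ≤ √v := hκt.trans htv
  have hκ1 : κ ≤ 1 := hκs.trans (Real.sqrt_le_one.2 (by linarith))
  refine ⟨shiftP κ (pcur v τ w K t), a, ha_hi, ?_, by rw [shiftP_depth]; exact hcd.depth_le K t, ?_,
    (shiftP_grow d C _ _).2 (hcd.grow d hc5 K t),
    shiftP_node_all (p := fun n => n.a = 0) fun i => (hcd.node_facts K t i).1,
    fun e hee => ?_, fun V hV => ⟨fun y => ?_, fun x => ?_⟩⟩
  · linarith [mul_le_mul_of_nonneg_right hq4 (mul_nonneg hq0.le (Real.sqrt_nonneg v)),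
      show q * q * √v = q * (q * √v) from mul_assoc _ _ _]
  · rw [shiftP_size]
    exact ((Nat.cast_le.2 (hcd.size_le K t)).trans hsize).trans
      (mul_le_mul_of_nonneg_right (by linarith) (rpow_nonneg hd0.le _))
  · have he0 : 0 < e := (rpow_pos_of_pos hd0 _).trans_le hee
    obtain ⟨he1, he2⟩ := he e hee
    rw [hq2] at he2
    have hTe : t * √v / e ≤ (d : ℝ) ^ (-ε / 2) := by
      unfold eAt at hee
      rw [zero_mul, add_zero] at hee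
      have hsv' : √v ≤ (d : ℝ) ^ (-ε / 2) := by
        rw [← sqrt_eq_rpow_half hd0.le]
        exact Real.sqrt_le_sqrt hvh
      rw [div_le_iff₀ he0]
      exact mul_le_mul (htv.trans hsv') (hsv'.trans hee) (Real.sqrt_nonneg v)
        (rpow_nonneg hd0.le _)
    exact bridge_adm hcd K hvh he0 hq0 hq4 hκ0 hκt ha_lo hTe hγ he1 he2
  · rw [shiftP_val]
    refine (norm_add_le _ _).trans ?_
    rw [norm_smul, Real.norm_eq_abs, abs_of_nonneg hκ0]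
    have h1 : ‖y (some ())‖ ≤ wt y := by
      rw [wt_opt]; linarith [Real.sqrt_nonneg (d : ℝ), norm_nonneg (y none)]
    have h2 := mul_le_mul hκ1 (hcd.val_le hV K htt y).1 (norm_nonneg _) zero_le_one
    linarith [mul_le_mul_of_nonneg_right hc5 (wt_nonneg y)]
  obtain ⟨Z, hZc, hZ, htr⟩ := exists_cur hV hv (by linarith) ht0.le hcd.T_sq x
  have hZt : Continuous fun z => Z z t :=
    hZc.comp (continuous_id.prodMk (continuous_const (y := (⟨t, htt⟩ : Icc (0 : ℝ) t))))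
  obtain ⟨hi, hb⟩ := hL2 V hV x Z hZ t htt
  have hr : 0 < Cf * (d : ℝ) ^ (-A) * (√d + ‖x‖) := by
    have := rpow_pos_of_pos hd0 (-A)
    have := Real.sqrt_pos.2 hd0
    positivity
  have hYc := pcur_continuous hV hcd x K t
  obtain ⟨hGi, hGb⟩ :=
    integral_norm_le_of_sq (g := fun z => (pcur v τ w K t).val V (inp2 z x) - Z z t)
      (hYc.sub hZt) hr hi hb
  have hYn : ∀ z, ‖(pcur v τ w K t).val V (inp2 z x)‖ ≤ 12 * (√d + ‖x‖) + 13 * ‖z‖ := fun z => by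
    have h := (hcd.val_le hV K htt (inp2 z x)).1
    rw [wt_inp2] at h
    linarith [norm_nonneg z, Real.sqrt_nonneg (d : ℝ), norm_nonneg x]
  have hZn : ∀ z, ‖Z z t‖ ≤ 12 * (√d + ‖x‖) + 13 * ‖z‖ := fun z => by
    have h1 := cur_dist_le hV hv16 ht0.le hcd.T_sq (hZ z) htt
    linarith [norm_le_norm_add_norm_sub' (Z z t) z]
  have hPv : ∀ z, (shiftP κ (pcur v τ w K t)).val V (inp2 z x)
      = x + κ • (pcur v τ w K t).val V (inp2 z x) := fun z => shiftP_val _ _ _ _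
  simp only [hPv]
  refine ⟨(bridge_mean hV hv hv'0 hv'v hcd.T_sq hκ0 hκ1 hκs hκv hsum hYc hZt hYn hZn
      (htr t htt) hGi hGb).trans ?_, fun u L hu =>
    (bridge_test hV hv'0 hv'v hcd.T_sq.le hκ0 hκs hκv hsum ha0 hYc hZt
      (htr t htt) hGi hGb hu).trans ?_⟩
  · calc 2 * √v * (Cf * (d : ℝ) ^ (-A) * (√d + ‖x‖))
        = 2 * Cf * (√v * (d : ℝ) ^ (-A) * (√d + ‖x‖)) := by ring
      _ ≤ C * (√v * (d : ℝ) ^ (-A) * (√d + ‖x‖)) :=
        mul_le_mul_of_nonneg_right hc1 (by positivity)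
      _ = C * √v * (d : ℝ) ^ (-A) * (√d + ‖x‖) := by ring
  · have hL : 0 ≤ L := (norm_nonneg _).trans (hu.lip 0)
    calc L * √v * (Cf * (d : ℝ) ^ (-A) * (√d + ‖x‖))
        = Cf * (L * √v * (d : ℝ) ^ (-A) * (√d + ‖x‖)) := by ring
      _ ≤ C * (L * √v * (d : ℝ) ^ (-A) * (√d + ‖x‖)) :=
        mul_le_mul_of_nonneg_right (by linarith) (by positivity)
      _ = L * C * √v * (d : ℝ) ^ (-A) * (√d + ‖x‖) := by ring

end

end Vale.Agent.P347.Zero
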