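import Vale.Agent.P347.Zero.AdjErr
import Vale.Agent.P347.Zero.CurProg

/-!
# P347, exponent 0: the adjoint of a programme

For `f u = G.val (x none + a u, others)` the value `a (Df u)ᵀ K` is the output of a programme over
the point, the other slots, `K` (`Sum.inr true`) and one extraction seed (`Sum.inr false`).
-/

namespace Vale.Agent.P347.Zero

open MeasureTheory Real Finset
open Vale.Agent.P347.Quarter (E γ)
open Vale.Agent.P347.Colour (Pt)
open Prog

noncomputable section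

/-- Large dimensions absorb a constant into an arbitrarily small power. -/
theorem le_rpow_of_large {X η : ℝ} (hX : 0 ≤ X) (hη : 0 < η) {d : ℕ} (hd : X ^ η⁻¹ ≤ d) :
    X ≤ (d : ℝ) ^ η := by
  have h := Real.rpow_le_rpow (Real.rpow_nonneg hX _) hd hη.le
  rwa [← Real.rpow_mul hX, inv_mul_cancel₀ hη.ne', Real.rpow_one] at h

/-- A power of the bound stays below a power of the dimension. -/
theorem bound_pow {Cu u c η : ℝ} {k K : ℕ} {d : ℕ} (hd : 1 ≤ (d : ℝ)) (hCu : 1 ≤ Cu) (hu : 0 ≤ u)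
    (hη : 0 < η) (hk : k ≤ K) (hX : Cu ^ K ≤ (d : ℝ) ^ η) (hc : u * K + 1 ≤ c) :
    (Cu * (d : ℝ) ^ (u * η)) ^ k ≤ (d : ℝ) ^ (c * η) := by
  have h1 : 1 ≤ Cu * (d : ℝ) ^ (u * η) :=
    one_le_mul_of_one_le_of_one_le hCu (Real.one_le_rpow hd (by positivity))
  refine (pow_le_pow_right₀ h1 hk).trans ?_
  rw [mul_pow]
  refine (mul_le_mul_of_nonneg_right hX (by positivity)).trans ?_
  rw [← Real.rpow_natCast ((d : ℝ) ^ (u * η)) K, ← Real.rpow_mul (by positivity),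
    ← Real.rpow_add (by linarith)]
  exact Real.rpow_le_rpow_of_exponent_le hd (by nlinarith)

/-- The accuracy of the rotation against the dimension. -/
theorem rot_small {ε η A c t U : ℝ} {n : ℕ} {d : ℕ} (hd : 1 ≤ (d : ℝ)) (hε : 0 < ε) (_hU : 0 ≤ U)
    (ht : (d : ℝ) ^ (-ε / 2) ≤ t) (ht' : t ≤ (d : ℝ) ^ (-ε / 3)) (hU8 : U ^ 8 ≤ (d : ℝ) ^ (c * η))
    (hcη : c * η ≤ ε / 6) (hn : 6 * (A + 1) / ε + 3 ≤ n) :
    (t * U ^ 8) ^ n / t ≤ (d : ℝ) ^ (-(A + 1)) := by
  have hd0 : (0 : ℝ) < d := by linarith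
  have ht0 : 0 < t := lt_of_lt_of_le (by positivity) ht
  have h1 : t * U ^ 8 ≤ (d : ℝ) ^ (-ε / 6) := by
    refine (mul_le_mul ht' hU8 (by positivity) (by positivity)).trans ?_
    rw [← Real.rpow_add hd0]
    exact Real.rpow_le_rpow_of_exponent_le hd (by linarith)
  have h2 : (t * U ^ 8) ^ n / t ≤ ((d : ℝ) ^ (-ε / 6)) ^ n / (d : ℝ) ^ (-ε / 2) :=
    div_le_div₀ (by positivity) (pow_le_pow_left₀ (by positivity) h1 n) (by positivity) ht
  refine h2.trans ?_
  rw [← Real.rpow_natCast, ← Real.rpow_mul hd0.le, ← Real.rpow_sub hd0]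
  refine Real.rpow_le_rpow_of_exponent_le hd ?_
  have h3 : 6 * (A + 1) + 3 * ε ≤ ε * n := by
    have := mul_le_mul_of_nonneg_left hn hε.le
    rwa [mul_add, mul_div_cancel₀ _ hε.ne', mul_comm ε 3] at this
  linarith

/-- The node programmes with one bound. -/
theorem exists_node_fam {ε : ℝ} (hε : 0 < ε) (A α : ℝ) (hα : 0 ≤ α) :
    ∃ (D : ℕ) (s η₀ : ℝ), 0 ≤ s ∧ 0 < η₀ ∧ ∀ η : ℝ, 0 < η → η ≤ η₀ → ∃ C : ℝ, ∀ d : ℕ, C ≤ d →
      ∀ t U r' : ℝ, eAt ε η 0 d ≤ t → 2 ≤ U → C ≤ U → C * (d : ℝ) ^ (s * η) ≤ U →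
      U⁻¹ ≤ (d : ℝ) ^ (-s * η) → r' ≤ (d : ℝ) ^ (-(α + s) * η) →
      ∃ Φ : Nd → Prog (Option Unit), (∀ nd o, (Φ nd).lin o = 0) ∧
        ∀ nd : Nd, nd.Ok ((d : ℝ) ^ (-ε)) ((d : ℝ) ^ (-α * η)) → ∀ e' : ℝ, t ≤ e' →
          NodeAdj d ((d : ℝ) ^ (-ε)) r' e' U (U * (d : ℝ) ^ (-A)) nd (Φ nd) D := by
  classical
  obtain ⟨D, s, η₀, hs, hη₀, hΦ⟩ := exists_node_adj hε A α hα
  refine ⟨D, s, η₀, hs, hη₀, fun η hη hη' => ?_⟩
  obtain ⟨C, hC⟩ := hΦ η hη hη'
  refine ⟨C, fun d hd t U r' het hU hCU hCsU hUi hr => ?_⟩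
  have hU0 : 0 ≤ U := by linarith
  have hex : ∀ nd : Nd, ∃ P : Prog (Option Unit), (∀ o, P.lin o = 0) ∧
      (nd.Ok ((d : ℝ) ^ (-ε)) ((d : ℝ) ^ (-α * η)) → ∀ e' : ℝ, t ≤ e' →
        NodeAdj d ((d : ℝ) ^ (-ε)) r' e' U (U * (d : ℝ) ^ (-A)) nd P D) := by
    intro nd
    by_cases hok : nd.Ok ((d : ℝ) ^ (-ε)) ((d : ℝ) ^ (-α * η))
    · obtain ⟨P, hl, hD, hS, hG, hW, hK, hch, hV⟩ := hC d hd nd hok
      refine ⟨P, hl, fun _ e' he' => ?_⟩
      have hch' := hch e' (het.trans he')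
      have hC0 : 0 ≤ C := by
        have h1 : (0 : ℝ) < C * (d : ℝ) ^ (s * η) :=
          lt_of_lt_of_le (by exact_mod_cast P.one_le_size) hS
        by_contra hn
        exact absurd h1 (not_lt.2 (mul_nonpos_of_nonpos_of_nonneg (not_le.1 hn).le (by positivity)))
      have hb : ∀ o : Option Unit, o.elim U⁻¹ (fun _ => nd.scale * U⁻¹)
          ≤ o.elim ((d : ℝ) ^ (-s * η)) fun _ => nd.scale * (d : ℝ) ^ (-s * η) := fun o => by
        cases o with
        | none => exact hUi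
        | some _ => exact mul_le_mul_of_nonneg_left hUi hok.scale_pos.le
      exact
        { lin := hl
          depth := hD
          size := hS.trans hCsU
          grow := hG.mono hCU
          topW := hW.trans hCsU
          coef := hK.trans hCsU
          below := fun i => ⟨(hch' i).1.mono le_rfl hr,
            (hch' i).2.2.1.mono_blur hb le_rfl hr⟩
          gseed := fun i => (hch' i).2.2.2.1
          gpt := fun i => (hch' i).2.2.2.2
          valBd := fun V hV' y =>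
            ((hV V hV').1 y).trans (mul_le_mul_of_nonneg_right hCsU (wt_nonneg y))
          err := fun V hV' x => by
            obtain ⟨hi, hle⟩ := (hV V hV').2 x
            refine ⟨by positivity, hi, hle.trans (pow_le_pow_left₀ (by positivity) ?_ 2)⟩
            exact mul_le_mul_of_nonneg_right (mul_le_mul_of_nonneg_right hCU (by positivity))
              (by positivity) }
    · exact ⟨Prog.mk 0 0 Fin.elim0 Fin.elim0 Fin.elim0, fun _ => rfl, fun h0 => absurd h0 hok⟩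
  choose Φ hΦl hΦn using hex
  exact ⟨Φ, hΦl, hΦn⟩

/-- The adjoint of a node programme in its first slot. The rotation angle `t` is a parameter
between the threshold `e` of `G` and `d ^ (-ε / 3)`. -/
theorem exists_adj {ε : ℝ} (hε : 0 < ε) (D : ℕ) (A α κin s : ℝ) (hα : 0 ≤ α) (hκ : 0 ≤ κin)
    (hs : 0 ≤ s) :
    ∃ (D' : ℕ) (c η₀ : ℝ), 0 ≤ c ∧ 0 < η₀ ∧ ∀ η : ℝ, 0 < η → η ≤ η₀ → ∀ Cs : ℝ, ∃ C : ℝ,
      ∀ d : ℕ, C ≤ d → ∀ e t : ℝ, eAt ε η 0 d ≤ e → e ≤ t → t ≤ (d : ℝ) ^ (-ε / 3) →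
      ∀ (σ : Type) [Fintype σ] [DecidableEq σ], Fintype.card σ ≤ D →
      ∀ (G : Prog (Option σ)) (a β Γ : ℝ) (b : σ → ℝ),
        0 < a → a ≤ 1 → (∀ j, 0 ≤ b j) → (∀ o, G.lin o = 0) → G.depth ≤ D →
        (G.size : ℝ) ≤ Cs * (d : ℝ) ^ (s * η) →
        1 ≤ Γ → Γ ≤ Cs * (d : ℝ) ^ (s * η) → G.Grow d Γ →
        G.Adm ((d : ℝ) ^ (-ε)) ((d : ℝ) ^ (-α * η)) e
          (fun o => o.elim (a * (d : ℝ) ^ (-κin * η)) b) β →
        ∃ P : Prog (Option (σ ⊕ Bool)),
          (∀ o, P.lin o = 0) ∧ P.depth ≤ D' ∧ (P.size : ℝ) ≤ C * (d : ℝ) ^ (c * η) ∧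
          P.Grow d (C * (d : ℝ) ^ (c * η)) ∧
          (∑ i, |P.coef i| * √(P.node i).v)
            ≤ C * (d : ℝ) ^ (c * η) * ∑ i, |G.coef i| * √(G.node i).v ∧
          (∀ e' : ℝ, t * (d : ℝ) ^ (c * η) ≤ e' → e' ≤ 1 →
            P.Adm ((d : ℝ) ^ (-ε)) ((d : ℝ) ^ (-(α + c) * η)) e'
              (bAdj a ((d : ℝ) ^ (-c * η)) b) ((∑ i, |P.coef i| * √(P.node i).v) / e') ∧
            (∀ o : Option σ, ∑ i, |P.coef i| * (P.child i).grs e' (o.elim none fun j => some (.inl j))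
              ≤ C * (d : ℝ) ^ (c * η) * ∑ i, |G.coef i| * (G.child i).grs e o) ∧
            ∀ k : Bool, ∑ i, |P.coef i| * (P.child i).grs e' (some (.inr k))
              ≤ C * (d : ℝ) ^ (c * η) * ∑ i, |G.coef i| * √(G.node i).v) ∧
          ∀ V, Mem (d := d) V → ∀ x : Inp d (Option σ),
            let F : E d → E d := fun y => G.val V (Function.update x none y)
            Integrable (fun p : E d × E d =>
                ‖P.val V (inpAdj x p.1 p.2) - a • (fderiv ℝ F (x none)).adjoint p.1‖ ^ 2)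
              ((γ d).prod (γ d)) ∧
            ∫ p : E d × E d, ‖P.val V (inpAdj x p.1 p.2) - a • (fderiv ℝ F (x none)).adjoint p.1‖ ^ 2
                ∂(γ d).prod (γ d)
              ≤ (C * (d : ℝ) ^ (-A) * (∑ i, |G.coef i| * √(G.node i).v) * wt x) ^ 2 := by
  classical
  obtain ⟨n, hn⟩ := exists_nat_ge (6 * (A + 1) / ε + 3)
  obtain ⟨D₁, s₁, η₁, hs₁, hη₁, hΦ⟩ := exists_node_fam hε (A + 1) α hα
  obtain ⟨kb, D', hkb, hB⟩ := exists_adjBd n D₁ D
  obtain ⟨ke, hke, hE⟩ := exists_adjErr n D₁ D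
  obtain ⟨Cr, hCr, hrI, hrE, hrot⟩ := exists_rot_bound n
  set K := kb + ke + 9
  set u := s₁ + s + κin with hu
  set c := u * K + 1 + s₁ with hc
  have hu0 : 0 ≤ u := by positivity
  have hc0 : 0 < c := by positivity
  have huc : u * K + 1 ≤ c := le_add_of_nonneg_right hs₁
  have hcs : s₁ ≤ c := le_add_of_nonneg_left (by positivity)
  refine ⟨D', c, min η₁ (min (ε / (6 * c)) (1 / (2 * c))), hc0.le,
    lt_min hη₁ (lt_min (by positivity) (by positivity)), fun η hη hη' Cs => ?_⟩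
  have hcη : c * η ≤ ε / 6 := by
    have := hη'.trans ((min_le_right _ _).trans (min_le_left _ _))
    rw [le_div_iff₀ (by positivity)] at this
    linarith
  have hcη1 : c * η ≤ 1 / 2 := by
    have := hη'.trans ((min_le_right _ _).trans (min_le_right _ _))
    rw [le_div_iff₀ (by positivity)] at this
    linarith
  obtain ⟨C₁, hΦ⟩ := hΦ η hη (hη'.trans (min_le_left _ _))
  set Cu := max 2 (max C₁ (max Cs (max Cr (max ((n : ℝ) + 2) ((D : ℝ) + 3))))) with hCu
  have hCu2 : 2 ≤ Cu := le_max_left _ _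
  set C := max 2 (max C₁ ((Cu ^ K) ^ η⁻¹)) with hC
  refine ⟨C, fun d hd e t he het ht σ _ _ hσ G a β Γ b ha _ hb hlin hdep hsize hΓ1 hΓ hgrow hAdm => ?_⟩
  have hd1 : (1 : ℝ) ≤ d := le_trans (by norm_num) ((le_max_left _ _).trans hd)
  have hd0 : (0 : ℝ) < d := by linarith
  have hX : Cu ^ K ≤ (d : ℝ) ^ η :=
    le_rpow_of_large (by positivity) hη (((le_max_right _ _).trans (le_max_right _ _)).trans hd)
  set U := Cu * (d : ℝ) ^ (u * η) with hUdef
  have hpow : ∀ k, k ≤ K → U ^ k ≤ (d : ℝ) ^ (c * η) :=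
    fun k hk => bound_pow hd1 (by linarith) hu0 hη hk hX huc
  have hdu : 1 ≤ (d : ℝ) ^ (u * η) := Real.one_le_rpow hd1 (by positivity)
  have hCuU : Cu ≤ U := le_mul_of_one_le_right (by linarith) hdu
  have hU2 : 2 ≤ U := hCu2.trans hCuU
  have hU0 : 0 < U := by linarith only [hU2]
  have hU1 : 1 ≤ U := by linarith only [hU2]
  have hC₁ : C₁ ≤ Cu := (le_max_left _ _).trans (le_max_right _ _)
  have hCs : Cs ≤ Cu := (le_max_left _ _).trans ((le_max_right _ _).trans (le_max_right _ _))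
  have hCr' : Cr ≤ Cu := (le_max_left _ _).trans
    ((le_max_right _ _).trans ((le_max_right _ _).trans (le_max_right _ _)))
  have hnU : (n : ℝ) + 2 ≤ Cu := (le_max_left _ _).trans ((le_max_right _ _).trans
    ((le_max_right _ _).trans ((le_max_right _ _).trans (le_max_right _ _))))
  have hDU : (D : ℝ) + 3 ≤ Cu := (le_max_right _ _).trans ((le_max_right _ _).trans
    ((le_max_right _ _).trans ((le_max_right _ _).trans (le_max_right _ _))))
  have hsub : ∀ C' k : ℝ, C' ≤ Cu → k ≤ u → C' * (d : ℝ) ^ (k * η) ≤ U := fun C' k hC' hk =>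
    mul_le_mul hC' (Real.rpow_le_rpow_of_exponent_le hd1 (mul_le_mul_of_nonneg_right hk hη.le))
      (by positivity) (by linarith)
  have hs₁u : s₁ ≤ u := by linarith only [hu, hs, hκ]
  have hsu : s ≤ u := by linarith only [hu, hs₁, hκ]
  have hκu : κin ≤ u := by linarith only [hu, hs₁, hs]
  have ht0 : 0 < t := lt_of_lt_of_le (Real.rpow_pos_of_pos hd0 _) (he.trans het)
  have heps : eAt ε η 0 d = (d : ℝ) ^ (-ε / 2) := by simp [eAt]
  have he0 : 0 < e := lt_of_lt_of_le (Real.rpow_pos_of_pos hd0 _) he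
  set h := (d : ℝ) ^ (-ε)
  set r := (d : ℝ) ^ (-α * η)
  set r' := (d : ℝ) ^ (-(α + c) * η) with hr'
  set δ := U * (d : ℝ) ^ (-(A + 1)) with hδ
  have hUi : U⁻¹ ≤ (d : ℝ) ^ (-s₁ * η) := by
    rw [neg_mul, Real.rpow_neg hd0.le]
    exact inv_anti₀ (by positivity) ((le_mul_of_one_le_left (by positivity)
      (by linarith : (1 : ℝ) ≤ Cu)).trans (hsub Cu s₁ le_rfl hs₁u))
  obtain ⟨Φ, hΦl, hΦn⟩ := hΦ d (((le_max_left _ _).trans (le_max_right _ _)).trans hd) t U r'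
    (he.trans het) hU2 (hC₁.trans hCuU) (hsub _ _ hC₁ hs₁u) hUi
    (Real.rpow_le_rpow_of_exponent_le hd1
      (mul_le_mul_of_nonneg_right (by linarith only [hcs]) hη.le))
  have hθin : 0 < (d : ℝ) ^ (-κin * η) := Real.rpow_pos_of_pos hd0 _
  have hctx : ∀ e' : ℝ, t ≤ e' → e' ≤ 1 →
      AdjCtx d h r r' e e' t a ((d : ℝ) ^ (-κin * η)) U δ Φ D₁ n b := by
    intro e' he' he1
    refine ⟨hU2, he0, het, ht0, he1, ha, hθin, ?_, hb, ?_, hnU.trans hCuU,
      fun l j => (hrI l j).trans (hCr'.trans hCuU), fun j => (hrE j).trans (hCr'.trans hCuU),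
      fun M k w hM hk hk1 hMk => ?_, by positivity, ?_, fun nd hok => hΦn nd hok e' he'⟩
    · rw [neg_mul, Real.rpow_neg hd0.le, inv_inv]
      exact (le_mul_of_one_le_left (by positivity) (by linarith : (1 : ℝ) ≤ Cu)).trans
        (hsub Cu κin le_rfl hκu)
    · exact Real.rpow_le_rpow_of_exponent_le hd1
        (mul_le_mul_of_nonneg_right (by linarith only [hc0]) hη.le)
    · obtain ⟨h1, h2⟩ := hrot d M k w hM hk hk1 hMk
      exact ⟨fun l => (h1 l).trans (mul_le_mul_of_nonneg_right (mul_le_mul_of_nonneg_right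
          (hCr'.trans hCuU) (by positivity)) (norm_nonneg _)),
        h2.trans (mul_le_mul_of_nonneg_right (mul_le_mul_of_nonneg_right
          (hCr'.trans hCuU) (by positivity)) (norm_nonneg _))⟩
    · have : (Fintype.card σ : ℝ) ≤ D := Nat.cast_le.2 hσ
      linarith only [this, hDU, hCuU]
  set θ := (d : ℝ) ^ (-c * η)
  have hθU : θ * U ^ kb ≤ 1 := by
    refine (mul_le_mul_of_nonneg_left (hpow kb (by omega)) (by positivity)).trans (le_of_eq ?_)
    rw [← Real.rpow_add hd0, neg_mul, neg_add_cancel, Real.rpow_zero]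
  have hsize' : (G.size : ℝ) ≤ U := hsize.trans (hsub _ _ hCs hsu)
  have hgrow' : G.Grow d U := hgrow.mono (hΓ.trans (hsub _ _ hCs hsu))
  have ht1 : t * (d : ℝ) ^ (c * η) ≤ 1 := by
    refine (mul_le_mul_of_nonneg_right ht (by positivity)).trans ?_
    rw [← Real.rpow_add hd0]
    exact Real.rpow_le_one_of_one_le_of_nonpos hd1 (by linarith only [hcη, hε])
  have htle : ∀ e', t * (d : ℝ) ^ (c * η) ≤ e' → t ≤ e' := fun e' he' =>
    (le_mul_of_one_le_right ht0.le (Real.one_le_rpow hd1 (by positivity))).trans he'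
  have hbd : ∀ e' : ℝ, t * (d : ℝ) ^ (c * η) ≤ e' → e' ≤ 1 →
      AdjBd d h r' e e' a θ U b kb D' G (adj Φ a t n G) := fun e' he' he1 =>
    hB d σ h r r' e e' t a _ U δ Φ b (hctx e' (htle e' he') he1) hΦl θ (by positivity) hθU
      ((mul_le_mul_of_nonneg_left (hpow kb (by omega)) ht0.le).trans he') G β hdep hsize' hgrow' hAdm
  have B1 := hbd 1 ht1 le_rfl
  have hCd : ∀ k, k ≤ K → U ^ k ≤ C * (d : ℝ) ^ (c * η) := fun k hk => (hpow k hk).trans
    (le_mul_of_one_le_left (by positivity) (le_trans (by norm_num) (le_max_left _ _)))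
  have hl0 : ∀ o, (adj Φ a t n G).lin o = 0 := fun o => by
    rw [B1.lin, hlin none, mul_zero, ite_self]
  refine ⟨adj Φ a t n G, hl0, B1.depth, B1.size.trans (hCd kb (by omega)),
    B1.grow.mono (hCd kb (by omega)),
    B1.topW.trans (mul_le_mul_of_nonneg_right (hCd kb (by omega)) (topW_nonneg G)),
    fun e' he' he1 => ?_, fun V hV x => ?_⟩
  · have B := hbd e' he' he1
    refine ⟨B.below.adm ?_, fun o => (B.temb o).trans (mul_le_mul_of_nonneg_right (hCd kb (by omega))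
      (topG_nonneg he0.le G o)), fun k => (B.tseed k).trans
      (mul_le_mul_of_nonneg_right (hCd kb (by omega)) (topW_nonneg G))⟩
    simp only [hl0, abs_zero, zero_mul, sum_const_zero, zero_add]
    exact le_rfl
  · have hS := hE d σ h r r' e 1 t a _ U δ Φ b (hctx 1 (htle 1 ht1) le_rfl) hΦl
      ((mul_le_mul_of_nonneg_left (hpow ke (by omega)) ht0.le).trans ht1) G β hdep hsize' hgrow' hAdm V hV x
    refine ⟨hS.int, hS.le.trans (pow_le_pow_left₀ hS.nonneg ?_ 2)⟩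
    refine mul_le_mul_of_nonneg_right (mul_le_mul_of_nonneg_right ?_ (topW_nonneg G)) (wt_nonneg x)
    have hq := rot_small hd1 hε hU0.le (heps ▸ he.trans het) ht (hpow 8 (by omega)) hcη hn
    have h1 : δ + (t * U ^ 8) ^ n / t ≤ 2 * (U * (d : ℝ) ^ (-(A + 1))) := by
      have : (d : ℝ) ^ (-(A + 1)) ≤ U * (d : ℝ) ^ (-(A + 1)) := le_mul_of_one_le_left (by positivity) hU1
      have hq' := hq
      linarith only [this, hq', hδ]
    calc U ^ ke * (δ + (t * U ^ 8) ^ n / t) ≤ U ^ ke * (2 * (U * (d : ℝ) ^ (-(A + 1)))) :=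
          mul_le_mul_of_nonneg_left h1 (by positivity)
      _ = 2 * (U ^ (ke + 1) * (d : ℝ) ^ (-(A + 1))) := by ring
      _ ≤ C * (d : ℝ) ^ (-A) := by
        refine mul_le_mul (le_max_left _ _) ?_ (by positivity) (le_trans (by norm_num) (le_max_left _ _))
        refine (mul_le_mul_of_nonneg_right (hpow (ke + 1) (by omega)) (by positivity)).trans ?_
        rw [← Real.rpow_add hd0]
        exact Real.rpow_le_rpow_of_exponent_le hd1 (by linarith only [hcη1])


end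

end Vale.Agent.P347.Zero
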