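import Vale.Agent.P347.Zero.BinderDefs

/-!
# P347, exponent 0: the error and the growth of the ideal binder

The scheme in the coordinates of the binder: the slots are read at `xB a y`, which is the centre at
`mkB a x ζ`, and the extra noise turns `b₀` into `β`.
-/

namespace Vale.Agent.P347.Zero

open MeasureTheory ProbabilityTheory Real Finset
open Vale.Agent.P347.Quarter (E γ)
open Vale.Agent.P347.Colour (Pt)

noncomputable section

variable {d : ℕ}

/-! ## Measurability -/

theorem measurable_Nv {V : Pt d → ℝ} (hV : Mem V) (v : ℝ) : Measurable (Nv V v) := by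
  set g : Pt d → E d := fun w => Quarter.gOf (Colour.oracle V) (WithLp.toLp 2 w)
  have hg : Measurable g := by
    have h : Continuous g :=
      (Quarter.pot_gOf hV).smooth.continuous.comp (PiLp.continuous_toLp 2 _)
    exact h.measurable
  let f : E d → Pt d → ENNReal := fun y w =>
    ENNReal.ofReal (exp (-Colour.W (1 / v) V (WithLp.ofLp y) w))
  have hj : Measurable fun p : E d × Pt d => f p.1 p.2 := by
    have hc := hV.continuous
    simp only [f, Colour.W, Colour.nr]
    fun_prop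
  have hf : ∀ y, Measurable (f y) := fun y => hj.comp measurable_prodMk_left
  have e : Nv V v = fun y => ((∫⁻ w, f y w)⁻¹).toReal • ∫ w, (f y w).toReal • g w := by
    funext y
    rw [Nv, Quarter.Tgt.back, Quarter.Tgt.lawE, ← MeasurableEquiv.coe_toLp, integral_map_equiv,
      Colour.law, integral_smul_measure, withDensity_apply _ MeasurableSet.univ,
      Measure.restrict_univ, integral_withDensity_eq_integral_toReal_smul (hf y)
        (ae_of_all _ fun _ => ENNReal.ofReal_lt_top)]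
    rfl
  rw [e]
  exact hj.lintegral_prod_right'.inv.ennreal_toReal.smul
    (hj.ennreal_toReal.smul (hg.comp measurable_snd)).stronglyMeasurable.integral_prod_right'.measurable

theorem Nd.measurable_val {V : Pt d → ℝ} (hV : Mem V) (nd : Nd) : Measurable (nd.val V) :=
  ((measurable_Nv hV nd.v).comp (f := fun p : E d × E d => p.1 + √(nd.a ^ 2) • p.2)
    (by fun_prop)).stronglyMeasurable.integral_prod_right'.measurable

theorem Prog.measurable_val {σ : Type} [Fintype σ] {V : Pt d → ℝ} (hV : Mem V) (P : Prog σ) :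
    Measurable (fun x : Inp d σ => P.val V x) := by
  induction P with
  | mk n l c nd ch ih =>
    simp only [Prog.val]
    refine Measurable.add (by fun_prop) (Finset.measurable_sum _ fun i _ => ?_)
    exact ((Nd.measurable_val hV (nd i)).comp (ih i)).const_smul (c i)

/-- The mean in the last variable. -/
theorem measurable_mean {α : Type*} [MeasurableSpace α] {F : α × E d → E d} (hF : Measurable F) :
    Measurable fun y => ∫ ξ, F (y, ξ) ∂γ d :=
  hF.stronglyMeasurable.integral_prod_right'.measurable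

theorem measurable_csmul {α : Type*} [MeasurableSpace α] {F : α → E d} (c : ℝ) (hF : Measurable F) :
    Measurable fun y => c • F y :=
  hF.const_smul c

section Meas

variable {σ : Type} [Fintype σ] {α : Type*} [MeasurableSpace α] {V : Pt d → ℝ}
  {a b₀ : ℝ}

theorem measurable_fB (hV : Mem V) (G : Prog (Option σ)) {X : α → Inp d (Option σ)}
    {U : α → E d} (hX : Measurable X) (hU : Measurable U) :
    Measurable fun z => fB V G a b₀ (X z) (U z) := by
  refine (((G.measurable_val hV).comp (measurable_pi_iff.2 fun o => ?_))).const_smul b₀⁻¹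
  cases o <;> simp only [upd, Option.elim_none, Option.elim_some] <;> fun_prop

theorem measurable_phiB (hV : Mem V) (PA : Prog (Option (σ ⊕ Bool))) {X : α → Inp d (Option σ)}
    {U K H : α → E d} (hX : Measurable X) (hU : Measurable U) (hK : Measurable K)
    (hH : Measurable H) : Measurable fun z => phiB V PA a b₀ (X z) (U z) (K z) (H z) := by
  refine (((PA.measurable_val hV).comp (measurable_pi_iff.2 fun o => ?_))).const_smul b₀⁻¹
  rcases o with _ | l | c
  · simp only [inpAdj, upd, Option.elim_none]; fun_prop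
  · simp only [inpAdj, upd, Option.elim_some, Sum.elim_inl]; fun_prop
  · cases c
    exacts [hH, hK]

variable {n R : ℕ} (rs ws : Fin R → ℝ)

omit [Fintype σ] in
theorem measurable_xB : Measurable (xB a : Inp d (σ ⊕ Fin 4) → Inp d (Option σ)) := by
  refine measurable_pi_iff.2 fun o => ?_
  cases o <;> simp only [xB, Option.elim_none, Option.elim_some] <;> fun_prop

theorem measurable_fieldB (hV : Mem V) (PA : Prog (Option (σ ⊕ Bool))) {X : α → Inp d (Option σ)}
    {U K H : α → E d} (hX : Measurable X) (hU : Measurable U) (hK : Measurable K)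
    (hH : Measurable H) :
    Measurable fun z => fieldS rs ws (phiB V PA a b₀ (X z)) (H z) (U z) (K z) := by
  unfold fieldS
  refine Finset.measurable_sum _ fun r _ => measurable_csmul _ ?_
  exact measurable_mean
    (F := fun p : α × E d =>
      phiB V PA a b₀ (X p.1) (rs r • U p.1 + √(1 - rs r ^ 2) • p.2) (K p.1) (H p.1))
    (measurable_phiB (X := fun p : α × E d => X p.1) (K := fun p : α × E d => K p.1)
      (H := fun p : α × E d => H p.1)
      (U := fun p : α × E d => rs r • U p.1 + √(1 - rs r ^ 2) • p.2) hV PA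
      (hX.comp measurable_fst) (by fun_prop) (hK.comp measurable_fst) (hH.comp measurable_fst))

theorem measurable_fdiff (hV : Mem V) (G : Prog (Option σ)) {X : α → Inp d (Option σ)}
    {U : α → E d} (hX : Measurable X) (hU : Measurable U) :
    Measurable fun z => fB V G a b₀ (X z) (U z) - ∫ w, fB V G a b₀ (X z) w ∂γ d :=
  (measurable_fB hV G hX hU).sub (measurable_mean
    (F := fun p : α × E d => fB V G a b₀ (X p.1) p.2)
    (measurable_fB (X := fun p : α × E d => X p.1) (U := fun p : α × E d => p.2) hV G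
      (hX.comp measurable_fst) measurable_snd))

theorem measurable_itB (hV : Mem V) (G : Prog (Option σ)) (PA : Prog (Option (σ ⊕ Bool))) (k : ℕ) :
    ∀ i, Measurable fun y : Inp d (σ ⊕ Fin 4) => itB n rs ws V G PA a b₀ y k i := by
  induction k with
  | zero => exact fun i => (measurable_pi_apply _).prodMk (measurable_pi_apply _)
  | succ k ih =>
    intro i
    have hX := measurable_xB (d := d) (σ := σ) (a := a)
    refine Measurable.prodMk
      (f := fun y : Inp d (σ ⊕ Fin 4) => y (.inr 1) - ∑ j, wCol n i j •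
        fieldS rs ws (phiB V PA a b₀ (xB a y)) (y (.inr 3)) (itB n rs ws V G PA a b₀ y k j).1
          (itB n rs ws V G PA a b₀ y k j).2)
      (g := fun y : Inp d (σ ⊕ Fin 4) => y (.inr 2) + ∑ j, wCol n i j •
        (fB V G a b₀ (xB a y) (itB n rs ws V G PA a b₀ y k j).1
          - ∫ w, fB V G a b₀ (xB a y) w ∂γ d)) ?_ ?_
    · exact (measurable_pi_apply _).sub (Finset.measurable_sum _ fun j _ => measurable_csmul _
        (measurable_fieldB rs ws hV PA hX (ih j).fst (ih j).snd (measurable_pi_apply _)))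
    · exact (measurable_pi_apply _).add (Finset.measurable_sum _ fun j _ => measurable_csmul _
        (measurable_fdiff hV G hX (ih j).fst))

theorem measurable_outB (hV : Mem V) (G : Prog (Option σ))
    (PA : Prog (Option (σ ⊕ Bool))) (k : ℕ) :
    Measurable fun y : Inp d (σ ⊕ Fin 4) => outB n rs ws V G PA a b₀ y k := by
  unfold outB outS
  exact   measurable_csmul _ ((measurable_pi_apply _).add (Finset.measurable_sum _ fun j _ =>
    measurable_csmul _ (measurable_fB hV G measurable_xB (measurable_itB rs ws hV G PA k j).fst)))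

end Meas

/-! ## Growth -/

/-- A surrogate with a small mean square error is at most linear. -/
theorem norm_surrogate_le_zero {f : E d → E d} {Φ : E d → E d → E d} {u : E d} {Λ s : ℝ} (hΛ : 0 ≤ Λ)
    (hΛ1 : Λ ≤ 1) (hs : 0 < s) (hf : ∀ u u', ‖f u - f u'‖ ≤ Λ * ‖u - u'‖)
    (hl : ∀ K K' H H', ‖Φ K H - Φ K' H'‖ ≤ Λ * (‖K - K'‖ + ‖H - H'‖))
    (hi : Integrable (fun q : E d × E d => ‖Φ q.1 q.2 - (fderiv ℝ f u).adjoint q.1‖ ^ 2)
      ((γ d).prod (γ d)))
    (he : ∫ q : E d × E d, ‖Φ q.1 q.2 - (fderiv ℝ f u).adjoint q.1‖ ^ 2 ∂(γ d).prod (γ d) ≤ s ^ 2)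
    (K H : E d) : ‖Φ K H‖ ≤ s + ‖K‖ + ‖H‖ + 3 * √d := by
  have hD : ‖(fderiv ℝ f u).adjoint‖ ≤ 1 := by
    rw [LinearIsometryEquiv.norm_map]
    exact le_trans (norm_fderiv_le_of_lipschitz ℝ (C := Λ.toNNReal)
      (LipschitzWith.of_dist_le_mul fun p q => by
        simpa [dist_eq_norm, Real.coe_toNNReal Λ hΛ] using hf p q))
      ((Real.coe_toNNReal Λ hΛ).trans_le hΛ1)
  have hp : ∀ q : E d × E d, ‖Φ K H‖ ≤ 1 / (2 * s) * ‖Φ q.1 q.2 - (fderiv ℝ f u).adjoint q.1‖ ^ 2
      + (s / 2 + ‖K‖ + ‖H‖) + (2 * ‖q.1‖ + ‖q.2‖) := fun q => by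
    set A := ‖Φ q.1 q.2 - (fderiv ℝ f u).adjoint q.1‖
    have h1 := norm_le_norm_sub_add (Φ K H) (Φ q.1 q.2)
    have h2 := norm_le_norm_sub_add (Φ q.1 q.2) ((fderiv ℝ f u).adjoint q.1)
    have h3 := ((fderiv ℝ f u).adjoint.le_opNorm q.1).trans
      (mul_le_of_le_one_left (norm_nonneg _) hD)
    have h4 : A ≤ 1 / (2 * s) * A ^ 2 + s / 2 := by
      have : 1 / (2 * s) * A ^ 2 + s / 2 - A = (A - s) ^ 2 / (2 * s) := by field_simp; ring
      have : 0 ≤ (A - s) ^ 2 / (2 * s) := by positivity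
      linarith
    have h5 := (hl K q.1 H q.2).trans (mul_le_of_le_one_left (by positivity) hΛ1)
    linarith [norm_sub_le K q.1, norm_sub_le H q.2]
  have hγ := Quarter.γ_norm_integrable (d := d)
  have i3 : Integrable (fun q : E d × E d => 2 * ‖q.1‖ + ‖q.2‖) ((γ d).prod (γ d)) :=
    ((hγ.comp_fst (γ d)).const_mul 2).add (hγ.comp_snd (γ d))
  have h := integral_mono (integrable_const ‖Φ K H‖)
    (((hi.const_mul (1 / (2 * s))).add (integrable_const (s / 2 + ‖K‖ + ‖H‖))).add i3) hp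
  have e1 : ∫ q : E d × E d, (2 * ‖q.1‖ + ‖q.2‖) ∂(γ d).prod (γ d) ≤ 3 * √d := by
    rw [integral_add ((hγ.comp_fst (γ d)).const_mul 2) (hγ.comp_snd (γ d)), integral_const_mul,
      integral_fun_fst (fun x : E d => ‖x‖), integral_fun_snd (fun x : E d => ‖x‖)]
    simp only [probReal_univ, one_smul]
    linarith [Quarter.Tgt.γ_norm_le (d := d)]
  rw [integral_const, probReal_univ, one_smul, integral_add' ((hi.const_mul _).add (integrable_const _)) i3,
    integral_add' (hi.const_mul _) (integrable_const _), integral_const_mul, integral_const,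
    probReal_univ, one_smul] at h
  have e2 : 1 / (2 * s) * s ^ 2 = s / 2 := by field_simp
  linarith [mul_le_mul_of_nonneg_left he (show 0 ≤ 1 / (2 * s) by positivity)]

theorem norm_sub_mean_le {f : E d → E d} (hf : ∀ u u', ‖f u - f u'‖ ≤ ‖u - u'‖) (u : E d) :
    ‖f u - ∫ w, f w ∂γ d‖ ≤ ‖u‖ + √d := by
  have hc : LipschitzWith 1 f := LipschitzWith.of_dist_le_mul fun p q => by
    simpa [dist_eq_norm] using hf p q
  have hb : ∀ w, ‖f u - f w‖ ≤ ‖u‖ + ‖w‖ := fun w => (hf u w).trans (norm_sub_le _ _)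
  have hi : Integrable f (γ d) :=
    ((integrable_const ‖f 0‖).add Quarter.γ_norm_integrable).mono'
      hc.continuous.aestronglyMeasurable (ae_of_all _ fun w => by
        have h := hf w 0
        rw [sub_zero] at h
        exact (norm_le_norm_sub_add (f w) (f 0)).trans (by simp only [Pi.add_apply]; linarith))
  have hg := (integrable_const (μ := γ d) ‖u‖).add Quarter.γ_norm_integrable
  have e : f u - ∫ w, f w ∂γ d = ∫ w, (f u - f w) ∂γ d := by
    rw [integral_sub (integrable_const _) hi]; simp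
  rw [e]
  refine (norm_integral_le_of_norm_le hg (ae_of_all _ hb)).trans ?_
  rw [integral_add' (integrable_const _) Quarter.γ_norm_integrable]
  simpa using Quarter.Tgt.γ_norm_le

/-- Growth of the iterates of the scheme. -/
theorem iterS_le {n R : ℕ} {rs ws : Fin R → ℝ} {f : E d → E d} {Φ : E d → E d → E d → E d}
    {u₀ y₀ η : E d} {C W S w : ℝ} (hC : 1 + 8 * (W * (S + 1)) ≤ C) (hW : ∀ i, ∑ j, |wCol n i j| ≤ W)
    (hS : ∑ r, |ws r| ≤ S) (hrs : ∀ r, 0 ≤ rs r ∧ rs r ≤ 1)
    (hw : √d + (‖u₀‖ + ‖y₀‖ + ‖η‖) ≤ w)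
    (hf : ∀ u, ‖f u - ∫ z, f z ∂γ d‖ ≤ ‖u‖ + √d)
    (hΦ : ∀ u y, ‖Φ u y η‖ ≤ 4 * w + ‖u‖ + ‖y‖ + ‖η‖) :
    ∀ k i, ‖(iterS n rs ws f Φ (u₀, y₀, η) k i).1‖ + ‖(iterS n rs ws f Φ (u₀, y₀, η) k i).2‖
      ≤ C ^ (k + 1) * w := by
  have hW0 : 0 ≤ W := (sum_nonneg fun j _ => abs_nonneg _).trans (hW 0)
  have hS0 : 0 ≤ S := (sum_nonneg fun j _ => abs_nonneg _).trans hS
  have hC1 : 1 ≤ C := le_trans (le_add_of_nonneg_right (by positivity)) hC
  have := Real.sqrt_nonneg (d : ℝ)
  have := norm_nonneg η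
  have := norm_nonneg u₀
  have := norm_nonneg y₀
  have hw0 : 0 ≤ w := by linarith
  intro k
  induction k with
  | zero =>
    intro i
    simp only [iterS, pow_one, zero_add]
    nlinarith
  | succ k ih =>
    intro i
    set m := C ^ (k + 1) * w
    have hwm : w ≤ m := le_mul_of_one_le_left hw0 (one_le_pow₀ hC1)
    set P := fun j => iterS n rs ws f Φ (u₀, y₀, η) k j
    have hF : ∀ j, ‖fieldS rs ws Φ η (P j).1 (P j).2‖ ≤ S * (7 * m) := fun j => by
      refine (norm_sum_le _ _).trans (le_trans (sum_le_sum fun r _ => ?_)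
        ((sum_mul _ _ _).symm.le.trans (mul_le_mul_of_nonneg_right hS (by linarith))))
      rw [norm_smul, norm_eq_abs]
      refine mul_le_mul_of_nonneg_left ?_ (abs_nonneg _)
      set c := √(1 - rs r ^ 2)
      have hc : c ≤ 1 := Real.sqrt_le_one.2 (by nlinarith)
      have hb : ∀ ξ : E d, ‖Φ (rs r • (P j).1 + c • ξ) (P j).2 η‖
          ≤ (4 * w + ‖(P j).1‖ + ‖(P j).2‖ + ‖η‖) + ‖ξ‖ := fun ξ => by
        have h := (norm_add_le (rs r • (P j).1) (c • ξ)).trans
          (add_le_add (le_of_eq (norm_smul _ _)) (le_of_eq (norm_smul _ _)))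
        rw [norm_eq_abs, norm_eq_abs, abs_of_nonneg (hrs r).1, abs_of_nonneg (Real.sqrt_nonneg _)] at h
        have := mul_le_of_le_one_left (norm_nonneg (P j).1) (hrs r).2
        have := mul_le_of_le_one_left (norm_nonneg ξ) hc
        linarith [hΦ (rs r • (P j).1 + c • ξ) (P j).2]
      refine (norm_integral_le_of_norm_le ((integrable_const _).add Quarter.γ_norm_integrable)
        (ae_of_all _ hb)).trans ?_
      rw [integral_add' (integrable_const _) Quarter.γ_norm_integrable, integral_const, probReal_univ,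
        one_smul]
      linarith [Quarter.Tgt.γ_norm_le (d := d), ih j]
    have hG : ∀ j, ‖f (P j).1 - ∫ z, f z ∂γ d‖ ≤ 2 * m := fun j => by
      linarith [hf (P j).1, ih j, norm_nonneg (P j).2]
    have hsum : ∀ (g : Fin (n + 1) → E d) (B : ℝ), (∀ j, ‖g j‖ ≤ B) →
        ‖∑ j, wCol n i j • g j‖ ≤ W * B := fun g B hg => by
      refine (norm_sum_le _ _).trans (le_trans (sum_le_sum fun j _ => ?_)
        ((sum_mul _ _ _).symm.le.trans (mul_le_mul_of_nonneg_right (hW i)
          ((norm_nonneg _).trans (hg 0)))))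
      rw [norm_smul, norm_eq_abs]
      exact mul_le_mul_of_nonneg_left (hg j) (abs_nonneg _)
    have h1 := (norm_sub_le u₀ _).trans (add_le_add le_rfl (hsum _ _ hF))
    have h2 := (norm_add_le y₀ _).trans (add_le_add le_rfl (hsum _ _ hG))
    have h3 : (1 + 8 * (W * (S + 1))) * m ≤ C * m :=
      mul_le_mul_of_nonneg_right hC (by linarith)
    have h4 : C ^ (k + 1 + 1) * w = C * m := by simp only [m]; ring
    simp only [iterS]
    nlinarith [mul_nonneg (mul_nonneg hW0 hS0) (hw0.trans hwm), mul_nonneg hW0 (hw0.trans hwm)]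

/-! ## The ideal binder -/

/-- `Λ` bounds the Lipschitz constants of `fB` and `phiB`, `δ` the error of the surrogate relative
to the weight. -/
theorem exists_binder_ideal (n : ℕ) (hn : 1 ≤ n) : ∃ (Nr c₀ : ℕ), ∀ M : ℕ, 1 ≤ M →
    ∃ C : ℝ, 1 ≤ C ∧ ∀ N : ℕ, 1 ≤ N →
    ∃ rs ws : Fin (N * (M + 1)) → ℝ, (∀ r, 0 ≤ rs r ∧ rs r ≤ 1 - 1 / (C * N)) ∧
      ∑ r, |ws r| ≤ C ∧
      ∀ (d : ℕ), 1 ≤ d → ∀ (σ : Type) [Fintype σ] (G : Prog (Option σ))
        (PA : Prog (Option (σ ⊕ Bool))) (a b₀ β K KM Λ δ : ℝ),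
        0 < a → a ≤ 1 → 0 < b₀ → b₀ ≤ β → 0 ≤ K → C * K ≤ 1 → 0 ≤ KM → 0 ≤ Λ → C * Λ ≤ 1 →
        0 ≤ δ → δ ≤ 1 →
        (∀ V, Mem (d := d) V → ∀ x : Inp d (Option σ),
          Temp (vecT (fB V G a b₀ x)) ∧ RB Nr (gradT (vecT (fB V G a b₀ x))) K ∧
            RB (c₀ * (M + 1)) (gradT (vecT (fB V G a b₀ x))) KM) →
        (∀ V, Mem (d := d) V → ∀ (x : Inp d (Option σ)) (u u' : E d),
          ‖fB V G a b₀ x u - fB V G a b₀ x u'‖ ≤ Λ * ‖u - u'‖) →
        (∀ V, Mem (d := d) V → ∀ (x : Inp d (Option σ)) (u u' K₁ K₂ H H' : E d),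
          ‖phiB V PA a b₀ x u K₁ H - phiB V PA a b₀ x u' K₂ H'‖
            ≤ Λ * (‖u - u'‖ + ‖K₁ - K₂‖ + ‖H - H'‖)) →
        (∀ V, Mem (d := d) V → ∀ (x : Inp d (Option σ)) (u : E d),
          Integrable (fun q : E d × E d =>
              ‖phiB V PA a b₀ x u q.1 q.2 - (fderiv ℝ (fB V G a b₀ x) u).adjoint q.1‖ ^ 2)
            ((γ d).prod (γ d)) ∧
          ∫ q : E d × E d,
              ‖phiB V PA a b₀ x u q.1 q.2 - (fderiv ℝ (fB V G a b₀ x) u).adjoint q.1‖ ^ 2
              ∂(γ d).prod (γ d) ≤ (δ * wt (upd a x u)) ^ 2) →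
        ∀ V, Mem (d := d) V → ∀ k : ℕ,
          (∀ (y : Inp d (σ ⊕ Fin 4)) (i : Fin (n + 1)),
            ‖(itB n rs ws V G PA a b₀ y k i).1‖ + ‖(itB n rs ws V G PA a b₀ y k i).2‖
              ≤ C ^ (k + 1) * wt y) ∧
          Measurable (fun y : Inp d (σ ⊕ Fin 4) => outB n rs ws V G PA a b₀ y k) ∧
          ∀ (x : Inp d (Option σ)) (φ : E d → ℝ), LipschitzWith 1 φ →
            |∫ ζ, ∫ w, φ (outB n rs ws V G PA a b₀ (mkB a x ζ) k + √(β ^ 2 - b₀ ^ 2) • w)
                  ∂γ d ∂γs d (Fin 3)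
                - ∫ w, φ ((∫ u, G.val V (upd a x u) ∂γ d) + β • w) ∂γ d|
              ≤ b₀ * C * K * (√d * (K ^ n + KM * (1 / (N : ℝ)) ^ M + (C * (K + Λ)) ^ k)
                + δ * wt x) := by
  obtain ⟨Nr, c₀, -, h⟩ := exists_scheme n hn
  refine ⟨Nr, c₀, fun M hM => ?_⟩
  obtain ⟨C₀, hC₀, h⟩ := h M hM
  set W := ∑ i, ∑ j, |wCol n i j| with hWdef
  have hW0 : 0 ≤ W := by positivity
  have h8 : (0 : ℝ) ≤ 8 * (W * (C₀ + 1)) := by positivity
  set C := C₀ + (1 + 8 * (W * (C₀ + 1))) with hCdef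
  have hCC : C₀ ≤ C := by linarith
  refine ⟨C, by linarith, fun N hN => ?_⟩
  obtain ⟨rs, ws, hrs, hws, h⟩ := h N hN
  have hN0 : (0 : ℝ) < N := by exact_mod_cast hN
  have hrs1 : ∀ r, 0 ≤ rs r ∧ rs r ≤ 1 := fun r =>
    ⟨(hrs r).1, (hrs r).2.trans (by linarith [show (0 : ℝ) ≤ 1 / (C₀ * N) by positivity])⟩
  refine ⟨rs, ws, fun r => ⟨(hrs r).1, (hrs r).2.trans (sub_le_sub_left
    (one_div_le_one_div_of_le (by positivity) (mul_le_mul_of_nonneg_right hCC hN0.le)) 1)⟩,
    hws.trans hCC, ?_⟩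
  intro d hd σ _ G PA a b₀ β K KM Λ δ ha ha1 hb hbβ hK hCK hKM hΛ hCΛ hδ hδ1 hreg hfl hΦl hΦe V hV k
  have hΛ1 : Λ ≤ 1 := le_trans (le_mul_of_one_le_left hΛ (by linarith)) hCΛ
  have hsd : 0 < √(d : ℝ) := Real.sqrt_pos.2 (by exact_mod_cast hd)
  have hwu : ∀ (x : Inp d (Option σ)) (u : E d), wt (upd a x u) ≤ wt x + ‖u‖ := fun x u => by
    have h1 : ‖x none + a • u‖ ≤ ‖x none‖ + ‖u‖ := (norm_add_le _ _).trans (add_le_add le_rfl (by
      rw [norm_smul, norm_eq_abs, abs_of_pos ha]; exact mul_le_of_le_one_left (norm_nonneg _) ha1))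
    simp only [wt, Fintype.sum_option, upd, Option.elim_none, Option.elim_some]
    linarith
  refine ⟨fun y i => ?_, measurable_outB rs ws hV G PA k, fun x φ hφ => ?_⟩
  · have hy := Real.sqrt_nonneg (d : ℝ)
    have hwy : wt (xB a y) ≤ wt y ∧ √d + (‖y (.inr 1)‖ + ‖y (.inr 2)‖ + ‖y (.inr 3)‖) ≤ wt y ∧
        √(d : ℝ) ≤ wt y := by
      have h1 : ‖y (.inr 0) - a • y (.inr 1)‖ ≤ ‖y (.inr 0)‖ + ‖y (.inr 1)‖ :=
        (norm_sub_le _ _).trans (add_le_add le_rfl (by
          rw [norm_smul, norm_eq_abs, abs_of_pos ha]; exact mul_le_of_le_one_left (norm_nonneg _) ha1))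
      have := sum_nonneg fun (l : σ) (_ : l ∈ Finset.univ) => norm_nonneg (y (.inl l))
      simp only [wt, Fintype.sum_option, Fintype.sum_sum_type, Fin.sum_univ_four, xB, Option.elim_none,
        Option.elim_some]
      refine ⟨?_, ?_, ?_⟩ <;>
        linarith [norm_nonneg (y (.inr 0)), norm_nonneg (y (.inr 1)), norm_nonneg (y (.inr 2)),
          norm_nonneg (y (.inr 3))]
    refine iterS_le (C := C) (W := W) (S := C₀) (w := wt y) (by linarith)
      (fun i => single_le_sum (f := fun i => ∑ j, |wCol n i j|)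
        (fun _ _ => sum_nonneg fun _ _ => abs_nonneg _) (mem_univ i))
      hws hrs1 hwy.2.1 (norm_sub_mean_le fun u u' =>
        (hfl V hV _ u u').trans (mul_le_of_le_one_left (norm_nonneg _) hΛ1))
      (fun u K' => ?_) k i
    set s := wt (upd a (xB a y) u)
    have hs : 0 < s := lt_of_lt_of_le hsd (le_add_of_nonneg_right (sum_nonneg fun _ _ => norm_nonneg _))
    have h1 := norm_surrogate_le_zero (Φ := phiB V PA a b₀ (xB a y) u) hΛ hΛ1 hs (hfl V hV _)
      (fun K₁ K₂ H₁ H₂ => (hΦl V hV _ u u K₁ K₂ H₁ H₂).trans_eq (by simp))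
      (hΦe V hV _ u).1 ((hΦe V hV _ u).2.trans (pow_le_pow_left₀ (by positivity)
        (mul_le_of_le_one_left hs.le hδ1) 2)) K' (y (.inr 3))
    have := hwu (xB a y) u
    linarith [hwy.1, hwy.2.2]
  obtain ⟨ht, hr, hrM⟩ := hreg V hV x
  have hwx : 0 ≤ wt x := wt_nonneg x
  have hΦc : Continuous fun q : E d × E d × E d => phiB V PA a b₀ x q.1 q.2.1 q.2.2 := by
    refine (LipschitzWith.of_dist_le' (K := 3 * Λ) fun p q => ?_).continuous
    simp only [dist_eq_norm]
    refine (hΦl V hV x _ _ _ _ _ _).trans ?_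
    have e1 := norm_fst_le (p - q)
    have e2 := (norm_fst_le (p - q).2).trans (norm_snd_le (p - q))
    have e3 := (norm_snd_le (p - q).2).trans (norm_snd_le (p - q))
    simp only [Prod.fst_sub, Prod.snd_sub] at e1 e2 e3
    nlinarith
  set c := √(β ^ 2 - b₀ ^ 2) with hc
  set ψ : E d → ℝ := fun z => ∫ w, φ (b₀ • z + c • w) ∂γ d with hψ
  set φ' : E d → ℝ := fun z => b₀⁻¹ * ψ z with hφ'
  have hi : ∀ z, Integrable (fun w => φ (b₀ • z + c • w)) (γ d) := fun z =>
    integrable_lip (integrable_noise _ c) hφ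
  have hl' : LipschitzWith 1 φ' := LipschitzWith.of_dist_le_mul fun p q => by
    rw [Real.dist_eq, hφ', dist_eq_norm, NNReal.coe_one, one_mul, ← mul_sub, abs_mul,
      abs_of_pos (inv_pos.2 hb), inv_mul_le_iff₀ hb, hψ, ← integral_sub (hi p) (hi q),
      ← norm_eq_abs]
    refine (norm_integral_le_of_norm_le_const (C := b₀ * ‖p - q‖) (ae_of_all _ fun w => ?_)).trans
      (by simp)
    refine (hφ.norm_sub_le _ _).trans_eq ?_
    rw [add_sub_add_right_eq_sub, ← smul_sub, norm_smul, norm_of_nonneg hb.le, NNReal.coe_one, one_mul]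
  have key := h d hd (fB V G a b₀ x) (phiB V PA a b₀ x) K KM Λ (δ * wt x) hK
    ((mul_le_mul_of_nonneg_right hCC hK).trans hCK) hKM hΛ
    ((mul_le_mul_of_nonneg_right hCC hΛ).trans hCΛ) (mul_nonneg hδ hwx) ht hr hrM hΦc
    (fun u u' y y' η => (hΦl V hV x u u' y y' η η).trans_eq (by simp))
    (fun u => ⟨(hΦe V hV x u).1, (hΦe V hV x u).2.trans
      (pow_le_pow_left₀ (mul_nonneg hδ (wt_nonneg _)) (by
        rw [mul_assoc]
        refine mul_le_mul_of_nonneg_left ((hwu x u).trans ?_) hδ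
        rw [mul_add, mul_one]
        refine add_le_add le_rfl ?_
        rw [mul_div_assoc', le_div_iff₀ hsd, mul_comm]
        exact mul_le_mul_of_nonneg_right (le_add_of_nonneg_right
          (sum_nonneg fun _ _ => norm_nonneg _)) (norm_nonneg _)) 2)⟩) k φ' hl'
  set o : E d × E d × E d → E d := fun p =>
    outS n rs ws (fB V G a b₀ x) (phiB V PA a b₀ x) p k with ho
  have hout : ∀ ζ : Inp d (Fin 3), outB n rs ws V G PA a b₀ (mkB a x ζ) k
      = b₀ • o (ζ 0, ζ 1, ζ 2) := fun ζ => by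
    have hx : xB a (mkB a x ζ) = x := by funext t; cases t <;> simp [xB, mkB]
    simp only [outB, hx, ho]
    rfl
  have hmp : MeasurePreserving (fun ζ : Inp d (Fin 3) => (ζ 0, ζ 1, ζ 2)) (γs d (Fin 3)) (seedS d) :=
    ((MeasurePreserving.id (γ d)).prod (measurePreserving_finTwoArrow (γ d))).comp
      (measurePreserving_piFinSuccAbove (fun _ : Fin 3 => γ d) 0)
  have hym : Measurable fun p : E d × E d × E d =>
      mkB a x (![p.1, p.2.1, p.2.2] : Inp d (Fin 3)) := by
    refine measurable_pi_iff.2 fun t => ?_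
    rcases t with l | l
    · exact measurable_const
    · fin_cases l <;> simp [mkB] <;> fun_prop
  have hom : Measurable fun p : E d × E d × E d => b₀ • o p := by
    have := (measurable_outB (n := n) (a := a) (b₀ := b₀) rs ws hV G PA k).comp hym
    simpa [Function.comp_def, hout] using this
  have hψm : AEStronglyMeasurable (fun p => ψ (o p)) (seedS d) :=
    ((hφ.continuous.measurable.comp ((hom.comp measurable_fst).add
      (measurable_snd.const_smul c))).stronglyMeasurable.integral_prod_right').aestronglyMeasurable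
  have eL : ∫ ζ, ∫ w, φ (outB n rs ws V G PA a b₀ (mkB a x ζ) k + c • w) ∂γ d ∂γs d (Fin 3)
      = ∫ p, ψ (o p) ∂seedS d := by
    simp only [hout]
    rw [← hmp.map_eq, integral_map hmp.measurable.aemeasurable (hmp.map_eq.symm ▸ hψm)]
  set m := ∫ u, G.val V (upd a x u) ∂γ d with hm
  have em : b₀ • ∫ u, fB V G a b₀ x u ∂γ d = m := by
    simp only [fB, integral_smul, smul_smul, mul_inv_cancel₀ hb.ne', one_smul, hm]
  have eR : ∫ w, ψ ((∫ u, fB V G a b₀ x u ∂γ d) + w) ∂γ d = ∫ w, φ (m + β • w) ∂γ d := by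
    have h2 := integral_two (d := d) b₀ c β
      (by rw [hc, sq_sqrt (by nlinarith)]; ring) (f := fun z => φ (m + z))
      (hφ.continuous.comp (by fun_prop)).stronglyMeasurable
    have hi2 : Integrable (fun p : E d × E d => φ (m + (b₀ • p.1 + c • p.2))) ((γ d).prod (γ d)) :=
      integrable_lip ((integrable_const m).add
        (((IsGaussian.integrable_id (μ := γ d)).comp_fst (γ d)).smul b₀ |>.add
          (((IsGaussian.integrable_id (μ := γ d)).comp_snd (γ d)).smul c))) hφ
    rw [← h2, integral_prod _ hi2]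
    simp only [hψ, smul_add, em, add_assoc]
  simp only [hφ', integral_const_mul, ← mul_sub, abs_mul, abs_of_pos (inv_pos.2 hb),
    inv_mul_le_iff₀ hb] at key
  rw [← ho] at *
  rw [eL, ← eR]
  refine key.trans ?_
  rw [mul_assoc b₀, mul_assoc b₀]
  refine mul_le_mul_of_nonneg_left ?_ hb.le
  gcongr

end

end Vale.Agent.P347.Zero
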