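import Vale.Agent.P347.Zero.Cre

/-!
# P347, exponent 0: averages of fields over random contractions and translations

`avg μ w a c F z` is the mean of `w ω • F (a ω • z + c ω)`; with `|w|, |a| ≤ 1` and all moments of
`c` finite it keeps temperate growth and every bound on flattenings.
-/

namespace Vale.Agent.P347.Zero

open MeasureTheory Real Finset Metric

noncomputable section

set_option linter.unusedSectionVars false

variable {ι α : Type} [Fintype ι] [DecidableEq ι] [Fintype α] [DecidableEq α]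
variable {Ω : Type} [MeasurableSpace Ω] {W : Type} [NormedAddCommGroup W] [NormedSpace ℝ W]

/-- The average of a function. -/
def avg (μ : Measure Ω) (w a : Ω → ℝ) (c : Ω → Sp α) (F : Sp α → W) (z : Sp α) : W :=
  ∫ ω, w ω • F (a ω • z + c ω) ∂μ

/-- The average of a tensor field. -/
def avgT (μ : Measure Ω) (w a : Ω → ℝ) (c : Ω → Sp α) (X : TF ι α) : TF ι α := fun z i =>
  avg μ w a c (fun z => X z i) z

/-- Admissible data of an average. -/
structure AvgOk (μ : Measure Ω) (w a : Ω → ℝ) (c : Ω → Sp α) : Prop where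
  prob : IsProbabilityMeasure μ
  mw : Measurable w
  ma : Measurable a
  mc : Measurable c
  w_le : ∀ ω, |w ω| ≤ 1
  a_le : ∀ ω, |a ω| ≤ 1
  moment : ∀ k : ℕ, Integrable (fun ω => (1 + ‖c ω‖) ^ k) μ

variable {μ : Measure Ω} {w a : Ω → ℝ} {c : Ω → Sp α}

theorem AvgOk.weight (h : AvgOk μ w a c) : AvgOk μ (fun ω => w ω * a ω) a c :=
  { h with
    mw := h.mw.mul h.ma
    w_le := fun ω => by
      rw [abs_mul]; exact mul_le_one₀ (h.w_le ω) (abs_nonneg _) (h.a_le ω) }

theorem AvgOk.point_le (h : AvgOk μ w a c) (ω : Ω) (z : Sp α) :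
    1 + ‖a ω • z + c ω‖ ≤ (1 + ‖z‖) * (1 + ‖c ω‖) := by
  have h1 : ‖a ω • z‖ ≤ ‖z‖ := by
    rw [norm_smul]; exact mul_le_of_le_one_left (norm_nonneg _) (h.a_le ω)
  nlinarith [norm_add_le (a ω • z) (c ω), mul_nonneg (norm_nonneg z) (norm_nonneg (c ω))]

theorem AvgOk.value_le (h : AvgOk μ w a c) {F : Sp α → W} {k : ℕ} {C : ℝ}
    (hF : ∀ x, ‖F x‖ ≤ C * (1 + ‖x‖) ^ k) (ω : Ω) (z : Sp α) :
    ‖w ω • F (a ω • z + c ω)‖ ≤ C * (1 + ‖z‖) ^ k * (1 + ‖c ω‖) ^ k := by
  have hC : 0 ≤ C := by simpa using (norm_nonneg _).trans (hF 0)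
  rw [norm_smul]
  refine (mul_le_of_le_one_left (norm_nonneg _) (h.w_le ω)).trans ((hF _).trans ?_)
  rw [mul_assoc, ← mul_pow]
  gcongr
  exact h.point_le ω z

theorem AvgOk.measurable_point (h : AvgOk μ w a c) (z : Sp α) :
    Measurable fun ω => a ω • z + c ω := (h.ma.smul_const z).add h.mc

theorem AvgOk.aesm (h : AvgOk μ w a c) {F : Sp α → W} (hF : Continuous F) (z : Sp α) :
    AEStronglyMeasurable (fun ω => w ω • F (a ω • z + c ω)) μ :=
  h.mw.aemeasurable.aestronglyMeasurable.smul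
    (hF.comp_stronglyMeasurable (h.measurable_point z).stronglyMeasurable).aestronglyMeasurable

theorem AvgOk.integrable (h : AvgOk μ w a c) {F : Sp α → W} (hF : F.HasTemperateGrowth)
    (z : Sp α) : Integrable (fun ω => w ω • F (a ω • z + c ω)) μ := by
  obtain ⟨k, C, hC⟩ := hF.2 0
  simp only [norm_iteratedFDeriv_zero] at hC
  exact ((h.moment k).const_mul (C * (1 + ‖z‖) ^ k)).mono' (h.aesm hF.1.continuous z)
    (ae_of_all _ fun ω => h.value_le hC ω z)

theorem temperate_fderiv {F : Sp α → W} (hF : F.HasTemperateGrowth) :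
    (fderiv ℝ F).HasTemperateGrowth := by
  refine ⟨hF.1.fderiv_right (by simp), fun n => ?_⟩
  obtain ⟨k, C, h⟩ := hF.2 (n + 1)
  exact ⟨k, C, fun x => norm_iteratedFDeriv_fderiv.trans_le (h x)⟩

theorem AvgOk.hasFDerivAt (h : AvgOk μ w a c) {F : Sp α → W} (hF : F.HasTemperateGrowth)
    (z₀ : Sp α) :
    HasFDerivAt (avg μ w a c F) (avg μ (fun ω => w ω * a ω) a c (fderiv ℝ F) z₀) z₀ := by
  have hF' := temperate_fderiv hF
  obtain ⟨k, C, hC⟩ := hF'.2 0
  simp only [norm_iteratedFDeriv_zero] at hC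
  have hC0 : 0 ≤ C := by simpa using (norm_nonneg _).trans (hC 0)
  refine hasFDerivAt_integral_of_dominated_of_fderiv_le (s := ball z₀ 1)
    (F := fun z ω => w ω • F (a ω • z + c ω))
    (F' := fun z ω => (w ω * a ω) • fderiv ℝ F (a ω • z + c ω))
    (bound := fun ω => C * (2 + ‖z₀‖) ^ k * (1 + ‖c ω‖) ^ k) (ball_mem_nhds z₀ one_pos)
    (Filter.Eventually.of_forall fun z => h.aesm hF.1.continuous z) (h.integrable hF z₀)
    (h.weight.aesm hF'.1.continuous z₀) (ae_of_all _ fun ω z hz => ?_)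
    ((h.moment k).const_mul _) (ae_of_all _ fun ω z _ => ?_)
  · refine (h.weight.value_le hC ω z).trans ?_
    rw [mem_ball, dist_eq_norm] at hz
    refine mul_le_mul_of_nonneg_right (mul_le_mul_of_nonneg_left (pow_le_pow_left₀ (by positivity) ?_ k)
      hC0) (by positivity)
    linarith [norm_le_norm_add_norm_sub' z z₀]
  · have h1 : HasFDerivAt (fun z => a ω • z + c ω) (a ω • ContinuousLinearMap.id ℝ (Sp α)) z :=
      ((hasFDerivAt_id z).const_smul (a ω)).add_const (c ω)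
    have h2 := ((hF.1.differentiable (by simp) _).hasFDerivAt.comp z h1).const_smul (w ω)
    rw [ContinuousLinearMap.comp_smul, ContinuousLinearMap.comp_id, smul_smul] at h2
    exact h2

theorem AvgOk.fderiv_eq (h : AvgOk μ w a c) {F : Sp α → W} (hF : F.HasTemperateGrowth) :
    fderiv ℝ (avg μ w a c F) = avg μ (fun ω => w ω * a ω) a c (fderiv ℝ F) :=
  funext fun z => (h.hasFDerivAt hF z).fderiv

theorem AvgOk.zero_bound (h : AvgOk μ w a c) {F : Sp α → W} (hF : F.HasTemperateGrowth) :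
    ∃ (k : ℕ) (C : ℝ), ∀ z, ‖avg μ w a c F z‖ ≤ C * (1 + ‖z‖) ^ k := by
  obtain ⟨k, C, hC⟩ := hF.2 0
  simp only [norm_iteratedFDeriv_zero] at hC
  refine ⟨k, C * ∫ ω, (1 + ‖c ω‖) ^ k ∂μ, fun z => ?_⟩
  refine (norm_integral_le_of_norm_le ((h.moment k).const_mul (C * (1 + ‖z‖) ^ k))
    (ae_of_all _ fun ω => h.value_le hC ω z)).trans (le_of_eq ?_)
  rw [integral_const_mul]
  ring

theorem AvgOk.smooth_bound (n : ℕ) : ∀ {W : Type} [NormedAddCommGroup W] [NormedSpace ℝ W]
    {w : Ω → ℝ} {F : Sp α → W}, AvgOk μ w a c → F.HasTemperateGrowth →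
    ContDiff ℝ n (avg μ w a c F) ∧
      ∃ (k : ℕ) (C : ℝ), ∀ z, ‖iteratedFDeriv ℝ n (avg μ w a c F) z‖ ≤ C * (1 + ‖z‖) ^ k := by
  induction n with
  | zero =>
    intro W _ _ w F h hF
    obtain ⟨k, C, hC⟩ := h.zero_bound hF
    refine ⟨contDiff_zero.2 ?_, k, C, fun z => by simpa using hC z⟩
    exact continuous_iff_continuousAt.2 fun z => (h.hasFDerivAt hF z).continuousAt
  | succ n ih =>
    intro W _ _ w F h hF
    obtain ⟨h1, k, C, h2⟩ := ih h.weight (temperate_fderiv hF)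
    refine ⟨?_, k, C, fun z => ?_⟩
    · rw [Nat.cast_succ, contDiff_succ_iff_fderiv]
      exact ⟨fun z => (h.hasFDerivAt hF z).differentiableAt, by simp, h.fderiv_eq hF ▸ h1⟩
    · rw [← norm_iteratedFDeriv_fderiv, h.fderiv_eq hF]
      exact h2 z

theorem AvgOk.temperate (h : AvgOk μ w a c) {F : Sp α → W} (hF : F.HasTemperateGrowth) :
    (avg μ w a c F).HasTemperateGrowth :=
  ⟨contDiff_infty.2 fun n => (AvgOk.smooth_bound n h hF).1, fun n => (AvgOk.smooth_bound n h hF).2⟩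

theorem AvgOk.temp (h : AvgOk μ w a c) {X : TF ι α} (hX : Temp X) : Temp (avgT μ w a c X) :=
  fun i => h.temperate (hX i)

theorem AvgOk.pd_avg (h : AvgOk μ w a c) {f : Sp α → ℝ} (hf : f.HasTemperateGrowth) (j : α)
    (z : Sp α) : pd j (avg μ w a c f) z = avg μ (fun ω => w ω * a ω) a c (pd j f) z := by
  rw [pd, h.fderiv_eq hf]
  simp only [avg]
  rw [ContinuousLinearMap.integral_apply (h.weight.integrable (temperate_fderiv hf) z)]
  rfl

theorem AvgOk.gradT_avgT (h : AvgOk μ w a c) {X : TF ι α} (hX : Temp X) :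
    gradT (avgT μ w a c X) = avgT μ (fun ω => w ω * a ω) a c (gradT X) := by
  funext z i
  exact h.pd_avg (hX (i ∘ some)) (i none) z

theorem AvgOk.bn (h : AvgOk μ w a c) {X : TF ι α} (hX : Temp X) {K : ℝ}
    (hK : ∀ z, BN (X z) K) (z : Sp α) : BN (avgT μ w a c X z) K := by
  intro κ κ' _ _ _ _ hκ hκ' e u v
  have hi : ∀ i, Integrable (fun ω => w ω * X (a ω • z + c ω) i) μ := fun i =>
    h.integrable (hX i) z
  have hpos : ∀ u' v' : _, ∀ y, ∑ p, ∑ q, flat e (X y) p q * u' p * v' q ≤ K * nrm u' * nrm v' :=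
    fun u' v' y => hK y κ κ' hκ hκ' e u' v'
  have e1 : ∑ p, ∑ q, flat e (avgT μ w a c X z) p q * u p * v q
      = ∫ ω, w ω * ∑ p, ∑ q, flat e (X (a ω • z + c ω)) p q * u p * v q ∂μ := by
    simp only [mul_sum]
    rw [integral_finsetSum _ fun p _ => integrable_finsetSum _ fun q _ =>
      (((hi _).mul_const (u p)).mul_const (v q)).congr (ae_of_all _ fun ω => by
        simp only [flat]; ring)]
    refine sum_congr rfl fun p _ => ?_
    rw [integral_finsetSum _ fun q _ => (((hi _).mul_const (u p)).mul_const (v q)).congr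
      (ae_of_all _ fun ω => by simp only [flat]; ring)]
    refine sum_congr rfl fun q _ => ?_
    simp only [flat, avgT, avg, smul_eq_mul, ← mul_assoc]
    rw [integral_mul_const, integral_mul_const]
  rw [e1]
  have := h.prob
  have hK0 : 0 ≤ K * nrm u * nrm v := by
    have h1 := hpos u v z
    have h2 := hpos (fun p => -u p) v z
    simp only [nrm_neg, mul_neg, neg_mul, sum_neg_distrib] at h2
    linarith
  refine (le_abs_self _).trans (abs_integral_le_integral_abs.trans ?_)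
  refine (integral_mono_of_nonneg (ae_of_all _ fun ω => abs_nonneg _)
    (integrable_const (K * nrm u * nrm v)) (ae_of_all _ fun ω => ?_)).trans (le_of_eq (by simp))
  simp only [abs_mul]
  refine (mul_le_of_le_one_left (abs_nonneg _) (h.w_le ω)).trans (abs_le.2 ⟨?_, hpos u v _⟩)
  have h2 := hpos (fun p => -u p) v (a ω • z + c ω)
  simp only [nrm_neg, mul_neg, neg_mul, sum_neg_distrib] at h2
  linarith

theorem AvgOk.rb (h : AvgOk μ w a c) {n : ℕ} {X : TF ι α} {K : ℝ} (hX : RB n X K) :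
    RB n (avgT μ w a c X) K := by
  induction n generalizing ι w with
  | zero => exact ⟨h.temp hX.1, h.bn hX.1 hX.2⟩
  | succ n ih =>
    refine ⟨h.temp hX.1, h.bn hX.1 hX.2.1, ?_⟩
    rw [h.gradT_avgT hX.1]
    exact ih h.weight hX.2.2

end

end Vale.Agent.P347.Zero
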