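import Vale.Agent.P347.Zero.Cre

/-!
# P347, exponent 0: a field on a block of coordinates

`liftT e Y` reads the field `Y` on the coordinates in the range of the injection `e` and extends it
by zero. It commutes with derivatives and keeps all flattenings.
-/

namespace Vale.Agent.P347.Zero

open Finset Real MeasureTheory

noncomputable section

set_option linter.unusedSectionVars false

variable {ι α β : Type} [Fintype ι] [DecidableEq ι] [Fintype α] [DecidableEq α] [Fintype β]
  [DecidableEq β]

/-- The coordinates in a block. -/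
def pull (e : β → α) : Sp α →L[ℝ] Sp β :=
  ∑ b, (EuclideanSpace.proj (𝕜 := ℝ) (e b)).smulRight (unitV b)

theorem pull_apply (e : β → α) (z : Sp α) (b : β) : pull e z b = z (e b) := by
  simp [pull, unitV, Finset.sum_apply, Pi.single_apply]

theorem pull_unitV {e : β → α} (he : Function.Injective e) (b : β) :
    pull e (unitV (e b)) = unitV b := by
  ext c
  rw [pull_apply]
  simp [unitV, he.eq_iff]

theorem pull_unitV_of_not {e : β → α} {j : α} (h : ∀ b, e b ≠ j) : pull e (unitV j) = 0 := by
  ext c
  rw [pull_apply]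
  simp [unitV, h c]

/-- Extension of a tensor by zero. -/
def liftN (e : β → α) (T : Ten ι β) : Ten ι α := fun i => ∑ j : ι → β, if e ∘ j = i then T j else 0

/-- Extension of a field by zero. -/
def liftT (e : β → α) (Y : TF ι β) : TF ι α := fun z => liftN e (Y (pull e z))

theorem liftN_apply {e : β → α} (he : Function.Injective e) (T : Ten ι β) (j : ι → β) :
    liftN e T (e ∘ j) = T j := by
  rw [liftN, Finset.sum_eq_single j (fun j' _ hj' => ?_) (by simp)]
  · simp
  · exact if_neg fun h => hj' (funext fun l => he (congrFun h l))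

theorem liftN_eq_zero {e : β → α} (T : Ten ι β) {i : ι → α} {l : ι} (h : ∀ b, e b ≠ i l) :
    liftN e T i = 0 :=
  Finset.sum_eq_zero fun j _ => if_neg fun h' => h (j l) (congrFun h' l)

/-- A sum which vanishes outside a block. -/
theorem sum_block {K : Type} [Fintype K] [DecidableEq K] {e : β → α} (he : Function.Injective e)
    {g : (K → α) → ℝ} (h : ∀ p l, (∀ x, e x ≠ p l) → g p = 0) :
    ∑ p, g p = ∑ p : K → β, g (e ∘ p) := by
  rw [← sum_image (g := fun p : K → β => e ∘ p) (f := g)
    (fun p _ q _ hpq => funext fun l => he (congrFun hpq l))]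
  refine (sum_subset (subset_univ _) fun p _ hp => ?_).symm
  obtain ⟨l, hl⟩ : ∃ l, ∀ x, e x ≠ p l := by
    by_contra hcon
    push Not at hcon
    choose x hx using hcon
    exact hp (mem_image.2 ⟨x, mem_univ _, funext hx⟩)
  exact h p l hl

theorem BN.lift {e : β → α} (he : Function.Injective e) {T : Ten ι β} {c : ℝ} (h : BN T c)
    (hc : 0 ≤ c) : BN (liftN e T) c := by
  intro κ κ' _ _ _ _ hk hk' f a b
  have key : ∑ p : κ → α, ∑ q : κ' → α, flat f (liftN e T) p q * a p * b q
      = ∑ p : κ → β, ∑ q : κ' → β, flat f T p q * a (e ∘ p) * b (e ∘ q) := by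
    rw [sum_block he (g := fun p => ∑ q : κ' → α, flat f (liftN e T) p q * a p * b q)
      fun p l hl => sum_eq_zero fun q _ => by
        rw [flat, liftN_eq_zero T (l := f (Sum.inl l)) (by simpa using hl), zero_mul, zero_mul]]
    refine sum_congr rfl fun p _ => ?_
    rw [sum_block he (g := fun q => flat f (liftN e T) (e ∘ p) q * a (e ∘ p) * b q)
      fun q l hl => by
        rw [flat, liftN_eq_zero T (l := f (Sum.inr l)) (by simpa using hl), zero_mul, zero_mul]]
    refine sum_congr rfl fun q _ => ?_
    congr 2
    have e' : (fun i => Sum.elim (e ∘ p) (e ∘ q) (f.symm i))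
        = e ∘ fun i => Sum.elim p q (f.symm i) := by
      funext i
      rcases h' : f.symm i with x | x <;> simp [h']
    rw [flat, e', liftN_apply he]
    rfl
  rw [key]
  refine (h κ κ' hk hk' f _ _).trans ?_
  have hn : ∀ {K : Type} [Fintype K] [DecidableEq K] (u : (K → α) → ℝ),
      nrm (fun p : K → β => u (e ∘ p)) ≤ nrm u := by
    intro K _ _ u
    refine Real.sqrt_le_sqrt ?_
    rw [← sum_image (g := fun p : K → β => e ∘ p) (f := fun p => u p ^ 2)
      (fun p _ q _ hpq => funext fun l => he (congrFun hpq l))]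
    exact sum_le_sum_of_subset_of_nonneg (subset_univ _) fun _ _ _ => sq_nonneg _
  exact mul_le_mul (mul_le_mul_of_nonneg_left (hn a) hc) (hn b) (nrm_nonneg _)
    (mul_nonneg hc (nrm_nonneg _))

theorem Temp.liftT {e : β → α} {Y : TF ι β} (h : Temp Y) : Temp (Zero.liftT e Y) := fun i => by
  refine Function.HasTemperateGrowth.sum fun j _ => ?_
  by_cases hj : e ∘ j = i
  · simp only [if_pos hj]
    exact (h j).comp (pull e).hasTemperateGrowth
  · simp only [if_neg hj]
    exact Function.HasTemperateGrowth.zero

theorem gradT_liftT {e : β → α} (he : Function.Injective e) {Y : TF ι β} (h : Temp Y) :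
    gradT (Zero.liftT e Y) = Zero.liftT e (gradT Y) := by
  funext z i
  have hd : ∀ j : ι → β, HasFDerivAt (fun w => Y (pull e w) j)
      ((fderiv ℝ (fun w => Y w j) (pull e z)).comp (pull e)) z :=
    fun j => (temp_diff (h j) _).hasFDerivAt.comp z (pull e).hasFDerivAt
  show fderiv ℝ (fun w => ∑ j : ι → β, if e ∘ j = i ∘ some then Y (pull e w) j else 0) z
    (unitV (i none)) = _
  have hs : HasFDerivAt (fun w => ∑ j : ι → β, if e ∘ j = i ∘ some then Y (pull e w) j else 0)
      (∑ j : ι → β, if e ∘ j = i ∘ some
        then (fderiv ℝ (fun w => Y w j) (pull e z)).comp (pull e) else 0) z := by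
    refine HasFDerivAt.fun_sum fun j _ => ?_
    by_cases hj : e ∘ j = i ∘ some
    · simp only [if_pos hj]
      exact hd j
    · simp only [if_neg hj]
      exact hasFDerivAt_const _ _
  rw [hs.fderiv, _root_.sum_apply]
  by_cases hr : ∃ b, e b = i none
  · obtain ⟨b, hb⟩ := hr
    by_cases hrest : ∃ j : ι → β, e ∘ j = i ∘ some
    · obtain ⟨j, hj⟩ := hrest
      have huniq : ∀ j' : ι → β, e ∘ j' = i ∘ some → j' = j := fun j' hj' =>
        funext fun l => he ((congrFun hj' l).trans (congrFun hj l).symm)
      rw [sum_eq_single j (fun j' _ hne => by rw [if_neg fun hh => hne (huniq j' hh)]; rfl)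
        (by simp), if_pos hj, ContinuousLinearMap.comp_apply, ← hb, pull_unitV he]
      have hi : i = e ∘ ext b j := by
        funext o
        cases o with
        | none => exact hb.symm
        | some l => exact (congrFun hj l).symm
      rw [Zero.liftT, hi, liftN_apply he]
      rfl
    · push Not at hrest
      have hl : ∃ l, ∀ x, e x ≠ i (some l) := by
        by_contra hcon
        push Not at hcon
        choose x hx using hcon
        exact hrest x (funext hx)
      obtain ⟨l, hl⟩ := hl
      rw [Zero.liftT, liftN_eq_zero _ (l := some l) hl]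
      exact sum_eq_zero fun j _ => by rw [if_neg (hrest j)]; rfl
  · push Not at hr
    rw [Zero.liftT, liftN_eq_zero _ (l := none) hr]
    refine sum_eq_zero fun j _ => ?_
    split
    · rw [ContinuousLinearMap.comp_apply, pull_unitV_of_not hr, map_zero]
    · rfl

/-- Extension by zero keeps bounded derivatives. -/
theorem RB.liftT {e : β → α} (he : Function.Injective e) {n : ℕ} {Y : TF ι β} {K : ℝ}
    (h : RB n Y K) (hK : 0 ≤ K) : RB n (Zero.liftT e Y) K := by
  induction n generalizing ι with
  | zero => exact ⟨h.1.liftT, fun z => (h.2 (pull e z)).lift he hK⟩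
  | succ n ih =>
    refine ⟨h.1.liftT, fun z => (h.2.1 (pull e z)).lift he hK, ?_⟩
    rw [gradT_liftT he h.1]
    exact ih h.2.2

/-- Placing the coordinates of a block. -/
def push (e : β → α) : Sp β →L[ℝ] Sp α :=
  ∑ b, (EuclideanSpace.proj (𝕜 := ℝ) b).smulRight (unitV (e b))

theorem push_unitV (e : β → α) (b : β) : push e (unitV b) = unitV (e b) := by
  simp [push, unitV, Pi.single_apply]

/-- The block of a field. -/
def restrT (e : β → α) (Y : TF ι α) : TF ι β := fun z i => Y (push e z) (e ∘ i)

theorem BN.restrict {e : β → α} (he : Function.Injective e) {T : Ten ι α} {c : ℝ} (h : BN T c) :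
    BN (fun i : ι → β => T (e ∘ i)) c := by
  intro κ κ' _ _ _ _ hk hk' f a b
  have hn : ∀ {K : Type} [Fintype K] [DecidableEq K] (u : (K → β) → ℝ),
      nrm (liftN e u) = nrm u := by
    intro K _ _ u
    rw [nrm, nrm, sum_block he (g := fun p => liftN e u p ^ 2) fun p l hl => by
      rw [liftN_eq_zero u hl, sq, mul_zero]]
    simp only [liftN_apply he]
  have := h κ κ' hk hk' f (liftN e a) (liftN e b)
  rw [hn, hn] at this
  refine le_of_eq_of_le ?_ this
  rw [sum_block he (g := fun p => ∑ q, flat f T p q * liftN e a p * liftN e b q)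
    fun p l hl => sum_eq_zero fun q _ => by rw [liftN_eq_zero a hl, mul_zero, zero_mul]]
  refine sum_congr rfl fun p _ => ?_
  rw [sum_block he (g := fun q => flat f T (e ∘ p) q * liftN e a (e ∘ p) * liftN e b q)
    fun q l hl => by rw [liftN_eq_zero b hl, mul_zero]]
  refine sum_congr rfl fun q _ => ?_
  simp only [liftN_apply he, flat]
  congr 3
  funext i
  rcases h' : f.symm i with x | x <;> simp [h']

theorem Temp.restrT {e : β → α} {Y : TF ι α} (h : Temp Y) : Temp (Zero.restrT e Y) := fun _ =>
  (h _).comp (push e).hasTemperateGrowth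

theorem gradT_restrT {e : β → α} {Y : TF ι α} (h : Temp Y) :
    gradT (Zero.restrT e Y) = Zero.restrT e (gradT Y) := by
  funext z i
  have hd : HasFDerivAt (fun w => Y (push e w) (e ∘ i ∘ some))
      ((fderiv ℝ (fun w => Y w (e ∘ i ∘ some)) (push e z)).comp (push e)) z :=
    (temp_diff (h _) _).hasFDerivAt.comp z (push e).hasFDerivAt
  show fderiv ℝ (fun w => Y (push e w) (e ∘ i ∘ some)) z (unitV (i none)) = _
  rw [hd.fderiv, ContinuousLinearMap.comp_apply, push_unitV]
  rfl

/-- Restriction to a block keeps bounded derivatives. -/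
theorem RB.restrT {e : β → α} (he : Function.Injective e) {n : ℕ} {Y : TF ι α} {K : ℝ}
    (h : RB n Y K) : RB n (Zero.restrT e Y) K := by
  induction n generalizing ι with
  | zero => exact ⟨h.1.restrT, fun z => (h.2 (push e z)).restrict he⟩
  | succ n ih =>
    refine ⟨h.1.restrT, fun z => (h.2.1 (push e z)).restrict he, ?_⟩
    rw [gradT_restrT h.1]
    exact ih h.2.2

end

end Vale.Agent.P347.Zero
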