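import Vale.Agent.P347.Zero.PostAlg

/-!
# P347, exponent 0: all flattenings of the derivatives of the posterior mean gradient are bounded

The induction is on the total order; inside it, each derivative is traded for one index of the
centred gradient, and at no derivative left the pairing bound of the moments applies.
-/

namespace Vale.Agent.P347.Zero

open MeasureTheory Real Finset
open Vale.Agent.P347.Quarter (E)
open Vale.Agent.P347.Colour (Pt)
open scoped ContDiff

noncomputable section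

variable {d : ℕ} {V : Pt d → ℝ} {v : ℝ}

/-- The mixed moments as a family. -/
def Mf (V : Pt d → ℝ) (v : ℝ) (a b : ℕ) :
    Fin d × (Fin b → Fin d) → (Fin a → Fin d) → E d → ℝ :=
  fun s α => mm V v s.1 (List.ofFn s.2) (List.ofFn α)

theorem div_pow_sqrt_le {C : ℝ} (hC : 0 ≤ C) (hv : 0 < v) (hv1 : v ≤ 1) {m n : ℕ} (h : m ≤ n) :
    C / √v ^ m ≤ C / √v ^ n := by
  have hs : 0 < √v := sqrt_pos.2 hv
  exact div_le_div_of_nonneg_left hC (pow_pos hs n)
    (pow_le_pow_of_le_one hs.le (sqrt_le_one.2 hv1) h)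

/-- Constant families. -/
theorem Dd.const {P Q : Type} [Fintype P] [Fintype Q] {M : P → Q → ℝ} {c : ℝ} (h : OpLE M c)
    (hc : 0 ≤ c) : ∀ i, Dd i (fun p q (_ : E d) => M p q) c
  | 0 => fun _ => h
  | i + 1 => by
    show Dd i (grX fun p q (_ : E d) => M p q) c
    rw [show (grX fun p q (_ : E d) => M p q) = fun _ _ _ => 0 by funext p q x; simp [grX, dv]]
    exact Dd.zero hc

theorem OpLE.diag {c : ℝ} :
    OpLE (fun j l : Fin d => if j = l then c else 0) |c| := fun a b => by
  simp only [ite_mul, zero_mul, Finset.sum_ite_eq, Finset.mem_univ, if_true, mul_assoc, ← mul_sum]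
  refine (le_abs_self _).trans ?_
  rw [abs_mul]
  refine mul_le_mul_of_nonneg_left (abs_le.2 ⟨?_, inner_le a b⟩) (abs_nonneg c)
  have := inner_le (fun p => -a p) b
  simp only [neg_mul, sum_neg_distrib, nrm_neg] at this
  linarith

/-- The derivatives of the coefficient of the score, from the mixed moments. -/
theorem dd_cS (hV : Colour.Cls (id : Fin d → Fin d) V) (hv : 0 < v) (hv1 : v ≤ 1) {i s : ℕ}
    (hs : 1 ≤ s) {C : ℝ} (hC : 0 ≤ C) (hM : Dd i (Mf V v s 0) (C / √v ^ (s + i - 1))) :
    Dd i (fun (j : Fin d) (γ : Fin s → Fin d) => dc (List.ofFn γ) (cS V v j))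
      ((C + 1) / √v ^ (s + 1) / √v ^ i) := by
  obtain ⟨s', rfl⟩ : ∃ s', s = s' + 1 := Nat.exists_eq_succ_of_ne_zero (by omega)
  have hsv : 0 < √v := sqrt_pos.2 hv
  let e : Fin d ≃ Fin d × (Fin 0 → Fin d) := (Equiv.prodUnique _ _).symm
  have h1 := hM.reindex e (Equiv.refl _)
  have e1 : (fun (j : Fin d) (γ : Fin (s' + 1) → Fin d) => Mf V v (s' + 1) 0 (e j) (Equiv.refl _ γ))
      = fun j γ => dc (List.ofFn γ) (cpt (Nv V v) j) := by
    funext j γ
    show mm V v j (List.ofFn (default : Fin 0 → Fin d)) (List.ofFn γ) = _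
    rw [List.ofFn_zero, mm_nil_left hV hv j (by simp)]
  rw [e1] at h1
  -- the affine part
  have h2 : ∃ M : Fin d → (Fin (s' + 1) → Fin d) → ℝ, OpLE M (1 / v) ∧
      ∀ j γ, dc (List.ofFn γ) (fun x : E d => x j / v) = fun _ => -M j γ := by
    rcases s' with _ | s''
    · refine ⟨_, ((OpLE.diag (d := d) (c := -(1 / v))).mono (le_of_eq (by
        rw [abs_neg, abs_of_pos (by positivity)]))).reindex (Equiv.refl _)
          (Equiv.funUnique (Fin 1) (Fin d)), fun j γ => ?_⟩
      funext x
      simp only [List.ofFn_succ, List.ofFn_zero]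
      show dv (unitV (γ 0)) (fun x : E d => x j / v) x = _
      rw [dv_div_coord]
      simp [eq_comm]
      split_ifs <;> simp
    · exact ⟨fun _ _ => 0, OpLE.zero_const (by positivity), fun j γ => by
        simp only [List.ofFn_succ, dc_div_coord_two, neg_zero]⟩
  obtain ⟨M, hM', hMe⟩ := h2
  have e2 : (fun (j : Fin d) (γ : Fin (s' + 1) → Fin d) => dc (List.ofFn γ) (cS V v j))
      = fun j γ x => dc (List.ofFn γ) (cpt (Nv V v) j) x + M j γ := by
    funext j γ x
    rw [dc_cS hV hv, hMe]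
    ring
  rw [e2]
  refine (Dd.add (X := fun j γ => dc (List.ofFn γ) (cpt (Nv V v) j)) (Y := fun j γ _ => M j γ)
    (fun j γ => contDiff_dl ((contDiff_piLp 2).1 (Nv_smooth hV hv).1 j) _)
    (fun j γ => contDiff_const) h1 (Dd.const hM' (by positivity) i)).mono ?_
  rw [div_div, ← pow_add, add_div]
  refine add_le_add (div_pow_sqrt_le hC hv hv1 (by omega)) ?_
  rw [show v = √v ^ 2 from (sq_sqrt hv.le).symm]
  simp only [sq_sqrt hv.le]
  exact (le_of_eq (by rw [sq_sqrt hv.le])).trans (div_pow_sqrt_le zero_le_one hv hv1 (by omega))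

/-- One index is moved from the derivatives to the centred gradient. -/
theorem dd_succ (hV : Colour.Cls (id : Fin d → Fin d) V) (hv : 0 < v) (hv1 : v ≤ 1) {k i a b : ℕ}
    (hk : a + b + (i + 1) = k + 1) {C C' : ℝ} (hC : 0 ≤ C)
    (hlow : ∀ a b i, 1 ≤ a → a + b + i ≤ k → Dd i (Mf V v a b) (C / √v ^ (a + b + i - 1)))
    (hsame : Dd i (Mf V v a (b + 1)) (C' / √v ^ k)) :
    Dd (i + 1) (Mf V v a b)
      ((C' + (parts (List.finRange a)).length * (2 ^ i * ((C + 1) * C))) / √v ^ k) := by
  classical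
  have hsv : 0 < √v := sqrt_pos.2 hv
  show Dd i (grX (Mf V v a b)) _
  let e : Fin d × (Fin d × (Fin b → Fin d)) ≃ Fin d × (Fin (b + 1) → Fin d) :=
    ((Equiv.prodAssoc _ _ _).symm.trans (Equiv.prodCongr (Equiv.prodComm _ _) (Equiv.refl _))).trans
      ((Equiv.prodAssoc _ _ _).trans
        (Equiv.prodCongr (Equiv.refl _) (Fin.consEquiv fun _ => Fin d)))
  have h1 := hsame.reindex e (Equiv.refl (Fin a → Fin d))
  set T : List (Fin a) × List (Fin a) → Fin d × (Fin d × (Fin b → Fin d)) → (Fin a → Fin d) →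
      E d → ℝ := fun p js α x => dc (p.1.map α) (cS V v js.1) x
        * mm V v js.2.1 (List.ofFn js.2.2) (p.2.map α) x
  have e1 : grX (Mf V v a b) = fun js α x => Mf V v a (b + 1) (e js) (Equiv.refl _ α) x
      + ((parts (List.finRange a)).map fun p => T p js α x).sum := by
    funext js α x
    show dv (unitV js.1) (mm V v js.2.1 (List.ofFn js.2.2) (List.ofFn α)) x = _
    rw [dv_mm hV hv, List.ofFn_eq_map (f := α), parts_map, List.map_map]
    congr 1
    show mm V v _ _ _ x = mm V v (e js).1 (List.ofFn (e js).2) (List.ofFn α) x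
    rw [List.ofFn_eq_map (f := α)]
    simp [e, List.ofFn_succ]
  have hT : ∀ p ∈ parts (List.finRange a),
      SX (T p) ∧ Dd i (T p) (2 ^ i * ((C + 1) * C) / √v ^ k) := by
    intro p hp
    refine ⟨fun js α => (contDiff_dl (contDiff_cS hV hv _) _).mul (contDiff_mm hV hv _ _ _), ?_⟩
    obtain ⟨hp1, hperm⟩ := parts_spec _ p hp
    obtain ⟨S, R⟩ := p
    rcases R with _ | ⟨r₀, R'⟩
    · have : T (S, []) = fun _ _ _ => 0 := by
        funext js α x; simp [T, mm_nil_right hV hv]
      rw [this]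
      exact Dd.zero (by positivity)
    set R := r₀ :: R'
    have hlen : S.length + R.length = a := by
      rw [← List.length_append, hperm.length_eq, List.length_finRange]
    have hS : 1 ≤ S.length := List.length_pos_iff.2 hp1
    have hR : 1 ≤ R.length := by simp [R]
    have hX : ∀ i' ≤ i, Dd i' (fun (j : Fin d) (γ : Fin S.length → Fin d) =>
        dc (List.ofFn γ) (cS V v j)) ((C + 1) / √v ^ (S.length + 1) / √v ^ i') := fun i' hi' =>
      dd_cS hV hv hv1 hS hC (by simpa using hlow S.length 0 i' hS (by omega))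
    have hY : ∀ i' ≤ i, Dd i' (Mf V v R.length b) (C / √v ^ (R.length + b - 1) / √v ^ i') :=
      fun i' hi' => (hlow R.length b i' hR (by omega)).mono (le_of_eq (by
        rw [div_div, ← pow_add]; congr 2; omega))
    have h := Dd.mul (by positivity) (by positivity) hsv
      (fun j γ => contDiff_dl (contDiff_cS hV hv j) _) (fun s γ => contDiff_mm hV hv _ _ _) hX hY
    -- the columns
    let F : (Fin a → Fin d) → (Fin S.length → Fin d) × (Fin R.length → Fin d) :=
      fun α => (fun l => α (S.get l), fun l => α (R.get l))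
    have hF : Function.Bijective F := by
      refine (Fintype.bijective_iff_injective_and_card F).2 ⟨fun α β h => funext fun t => ?_, ?_⟩
      · have ht : t ∈ S ++ R := hperm.mem_iff.2 (List.mem_finRange t)
        rcases List.mem_append.1 ht with ht | ht
        · obtain ⟨l, rfl⟩ := List.get_of_mem ht
          exact congrFun (congrArg Prod.fst h) l
        · obtain ⟨l, rfl⟩ := List.get_of_mem ht
          exact congrFun (congrArg Prod.snd h) l
      · simp only [Fintype.card_prod, Fintype.card_fun, Fintype.card_fin, ← pow_add, hlen]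
    have h' := h.reindex (Equiv.refl (Fin d × (Fin d × (Fin b → Fin d)))) (Equiv.ofBijective F hF)
    have e3 : T (S, R) = fun js α x => dc (List.ofFn (F α).1) (cS V v js.1) x
        * Mf V v R.length b js.2 (F α).2 x := by
      funext js α x
      show dc (S.map α) _ x * mm V v _ _ (R.map α) x
        = dc (List.ofFn fun l => α (S.get l)) _ x * mm V v _ _ (List.ofFn fun l => α (R.get l)) x
      rw [show (fun l => α (S.get l)) = α ∘ S.get from rfl, ← List.map_ofFn, List.ofFn_get,
        show (fun l => α (R.get l)) = α ∘ R.get from rfl, ← List.map_ofFn, List.ofFn_get]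
    rw [e3]
    refine (h' : Dd i (fun (js : Fin d × (Fin d × (Fin b → Fin d))) (α : Fin a → Fin d) x => dc (List.ofFn (F α).1) (cS V v js.1) x
        * Mf V v R.length b js.2 (F α).2 x) _).mono (le_of_eq ?_)
    rw [div_mul_div_comm, ← mul_div_assoc, div_div, ← pow_add, ← pow_add]
    congr 2
    omega
  obtain ⟨s2, h2⟩ := Dd.list_sum (parts (List.finRange a)) hT
  rw [e1]
  refine (Dd.add (fun js α => contDiff_mm hV hv _ _ _) s2 h1 h2).mono (le_of_eq ?_)
  rw [← mul_div_assoc, ← add_div]

/-- All mixed moments with all derivatives, by induction on the total order. -/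
theorem exists_dd (k : ℕ) : ∃ C : ℝ, 0 ≤ C ∧ ∀ (d : ℕ) (V : Pt d → ℝ),
    Colour.Cls (id : Fin d → Fin d) V → ∀ v : ℝ, 0 < v → v ≤ 1 → ∀ a b i : ℕ, 1 ≤ a →
      a + b + i ≤ k → Dd i (Mf V v a b) (C / √v ^ (a + b + i - 1)) := by
  induction k with
  | zero => exact ⟨0, le_rfl, fun d V hV v hv hv1 a b i ha h => absurd h (by omega)⟩
  | succ k ih =>
    obtain ⟨C, hC, hlow⟩ := ih
    set A := ∑ a ∈ range (k + 2), ∑ b ∈ range (k + 2), √(cr b) * √(cm (fun _ => 0) 1 a)
    set Λ := ∑ a ∈ range (k + 2), ((parts (List.finRange a)).length : ℝ)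
    have hA : 0 ≤ A := sum_nonneg fun a _ => sum_nonneg fun b _ => by positivity
    have hΛ : 0 ≤ Λ := sum_nonneg fun a _ => Nat.cast_nonneg _
    have step : ∀ i : ℕ, ∃ C' : ℝ, 0 ≤ C' ∧ ∀ (d : ℕ) (V : Pt d → ℝ),
        Colour.Cls (id : Fin d → Fin d) V → ∀ v : ℝ, 0 < v → v ≤ 1 → ∀ a b : ℕ, 1 ≤ a →
          a + b + i = k + 1 → Dd i (Mf V v a b) (C' / √v ^ k) := by
      intro i
      induction i with
      | zero =>
        refine ⟨A, hA, fun d V hV v hv hv1 a b ha h x => (opLE_rr_qq hV hv a b x).mono ?_⟩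
        have hsv : 0 < √v := sqrt_pos.2 hv
        rw [sqrt_div' _ (pow_nonneg hv.le b), sqrt_div' _ (pow_nonneg hv.le a),
          sqrt_mul (cr_nonneg b)]
        have hp : ∀ n : ℕ, √(v ^ n) = √v ^ n := fun n =>
          (sqrt_eq_iff_eq_sq (pow_nonneg hv.le n) (by positivity)).2 (by
            rw [← pow_mul, mul_comm, pow_mul, sq_sqrt hv.le])
        rw [hp, hp, div_mul_div_comm, ← pow_add, show b + a = k + 1 by omega, pow_succ,
          mul_comm (√(cr b)) (√v), mul_assoc, mul_comm (√v ^ k) (√v),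
          mul_div_mul_left _ _ hsv.ne']
        refine div_le_div_of_nonneg_right ?_ (by positivity)
        exact le_trans (Finset.single_le_sum (f := fun b => √(cr b) * √(cm (fun _ => 0) 1 a))
          (fun j _ => by positivity) (mem_range.2 (by omega)))
          (Finset.single_le_sum
            (f := fun a => ∑ b ∈ range (k + 2), √(cr b) * √(cm (fun _ => 0) 1 a))
            (fun j _ => sum_nonneg fun b _ => by positivity) (mem_range.2 (by omega)))
      | succ i ih' =>
        obtain ⟨C', hC', hsame⟩ := ih'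
        refine ⟨C' + Λ * (2 ^ i * ((C + 1) * C)), by positivity, fun d V hV v hv hv1 a b ha h => ?_⟩
        refine (dd_succ hV hv hv1 h hC (fun a b i => hlow d V hV v hv hv1 a b i)
          (hsame d V hV v hv hv1 a (b + 1) ha (by omega))).mono ?_
        refine div_le_div_of_nonneg_right (add_le_add le_rfl
          (mul_le_mul_of_nonneg_right ?_ (by positivity))) (by positivity)
        exact Finset.single_le_sum (f := fun a => ((parts (List.finRange a)).length : ℝ))
          (fun j _ => Nat.cast_nonneg _) (mem_range.2 (by omega))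
    choose C' hC' hstep using step
    refine ⟨C + ∑ i ∈ range (k + 2), C' i, add_nonneg hC (sum_nonneg fun i _ => hC' i),
      fun d V hV v hv hv1 a b i ha h => ?_⟩
    rcases Nat.lt_or_eq_of_le h with h' | h'
    · refine (hlow d V hV v hv hv1 a b i ha (by omega)).mono ?_
      exact div_le_div_of_nonneg_right (le_add_of_nonneg_right (sum_nonneg fun i _ => hC' i))
        (by positivity)
    · refine (hstep i d V hV v hv hv1 a b ha h').mono ?_
      rw [show a + b + i - 1 = k by omega]
      exact div_le_div_of_nonneg_right ((Finset.single_le_sum (f := C') (fun j _ => hC' j)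
        (mem_range.2 (by omega))).trans (le_add_of_nonneg_left hC)) (by positivity)

/-- The `k`-th derivative costs `v ^ (-(k - 1) / 2)`. -/
theorem exists_Nv_bn (k : ℕ) (hk : 1 ≤ k) : ∃ C : ℝ, 0 ≤ C ∧ ∀ (d : ℕ) (V : Colour.Pt d → ℝ),
    Colour.Cls (id : Fin d → Fin d) V → ∀ v : ℝ, 0 < v → v ≤ 1 → ∀ x : E d,
      BN (gradK k (vecT (Nv V v)) x) (C / √v ^ (k - 1)) := by
  obtain ⟨C, hC, h⟩ := exists_dd k
  refine ⟨C, hC, fun d V hV v hv hv1 x => bn_of_core (Nv_smooth hV hv).1 x fun p r hpr => ?_⟩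
  have hD := h d V hV v hv hv1 (p + 1) 0 r (by omega) (by omega)
  have h2 := Dd.opLE_list hD (L := fun (_ : Fin d × (Fin 0 → Fin d)) α => List.ofFn α)
    (F := fun s _ => cpt (Nv V v) s.1) (fun s α => by
      show mm V v s.1 (List.ofFn s.2) (List.ofFn α) = _
      rw [List.ofFn_zero, mm_nil_left hV hv s.1 (by simp)]) x
  let e : Fin d × (Fin r → Fin d) ≃ (Fin r → Fin d) × (Fin d × (Fin 0 → Fin d)) :=
    (Equiv.prodComm _ _).trans (Equiv.prodCongr (Equiv.refl _) (Equiv.prodUnique _ _).symm)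
  have h3 := h2.symm.reindex (Equiv.refl (Fin (p + 1) → Fin d)) e
  refine (funext₂ fun a s => ?_ : (fun (a : Fin (p + 1) → Fin d) (s : Fin d × (Fin r → Fin d)) =>
    dl (tv a ++ tv s.2) (cpt (Nv V v) s.1) x) = _) ▸ h3.mono (le_of_eq (by congr 2; omega))
  show dl (tv a ++ tv s.2) (cpt (Nv V v) s.1) x = dc (List.ofFn s.2 ++ List.ofFn a) (cpt (Nv V v) s.1) x
  rw [dc, List.map_append, List.map_ofFn, List.map_ofFn]
  exact congrFun (dl_perm ((contDiff_piLp 2).1 (Nv_smooth hV hv).1 _) List.perm_append_comm) x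

/-- A bounded flattening bounds every entry. -/
theorem BN.entry {k : ℕ} {T : Ten (Unit ⊕ Fin k) (Fin d)} {c : ℝ} (h : BN T c) (hk : 1 ≤ k)
    (i : Unit ⊕ Fin k → Fin d) : |T i| ≤ c := by
  classical
  have h1 := h Unit (Fin k) inferInstance ⟨⟨0, hk⟩⟩ (Equiv.refl _)
  have key : ∀ s : ℝ, s ^ 2 = 1 → s * T i ≤ c := fun s hs => by
    have hs' : |s| = 1 := by rw [← sqrt_sq_eq_abs, hs, sqrt_one]
    have := h1 (Pi.single (i ∘ Sum.inl) s) (Pi.single (i ∘ Sum.inr) 1)
    simp only [nrm, Pi.single_apply, mul_ite, mul_zero, mul_one, sum_ite_eq',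
      mem_univ, if_true, ite_pow, zero_pow two_ne_zero, one_pow, hs, sqrt_one] at this
    rw [mul_comm]
    refine le_trans (le_of_eq ?_) this
    simp [flat, Sum.elim_comp_inl_inr]
  refine abs_le.2 ⟨?_, ?_⟩
  · linarith [key (-1) (by norm_num)]
  · linarith [key 1 (by norm_num)]

/-- All orders up to `n` at once. -/
theorem exists_Nv_reg (n : ℕ) : ∃ c : ℝ, 0 ≤ c ∧ ∀ (d : ℕ) (V : Colour.Pt d → ℝ),
    Colour.Cls (id : Fin d → Fin d) V → ∀ v : ℝ, 0 < v → v ≤ 1 →
      Reg n (fun k => c / √v ^ (k - 1)) (vecT (Nv V v)) ∧ Temp (vecT (Nv V v)) := by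
  choose C hC hb using fun k => exists_Nv_bn (k + 1) (Nat.le_add_left 1 k)
  refine ⟨∑ k ∈ range n, C k, sum_nonneg fun k _ => hC k, fun d V hV v hv hv1 => ⟨⟨?_, ?_⟩, ?_⟩⟩
  · exact (Nv_smooth hV hv).2
  · intro k hk z
    rcases k with _ | k
    · intro κ κ' _ _ _ _ hκ hκ' e
      have hc := Fintype.card_congr e
      have h1 : 0 < Fintype.card κ := Fintype.card_pos_iff.2 hκ
      have h2 : 0 < Fintype.card κ' := Fintype.card_pos_iff.2 hκ'
      simp at hc
      omega
    · refine (hb k d V hV v hv hv1 z).mono ?_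
      exact div_le_div_of_nonneg_right (Finset.single_le_sum (f := C) (fun j _ => hC j)
        (mem_range.2 (by omega))) (by positivity)
  · intro i
    show (cpt (Nv V v) (i ())).HasTemperateGrowth
    set o := i ()
    have hsm : ContDiff ℝ ∞ (cpt (Nv V v) o) := (contDiff_piLp 2).1 (Nv_smooth hV hv).1 o
    refine ⟨hsm, fun m => ?_⟩
    rcases m with _ | m
    · refine ⟨1, |Nv V v 0 o| + 2, fun x => ?_⟩
      rw [norm_iteratedFDeriv_zero, norm_eq_abs, pow_one]
      have h1 : |Nv V v x o - Nv V v 0 o| ≤ 2 * ‖x‖ := by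
        refine le_trans ?_ (le_of_le_of_eq (Nv_lip hV hv x 0) (by rw [sub_zero]))
        rw [← norm_eq_abs]
        exact PiLp.norm_apply_le (Nv V v x - Nv V v 0) o
      have h2 := abs_sub_abs_le_abs_sub (Nv V v x o) (Nv V v 0 o)
      show |Nv V v x o| ≤ _
      nlinarith [abs_nonneg (Nv V v 0 o), norm_nonneg x]
    · refine ⟨0, ∑ _a : Fin (m + 1) → Fin d, C m / √v ^ m, fun x => ?_⟩
      rw [pow_zero, mul_one]
      refine (norm_multilinear_le _).trans (sum_le_sum fun a _ => ?_)
      exact (hb m d V hV v hv hv1 x).entry (by omega) (Sum.elim (fun _ => o) a)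

end

end Vale.Agent.P347.Zero
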