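import Vale.Agent.P347.Zero.Node

/-!
# P347, exponent 0: programmes

A programme is an affine combination of its slots and of nodes applied to programmes.
`Adm` is the single invariant: with the slots blurred at the scales `b`, the output can be sampled
at the scale `β`, every node being asked for `√v / e`.
-/

namespace Vale.Agent.P347.Zero

open MeasureTheory Real Finset
open Vale.Agent.P347.Quarter (E γ)
open Vale.Agent.P347.Colour (Pt)

noncomputable section

/-- Programmes over the slots `σ`. -/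
inductive Prog (σ : Type) : Type
  | mk (n : ℕ) (lin : σ → ℝ) (coef : Fin n → ℝ) (node : Fin n → Nd) (child : Fin n → Prog σ) :
      Prog σ

namespace Prog

variable {d : ℕ} {σ τ : Type} [Fintype σ]

/-- The number of top nodes. -/
def num : Prog σ → ℕ
  | mk n _ _ _ _ => n

/-- The linear part. -/
def lin : Prog σ → σ → ℝ
  | mk _ l _ _ _ => l

/-- The coefficients of the top nodes. -/
def coef : (P : Prog σ) → Fin P.num → ℝ
  | mk _ _ c _ _ => c

/-- The top nodes. -/
def node : (P : Prog σ) → Fin P.num → Nd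
  | mk _ _ _ nd _ => nd

/-- The arguments of the top nodes. -/
def child : (P : Prog σ) → Fin P.num → Prog σ
  | mk _ _ _ _ ch => ch

/-- The value. -/
def val (V : Pt d → ℝ) : Prog σ → Inp d σ → E d
  | mk _ l c nd ch, x => ∑ s, l s • x s + ∑ i, c i • (nd i).val V (val V (ch i) x)

/-- The invariant. -/
def Adm (h r e : ℝ) (b : σ → ℝ) : Prog σ → ℝ → Prop
  | mk _ l c nd ch, β => ∑ s, |l s| * b s + (∑ i, |c i| * √(nd i).v) / e ≤ β ∧
      ∀ i, (nd i).Ok h r ∧ Adm h r e b (ch i) (nd i).scale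

/-- Nesting depth. -/
def depth : Prog σ → ℕ
  | mk _ _ _ _ ch => Finset.univ.sup fun i => depth (ch i) + 1

/-- Number of slot and node occurrences. -/
def size : Prog σ → ℕ
  | mk _ _ _ _ ch => 1 + ∑ i, (1 + size (ch i))

/-- The pathwise sensitivity to the slot `o` at the threshold `e`: like `Adm`, every nesting costs
`1 / e`, so that a nested term is at most `e` times the term it feeds. -/
def grs (e : ℝ) : Prog σ → σ → ℝ
  | mk _ l c _ ch, o => |l o| + 4 / e * ∑ i, |c i| * grs e (ch i) o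

/-- All arguments of nodes, at every depth, grow at most like `Γ` times the weight. -/
def Grow (d : ℕ) (Γ : ℝ) : Prog σ → Prop
  | mk _ _ _ _ ch => ∀ i, (∀ V : Pt d → ℝ, Mem V → ∀ x : Inp d σ, ‖val V (ch i) x‖ ≤ Γ * wt x) ∧
      Grow d Γ (ch i)

theorem grow_def (Γ : ℝ) (P : Prog σ) :
    P.Grow d Γ ↔ ∀ i, (∀ V : Pt d → ℝ, Mem V → ∀ x : Inp d σ, ‖(P.child i).val V x‖ ≤ Γ * wt x) ∧
      (P.child i).Grow d Γ := by
  cases P; rfl

theorem grs_def (e : ℝ) (P : Prog σ) (o : σ) :
    P.grs e o = |P.lin o| + 4 / e * ∑ i, |P.coef i| * (P.child i).grs e o := by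
  cases P; rfl

theorem grs_nonneg {e : ℝ} (he : 0 ≤ e) (P : Prog σ) (o : σ) : 0 ≤ P.grs e o := by
  induction P with
  | mk n l c nd ch ih =>
    exact add_nonneg (abs_nonneg _)
      (mul_nonneg (by positivity) (sum_nonneg fun i _ => mul_nonneg (abs_nonneg _) (ih i)))

theorem adm_def (h r e : ℝ) (b : σ → ℝ) (P : Prog σ) (β : ℝ) :
    P.Adm h r e b β ↔ ∑ s, |P.lin s| * b s + (∑ i, |P.coef i| * √(P.node i).v) / e ≤ β ∧
      ∀ i, (P.node i).Ok h r ∧ (P.child i).Adm h r e b (P.node i).scale := by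
  cases P; rfl

theorem val_def (V : Pt d → ℝ) (P : Prog σ) (x : Inp d σ) :
    P.val V x = ∑ s, P.lin s • x s + ∑ i, P.coef i • (P.node i).val V ((P.child i).val V x) := by
  cases P; rfl

theorem Adm.mono {h r e e' : ℝ} {b : σ → ℝ} (he : 0 < e) (hee : e ≤ e') :
    ∀ {P : Prog σ} {β β' : ℝ}, P.Adm h r e b β → β ≤ β' → P.Adm h r e' b β' := by
  intro P
  induction P with
  | mk n l c nd ch ih =>
    intro β β' hP hβ
    refine ⟨le_trans ?_ hβ, fun i => ⟨(hP.2 i).1, ih i (hP.2 i).2 le_rfl⟩⟩
    refine le_trans (add_le_add le_rfl ?_) hP.1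
    exact div_le_div_of_nonneg_left (sum_nonneg fun i _ => by positivity) he hee

/-- Finer samples of the slots give a finer output. -/
theorem Adm.refine {h r e k : ℝ} {b : σ → ℝ} (hk : 0 < k) :
    ∀ {P : Prog σ} {β : ℝ}, P.Adm h r e b β →
      ∑ s, |P.lin s| * (k * b s) + (∑ i, |P.coef i| * √(P.node i).v) / (e / k) ≤ k * β ∧
      ∀ i, (P.child i).Adm h r e b (P.node i).scale := by
  intro P β hP
  cases P with
  | mk n l c nd ch =>
    refine ⟨le_trans (le_of_eq ?_) (mul_le_mul_of_nonneg_left hP.1 hk.le), fun i => (hP.2 i).2⟩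
    simp only [lin, coef, node, mul_add, mul_sum, div_div_eq_mul_div]
    congr 1
    · exact sum_congr rfl fun s _ => by ring
    · exact (by intro x; ring : ∀ x : ℝ, x * k / e = k * (x / e)) _

end Prog

end

end Vale.Agent.P347.Zero
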