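import Vale.Agent.P347.Zero.Comp
import Vale.Agent.P347.Zero.Lift
import Vale.Agent.P347.Zero.Prog
import Vale.Agent.P347.Zero.Avg
import Vale.Agent.P347.Zero.PostReg

/-!
# P347, exponent 0: an admissible programme has bounded derivatives in its scaled slots

With the slot `s` read as `x s + b s • z s`, all derivatives of an admissible programme have
flattenings bounded by a multiple of the output scale, if this holds for every node read at its
natural scale. The multiple depends only on the order, the depth and the bound for the nodes.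
-/

namespace Vale.Agent.P347.Zero

open Finset Real MeasureTheory
open Vale.Agent.P347.Quarter (E γ)
open Vale.Agent.P347.Colour (Pt)

noncomputable section

set_option linter.unusedSectionVars false

variable {ι α : Type} [Fintype ι] [DecidableEq ι] [Fintype α] [DecidableEq α]

/-- A matrix as a tensor with the indices `Option Unit`. -/
theorem bn_opt {M : α → α → ℝ} {c : ℝ} (h : OpLE M c) :
    BN (fun i : Option Unit → α => M (i none) (i (some ()))) c := by
  intro κ κ' _ _ _ _ hk hk' e
  have hcard : Fintype.card κ + Fintype.card κ' = 2 := by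
    rw [← Fintype.card_sum, Fintype.card_congr e]
    simp
  have h1 : 0 < Fintype.card κ := Fintype.card_pos
  have h2 : 0 < Fintype.card κ' := Fintype.card_pos
  obtain ⟨k, hk1⟩ := Fintype.card_eq_one_iff.1 (show Fintype.card κ = 1 by omega)
  obtain ⟨k', hk2⟩ := Fintype.card_eq_one_iff.1 (show Fintype.card κ' = 1 by omega)
  let uκ : Unique κ := ⟨⟨k⟩, hk1⟩
  let uκ' : Unique κ' := ⟨⟨k'⟩, hk2⟩
  rcases hn : e.symm none with x | x
  · obtain ⟨y, hy⟩ : ∃ y, e.symm (some ()) = Sum.inr y := by
      rcases hs : e.symm (some ()) with y | y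
      · rw [hk1 y, ← hk1 x, ← hn] at hs
        exact absurd (e.symm.injective hs) (by simp)
      · exact ⟨y, rfl⟩
    have := h.reindex (Equiv.funUnique κ α) (Equiv.funUnique κ' α)
    refine (funext₂ fun a b => ?_ : flat e _ = _) ▸ this
    simp [flat, hn, hy, hk1 x, hk2 y, Equiv.funUnique, uκ, uκ']
    rfl
  · obtain ⟨y, hy⟩ : ∃ y, e.symm (some ()) = Sum.inl y := by
      rcases hs : e.symm (some ()) with y | y
      · exact ⟨y, rfl⟩
      · rw [hk2 y, ← hk2 x, ← hn] at hs
        exact absurd (e.symm.injective hs) (by simp)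
    have := h.symm.reindex (Equiv.funUnique κ α) (Equiv.funUnique κ' α)
    refine (funext₂ fun a b => ?_ : flat e _ = _) ▸ this
    simp [flat, hn, hy, hk1 y, hk2 x, Equiv.funUnique, uκ, uκ']
    rfl

theorem gradT_const (T : Ten ι α) : gradT (fun _ : Sp α => T) = 0 := by
  funext z i
  simp [gradT]

/-- A constant field. -/
theorem RB.const {T : Ten ι α} {c : ℝ} (h : BN T c) (hc : 0 ≤ c) (n : ℕ) :
    RB n (fun _ : Sp α => T) c := by
  have ht : Temp (fun _ : Sp α => T) := fun i => Function.HasTemperateGrowth.const _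
  cases n with
  | zero => exact ⟨ht, fun _ => h⟩
  | succ n => exact ⟨ht, fun _ => h, by rw [gradT_const]; exact RB.zero n c hc⟩

theorem Temp.vecT {M : Sp α → Sp α} (h : M.HasTemperateGrowth) : Temp (Zero.vecT M) := fun i =>
  (EuclideanSpace.proj (𝕜 := ℝ) (i ())).hasTemperateGrowth.comp h

/-- The derivative of an affine map. -/
theorem RB.affine (A : Sp α →L[ℝ] Sp α) (c : Sp α) {K : ℝ}
    (h : OpLE (fun p q => A (unitV p) q) K) (hK : 0 ≤ K) (n : ℕ) :
    RB n (gradT (vecT fun z => c + A z)) K := by
  have e : gradT (vecT fun z => c + A z)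
      = fun _ : Sp α => fun i : Option Unit → α => A (unitV (i none)) (i (some ())) := by
    funext z i
    show fderiv ℝ (fun w => (EuclideanSpace.proj (𝕜 := ℝ) (i (some ()))) (c + A w)) z _ = _
    have hd : HasFDerivAt (fun w => (EuclideanSpace.proj (𝕜 := ℝ) (i (some ()))) (c + A w))
        ((EuclideanSpace.proj (𝕜 := ℝ) (i (some ()))).comp A) z :=
      (EuclideanSpace.proj (𝕜 := ℝ) (i (some ()))).hasFDerivAt.comp z (A.hasFDerivAt.const_add c)
    rw [hd.fderiv]
    rfl
  rw [e]
  exact RB.const (bn_opt h) hK n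

variable {d : ℕ} {σ : Type} [Fintype σ] [DecidableEq σ]

/-- The block of the slot `s`. -/
def emb (s : σ) : Fin d → σ × Fin d := fun j => (s, j)

theorem emb_injective (s : σ) : Function.Injective (emb (d := d) s) := fun _ _ h =>
  (Prod.ext_iff.1 h).2

/-- A vector placed in the block of the slot `s`. -/
def put (s : σ) : E d →L[ℝ] Sp (σ × Fin d) :=
  ∑ j, (EuclideanSpace.proj (𝕜 := ℝ) j).smulRight (unitV (s, j))

theorem put_apply (s : σ) (w : E d) (p : σ × Fin d) :
    put s w p = if p.1 = s then w p.2 else 0 := by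
  rcases p with ⟨t, k⟩
  simp only [put, _root_.sum_apply, ContinuousLinearMap.smulRight_apply, WithLp.ofLp_sum,
    WithLp.ofLp_smul, Finset.sum_apply, Pi.smul_apply, smul_eq_mul]
  by_cases h : t = s
  · subst h
    rw [sum_eq_single k (fun j _ hj => by simp [unitV, hj.symm]) (by simp)]
    simp [unitV]
  · simp [unitV, h]

/-- A vector field on the block of `s`. -/
theorem vecT_put (s : σ) (M : E d → E d) :
    vecT (fun z => put s (M (pull (emb s) z))) = liftT (emb s) (vecT M) := by
  funext z i
  show put s (M (pull (emb s) z)) (i ()) = _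
  rw [put_apply, Zero.liftT]
  by_cases h : (i ()).1 = s
  · have hi : i = emb s ∘ fun _ => (i ()).2 := funext fun _ => Prod.ext h rfl
    rw [if_pos h]
    conv_rhs => rw [hi, liftN_apply (emb_injective s)]
    rfl
  · rw [if_neg h, liftN_eq_zero _ (l := ())]
    exact fun b hb => h (congrArg Prod.fst hb).symm

/-- The scaled reading of all the slots. -/
def rd (x : Inp d σ) (b : σ → ℝ) (z : Sp (σ × Fin d)) : Inp d σ := fun s => x s + b s • pull (emb s) z

/-- The linear part in scaled slots, in the block of `s₀`. -/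
def linC (s₀ : σ) (l : σ → ℝ) : Sp (σ × Fin d) →L[ℝ] Sp (σ × Fin d) :=
  ∑ s, l s • (put s₀).comp (pull (emb s))

theorem linC_opLE (s₀ : σ) (l : σ → ℝ) :
    OpLE (fun p q => linC (d := d) s₀ l (unitV p) q) (∑ s, |l s|) := by
  intro a b
  have e : ∀ p q : σ × Fin d, linC s₀ l (unitV p) q
      = ∑ s, l s * if q.1 = s₀ ∧ p = (s, q.2) then 1 else 0 := by
    intro p q
    simp only [linC, _root_.sum_apply, _root_.smul_apply, ContinuousLinearMap.comp_apply,
      WithLp.ofLp_sum, WithLp.ofLp_smul, Finset.sum_apply, Pi.smul_apply, smul_eq_mul, put_apply,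
      pull_apply, emb, unitV, PiLp.single_apply]
    refine sum_congr rfl fun s _ => ?_
    by_cases hq : q.1 = s₀ <;> by_cases hp : p = (s, q.2) <;> simp [hq, hp, eq_comm]
  have hb : ∀ s : σ, |∑ j : Fin d, a (s, j) * b (s₀, j)| ≤ nrm a * nrm b := by
    intro s
    have hn : ∀ (t : σ) (u : σ × Fin d → ℝ), nrm (fun j : Fin d => u (t, j)) ≤ nrm u := by
      intro t u
      refine Real.sqrt_le_sqrt ?_
      rw [Fintype.sum_prod_type]
      exact single_le_sum (f := fun t => ∑ j, u (t, j) ^ 2)
        (fun _ _ => sum_nonneg fun _ _ => sq_nonneg _) (mem_univ t)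
    rw [abs_le]
    constructor
    · have := inner_le (fun j => -a (s, j)) (fun j => b (s₀, j))
      simp only [neg_mul, sum_neg_distrib, nrm_neg] at this
      nlinarith [mul_le_mul (hn s a) (hn s₀ b) (nrm_nonneg _) (nrm_nonneg _)]
    · exact (inner_le _ _).trans (mul_le_mul (hn s a) (hn s₀ b) (nrm_nonneg _) (nrm_nonneg _))
  calc ∑ p, ∑ q, linC s₀ l (unitV p) q * a p * b q
      = ∑ s, l s * ∑ j : Fin d, a (s, j) * b (s₀, j) := by
        simp only [e, sum_mul]
        rw [sum_comm]
        simp only [mul_sum]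
        rw [Fintype.sum_prod_type, sum_eq_single s₀ (fun t _ ht => by simp [ht]) (by simp)]
        conv_lhs => arg 2; ext j; rw [sum_comm]
        rw [sum_comm]
        refine sum_congr rfl fun s _ => sum_congr rfl fun j _ => ?_
        rw [sum_eq_single (s, j) (fun p _ hp => by simp [hp]) (by simp)]
        simp [mul_assoc]
    _ ≤ ∑ s, |l s| * (nrm a * nrm b) := sum_le_sum fun s _ =>
        (le_abs_self _).trans (by rw [abs_mul]; exact mul_le_mul_of_nonneg_left (hb s) (abs_nonneg _))
    _ = (∑ s, |l s|) * nrm a * nrm b := by rw [sum_mul, sum_mul]; simp only [mul_assoc]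

/-- The programme in scaled slots, in the block of `s₀`. -/
def valF (V : Pt d → ℝ) (s₀ : σ) (x : Inp d σ) (b : σ → ℝ) (P : Prog σ) :
    Sp (σ × Fin d) → Sp (σ × Fin d) := fun z => put s₀ (P.val V (rd x b z))

theorem pull_put (s : σ) (w : E d) : pull (emb s) (put s w) = w := by
  ext j
  rw [pull_apply, put_apply]
  exact if_pos rfl

/-- The constant of a programme of bounded depth, for the node bound `K`. -/
def regC (n : ℕ) (K : ℝ) : ℕ → ℝ
  | 0 => 1
  | D + 1 => 1 + 2 * cmpC n (regC n K D) * (2 ^ n * (regC n K D + 1)) * (K + 1)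

theorem one_le_regC (n : ℕ) {K : ℝ} (hK : 0 ≤ K) : ∀ D, 1 ≤ regC n K D
  | 0 => le_rfl
  | D + 1 => by
    have h := zero_le_one.trans (one_le_regC n hK D)
    have := cmpC_nonneg h n
    rw [regC]
    exact le_add_of_nonneg_right (by positivity)

/-- The nodes have bounded derivatives at their natural scales. -/
def NodeReg (V : Pt d → ℝ) (h r : ℝ) (n : ℕ) (K : ℝ) : Prop :=
  ∀ nd : Nd, nd.Ok h r →
    RB n (gradT (vecT fun y : E d => nd.val V (nd.scale • y))) (K * √nd.v) ∧
      Temp (vecT fun y : E d => nd.val V (nd.scale • y))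

theorem RB.valF {V : Pt d → ℝ} {h r e K : ℝ} {n : ℕ} (hK : 0 ≤ K) (hN : NodeReg V h r n K)
    (he : 0 < e) (he1 : e ≤ 1) {b : σ → ℝ} (hb : ∀ s, 0 ≤ b s) (s₀ : σ) (x : Inp d σ) :
    ∀ (D : ℕ) (P : Prog σ) (β : ℝ), P.depth ≤ D → P.Adm h r e b β →
      RB n (gradT (vecT (Zero.valF V s₀ x b P))) (regC n K D * β) ∧
        Temp (vecT (Zero.valF V s₀ x b P)) := by
  intro D
  induction D with
  | zero =>
    intro P β hD hP
    cases P with
    | mk m l c nd ch =>
      rcases m with _ | m
      · have e0 : Zero.valF V s₀ x b (Prog.mk 0 l c nd ch)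
            = fun z => put s₀ (∑ s, l s • x s) + linC s₀ (fun s => l s * b s) z := by
          funext z
          simp [Zero.valF, Prog.val, rd, linC, smul_add, sum_add_distrib, map_sum, smul_smul]
        have hβ : ∑ s, |l s * b s| ≤ β := by
          have := hP.1
          simpa [abs_mul, abs_of_nonneg (hb _)] using this
        rw [e0]
        refine ⟨(RB.affine _ _ (linC_opLE s₀ _) (sum_nonneg fun s _ => abs_nonneg _) n).of_le le_rfl
          (by simpa [regC] using hβ), Temp.vecT ?_⟩
        exact (Function.HasTemperateGrowth.const _).add (linC s₀ _).hasTemperateGrowth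
      · have := (Finset.le_sup (f := fun i => (ch i).depth + 1) (mem_univ (0 : Fin (m + 1)))).trans
          (hD : Finset.univ.sup (fun i => (ch i).depth + 1) ≤ 0)
        omega
  | succ D ih =>
    intro P β hD hP
    cases P with
    | mk m l c nd ch =>
      have hR := one_le_regC n hK D
      have hR0 : (0 : ℝ) ≤ regC n K D := zero_le_one.trans hR
      have hC := cmpC_nonneg hR0 n
      set Y := fun i => fun z => put s₀ ((nd i).val V ((nd i).scale • pull (emb s₀) z)) with hY
      set Q := fun i => fun z => (nd i).scale⁻¹ • Zero.valF V s₀ x b (ch i) z with hQ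
      have key : ∀ i, RB n (gradT (vecT fun z => Y i (Q i z)))
          (2 * cmpC n (regC n K D) * (2 ^ n * (regC n K D + 1)) * ((K + 1) * √(nd i).v)) ∧
          Temp (vecT fun z => Y i (Q i z)) := by
        intro i
        obtain ⟨hok, hadm⟩ := hP.2 i
        have hs := hok.scale_pos
        have hch : (ch i).depth ≤ D := by
          have := (Finset.le_sup (f := fun i => (ch i).depth + 1) (mem_univ i)).trans
            (hD : Finset.univ.sup (fun i => (ch i).depth + 1) ≤ D + 1)
          omega
        obtain ⟨hq, hqt⟩ := ih (ch i) _ hch hadm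
        have eQ : vecT (Q i) = fun z j => (nd i).scale⁻¹ * vecT (Zero.valF V s₀ x b (ch i)) z j := by
          funext z j
          simp [hQ, Zero.vecT]
        have hQt : Temp (vecT (Q i)) := eQ ▸ hqt.smul _
        have hQr : RB n (gradT (vecT (Q i))) (regC n K D) := by
          rw [eQ, gradT_smul hqt]
          refine (hq.smul _).of_le le_rfl (le_of_eq ?_)
          rw [abs_of_pos (inv_pos.2 hs)]
          field_simp
        obtain ⟨hn, hnt⟩ := hN (nd i) hok
        have hYe : vecT (Y i) = Zero.liftT (emb s₀) (vecT fun y => (nd i).val V ((nd i).scale • y)) :=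
          vecT_put s₀ fun y => (nd i).val V ((nd i).scale • y)
        have hYt : Temp (vecT (Y i)) := hYe ▸ hnt.liftT
        have hYr : RB n (gradT (vecT (Y i))) (K * √(nd i).v) := by
          rw [hYe, gradT_liftT (emb_injective s₀) hnt]
          exact hn.liftT (emb_injective s₀) (by positivity)
        refine ⟨?_, (hYt.cmp hQt :)⟩
        show RB n (gradT (Zero.cmp (vecT (Y i)) (Q i))) _
        rw [gradT_cmp hYt hQt]
        refine ((((hYr.cmp hQt (fun m hm => hQr.of_le hm.le le_rfl) (by positivity) hR0).ren _).conF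
          (hQr.ren _) (mul_nonneg hC (by positivity)) hR0).ren _).of_le le_rfl ?_
        have h0 : 0 ≤ cmpC n (regC n K D) * √(nd i).v * 2 ^ n := by positivity
        have h1 : 0 ≤ 2 * (regC n K D + 1) * (K + 1) - regC n K D * K := by nlinarith
        nlinarith [mul_nonneg h0 h1]
      have e0 : Zero.valF V s₀ x b (Prog.mk m l c nd ch)
          = fun z => (put s₀ (∑ s, l s • x s) + linC s₀ (fun s => l s * b s) z)
            + ∑ i, c i • Y i (Q i z) := by
        funext z
        simp only [Zero.valF, Prog.val, rd, linC, smul_add, sum_add_distrib, map_add, map_sum,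
          map_smul, smul_smul, _root_.sum_apply, _root_.smul_apply,
          ContinuousLinearMap.comp_apply, hY, hQ]
        congr 1
        refine sum_congr rfl fun i _ => ?_
        congr 3
        rw [pull_put, mul_inv_cancel₀ (hP.2 i).1.scale_pos.ne', one_smul]
      have esum : ∀ S : Finset (Fin m),
          RB n (gradT (vecT fun z => ∑ i ∈ S, c i • Y i (Q i z)))
            (∑ i ∈ S, |c i| * (2 * cmpC n (regC n K D) * (2 ^ n * (regC n K D + 1))
              * ((K + 1) * √(nd i).v))) ∧
          Temp (vecT fun z => ∑ i ∈ S, c i • Y i (Q i z)) := by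
        intro S
        induction S using Finset.induction_on with
        | empty =>
          have h0 : (vecT fun _ : Sp (σ × Fin d) => (0 : Sp (σ × Fin d))) = 0 := by
            funext z j; simp [Zero.vecT]
          simp only [sum_empty, h0, gradT_zero]
          exact ⟨RB.zero n 0 le_rfl, Temp.zero⟩
        | insert i S hi IH =>
          have e1 : (vecT fun z => ∑ k ∈ insert i S, c k • Y k (Q k z))
              = (fun z j => c i * vecT (fun z => Y i (Q i z)) z j)
                + vecT fun z => ∑ k ∈ S, c k • Y k (Q k z) := by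
            funext z j
            simp [Zero.vecT, sum_insert hi]
          rw [e1, sum_insert hi, gradT_add ((key i).2.smul _) IH.2, gradT_smul (key i).2]
          exact ⟨((key i).1.smul _).add IH.1, ((key i).2.smul _).add IH.2⟩
      have haff : Temp (vecT fun z => put s₀ (∑ s, l s • x s) + linC s₀ (fun s => l s * b s) z) :=
        Temp.vecT ((Function.HasTemperateGrowth.const _).add (linC s₀ _).hasTemperateGrowth)
      have e2 : vecT (Zero.valF V s₀ x b (Prog.mk m l c nd ch))
          = vecT (fun z => put s₀ (∑ s, l s • x s) + linC s₀ (fun s => l s * b s) z)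
            + vecT fun z => ∑ i, c i • Y i (Q i z) := by
        rw [e0]
        funext z j
        simp [Zero.vecT]
      rw [e2, gradT_add haff (esum univ).2]
      refine ⟨((RB.affine _ _ (linC_opLE s₀ _) (sum_nonneg fun s _ => abs_nonneg _) n).add
        (esum univ).1).of_le le_rfl ?_, haff.add (esum univ).2⟩
      have hlin : ∑ s, |l s * b s| = ∑ s, |l s| * b s :=
        sum_congr rfl fun s _ => by rw [abs_mul, abs_of_nonneg (hb s)]
      set M := 2 * cmpC n (regC n K D) * (2 ^ n * (regC n K D + 1)) * (K + 1)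
      have hM : 0 ≤ M := by positivity
      have hS : ∑ i, |c i| * (2 * cmpC n (regC n K D) * (2 ^ n * (regC n K D + 1))
          * ((K + 1) * √(nd i).v)) = M * ∑ i, |c i| * √(nd i).v := by
        rw [mul_sum]
        exact sum_congr rfl fun i _ => by ring
      have hle : ∑ i, |c i| * √(nd i).v ≤ (∑ i, |c i| * √(nd i).v) / e :=
        le_div_self (sum_nonneg fun i _ => by positivity) he he1
      have hl0 : 0 ≤ ∑ s, |l s| * b s := sum_nonneg fun s _ => mul_nonneg (abs_nonneg _) (hb s)
      have hc0 : 0 ≤ ∑ i, |c i| * √(nd i).v := sum_nonneg fun i _ => by positivity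
      have hP1 := hP.1
      rw [hlin, hS, regC]
      nlinarith [mul_le_mul_of_nonneg_left hP1 hM]

section Scale

variable {ι α : Type} [Fintype ι] [DecidableEq ι] [Fintype α] [DecidableEq α]

theorem Reg.gradT {n : ℕ} {c : ℕ → ℝ} {X : TF ι α} (h : Reg (n + 1) c X) (ht : Temp X) :
    Reg n (fun k => c (k + 1)) (Zero.gradT X) := by
  refine ⟨fun i => (Temp.gradT ht i).1, fun k hk z => ?_⟩
  have := (h.2 (k + 1) (by omega) z).rename (optFin ι k).symm
  refine (funext fun i => ?_ : (fun i : Option ι ⊕ Fin k → α =>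
    gradK (k + 1) X z (i ∘ (optFin ι k).symm)) = gradK k (Zero.gradT X) z) ▸ this
  exact (gradK_gradT h.1 k z i).symm

/-- Reading a field at the scale `r`, with the factor `a`. -/
def scl (a r : ℝ) (X : TF ι α) : TF ι α := fun z i => a * X (r • z) i

theorem Temp.scl {X : TF ι α} (h : Temp X) (a r : ℝ) : Temp (Zero.scl a r X) := fun i =>
  temp_mul (Function.HasTemperateGrowth.const a)
    ((h i).comp (r • ContinuousLinearMap.id ℝ (Sp α)).hasTemperateGrowth)

theorem gradT_scl {X : TF ι α} (h : Temp X) (a r : ℝ) :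
    Zero.gradT (scl a r X) = scl (a * r) r (Zero.gradT X) := by
  funext z i
  have h1 : HasFDerivAt (fun w => a * X (r • w) (i ∘ some))
      (a • ((fderiv ℝ (fun w => X w (i ∘ some)) (r • z)).comp (r • ContinuousLinearMap.id ℝ (Sp α)))) z :=
    (((temp_diff (h _) _).hasFDerivAt).comp z ((hasFDerivAt_id z).const_smul r)).const_mul a
  show fderiv ℝ (fun w => a * X (r • w) (i ∘ some)) z (unitV (i none)) = _
  rw [h1.fderiv]
  simp [Zero.scl, Zero.gradT, mul_assoc]

theorem RB.scl {n : ℕ} {c : ℕ → ℝ} {X : TF ι α} {K a r : ℝ} (h : Reg n c X) (ht : Temp X)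
    (hc : ∀ k ≤ n, |a| * |r| ^ k * c k ≤ K) : RB n (Zero.scl a r X) K := by
  induction n generalizing ι c a with
  | zero =>
    refine ⟨ht.scl a r, fun z => ?_⟩
    exact (((RB.of_reg h ht (K := c 0) (fun k hk => by rw [Nat.le_zero.1 hk])).bn (r • z)).smul a).mono
      (by simpa using hc 0 le_rfl)
  | succ n ih =>
    have h0 : Reg 0 c X := ⟨h.1, fun k hk => h.2 k (hk.trans (Nat.zero_le _))⟩
    refine ⟨ht.scl a r, fun z =>
      (((RB.of_reg h0 ht (K := c 0) (fun k hk => by rw [Nat.le_zero.1 hk])).bn (r • z)).smul a).mono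
        (by simpa using hc 0 (Nat.zero_le _)), ?_⟩
    rw [gradT_scl ht]
    refine ih (c := fun k => c (k + 1)) (a := a * r) (h.gradT ht) ht.gradT fun k hk => ?_
    refine le_of_eq_of_le ?_ (hc (k + 1) (by omega))
    rw [abs_mul, pow_succ]
    ring

end Scale

/-- Every admissible node has bounded derivatives at its natural scale. -/
theorem exists_nodeReg (n : ℕ) : ∃ K : ℝ, 0 ≤ K ∧ ∀ (d : ℕ) (V : Pt d → ℝ), Mem V →
    ∀ h r : ℝ, h ≤ 1 → NodeReg V h r n K := by
  obtain ⟨c, hc, hN⟩ := exists_Nv_reg (n + 1)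
  refine ⟨c, hc, fun d V hV h r hh nd hok => ?_⟩
  obtain ⟨hreg, htemp⟩ := hN d V hV nd.v hok.v_pos (hok.v_le.trans hh)
  have hs := hok.scale_pos
  set F := vecT fun y : E d => Nv V nd.v (nd.scale • y) with hFdef
  have hv := Real.sqrt_pos.2 hok.v_pos
  have eF : F = scl 1 nd.scale (vecT (Nv V nd.v)) := by
    funext z i
    simp [F, scl, Zero.vecT]
  have hF : Temp F := eF ▸ htemp.scl 1 _
  have hFr : RB n (gradT F) (c * √nd.v) := by
    rw [eF, gradT_scl htemp, one_mul]
    refine RB.scl (c := fun k => c / √nd.v ^ (k + 1 - 1)) (hreg.gradT htemp) htemp.gradT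
      fun k hk => ?_
    have h1 : |nd.scale| * |nd.scale| ^ k ≤ √nd.v * √nd.v ^ k := by
      rw [abs_of_pos hs]
      exact mul_le_mul hok.scale_le (pow_le_pow_left₀ hs.le hok.scale_le k) (by positivity)
        hv.le
    simp only [Nat.add_sub_cancel]
    calc |nd.scale| * |nd.scale| ^ k * (c / √nd.v ^ k)
        ≤ √nd.v * √nd.v ^ k * (c / √nd.v ^ k) := mul_le_mul_of_nonneg_right h1 (by positivity)
      _ = c * √nd.v := by field_simp
  rcases hok.a_ge with h0 | ⟨ha, -⟩
  · have e : (vecT fun y : E d => nd.val V (nd.scale • y)) = F := by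
      funext z i
      simp [F, Zero.vecT, Nd.val, Quarter.G, h0]
    rw [e]
    exact ⟨hFr, hF⟩
  · have hav : AvgOk (γ d) (fun _ => 1) (fun _ => 1) (fun w : E d => w) :=
      { prob := inferInstance
        mw := measurable_const
        ma := measurable_const
        mc := measurable_id
        w_le := fun _ => by simp
        a_le := fun _ => by simp
        moment := fun k => by
          refine (((Quarter.integrable_exp_norm (μ := γ d) (k : ℝ)))).mono' (by fun_prop)
            (ae_of_all _ fun w => ?_)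
          rw [Real.norm_eq_abs, abs_of_nonneg (by positivity), Real.exp_nat_mul]
          exact pow_le_pow_left₀ (by positivity) (by linarith [Real.add_one_le_exp ‖w‖]) k }
    have hsa : nd.scale = nd.a := by simp [Nd.scale, ha.ne']
    have hint : ∀ z : E d, Integrable (fun w : E d => Nv V nd.v (nd.a • z + √(nd.a ^ 2) • w)) (γ d) := by
      intro z
      have := hav.integrable (F := fun y : E d => Nv V nd.v (nd.scale • y))
        ((Temp.vec (M := fun y : E d => Nv V nd.v (nd.scale • y)) hF)) z
      simpa [hsa, Real.sqrt_sq ha.le, smul_add] using this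
    have e : (vecT fun y : E d => nd.val V (nd.scale • y))
        = avgT (γ d) (fun _ => 1) (fun _ => 1) (fun w : E d => w) F := by
      funext z i
      simp only [Zero.vecT, Nd.val, Quarter.G, avgT, avg, one_smul, smul_eq_mul, one_mul, hFdef,
        hsa]
      have h2 := (EuclideanSpace.proj (𝕜 := ℝ) (i ())).integral_comp_comm (hint z)
      simp only [Real.sqrt_sq ha.le, smul_add, PiLp.proj_apply] at h2 ⊢
      exact h2.symm
    rw [e, hav.gradT_avgT hF]
    refine ⟨hav.weight.rb hFr, hav.temp hF⟩

/-- The derivatives of an admissible programme, up to order `n`. -/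
theorem exists_progReg (n D : ℕ) : ∃ C : ℝ, 0 ≤ C ∧ ∀ (d : ℕ) (V : Pt d → ℝ), Mem V →
    ∀ (σ : Type) [Fintype σ] [DecidableEq σ] (h r e β : ℝ) (b : σ → ℝ), h ≤ 1 → 0 < e → e ≤ 1 →
      (∀ s, 0 ≤ b s) → ∀ (s₀ : σ) (x : Inp d σ) (P : Prog σ), P.depth ≤ D → P.Adm h r e b β →
        RB n (gradT (vecT (valF V s₀ x b P))) (C * β) ∧ Temp (vecT (valF V s₀ x b P)) := by
  obtain ⟨K, hK, hN⟩ := exists_nodeReg n
  exact ⟨regC n K D, zero_le_one.trans (one_le_regC n hK D),
    fun d V hV σ _ _ h r e β b hh he he1 hb s₀ x P hD hP =>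
      RB.valF hK (hN d V hV h r hh) he he1 hb s₀ x D P β hD hP⟩

theorem RB.sclArg {ι α : Type} [Fintype ι] [DecidableEq ι] [Fintype α] [DecidableEq α] {n : ℕ}
    {X : TF ι α} {K : ℝ} (hK : 0 ≤ K) {r : ℝ} (hr : 1 ≤ r) (h : RB n X K) :
    ∀ a : ℝ, RB n (Zero.scl a r X) (|a| * r ^ n * K) := by
  induction n generalizing ι with
  | zero => exact fun a => ⟨h.1.scl a r, fun z => ((h.2 (r • z)).smul a).mono (by simp)⟩
  | succ n ih =>
    intro a
    refine ⟨h.1.scl a r, fun z => ((h.2.1 (r • z)).smul a).mono ?_, ?_⟩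
    · exact mul_le_mul_of_nonneg_right
        (le_mul_of_one_le_right (abs_nonneg a) (one_le_pow₀ hr)) hK
    · rw [gradT_scl h.1]
      refine (ih h.2.2 (a * r)).of_le le_rfl (le_of_eq ?_)
      rw [abs_mul, abs_of_pos (zero_lt_one.trans_le hr), pow_succ]
      ring

/-- A node programme as a function of its seeds, the slot `o` read at `b' o = b o / θ`. -/
theorem exists_progReg_seed (n D : ℕ) : ∃ C : ℝ, 0 ≤ C ∧ ∀ (d : ℕ) (V : Pt d → ℝ), Mem V →
    ∀ (σ : Type) [Fintype σ] [DecidableEq σ] (h r e β θ : ℝ) (b : σ → ℝ), h ≤ 1 → 0 < e → e ≤ 1 →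
      0 < θ → θ ≤ 1 → (∀ s, 0 ≤ b s) → ∀ (s₀ : σ) (x : Inp d σ) (P : Prog σ), P.depth ≤ D →
        (∀ o, P.lin o = 0) → P.Adm h r e (fun o => θ * b o) β →
        RB n (gradT (vecT (valF V s₀ x b P)))
            (C * θ⁻¹ ^ (n + 1) * ∑ i, |P.coef i| * √(P.node i).v) ∧
          Temp (vecT (valF V s₀ x b P)) := by
  obtain ⟨C, hC, hR⟩ := exists_progReg n D
  refine ⟨C, hC, fun d V hV σ _ _ h r e β θ b hh he he1 hθ hθ1 hb s₀ x P hD hl hP => ?_⟩
  have hP1 : P.Adm h r 1 (fun o => θ * b o) (∑ i, |P.coef i| * √(P.node i).v) := by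
    refine (Prog.adm_def _ _ _ _ _ _).2 ⟨by simp [hl], fun i => ?_⟩
    exact ⟨(((Prog.adm_def _ _ _ _ _ _).1 hP).2 i).1,
      (((Prog.adm_def _ _ _ _ _ _).1 hP).2 i).2.mono he he1 le_rfl⟩
  obtain ⟨hr1, hr2⟩ := hR d V hV σ h r 1 _ (fun o => θ * b o) hh one_pos le_rfl
    (fun s => mul_nonneg hθ.le (hb s)) s₀ x P hD hP1
  have hθi : 1 ≤ θ⁻¹ := one_le_inv₀ hθ |>.2 hθ1
  have e1 : vecT (valF V s₀ x b P) = scl 1 θ⁻¹ (vecT (valF V s₀ x (fun o => θ * b o) P)) := by
    funext z i
    have : rd x (fun o => θ * b o) (θ⁻¹ • z) = rd x b z := by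
      funext s
      simp only [rd, map_smul, smul_smul]
      congr 2
      field_simp
    simp only [Zero.vecT, Zero.scl, valF, one_mul, this]
  rw [e1, gradT_scl hr2, one_mul]
  refine ⟨(RB.sclArg (mul_nonneg hC (sum_nonneg fun i _ => by positivity)) hθi hr1 _).of_le le_rfl
    (le_of_eq ?_), hr2.scl 1 _⟩
  rw [abs_of_pos (inv_pos.2 hθ), pow_succ]
  ring

/-- A node programme along its first slot, read at the scale `a`. -/
theorem exists_progReg_line (n D : ℕ) : ∃ C : ℝ, 0 ≤ C ∧ ∀ (d : ℕ) (V : Pt d → ℝ), Mem V →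
    ∀ (σ : Type) [Fintype σ] [DecidableEq σ] (h r e β θ a : ℝ) (b : σ → ℝ), h ≤ 1 → 0 < e → e ≤ 1 →
      0 < θ → θ ≤ 1 → 0 ≤ a → (∀ s, 0 ≤ b s) → ∀ (x : Inp d (Option σ)) (G : Prog (Option σ)),
        G.depth ≤ D → (∀ o, G.lin o = 0) → G.Adm h r e (fun o => o.elim (a * θ) b) β →
        RB n (gradT (vecT fun u : E d => G.val V fun o => o.elim (x none + a • u) fun j => x (some j)))
            (C * θ⁻¹ ^ (n + 1) * ∑ i, |G.coef i| * √(G.node i).v) ∧
          Temp (vecT fun u : E d => G.val V fun o => o.elim (x none + a • u) fun j => x (some j)) := by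
  obtain ⟨C, hC, hR⟩ := exists_progReg_seed n D
  refine ⟨C, hC, fun d V hV σ _ _ h r e β θ a b hh he he1 hθ hθ1 ha hb x G hD hl hG => ?_⟩
  set b' : Option σ → ℝ := fun o => o.elim a fun j => b j / θ
  have eb : (fun o => θ * b' o) = fun o => o.elim (a * θ) b := by
    funext o
    cases o with
    | none => simp [b', mul_comm]
    | some j => simp [b', mul_div_cancel₀ _ hθ.ne']
  obtain ⟨h1, h2⟩ := hR d V hV (Option σ) h r e β θ b' hh he he1 hθ hθ1
    (fun o => by cases o with
      | none => exact ha
      | some j => exact div_nonneg (hb j) hθ.le) none x G hD hl (by rw [eb]; exact hG)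
  have e1 : (vecT fun u : E d => G.val V fun o => o.elim (x none + a • u) fun j => x (some j))
      = Zero.restrT (emb none) (vecT (valF V none x b' G)) := by
    funext u i
    have e2 : rd x b' (push (emb none) u) = fun o => o.elim (x none + a • u) fun j => x (some j) := by
      funext o
      have hp : push (emb (none : Option σ)) u = put none u := rfl
      cases o with
      | none =>
        show x none + a • pull (emb none) (push (emb none) u) = _
        rw [hp, pull_put]
        rfl
      | some j =>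
        show x (some j) + (b j / θ) • pull (emb (some j)) (push (emb none) u) = _
        have : pull (emb (some j)) (push (emb (none : Option σ)) u) = 0 := by
          ext k
          rw [hp, pull_apply, put_apply]
          simp [emb]
        rw [this, smul_zero, add_zero]
        rfl
    simp only [Zero.vecT, Zero.restrT, valF, e2, Function.comp, put_apply, emb, if_true]
  rw [e1, gradT_restrT h2]
  exact ⟨h1.restrT (emb_injective none), h2.restrT⟩

end

end Vale.Agent.P347.Zero
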