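import Vale.Agent.P347.Zero.BinderTop
import Vale.Agent.P347.Zero.BinderIdeal
import Vale.Agent.P347.Zero.ProgReg

/-!
# P347, exponent 0: the analytic facts of the binder in units of the noise
-/

namespace Vale.Agent.P347.Zero

open MeasureTheory Real Finset
open Vale.Agent.P347.Quarter (E γ)
open Vale.Agent.P347.Colour (Pt)

noncomputable section

variable {d : ℕ} {σ : Type} [Fintype σ] [DecidableEq σ]

/-- A programme without linear part varies at most like the sensitivities of its top nodes. -/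
theorem Prog.val_lip_top {V : Pt d → ℝ} (hV : Mem V) {h r e₀ e β : ℝ} {τ : Type} [Fintype τ]
    {b : τ → ℝ} {P : Prog τ} (he : 0 < e) (he1 : e ≤ 1) (hlin : ∀ o, P.lin o = 0)
    (hP : P.Adm h r e₀ b β) (x y : Inp d τ) :
    ‖P.val V x - P.val V y‖ ≤ 4 * ∑ o, Zero.topG e P o * ‖x o - y o‖ := by
  refine (Prog.val_lip hV one_pos le_rfl hP x y).trans ?_
  rw [mul_sum]
  refine sum_le_sum fun o _ => ?_
  rw [← mul_assoc]
  refine mul_le_mul_of_nonneg_right ?_ (norm_nonneg _)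
  rw [Prog.grs_def, hlin, abs_zero, zero_add, div_one]
  exact mul_le_mul_of_nonneg_left (sum_le_sum fun i _ =>
    mul_le_mul_of_nonneg_left (Prog.grs_anti he he1 _ o) (abs_nonneg _)) (by norm_num)

omit [DecidableEq σ] in
theorem fB_lip {V : Pt d → ℝ} (hV : Mem V) {h r e₀ e β a b₀ : ℝ} {bl : Option σ → ℝ}
    {G : Prog (Option σ)} (he : 0 < e) (he1 : e ≤ 1) (hlin : ∀ o, G.lin o = 0)
    (hG : G.Adm h r e₀ bl β) (ha : 0 ≤ a) (hb₀ : 0 < b₀) (x : Inp d (Option σ)) (u u' : E d) :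
    ‖fB V G a b₀ x u - fB V G a b₀ x u'‖ ≤ 4 * b₀⁻¹ * (a * topG e G none) * ‖u - u'‖ := by
  simp only [fB]
  rw [← smul_sub, norm_smul, norm_eq_abs, abs_of_pos (inv_pos.2 hb₀)]
  refine (mul_le_mul_of_nonneg_left (Prog.val_lip_top hV he he1 hlin hG _ _)
    (inv_pos.2 hb₀).le).trans (le_of_eq ?_)
  simp [upd, Fintype.sum_option, ← smul_sub, norm_smul, abs_of_nonneg ha]
  ring

omit [DecidableEq σ] in
theorem phiB_lip {V : Pt d → ℝ} (hV : Mem V) {h r e₀ e β a b₀ : ℝ}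
    {bl : Option (σ ⊕ Bool) → ℝ} {PA : Prog (Option (σ ⊕ Bool))} (he : 0 < e) (he1 : e ≤ 1)
    (hlin : ∀ o, PA.lin o = 0) (hP : PA.Adm h r e₀ bl β) (ha : 0 ≤ a) (hb₀ : 0 < b₀)
    (x : Inp d (Option σ)) (u u' K K' H H' : E d) :
    ‖phiB V PA a b₀ x u K H - phiB V PA a b₀ x u' K' H'‖
      ≤ 4 * b₀⁻¹ * (a * topG e PA none + topG e PA (some (.inr true))
          + topG e PA (some (.inr false))) * (‖u - u'‖ + ‖K - K'‖ + ‖H - H'‖) := by
  simp only [phiB]
  rw [← smul_sub, norm_smul, norm_eq_abs, abs_of_pos (inv_pos.2 hb₀)]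
  refine (mul_le_mul_of_nonneg_left (Prog.val_lip_top hV he he1 hlin hP _ _)
    (inv_pos.2 hb₀).le).trans ?_
  simp [inpAdj, upd, Fintype.sum_option, Fintype.sum_sum_type, ← smul_sub, norm_smul,
    abs_of_nonneg ha]
  have g1 := mul_nonneg ha (topG_nonneg he.le PA none)
  have g2 := topG_nonneg he.le PA (some (.inr true))
  have g3 := topG_nonneg he.le PA (some (.inr false))
  have n1 := norm_nonneg (u - u')
  have n2 := norm_nonneg (K - K')
  have n3 := norm_nonneg (H - H')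
  rw [show ∀ s : ℝ, 4 * b₀⁻¹ * s * (‖u - u'‖ + ‖K - K'‖ + ‖H - H'‖)
      = b₀⁻¹ * (4 * (s * (‖u - u'‖ + ‖K - K'‖ + ‖H - H'‖))) from fun s => by ring]
  refine mul_le_mul_of_nonneg_left (mul_le_mul_of_nonneg_left ?_ (by norm_num)) (inv_pos.2 hb₀).le
  nlinarith [mul_nonneg g1 (add_nonneg n2 n3), mul_nonneg g2 (add_nonneg n1 n3),
    mul_nonneg g3 (add_nonneg n1 n2)]

theorem exists_fB_reg (n D : ℕ) : ∃ C : ℝ, 0 ≤ C ∧ ∀ (d : ℕ) (V : Pt d → ℝ), Mem V →
    ∀ (σ : Type) [Fintype σ] [DecidableEq σ] (h r e β θ a b₀ : ℝ) (b : σ → ℝ), h ≤ 1 → 0 < e → e ≤ 1 →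
      0 < θ → θ ≤ 1 → 0 ≤ a → 0 < b₀ → (∀ s, 0 ≤ b s) → ∀ (G : Prog (Option σ)), G.depth ≤ D →
        (∀ o, G.lin o = 0) → G.Adm h r e (fun o => o.elim (a * θ) b) β → ∀ x : Inp d (Option σ),
          Temp (vecT (fB V G a b₀ x)) ∧
          RB n (gradT (vecT (fB V G a b₀ x))) (b₀⁻¹ * (C * θ⁻¹ ^ (n + 1) * topS G)) := by
  obtain ⟨C, hC, hR⟩ := exists_progReg_line n D
  refine ⟨C, hC, fun d V hV σ _ _ h r e β θ a b₀ b hh he he1 hθ hθ1 ha hb₀ hb G hD hl hG x => ?_⟩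
  obtain ⟨h1, h2⟩ := hR d V hV σ h r e β θ a b hh he he1 hθ hθ1 ha hb x G hD hl hG
  have e1 : vecT (fB V G a b₀ x) = fun z i =>
      b₀⁻¹ * vecT (fun u : E d => G.val V fun o => o.elim (x none + a • u) fun j => x (some j)) z i := by
    funext z i
    rfl
  rw [e1, gradT_smul h2]
  exact ⟨h2.smul _, by simpa [topS, abs_of_pos hb₀] using h1.smul b₀⁻¹⟩

/-- The hypothesis is the conclusion of `exists_adj`. -/
theorem phiB_err {V : Pt d → ℝ} (hV : Mem V) {h r e β θ a b₀ ρ : ℝ} {b : σ → ℝ}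
    {G : Prog (Option σ)} {PA : Prog (Option (σ ⊕ Bool))} (hh : h ≤ 1) (he : 0 < e) (he1 : e ≤ 1)
    (hθ : 0 < θ) (hθ1 : θ ≤ 1) (ha : 0 < a) (hb₀ : 0 < b₀) (hb : ∀ s, 0 ≤ b s) (hρ : 0 ≤ ρ)
    (hlin : ∀ o, G.lin o = 0) (hG : G.Adm h r e (fun o => o.elim (a * θ) b) β)
    (hadj : ∀ x : Inp d (Option σ),
      Integrable (fun p : E d × E d => ‖PA.val V (inpAdj x p.1 p.2)
          - a • (fderiv ℝ (fun y => G.val V (Function.update x none y)) (x none)).adjoint p.1‖ ^ 2)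
        ((γ d).prod (γ d)) ∧
      ∫ p : E d × E d, ‖PA.val V (inpAdj x p.1 p.2)
          - a • (fderiv ℝ (fun y => G.val V (Function.update x none y)) (x none)).adjoint p.1‖ ^ 2
          ∂(γ d).prod (γ d) ≤ (ρ * wt x) ^ 2)
    (x : Inp d (Option σ)) (u : E d) :
    Integrable (fun q : E d × E d =>
        ‖phiB V PA a b₀ x u q.1 q.2 - (fderiv ℝ (fB V G a b₀ x) u).adjoint q.1‖ ^ 2)
      ((γ d).prod (γ d)) ∧
    ∫ q : E d × E d, ‖phiB V PA a b₀ x u q.1 q.2 - (fderiv ℝ (fB V G a b₀ x) u).adjoint q.1‖ ^ 2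
        ∂(γ d).prod (γ d) ≤ (b₀⁻¹ * ρ * wt (upd a x u)) ^ 2 := by
  obtain ⟨_, -, hR⟩ := exists_progReg_line 0 G.depth
  have hT : Differentiable ℝ fun u : E d => G.val V (upd a x u) :=
    (hR d V hV σ h r e β θ a b hh he he1 hθ hθ1 ha.le hb x G le_rfl hlin hG).2.vec.1.differentiable
      (by simp)
  set F : E d → E d := fun y => G.val V (Function.update (upd a x u) none y) with hF'
  have hF : ∀ w, F (x none + a • w) = G.val V (upd a x w) := fun w => by
    simp only [F]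
    congr 1
    funext o
    cases o <;> simp [upd]
  have hd : Differentiable ℝ F := by
    rw [show F = fun y => G.val V (upd a x (a⁻¹ • (y - x none))) from funext fun y => by
      rw [← hF, smul_smul, mul_inv_cancel₀ ha.ne', one_smul, add_sub_cancel]]
    exact hT.comp ((differentiable_id.sub_const _).const_smul a⁻¹)
  have hder : fderiv ℝ (fB V G a b₀ x) u = (b₀⁻¹ * a) • fderiv ℝ F (upd a x u none) := by
    have hl : HasFDerivAt (fun w : E d => x none + a • w) (a • ContinuousLinearMap.id ℝ (E d)) u :=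
      ((hasFDerivAt_id u).const_smul a).const_add _
    have := (((hd (x none + a • u)).hasFDerivAt.comp u hl).const_smul b₀⁻¹).fderiv
    rw [show fB V G a b₀ x = b₀⁻¹ • (F ∘ fun w : E d => x none + a • w) from funext fun w => by
      simp [fB, hF], this]
    simp [upd, smul_smul]
  have e1 : ∀ q : E d × E d, ‖phiB V PA a b₀ x u q.1 q.2
        - (fderiv ℝ (fB V G a b₀ x) u).adjoint q.1‖ ^ 2
      = b₀⁻¹ ^ 2 * ‖PA.val V (inpAdj (upd a x u) q.1 q.2)
          - a • (fderiv ℝ F (upd a x u none)).adjoint q.1‖ ^ 2 := fun q => by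
    rw [hder, map_smulₛₗ, phiB]
    simp only [starRingEnd_apply, star_trivial, smul_apply, mul_smul, ← smul_sub,
      norm_smul, norm_eq_abs, mul_pow, sq_abs]
  obtain ⟨hi, hle⟩ := hadj (upd a x u)
  simp only [e1, integral_const_mul]
  refine ⟨hi.const_mul _, (mul_le_mul_of_nonneg_left hle (sq_nonneg _)).trans (le_of_eq ?_)⟩
  ring

end

end Vale.Agent.P347.Zero
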