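import Vale.Agent.P347.Zero.SampleOps2

/-!
# P347, exponent 0: mixtures over frozen Gaussians

If the mixture over Gaussian parameters `ζ` of the sampled laws `N (val (X x ζ), β ^ 2)` is close to
`N (val' x, β' ^ 2)`, one run on an affine image of the inputs samples `val'`.
-/

namespace Vale.Agent.P347.Zero

open MeasureTheory ProbabilityTheory Real Finset
open Vale.Agent.P347.Quarter (E γ)
open Vale.Agent.P347.Colour (Pt Resp Uses oracle)
open scoped NNReal

noncomputable section

set_option linter.unusedSectionVars false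

variable {d : ℕ} {σ τ κ κ' : Type} [Fintype σ] [Fintype τ] [Fintype κ] [Fintype κ'] [DecidableEq σ]
  [DecidableEq τ]

/-- The affine image of inputs and frozen Gaussians. -/
def aff (A : τ → σ → ℝ) (S : τ → κ → ℝ) (x : Inp d σ) (ζ : Inp d κ) : Inp d τ :=
  fun t => ∑ s, A t s • x s + ∑ k, S t k • ζ k

@[fun_prop]
theorem measurable_aff (A : τ → σ → ℝ) (S : τ → κ → ℝ) :
    Measurable fun p : Inp d σ × Inp d κ => aff A S p.1 p.2 := by
  unfold aff; fun_prop

theorem integrable_aff (A : τ → σ → ℝ) (S : τ → κ → ℝ) (x : Inp d σ) (t : τ) :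
    Integrable (fun ζ : Inp d κ => aff A S x ζ t) (γs d κ) :=
  (integrable_const _).add
    (integrable_finsetSum (univ : Finset κ) fun k _ => (integrable_coord k).smul (S t k))

theorem integrable_wt_aff (A : τ → σ → ℝ) (S : τ → κ → ℝ) (x : Inp d σ) :
    Integrable (fun ζ : Inp d κ => wt (aff A S x ζ)) (γs d κ) :=
  (integrable_const _).add
    (integrable_finsetSum (univ : Finset τ) fun t _ => (integrable_aff A S x t).norm)

/-- The law of the run inputs. -/
theorem aff_law {A : τ → σ → ℝ} {S : τ → κ → ℝ} {T : τ → κ' → ℝ} {b : τ → ℝ} {b' : σ → ℝ}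
    (hcov : ∀ t t', (∑ s, A t s * A t' s * b' s ^ 2) + ∑ k, T t k * T t' k
      = (if t = t' then b t ^ 2 else 0) + ∑ k, S t k * S t' k) (x : Inp d σ)
    {F : Type*} [NormedAddCommGroup F] [NormedSpace ℝ F] {f : Inp d τ → F} (hf : StronglyMeasurable f) :
    ∫ p : Inp d σ × Inp d κ', f (aff A T (blur b' x p.1) p.2) ∂(γs d σ).prod (γs d κ')
      = ∫ p : Inp d κ × Inp d τ, f (blur b (aff A S x p.1) p.2) ∂(γs d κ).prod (γs d τ) := by
  have m1 := (measurePreserving_sumPiEquivProdPi (fun _ : σ ⊕ κ' => γ d)).symm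
    (MeasurableEquiv.sumPiEquivProdPi _)
  have m2 := (measurePreserving_sumPiEquivProdPi (fun _ : κ ⊕ τ => γ d)).symm
    (MeasurableEquiv.sumPiEquivProdPi _)
  set a : Inp d τ := fun t => ∑ s, A t s • x s
  set P : τ → σ ⊕ κ' → ℝ := fun t => Sum.elim (fun s => A t s * b' s) (T t)
  set Q : τ → κ ⊕ τ → ℝ := fun t => Sum.elim (S t) fun u => if u = t then b t else 0
  have hPQ : ∀ t t', ∑ j, P t j * P t' j = ∑ j, Q t j * Q t' j := fun t t' => by
    simp only [P, Q, Fintype.sum_sum_type, Sum.elim_inl, Sum.elim_inr, ite_mul, zero_mul,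
      Finset.sum_ite_eq', Finset.mem_univ, if_true]
    rw [show ∑ s, A t s * b' s * (A t' s * b' s) = ∑ s, A t s * A t' s * b' s ^ 2 from
      sum_congr rfl fun s _ => by ring, hcov, add_comm]
    congr 1
    by_cases h : t = t'
    · subst h; simp [sq]
    · simp [h]
  have key := integral_lin_eq (d := d) P Q hPQ (f := fun v => f (a + v))
    (hf.comp_measurable (by fun_prop))
  rw [γs, ← m1.integral_comp', γs, ← m2.integral_comp'] at key
  convert key using 1
  · refine integral_congr_ae (ae_of_all _ fun p => congrArg f (funext fun t => ?_))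
    simp only [Pi.add_apply, lin, P, a, aff, blur, Fintype.sum_sum_type, Sum.elim_inl, Sum.elim_inr,
      MeasurableEquiv.coe_sumPiEquivProdPi_symm, Equiv.sumPiEquivProdPi_symm_apply, smul_add,
      Finset.sum_add_distrib, smul_smul]
    abel
  · refine integral_congr_ae (ae_of_all _ fun p => congrArg f (funext fun t => ?_))
    simp only [Pi.add_apply, lin, Q, a, aff, blur, Fintype.sum_sum_type, Sum.elim_inl, Sum.elim_inr,
      MeasurableEquiv.coe_sumPiEquivProdPi_symm, Equiv.sumPiEquivProdPi_symm_apply, ite_smul,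
      zero_smul, Finset.sum_ite_eq', Finset.mem_univ, if_true]
    abel

/-- Sampling a mixture over frozen Gaussians. -/
theorem Smp.mix {q : ℕ} {b L : τ → ℝ} {β β' ρ ρ' W : ℝ} {val : (Pt d → ℝ) → Inp d τ → E d}
    {val' : (Pt d → ℝ) → Inp d σ → E d} (h : Smp q b L β ρ val) (A : τ → σ → ℝ) (S : τ → κ → ℝ)
    (T : τ → κ' → ℝ) (b' : σ → ℝ)
    (hcov : ∀ t t', (∑ s, A t s * A t' s * b' s ^ 2) + ∑ k, T t k * T t' k
      = (if t = t' then b t ^ 2 else 0) + ∑ k, S t k * S t' k)
    (hρ : 0 ≤ ρ) (hL : ∀ t, 0 ≤ L t) (hval : ∀ V, Mem V → Measurable (val V))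
    (hwt : ∀ x : Inp d σ, ∫ ζ, wt (aff A S x ζ) ∂γs d κ ≤ W * wt x)
    (hmix : ∀ V, Mem V → ∀ x (φ : E d → ℝ), LipschitzWith 1 φ →
      |∫ ζ, (∫ w, φ (val V (aff A S x ζ) + β • w) ∂γ d) ∂γs d κ
        - ∫ w, φ (val' V x + β' • w) ∂γ d| ≤ ρ' * wt x) :
    Smp q b' (fun s => ∑ t, L t * |A t s|) β' (W * ρ + ρ') val' := by
  obtain ⟨Ω, _, μ, hμ, F, hF, hS⟩ := h
  refine ⟨Ω × Inp d κ', inferInstance, μ.prod (γs d κ'), inferInstance,
    fun O p => F O (aff A T p.1 p.2.2, p.2.1),
    hF.map (h := fun p : Inp d σ × (Ω × Inp d κ') => (aff A T p.1 p.2.2, p.2.1)) (by fun_prop)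
      (g := fun b : (Inp d σ × (Ω × Inp d κ')) × E d => b.2) measurable_snd, fun V hV => ?_⟩
  have hP := hS V hV
  have hmF := hP.meas
  refine ⟨by fun_prop, fun y => ?_, fun ω y y' => ?_, fun x φ hφ => ?_⟩
  · have h1 := hP.integrable_of (ν := γs d κ') (Y := fun η => aff A T y η) (by fun_prop)
      (integrable_aff A T y)
    have h2 := Measure.measurePreserving_swap (μ := μ) (ν := γs d κ')
    exact (h2.integrable_comp h1.1).2 h1
  · refine (hP.lip ω.1 _ _).trans ?_
    simp only [aff, add_sub_add_right_eq_sub, ← Finset.sum_sub_distrib, ← smul_sub]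
    refine (sum_le_sum fun t _ => mul_le_mul_of_nonneg_left (norm_sum_le _ _) (hL t)).trans
      (le_of_eq ?_)
    simp only [norm_smul, norm_eq_abs, mul_sum, sum_mul, mul_assoc]
    exact Finset.sum_comm
  -- the law of the run
  set f : Inp d τ → ℝ := fun u => ∫ ω, φ (F (oracle V) (u, ω)) ∂μ
  have hfm : StronglyMeasurable f :=
    ((hφ.continuous.measurable.comp hmF).stronglyMeasurable).integral_prod_right'
  set g : Inp d κ → ℝ := fun ζ => ∫ w, φ (val V (aff A S x ζ) + β • w) ∂γ d
  have hgm : StronglyMeasurable g := by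
    have h1 := hval V hV
    exact ((hφ.continuous.measurable.comp (by fun_prop :
      Measurable fun p : Inp d κ × E d =>
        val V (aff A S x p.1) + β • p.2)).stronglyMeasurable).integral_prod_right'
  have hI : Integrable (fun p : (Inp d κ × Inp d τ) × Ω =>
      φ (F (oracle V) (blur b (aff A S x p.1.1) p.1.2, p.2))) (((γs d κ).prod (γs d τ)).prod μ) :=
    integrable_lip (hP.integrable_of
      (Y := fun p : Inp d κ × Inp d τ => blur b (aff A S x p.1) p.2) (by unfold blur; fun_prop)
      fun t => (((integrable_aff A S x t).comp_fst (γs d τ)).add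
        (((integrable_coord (d := d) t).smul (b t)).comp_snd (γs d κ)))) hφ
  have hJ : Integrable (fun ζ => ∫ ξ, f (blur b (aff A S x ζ) ξ) ∂γs d τ) (γs d κ) :=
    hI.integral_prod_left.integral_prod_left
  have hclose : ∀ ζ, |∫ ξ, f (blur b (aff A S x ζ) ξ) ∂γs d τ - g ζ| ≤ ρ * wt (aff A S x ζ) := by
    intro ζ
    have h1 := hP.close (aff A S x ζ) φ hφ
    rwa [integral_prod _ (integrable_lip (hP.integrable_run _) hφ)] at h1
  have hgi : Integrable g (γs d κ) := by
    refine (hJ.abs.add ((integrable_wt_aff A S x).const_mul ρ)).mono' hgm.aestronglyMeasurable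
      (ae_of_all _ fun ζ => ?_)
    simp only [Pi.add_apply, norm_eq_abs]
    linarith [abs_sub_abs_le_abs_sub (g ζ) (∫ ξ, f (blur b (aff A S x ζ) ξ) ∂γs d τ),
      abs_sub_comm (g ζ) (∫ ξ, f (blur b (aff A S x ζ) ξ) ∂γs d τ), hclose ζ]
  have e1 : ∫ p, φ (F (oracle V) (aff A T (blur b' x p.1) p.2.2, p.2.1))
      ∂((γs d σ).prod (μ.prod (γs d κ'))) = ∫ ζ, ∫ ξ, f (blur b (aff A S x ζ) ξ) ∂γs d τ ∂γs d κ := by
    have hm : MeasurePreserving (fun p : Inp d σ × (Ω × Inp d κ') => ((p.1, p.2.2), p.2.1))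
        ((γs d σ).prod (μ.prod (γs d κ'))) (((γs d σ).prod (γs d κ')).prod μ) :=
      ((measurePreserving_prodAssoc _ _ _).symm MeasurableEquiv.prodAssoc).comp
        ((MeasurePreserving.id _).prod Measure.measurePreserving_swap)
    have hI1 : Integrable (fun p : (Inp d σ × Inp d κ') × Ω =>
        φ (F (oracle V) (aff A T (blur b' x p.1.1) p.1.2, p.2))) (((γs d σ).prod (γs d κ')).prod μ) :=
      integrable_lip (hP.integrable_of
        (Y := fun p : Inp d σ × Inp d κ' => aff A T (blur b' x p.1) p.2) (by fun_prop) fun t =>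
          ((integrable_finsetSum (univ : Finset σ) fun s _ =>
            (integrable_blur b' x s).smul (A t s)).comp_fst (γs d κ')).add
          ((integrable_finsetSum (univ : Finset κ') fun k _ =>
            (integrable_coord (d := d) k).smul (T t k)).comp_snd (γs d σ))) hφ
    calc _ = ∫ p, φ (F (oracle V) (aff A T (blur b' x p.1.1) p.1.2, p.2))
          ∂(((γs d σ).prod (γs d κ')).prod μ) := by
          rw [← hm.map_eq, integral_map hm.measurable.aemeasurable (by rw [hm.map_eq]; exact hI1.1)]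
      _ = ∫ p : Inp d σ × Inp d κ', f (aff A T (blur b' x p.1) p.2) ∂(γs d σ).prod (γs d κ') :=
          integral_prod _ hI1
      _ = _ := by
          rw [aff_law hcov x hfm]
          exact integral_prod (fun p : Inp d κ × Inp d τ => f (blur b (aff A S x p.1) p.2))
            hI.integral_prod_left
  rw [e1]
  refine (abs_sub_le _ (∫ ζ, g ζ ∂γs d κ) _).trans ?_
  rw [add_mul]
  refine add_le_add ?_ (hmix V hV x φ hφ)
  rw [← integral_sub hJ hgi]
  refine (abs_integral_le_integral_abs.trans (integral_mono (hJ.sub hgi).abs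
    ((integrable_wt_aff A S x).const_mul ρ) hclose)).trans ?_
  rw [integral_const_mul, mul_comm W, mul_assoc]
  exact mul_le_mul_of_nonneg_left (hwt x) hρ

/-- A weight for `Smp.mix`. -/
theorem integral_wt_aff_le (A : τ → σ → ℝ) (S : τ → κ → ℝ) (x : Inp d σ) :
    ∫ ζ, wt (aff A S x ζ) ∂γs d κ ≤ (1 + ∑ t, (∑ s, |A t s| + ∑ k, |S t k|)) * wt x := by
  have hw : √(d : ℝ) ≤ wt x := le_add_of_nonneg_right (sum_nonneg fun s _ => norm_nonneg _)
  have hs : ∀ s, ‖x s‖ ≤ wt x := fun s =>
    (single_le_sum (f := fun s => ‖x s‖) (fun s _ => norm_nonneg _) (mem_univ s)).trans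
      (le_add_of_nonneg_left (sqrt_nonneg _))
  have hk : ∀ k : κ, Integrable (fun ζ : Inp d κ => ‖ζ k‖) (γs d κ) := fun k =>
    (integrable_coord k).norm
  have hi : Integrable (fun ζ : Inp d κ => √(d : ℝ)
      + ∑ t, (∑ s, |A t s| * wt x + ∑ k, |S t k| * ‖ζ k‖)) (γs d κ) :=
    (integrable_const _).add (integrable_finsetSum (univ : Finset τ) fun t _ =>
      (integrable_const _).add (integrable_finsetSum (univ : Finset κ) fun k _ => (hk k).const_mul _))
  refine (integral_mono (integrable_wt_aff A S x) hi fun ζ => ?_).trans ?_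
  · refine add_le_add le_rfl (sum_le_sum fun t _ => ?_)
    refine (norm_add_le _ _).trans (add_le_add ?_ ?_) <;>
      refine (norm_sum_le _ _).trans (sum_le_sum fun j _ => ?_) <;>
      rw [norm_smul, norm_eq_abs]
    exact mul_le_mul_of_nonneg_left (hs j) (abs_nonneg _)
  · rw [integral_add (integrable_const _) (integrable_finsetSum (univ : Finset τ) fun t _ =>
        (integrable_const _).fun_add (integrable_finsetSum (univ : Finset κ) fun k _ =>
          (hk k).const_mul _)),
      integral_finsetSum _ fun t _ => (integrable_const _).fun_add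
        (integrable_finsetSum (univ : Finset κ) fun k _ => (hk k).const_mul _)]
    simp only [integral_const, probReal_univ, one_smul, add_mul, one_mul, sum_mul]
    refine add_le_add hw (sum_le_sum fun t _ => ?_)
    rw [integral_add (integrable_const _) (integrable_finsetSum (univ : Finset κ) fun k _ =>
        (hk k).const_mul _), integral_finsetSum _ fun k _ => (hk k).const_mul _]
    simp only [integral_const, probReal_univ, one_smul, add_mul, sum_mul]
    refine add_le_add le_rfl (sum_le_sum fun k _ => ?_)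
    rw [integral_const_mul, integral_coord k (f := fun w : E d => ‖w‖)
      continuous_norm.stronglyMeasurable]
    exact mul_le_mul_of_nonneg_left (Quarter.Tgt.γ_norm_le.trans hw) (abs_nonneg _)

end

end Vale.Agent.P347.Zero
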