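import Vale.Agent.P347.Zero.BinderPieces
import Vale.Agent.P347.Zero.BinderFacts
import Vale.Agent.P347.Zero.Mix

/-!
# P347, exponent 0: the binder below accuracy zero

One sample of the programme at a frozen Gaussian replaces the mean over the Gaussian slot; the
error is the variation of the programme in that slot, a small power of the dimension.
-/

namespace Vale.Agent.P347.Zero

open MeasureTheory ProbabilityTheory Real Finset Filter
open Vale.Agent.P347.Quarter (E γ)
open Vale.Agent.P347.Colour (Pt)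

noncomputable section

variable {d : ℕ}

/-- A smoothed `1`-Lipschitz test sees a frozen Gaussian up to twice the Lipschitz constant. -/
theorem mix_frozen {F : E d → E d} {L β : ℝ} (hL : 0 ≤ L) (hF : ∀ u u', ‖F u - F u'‖ ≤ L * ‖u - u'‖)
    {φ : E d → ℝ} (hφ : LipschitzWith 1 φ) :
    |∫ ζ : Inp d Unit, (∫ w, φ (F (ζ ()) + β • w) ∂γ d) ∂γs d Unit
      - ∫ w, φ ((∫ ξ, F ξ ∂γ d) + β • w) ∂γ d| ≤ L * (2 * √d) := by
  have hc : Continuous F := (LipschitzWith.of_dist_le_mul (K := L.toNNReal) fun a b => by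
    rw [Real.coe_toNNReal L hL, dist_eq_norm, dist_eq_norm]; exact hF a b).continuous
  have hn : Integrable (fun u : E d => ‖u‖) (γ d) := (IsGaussian.integrable_id).norm
  have hFi : Integrable F (γ d) :=
    ((hn.const_mul L).add (integrable_const ‖F 0‖)).mono' hc.aestronglyMeasurable
      (ae_of_all _ fun u => by
        have h := hF u 0
        rw [sub_zero] at h
        simpa using (norm_le_norm_sub_add _ (F 0)).trans (add_le_add h le_rfl))
  have hψi : ∀ v, Integrable (fun w => φ (v + β • w)) (γ d) := fun v =>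
    integrable_lip (integrable_noise v β) hφ
  set ψ : E d → ℝ := fun v => ∫ w, φ (v + β • w) ∂γ d
  have hψ : LipschitzWith 1 ψ := LipschitzWith.of_dist_le_mul fun a b => by
    rw [NNReal.coe_one, one_mul, Real.dist_eq, ← integral_sub (hψi a) (hψi b), ← norm_eq_abs]
    refine (norm_integral_le_of_norm_le_const (C := dist a b) (ae_of_all _ fun w => ?_)).trans
      (le_of_eq (by simp))
    rw [← dist_eq_norm]
    simpa using hφ.dist_le_mul (a + β • w) (b + β • w)
  set m := ∫ ξ, F ξ ∂γ d
  have hm : ∀ u, ‖F u - m‖ ≤ L * (‖u‖ + √d) := by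
    intro u
    have e : F u - m = ∫ ξ, F u - F ξ ∂γ d := by
      rw [integral_sub (integrable_const _) hFi]; simp [m]
    rw [e]
    refine (norm_integral_le_integral_norm _).trans ((integral_mono ((integrable_const _).sub hFi).norm
      (((integrable_const ‖u‖).add hn).const_mul L) fun ξ => ?_).trans ?_)
    · exact (hF u ξ).trans (mul_le_mul_of_nonneg_left (norm_sub_le _ _) hL)
    · simp only [Pi.add_apply]
      rw [integral_const_mul, integral_add (integrable_const _) hn]
      simpa using mul_le_mul_of_nonneg_left (add_le_add le_rfl Quarter.Tgt.γ_norm_le) hL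
  show |∫ ζ : Inp d Unit, ψ (F (ζ ())) ∂γs d Unit - ψ m| ≤ _
  rw [integral_coord (d := d) () (f := fun u => ψ (F u))
    (hψ.continuous.comp hc).stronglyMeasurable]
  have hi : Integrable (fun u => ψ (F u)) (γ d) := integrable_lip hFi hψ
  calc |∫ u, ψ (F u) ∂γ d - ψ m| = |∫ u, ψ (F u) - ψ m ∂γ d| := by
        rw [integral_sub hi (integrable_const _)]; simp
    _ ≤ ∫ u, L * (‖u‖ + √d) ∂γ d := by
        refine abs_integral_le_integral_abs.trans (integral_mono (hi.sub (integrable_const _)).abs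
          ((hn.add (integrable_const _)).const_mul L) fun u => ?_)
        have := hψ.norm_sub_le (F u) m
        rw [NNReal.coe_one, one_mul, norm_eq_abs] at this
        exact this.trans (hm u)
    _ ≤ L * (2 * √d) := by
        rw [integral_const_mul, integral_add hn (integrable_const _), two_mul]
        simpa using mul_le_mul_of_nonneg_left (add_le_add Quarter.Tgt.γ_norm_le le_rfl) hL

/-- Accuracy below zero: one sample of the programme. -/
theorem binder_base {ε : ℝ} (hε : 0 < ε) (hn : NodeOK ε (-(ε / 6))) : BinderOK ε (-(ε / 6)) := by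
  intro D α κin s hα hκin hs
  obtain ⟨κn, hκn, hn⟩ := hn α hα
  refine ⟨κin + κn + s + 2, by positivity, fun m κtop hm hκtop => ?_⟩
  obtain ⟨cn, η₁, hcn, hη₁, hn⟩ := hn (m + κn + κtop) (by positivity)
  refine ⟨2 * s + cn, min η₁ (ε / (6 * (κin + m + 1))), by positivity, lt_min hη₁ (by positivity),
    fun η hη hη' Cs => ?_⟩
  obtain ⟨Cn, hn⟩ := hn η hη (hη'.trans (min_le_left _ _))
  have hη2 : η * (6 * (κin + m + 1)) ≤ ε :=
    (le_div_iff₀ (by positivity)).1 (hη'.trans (min_le_right _ _))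
  have hmη := mul_nonneg hm hη.le
  have hκη := mul_nonneg hκin hη.le
  obtain ⟨N, hN⟩ := eventually_atTop.1 (ev_one_le.and ((ev_const Cs hη (show (-1 : ℝ) < 0 by norm_num)).and
    ((ev_const ((D : ℝ) + 1) hη (show (-1 : ℝ) < 0 by norm_num)).and ((ev_le Cn).and
      (ev_dom 1 (show -ε / 2 + m * η < 0 by linarith))))))
  set M := max Cn 1
  set K₁ : ℝ := ((D : ℝ) + 3) * ((D : ℝ) + 3) * (2 + 2 * (M * (1 + M) ^ D)) + 8 * 5 ^ D
  set C := max (max (N : ℝ) 1) (max (max (Cs ^ 2 * max Cn 0) (M ^ D)) K₁)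
  refine ⟨C, fun d hd σ _ _ hσ G a β Γ b qt Lt ρt ha ha1 hb hlin hdep hsize hΓ hΓ' hgr hG htop => ?_⟩
  have hC1 : 1 ≤ C := (le_max_right _ _).trans (le_max_left _ _)
  have hCC : Cs ^ 2 * max Cn 0 ≤ C := ((le_max_left _ _).trans (le_max_left _ _)).trans (le_max_right _ _)
  have hCM : M ^ D ≤ C := ((le_max_right _ _).trans (le_max_left _ _)).trans (le_max_right _ _)
  have hCK : K₁ ≤ C := (le_max_right _ _).trans (le_max_right _ _)
  obtain ⟨hd1, hCs, hD, hCn, he1⟩ := hN d (by
    exact_mod_cast ((le_max_left _ _).trans (le_max_left _ _)).trans hd)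
  have hd0 : (0 : ℝ) < d := by linarith
  set e := eAt ε η m d
  have he : 0 < e := eAt_pos hd0 m
  have he1' : e ≤ 1 := by simpa [e, eAt] using he1
  have hlin' : ∀ j, G.lin j = 0 := hlin
  obtain ⟨hLt, ht⟩ := htop
  have hcard : (Fintype.card (Option σ) : ℝ) ≤ D + 1 := by
    rw [Fintype.card_option]; push_cast
    have : (Fintype.card σ : ℝ) ≤ D := Nat.cast_le.2 hσ
    linarith
  set κ := κin + κn + s + 2
  have hκ : 0 ≤ κ := by positivity
  set θ := qp η d (κ + κtop) with hθ
  have hθ1 : θ ≤ 1 := qp_le_one hd1 hη.le (by positivity)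
  have hAdm := (Prog.adm_def _ _ _ _ _ _).1 hG
  have hbS : topS G / eAt ε η (m + 1 / 2) d ≤ β := by
    refine le_trans (div_le_div_of_nonneg_left (topS_nonneg G) he
      (eAt_mono hd1 hη.le (by linarith))) (le_trans (le_add_of_nonneg_left ?_) hAdm.1)
    exact sum_nonneg fun j _ => by simp [hlin']
  obtain ⟨q, hq, hS⟩ := smp_val (D := D) (κin := κin) (κtop := κtop) (mt := m + 1 / 2) (b := b)
    (qt := qt) (ρt := ρt) (θ := θ) hd1 hη.le (fun nd hnd => hn d hCn nd hnd) hLt hκn hκtop le_rfl he1'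
    ha.le hb hlin' hdep (by rw [qp_neg]; exact hsize) hCs hΓ hgr hG ht hbS (qp_nonneg _) hκin
    (le_of_eq (by simp only [hθ, κ]; ring_nf)) (hcard.trans hD)
  refine ⟨q, hq.trans (add_le_add (le_mul_of_one_le_left (sum_nonneg fun i _ => Nat.cast_nonneg _)
    hC1) ?_), ?_⟩
  · rw [show (Cs * qp η d (-s)) ^ 2 * (max Cn 0 * (d : ℝ) ^ (cn * η))
      = Cs ^ 2 * max Cn 0 * (qp η d (-s) ^ 2 * qp η d (-cn)) from by rw [qp_neg cn]; ring,
      sq (qp η d (-s)), qp_add hd0, qp_add hd0, show -s + -s + -cn = -(2 * s + cn) by ring, qp_neg]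
    exact mul_le_mul_of_nonneg_right hCC (Real.rpow_nonneg hd0.le _)
  have hT : 0 ≤ a ^ 2 + (a * θ) ^ 2 - (a * qp η d κ) ^ 2 := by
    nlinarith [pow_le_pow_left₀ (mul_nonneg ha.le (qp_nonneg (η := η) (d := d) κ))
      (mul_le_of_le_one_right ha.le (qp_le_one hd1 hη.le hκ)) 2, sq_nonneg (a * θ)]
  set Lg := fun o => Lt * M ^ D * topG e G o
  have hρt : 0 ≤ ∑ i, |G.coef i| * ρt i :=
    sum_nonneg fun i _ => mul_nonneg (abs_nonneg _) (ht i).1
  have hS0 := topS_nonneg G
  have hM : (1 : ℝ) ≤ M := le_max_right _ _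
  have hδ : 0 ≤ (d : ℝ) ^ (-(-(ε / 6))) := Real.rpow_nonneg hd0.le _
  set A : Option σ → Option σ → ℝ := fun t o => if o = t then 1 else 0
  set S : Option σ → Unit → ℝ := fun t _ => if t = none then a else 0
  set T : Option σ → Unit → ℝ := fun t _ => if t = none then √(a ^ 2 + (a * θ) ^ 2 - (a * qp η d κ) ^ 2)
    else 0
  have haff : ∀ (x : Inp d (Option σ)) ζ, aff A S x ζ = upd a x (ζ ()) := fun x ζ => by
    funext t
    cases t <;> simp [aff, A, S, upd, ite_smul]
  have hρ' : ∀ (V : Pt d → ℝ), Mem V → ∀ x : Inp d (Option σ), ∀ u u' : E d,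
      ‖G.val V (upd a x u) - G.val V (upd a x u')‖ ≤ 4 * (a * topG e G none) * ‖u - u'‖ := by
    intro V hV x u u'
    refine (Prog.val_lip_top hV he he1' hlin' hG _ _).trans (le_of_eq ?_)
    simp [upd, Fintype.sum_option, ← smul_sub, norm_smul, abs_of_pos ha]
    ring
  have hmix := hS.mix (W := D + 3) (β' := β)
    (ρ' := 8 * 5 ^ D * qp η d (-κin) * topS G) (val' := fun V x => ∫ ξ, G.val V
      (fun o => o.elim (x none + a • ξ) fun j => x (some j)) ∂γ d) A S T
    (fun o => o.elim (a * qp η d κ) fun j => b j * θ) ?_ ?_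
    (fun o => mul_nonneg (mul_nonneg hLt (pow_nonneg (zero_le_one.trans hM) D)) (topG_nonneg he.le G o))
    (fun V hV => (Prog.continuous_val hV hG).measurable) (fun x => ?_) fun V hV x φ hφ => ?_
  · have hb' : ∀ j, b j * (d : ℝ) ^ (-(κ + κtop) * η) = b j * θ := fun j => rfl
    simp only [hb']
    refine Smp.mono hmix le_rfl (fun o => ?_) ?_
    · simp only [A, apply_ite abs, abs_one, abs_zero, mul_ite, mul_one, mul_zero, Finset.sum_ite_eq,
        Finset.mem_univ, if_true]
      refine mul_le_mul_of_nonneg_right ?_ (topG_nonneg he.le G o)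
      calc Lt * M ^ D ≤ (Lt + 1) * C :=
            mul_le_mul (by linarith) hCM (pow_nonneg (zero_le_one.trans hM) D) (by linarith)
        _ = C * (Lt + 1) := mul_comm _ _
    · set R := ∑ i, |G.coef i| * ρt i + (Lt + 1) * topS G * (d : ℝ) ^ (-(-(ε / 6)))
      have hR : 0 ≤ R := by positivity
      have hc : (1 : ℝ) + Fintype.card (Option σ) ≤ D + 3 := by linarith
      have h1 : qp η d (-κin) * topS G ≤ R := by
        refine le_trans ?_ (le_add_of_nonneg_left hρt)
        rw [mul_comm]
        calc topS G * qp η d (-κin) ≤ topS G * (d : ℝ) ^ (-(-(ε / 6))) := by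
              refine mul_le_mul_of_nonneg_left (Real.rpow_le_rpow_of_exponent_le hd1 ?_) hS0
              linarith
          _ ≤ (Lt + 1) * topS G * (d : ℝ) ^ (-(-(ε / 6))) :=
              mul_le_mul_of_nonneg_right (le_mul_of_one_le_left hS0 (by linarith)) hδ
      have h2 : 2 * Γ * (∑ i, |G.coef i| * ρt i)
          + 2 * Γ * (Lt * M * (1 + M) ^ D) * e * topS G * (d : ℝ) ^ (-(-(ε / 6)))
          ≤ Γ * (2 + 2 * (M * (1 + M) ^ D)) * R := by
        have g1 : Lt * e * topS G * (d : ℝ) ^ (-(-(ε / 6))) ≤ R := by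
          refine le_trans ?_ (le_add_of_nonneg_left hρt)
          refine mul_le_mul_of_nonneg_right (mul_le_mul_of_nonneg_right ?_ hS0) hδ
          linarith [mul_le_of_le_one_right hLt he1']
        have g2 : ∑ i, |G.coef i| * ρt i ≤ R := le_add_of_nonneg_right (by positivity)
        calc _ = 2 * Γ * (∑ i, |G.coef i| * ρt i)
              + 2 * Γ * (M * (1 + M) ^ D) * (Lt * e * topS G * (d : ℝ) ^ (-(-(ε / 6)))) := by ring
          _ ≤ 2 * Γ * R + 2 * Γ * (M * (1 + M) ^ D) * R := by gcongr
          _ = _ := by ring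
      calc ((D : ℝ) + 3) * (_ * (1 + (Fintype.card (Option σ) : ℝ))) + 8 * 5 ^ D * qp η d (-κin) * topS G
          ≤ ((D : ℝ) + 3) * (Γ * (2 + 2 * (M * (1 + M) ^ D)) * R * ((D : ℝ) + 3))
              + 8 * 5 ^ D * (Γ * R) := by
            refine add_le_add (mul_le_mul_of_nonneg_left (mul_le_mul h2 hc (by positivity)
              (by positivity)) (by positivity)) ?_
            rw [mul_assoc (8 * 5 ^ D)]
            exact mul_le_mul_of_nonneg_left (h1.trans (le_mul_of_one_le_left hR hΓ)) (by positivity)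
        _ = K₁ * (Γ * R) := by simp only [K₁]; ring
        _ ≤ C * (Γ * R) := mul_le_mul_of_nonneg_right hCK (mul_nonneg (by linarith) hR)
        _ = _ := by simp only [R, topS]; ring
  · rintro (_ | j) (_ | j') <;>
      simp [A, S, T, ite_mul, mul_ite]
    · rw [Real.mul_self_sqrt hT]; ring
    · split_ifs with h₁ h₂ h₂
      · rw [h₁]
      · exact absurd h₁.symm h₂
      · exact absurd h₂.symm h₁
      · rfl
  · have h4 : 0 ≤ e * topS G * (d : ℝ) ^ (-(-(ε / 6))) := by positivity
    positivity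
  · refine (integral_wt_aff_le A S x).trans (mul_le_mul_of_nonneg_right ?_ (wt_nonneg x))
    simp [A, S, Fintype.sum_option, apply_ite abs, abs_of_pos ha]
    have : (Fintype.card σ : ℝ) ≤ D := Nat.cast_le.2 hσ
    linarith
  · simp only [haff]
    have hL0 : 0 ≤ 4 * (a * topG e G none) :=
      mul_nonneg (by norm_num) (mul_nonneg ha.le (topG_nonneg he.le G none))
    refine (mix_frozen hL0 (hρ' V hV x) hφ).trans ?_
    have hbl := Prog.grs_blur_top he (fun o => by
      cases o <;> simp [hb, mul_nonneg, ha.le, Real.rpow_nonneg hd0.le]) hG none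
    rw [← sum_mul] at hbl
    have h1 : a * topG e G none ≤ 5 ^ D * qp η d (-κin) * topS G := by
      have h2 : topG e G none * (a * qp η d κin) ≤ 5 ^ D * topS G :=
        le_trans hbl (mul_le_mul_of_nonneg_right (pow_le_pow_right₀ (by norm_num) hdep) hS0)
      calc a * topG e G none = topG e G none * (a * qp η d κin) * qp η d (-κin) := by
            rw [mul_assoc _ (a * _), mul_assoc a, qp_add hd0, add_neg_cancel, qp_zero]; ring
        _ ≤ 5 ^ D * topS G * qp η d (-κin) := mul_le_mul_of_nonneg_right h2 (qp_nonneg _)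
        _ = _ := by ring
    have hw : √(d : ℝ) ≤ wt x := le_add_of_nonneg_right (sum_nonneg fun _ _ => norm_nonneg _)
    calc 4 * (a * topG e G none) * (2 * √d)
        ≤ 4 * (5 ^ D * qp η d (-κin) * topS G) * (2 * wt x) :=
          mul_le_mul (mul_le_mul_of_nonneg_left h1 (by norm_num)) (by linarith) (by positivity)
            (mul_nonneg (by norm_num) (mul_nonneg (mul_nonneg (by positivity) (qp_nonneg _)) hS0))
      _ = _ := by ring

end

end Vale.Agent.P347.Zero
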