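import Vale.Agent.P347.Zero.BinderPieces

/-!
# P347, exponent 0: the exponents of the binder step

`κ` depends neither on the margin `m` nor on `κtop`; only `ue` and the margins below it do.
-/

namespace Vale.Agent.P347.Zero

open Real Filter

noncomputable section

/-- The exponents given to the binder step. -/
structure SE where
  κin : ℝ
  s : ℝ
  κn : ℝ
  κm : ℝ
  κB : ℝ
  κn₂ : ℝ
  c₁ : ℝ
  n : ℕ
  Nr : ℕ
  c₀ : ℕ
  m : ℝ
  κtop : ℝ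

namespace SE

variable (P : SE)

/-- All exponents are nonnegative. -/
structure Pos : Prop where
  κin : 0 ≤ P.κin
  s : 0 ≤ P.s
  κn : 0 ≤ P.κn
  κm : 0 ≤ P.κm
  κB : 0 ≤ P.κB
  κn₂ : 0 ≤ P.κn₂
  c₁ : 0 ≤ P.c₁
  m : 0 ≤ P.m
  κtop : 0 ≤ P.κtop

/-- The precision of the inner samplers. -/
def θe : ℝ := P.κm + P.κn + P.κB + P.κn₂ + P.c₁ + 1
/-- The precision of the programme. -/
def fe : ℝ := P.κin + P.κn + P.κn + P.s + 2
/-- The number of panels. -/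
def cN : ℝ := P.κin * P.c₀ + 1
/-- The precision of the slots at the first level. -/
def e0 : ℝ := P.θe + P.fe + P.cN + 3
/-- The exponent of the binder. -/
def κ : ℝ := P.e0 + 4 * (P.n + 1) * (P.cN + 2) + 2
/-- The scale of the values in units of the noise. -/
def p : ℝ := P.θe + 1
/-- The margin of the mean. -/
def mm : ℝ := P.m + P.p + 1
/-- The margin of the programme. -/
def mf : ℝ := P.m + P.κn + P.κn + P.p + 1
/-- The margin of the inner nodes of the output. -/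
def mo : ℝ := P.m + P.κn + P.κtop
/-- The scale of the field. -/
def ue : ℝ := P.e0 + P.κin + P.κn + P.κtop + P.s + 3
/-- The margin of the field. -/
def mΦ : ℝ := P.m + P.c₁ + P.ue + 1
/-- The common constant. -/
def Le : ℝ := P.s + P.κin + 2 * P.c₁ + 2
/-- The regularity loss. -/
def κK : ℝ := P.κin * (P.Nr + 1)
/-- A bound for everything multiplying `η`. -/
def big : ℝ := P.mΦ + (P.n + 3) * P.Le + P.κK + 1

variable {P}

theorem Pos.derived (h : P.Pos) :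
    0 ≤ P.θe ∧ 0 ≤ P.fe ∧ 0 ≤ P.cN ∧ 0 ≤ P.e0 ∧ 0 ≤ P.p ∧ 0 ≤ P.ue ∧ P.m ≤ P.mΦ ∧ 0 ≤ P.Le ∧
      0 ≤ P.κK ∧ 0 ≤ P.κ := by
  obtain ⟨h1, h2, h3, h4, h5, h6, h7, h8, h9⟩ := h
  have e1 : 0 ≤ P.θe := by unfold SE.θe; linarith
  have e2 : 0 ≤ P.fe := by unfold SE.fe; linarith
  have e3 : 0 ≤ P.cN := by unfold SE.cN; positivity
  have e4 : 0 ≤ P.e0 := by unfold SE.e0; linarith
  have e6 : 0 ≤ P.ue := by unfold SE.ue; linarith
  have e9 : 0 ≤ P.κK := by unfold SE.κK; positivity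
  exact ⟨e1, e2, e3, e4, by unfold SE.p; linarith, e6, by unfold SE.mΦ; linarith,
    by unfold SE.Le; linarith, e9, by unfold SE.κ; positivity⟩

theorem Pos.one_le_big (h : P.Pos) : 1 ≤ P.big := by
  obtain ⟨-, -, -, -, -, -, h1, h2, h3, -⟩ := h.derived
  have := mul_nonneg (show (0 : ℝ) ≤ P.n + 3 by positivity) h2
  unfold SE.big
  linarith [h.m]

/-- What is needed of the dimension. -/
structure Big (P : SE) (ε η A : ℝ) (M : ℕ) (Z : ℝ) (d : ℕ) : Prop where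
  d_one : (1 : ℝ) ≤ d
  h_one : (d : ℝ) ^ (-ε) ≤ 1
  Z_le : Z ≤ qp η d (-1)
  eΦ_one : eAt ε η P.mΦ d ≤ 1
  e_third : eAt ε η P.m d ≤ (d : ℝ) ^ (-ε / 3)
  third_one : (d : ℝ) ^ (-ε / 3) ≤ 1
  lam : Z * eAt ε η P.m d * qp η d (-(2 * P.Le)) ≤ (d : ℝ) ^ (-ε / 3)
  reg : Z * eAt ε η P.m d * qp η d (-P.κK) ≤ (d : ℝ) ^ (-ε / 3)
  lev : Z * eAt ε η P.m d * qp η d (-((P.n + 1) * P.Le)) ≤ 1
  lev_acc : Z * eAt ε η P.m d * qp η d (-((P.n + 1) * P.Le)) * (d : ℝ) ^ (-A)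
    ≤ (d : ℝ) ^ (-(A + ε / 6))
  col : Z * qp η d (-P.κK) * ((d : ℝ) ^ (-ε / 3)) ^ P.n ≤ (d : ℝ) ^ (-(A + ε / 6))
  quad : Z * qp η d (-P.κK) * qp η d (M - P.κin * (P.c₀ + 1)) ≤ (d : ℝ) ^ (-(A + ε / 6))
  sur : Z * qp η d (-P.κK) * (d : ℝ) ^ (-(A + ε / 6 + 1)) ≤ (d : ℝ) ^ (-(A + ε / 6))
  top_acc : eAt ε η P.m d * (d : ℝ) ^ (-A) ≤ (d : ℝ) ^ (-(A + ε / 6))

theorem ev_big (hP : P.Pos) {ε η A : ℝ} (hε : 0 < ε) (hη : 0 < η) (hA : 0 ≤ A + ε / 6)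
    (h1 : η * P.big ≤ ε / 12) (h2 : η * P.big ≤ 1 / 2) (hn : A + ε / 6 + 2 ≤ P.n * (ε / 3)) {M : ℕ}
    (hM : (A + ε / 6 + 1) / η + P.κin * (P.Nr + P.c₀ + 2) ≤ M) (Z : ℝ) :
    ∀ᶠ d : ℕ in atTop, Big P ε η A M Z d := by
  obtain ⟨-, -, -, -, -, -, hm, hLe, hK, -⟩ := hP.derived
  have hbig : P.mΦ + (P.n + 3) * P.Le + P.κK + 1 = P.big := rfl
  have a1 := mul_nonneg hη.le hLe
  have a2 := mul_nonneg (mul_nonneg hη.le hLe) (Nat.cast_nonneg P.n : (0 : ℝ) ≤ P.n)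
  have a3 := mul_nonneg hη.le hK
  have a4 := mul_nonneg hη.le hP.m
  have a5 := mul_le_mul_of_nonneg_left hm hη.le
  have a6 : η * P.big = η * P.mΦ + η * P.Le * P.n + 3 * (η * P.Le) + η * P.κK + η := by
    rw [← hbig]; ring
  have hMη : A + ε / 6 + 1 ≤ η * (M - P.κin * (P.Nr + P.c₀ + 2)) := by
    have := mul_le_mul_of_nonneg_left (le_sub_iff_add_le.2 hM) hη.le
    rwa [mul_div_cancel₀ _ hη.ne'] at this
  have a7 : η * P.κK = η * (P.κin * (P.Nr + 1)) := rfl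
  filter_upwards [ev_one_le, ev_dom 1 (show -ε < 0 by linarith), ev_const Z hη (x := -1) (by norm_num),
    ev_dom 1 (show -ε / 2 + P.mΦ * η < 0 by linarith),
    ev_dom 1 (show -ε / 2 + P.m * η < -ε / 3 by linarith),
    ev_dom 1 (show -ε / 3 < 0 by linarith),
    ev_dom Z (show -ε / 2 + P.m * η + -(-(2 * P.Le)) * η < -ε / 3 by linarith),
    ev_dom Z (show -ε / 2 + P.m * η + -(-P.κK) * η < -ε / 3 by linarith),
    ev_dom Z (show -ε / 2 + P.m * η + -(-((P.n + 1) * P.Le)) * η < 0 by linarith),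
    ev_dom Z (show -ε / 2 + P.m * η + -(-((P.n + 1) * P.Le)) * η + -A < -(A + ε / 6) by linarith),
    ev_dom Z (show -(-P.κK) * η + -ε / 3 * P.n < -(A + ε / 6) by linarith),
    ev_dom Z (show -(-P.κK) * η + -(M - P.κin * (P.c₀ + 1)) * η < -(A + ε / 6) by linarith),
    ev_dom Z (show -(-P.κK) * η + -(A + ε / 6 + 1) < -(A + ε / 6) by linarith),
    ev_dom 1 (show -ε / 2 + P.m * η + -A < -(A + ε / 6) by linarith)]
    with d g1 g2 g3 g4 g5 g6 g7 g8 g9 g10 g11 g12 g13 g14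
  have hd0 : (0 : ℝ) < d := by linarith
  simp only [Real.rpow_zero, one_mul] at g2 g4 g5 g6 g9 g14
  refine ⟨g1, g2, g3, g4, g5, g6, ?_, ?_, ?_, ?_, ?_, ?_, ?_, ?_⟩
  · rwa [qp, eAt, mul_assoc, ← Real.rpow_add hd0]
  · rwa [qp, eAt, mul_assoc, ← Real.rpow_add hd0]
  · rwa [qp, eAt, mul_assoc, ← Real.rpow_add hd0]
  · rwa [qp, eAt, mul_assoc Z ((d : ℝ) ^ (-ε / 2 + P.m * η)), ← Real.rpow_add hd0, mul_assoc,
      ← Real.rpow_add hd0]
  · rwa [qp, ← Real.rpow_natCast, ← Real.rpow_mul hd0.le, mul_assoc, ← Real.rpow_add hd0]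
  · rwa [qp, qp, mul_assoc, ← Real.rpow_add hd0]
  · rwa [qp, mul_assoc, ← Real.rpow_add hd0]
  · rwa [eAt, ← Real.rpow_add hd0]

end SE

end

end Vale.Agent.P347.Zero
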