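import Vale.Agent.P347.Zero.BinderCore
import Vale.Agent.P347.Zero.BinderPar

/-!
# P347, exponent 0: the output of the binder step
-/

namespace Vale.Agent.P347.Zero

open MeasureTheory Real Finset
open Vale.Agent.P347.Quarter (E γ)
open Vale.Agent.P347.Colour (Pt)

noncomputable section

variable {d : ℕ} {σ : Type} [Fintype σ] [DecidableEq σ]

/-- The constant of the error of the binder step. -/
def stepErr (D : ℕ) (W Cg c : ℝ) : ℝ :=
  (D + 8) * (W * (2 * (D + 3) * (1 + Cg) * (1 + c * (1 + c) ^ D) + c ^ D)) + 4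

theorem step_err_le {D : ℕ} {W Cg c Γ Lt T E k eA ρo Y : ℝ} (hk : 0 ≤ k) (hkD : k + 1 ≤ D + 2)
    (hW : 0 ≤ W) (hCg : 0 ≤ Cg) (hc : 0 ≤ c) (hΓ : 1 ≤ Γ) (hLt : 0 ≤ Lt) (hT : 0 ≤ T) (hE : 0 ≤ E)
    (heA : eA ≤ E) (hY : Y ≤ E)
    (hρo : ρo ≤ (2 * Γ * T + 2 * Γ * (Lt * c * (1 + c) ^ D) * eA) * (k + 1)) :
    (k + 7) * (W * (ρo * (1 + Cg) + Lt * c ^ D * Y)) + 4 * E
      ≤ stepErr D W Cg c * Γ * (T + (Lt + 1) * E) := by
  set U := T + (Lt + 1) * E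
  have hE1 : E ≤ (Lt + 1) * E := le_mul_of_one_le_left hE (by linarith)
  have hLE : Lt * E ≤ U := by
    simp only [U]
    linarith [mul_nonneg hLt hE]
  have hTU : T ≤ U := by
    simp only [U]
    linarith
  have hEU : E ≤ U := by
    simp only [U]
    linarith
  have hU : 0 ≤ U := hE.trans hEU
  set X := c * (1 + c) ^ D
  have hX : 0 ≤ X := mul_nonneg hc (pow_nonneg (by linarith) _)
  have h1 : 2 * Γ * T + 2 * Γ * (Lt * c * (1 + c) ^ D) * eA ≤ 2 * Γ * ((1 + X) * U) := by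
    have h2 : Lt * c * (1 + c) ^ D * eA ≤ X * U := by
      rw [show Lt * c * (1 + c) ^ D * eA = X * (Lt * eA) by simp only [X]; ring]
      exact mul_le_mul_of_nonneg_left ((mul_le_mul_of_nonneg_left heA hLt).trans hLE) hX
    have h3 := mul_le_mul_of_nonneg_left (add_le_add hTU h2) (show 0 ≤ 2 * Γ by linarith)
    linarith
  have h4 : ρo ≤ 2 * Γ * ((1 + X) * U) * (D + 3) :=
    hρo.trans ((mul_le_mul_of_nonneg_right h1 (by linarith)).trans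
      (mul_le_mul_of_nonneg_left (by linarith) (by positivity)))
  have h5 : Lt * c ^ D * Y ≤ c ^ D * (Γ * U) := by
    rw [show Lt * c ^ D * Y = c ^ D * (Lt * Y) by ring]
    exact mul_le_mul_of_nonneg_left (((mul_le_mul_of_nonneg_left hY hLt).trans hLE).trans
      (le_mul_of_one_le_left hU hΓ)) (pow_nonneg hc _)
  have h6 := add_le_add (mul_le_mul_of_nonneg_right h4 (show 0 ≤ 1 + Cg by linarith)) h5
  have h8 : E ≤ Γ * U := hEU.trans (le_mul_of_one_le_left hU hΓ)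
  have hpos : 0 ≤ W * (2 * Γ * ((1 + X) * U) * (D + 3) * (1 + Cg) + c ^ D * (Γ * U)) := by
    positivity
  have h9 : (k + 7) * (W * (ρo * (1 + Cg) + Lt * c ^ D * Y))
      ≤ (D + 8) * (W * (2 * Γ * ((1 + X) * U) * (D + 3) * (1 + Cg) + c ^ D * (Γ * U))) := by
    refine (mul_le_mul_of_nonneg_left (mul_le_mul_of_nonneg_left h6 hW) (by linarith)).trans ?_
    exact mul_le_mul_of_nonneg_right (by linarith) hpos
  refine le_trans (add_le_add h9 (mul_le_mul_of_nonneg_left h8 (by norm_num : (0 : ℝ) ≤ 4))) (le_of_eq ?_)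
  simp only [stepErr, X]
  ring

omit [Fintype σ] [DecidableEq σ] in
/-- The input scales of the output fit under the precision of the frozen slots. -/
theorem out_tau {η : ℝ} {Q : ℕ} {P : SE} (hP : P.Pos) (hd : (1 : ℝ) ≤ d) (hη : 0 ≤ η) (hQ : 4 ≤ Q)
    (hQ' : (Q : ℝ) ≤ qp η d (-(P.cN + 2))) (h2 : 2 ≤ qp η d (-1)) :
    2 * qp η d P.κ ^ 2 ≤ 1 ∧
      2 * qp η d P.κ ^ 2 ≤ (qp η d P.e0 / (Q : ℝ) ^ (4 * (P.n + 1))) ^ 2 ∧
      ∀ b : σ → ℝ, (∀ j, 0 ≤ b j) → ∀ j, 0 ≤ b j * qp η d (P.κ + P.κtop) ∧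
        b j * qp η d (P.κ + P.κtop)
          ≤ b j * qp η d P.κtop * (qp η d P.e0 / (Q : ℝ) ^ (4 * (P.n + 1))) := by
  obtain ⟨-, -, hcN, he0, -, -, -, -, -, -⟩ := hP.derived
  have hd0 : (0 : ℝ) < d := by linarith
  set X := qp η d (P.e0 + 4 * (P.n + 1) * (P.cN + 2))
  have hX : X ≤ qp η d P.e0 / (Q : ℝ) ^ (4 * (P.n + 1)) := by
    have hQ0 : (0 : ℝ) < Q := by exact_mod_cast (show 0 < Q by omega)
    rw [le_div_iff₀ (pow_pos hQ0 _)]
    refine (mul_le_mul_of_nonneg_left (pow_le_pow_left₀ hQ0.le hQ' _) (qp_nonneg _)).trans ?_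
    rw [qp_pow hd0, qp_add hd0]
    refine qp_le hd hη ?_
    push_cast
    linarith
  have hκX : qp η d P.κ = X * qp η d 2 := by
    rw [qp_add hd0]
    rfl
  have h12 : qp η d 2 ≤ 1 / 2 := by
    refine le_trans (qp_le hd hη (show (1 : ℝ) ≤ 2 by norm_num)) ?_
    have h1 : qp η d 1 * qp η d (-1) = 1 := by rw [qp_add hd0, add_neg_cancel, qp_zero]
    linarith [mul_le_mul_of_nonneg_left h2 (qp_nonneg (η := η) (d := d) 1)]
  have hq2 : 2 * qp η d 2 ^ 2 ≤ 1 := by nlinarith [qp_nonneg (η := η) (d := d) 2]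
  have hτ2 : 2 * qp η d P.κ ^ 2 ≤ X ^ 2 := by
    rw [hκX, mul_pow]
    nlinarith [mul_le_mul_of_nonneg_left hq2 (sq_nonneg X)]
  refine ⟨hτ2.trans (pow_le_one₀ (qp_nonneg _) (qp_le_one hd hη (by positivity))),
    hτ2.trans (pow_le_pow_left₀ (qp_nonneg _) hX 2), fun b hb j =>
      ⟨mul_nonneg (hb j) (qp_nonneg _), ?_⟩⟩
  rw [mul_assoc, ← qp_add hd0, mul_comm (qp η d P.κ)]
  refine mul_le_mul_of_nonneg_left (mul_le_mul_of_nonneg_left ?_ (qp_nonneg _)) (hb j)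
  rw [hκX]
  exact (mul_le_of_le_one_right (qp_nonneg _) (qp_le_one hd hη zero_le_two)).trans hX

omit [Fintype σ] [DecidableEq σ] in
/-- The iteration stays in the scale, and its error gains. -/
theorem out_lev {ε η A W Cg Z S : ℝ} {M : ℕ} {P : SE} (hbig : P.Big ε η A M Z d) (hS : 0 ≤ S)
    (hZ1 : 2 * (8 * W * (1 + Cg)) ^ P.n ≤ Z) :
    (8 * W * qp η d (-P.Le) * (1 + Cg)) ^ P.n * (qp η d (-P.Le) * S) ≤ S / (2 * eAt ε η P.m d) ∧
      S * ((8 * W * qp η d (-P.Le) * (1 + Cg)) ^ P.n * qp η d (-P.Le)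
        * (2 * eAt ε η P.m d * (d : ℝ) ^ (-A))) ≤ S * (d : ℝ) ^ (-(A + ε / 6)) := by
  have hd0 : (0 : ℝ) < d := by linarith [hbig.d_one]
  have he : 0 < eAt ε η P.m d := Real.rpow_pos_of_pos hd0 _
  have hΛn : (8 * W * qp η d (-P.Le) * (1 + Cg)) ^ P.n * qp η d (-P.Le)
      = (8 * W * (1 + Cg)) ^ P.n * qp η d (-((P.n + 1) * P.Le)) := by
    rw [show 8 * W * qp η d (-P.Le) * (1 + Cg) = 8 * W * (1 + Cg) * qp η d (-P.Le) by ring,
      mul_pow, mul_assoc, qp_pow hd0, qp_add hd0]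
    ring_nf
  have h0 : 0 ≤ eAt ε η P.m d * qp η d (-((P.n + 1) * P.Le)) := mul_nonneg he.le (qp_nonneg _)
  refine ⟨?_, mul_le_mul_of_nonneg_left (le_trans ?_ hbig.lev_acc) hS⟩
  · rw [← mul_assoc, hΛn, le_div_iff₀ (by positivity)]
    have h1 := mul_le_mul_of_nonneg_left
      ((mul_le_mul_of_nonneg_right hZ1 h0).trans ((mul_assoc Z _ _).symm.trans_le hbig.lev)) hS
    linarith
  · rw [hΛn]
    have := mul_le_mul_of_nonneg_right hZ1 (mul_nonneg h0 (Real.rpow_nonneg hd0.le (-A)))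
    linarith

omit [Fintype σ] [DecidableEq σ] in
/-- The combination of the nodes fits into the output noise. -/
theorem out_noise {ε η W S m : ℝ} (hd : (1 : ℝ) ≤ d) (hW : 1 ≤ W) (hS : 0 ≤ S)
    (hW4 : 4 * (W + 1) ^ 2 ≤ qp η d (-1)) :
    (W * (S / eAt ε η (m + 1 / 2) d)) ^ 2
      ≤ √((S / eAt ε η m d) ^ 2 - (S / (2 * eAt ε η m d)) ^ 2) ^ 2 := by
  have hd0 : (0 : ℝ) < d := by linarith
  have he : 0 < eAt ε η m d := Real.rpow_pos_of_pos hd0 _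
  have hWh : 2 * W ≤ qp η d (-(1 / 2)) := by
    refine le_of_pow_le_pow_left₀ two_ne_zero (qp_nonneg _) ?_
    rw [qp_pow hd0, show -(1 / 2) * ((2 : ℕ) : ℝ) = (-1 : ℝ) by norm_num]
    nlinarith
  have hb₀ : W * (S / eAt ε η (m + 1 / 2) d) ≤ S / (2 * eAt ε η m d) := by
    rw [eAt_shift hd0, ← mul_div_assoc, div_le_div_iff₀ (mul_pos he (qp_pos hd0 _)) (by positivity)]
    linarith [mul_le_mul_of_nonneg_left hWh (mul_nonneg hS he.le)]
  have hS2 : (S / eAt ε η m d) ^ 2 = 4 * (S / (2 * eAt ε η m d)) ^ 2 := by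
    rw [div_pow, div_pow, mul_pow]
    field_simp
    ring
  have h1 := pow_le_pow_left₀ (mul_nonneg (zero_le_one.trans hW)
    (div_nonneg hS (le_of_lt (eAt_pos (ε := ε) (η := η) hd0 (m + 1 / 2))))) hb₀ 2
  rw [Real.sq_sqrt (by rw [hS2]; linarith [sq_nonneg (S / (2 * eAt ε η m d))]), hS2]
  linarith [sq_nonneg (S / (2 * eAt ε η m d))]

omit [Fintype σ] [DecidableEq σ] in
/-- The queries of one run. -/
theorem out_count {η cn Cn Cs : ℝ} {n Q qo : ℕ} {T : ℝ} (qm qf qΦ : ℕ) {s cN : ℝ}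
    (hd : (1 : ℝ) ≤ d) (hQ : (Q : ℝ) ≤ qp η d (-(cN + 2)))
    (hqo : (qo : ℝ) ≤ T + (Cs * qp η d (-s)) ^ 2 * (max Cn 0 * (d : ℝ) ^ (cn * η))) :
    (((n + 1) * (qo + Q ^ (3 * n) * (qm + qf + qΦ)) : ℕ) : ℝ)
      ≤ (n + 1) * T + (n + 1) * (Cs * Cs * max Cn 1 * qp η d (-(2 * s + cn))
          + qp η d (-(3 * n * (cN + 2))) * ((qm : ℝ) + qf + qΦ)) := by
  have hd0 : (0 : ℝ) < d := by linarith
  have hsm : (Cs * qp η d (-s)) ^ 2 * (max Cn 0 * (d : ℝ) ^ (cn * η))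
      ≤ Cs * Cs * max Cn 1 * qp η d (-(2 * s + cn)) := by
    rw [← qp_neg, show -(2 * s + cn) = -s + -s + -cn by ring, ← qp_add hd0, ← qp_add hd0]
    calc (Cs * qp η d (-s)) ^ 2 * (max Cn 0 * qp η d (-cn))
        ≤ (Cs * qp η d (-s)) ^ 2 * (max Cn 1 * qp η d (-cn)) :=
          mul_le_mul_of_nonneg_left (mul_le_mul_of_nonneg_right (max_le_max le_rfl zero_le_one)
            (qp_nonneg _)) (sq_nonneg _)
      _ = _ := by ring
  have hQn : ((Q : ℝ)) ^ (3 * n) ≤ qp η d (-(3 * n * (cN + 2))) := by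
    refine (pow_le_pow_left₀ (Nat.cast_nonneg Q) hQ _).trans (le_of_eq ?_)
    rw [qp_pow hd0]
    push_cast
    ring_nf
  push_cast
  rw [← mul_add]
  refine mul_le_mul_of_nonneg_left ?_ (by positivity)
  rw [← add_assoc]
  exact add_le_add (hqo.trans (add_le_add le_rfl hsm))
    (mul_le_mul_of_nonneg_right hQn (by positivity))

theorem step_out {ε η A α cn Cn Cs Cg W Z a β Γ Lt : ℝ} {M D R Q qm qf qΦ : ℕ} {P : SE}
    (hP : P.Pos) (hη : 0 < η) (hbig : P.Big ε η A M Z d)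
    {rs ws : Fin R → ℝ} {G : Prog (Option σ)} {PA : Prog (Option (σ ⊕ Bool))} {b : σ → ℝ}
    {qt : Fin G.num → ℕ} {ρt : Fin G.num → ℝ}
    (h : BinderData P.n rs ws G PA a (topS G / (2 * eAt ε η P.m d)) d b
      (fun j => b j * qp η d P.κtop) (fun o => topG (eAt ε η P.m d) G o) (topS G) qm qf qΦ
      (qp η d P.θe) (qp η d P.fe) (qp η d P.e0) (qp η d P.ue) (qp η d P.p) (qp η d (P.cN + 1)) W
      (qp η d (-P.Le)) (2 * eAt ε η P.m d * (d : ℝ) ^ (-A)))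
    (hn : NodeAt ε A α P.κn P.mo cn η Cn d)
    (hσ : Fintype.card σ ≤ D) (hb : ∀ j, 0 ≤ b j) (hlin : ∀ o, G.lin o = 0) (hdep : G.depth ≤ D)
    (hCs : 1 ≤ Cs) (hsize : (G.size : ℝ) ≤ Cs * qp η d (-P.s)) (hΓ : 1 ≤ Γ) (hgr : G.Grow d Γ)
    (hG : G.Adm ((d : ℝ) ^ (-ε)) ((d : ℝ) ^ (-α * η)) (eAt ε η P.m d)
      (fun o => o.elim (a * qp η d P.κin) b) β)
    (ht : TopOK ε η (P.m + 1 / 2) P.κtop d G qt Lt ρt)
    (hQ : 4 ≤ Q) (hσQ : Fintype.card σ + 3 ≤ Q) (hRQ : (P.n + 1) * R + 2 * (P.n + 1) ≤ Q)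
    (hnQ : P.n + 2 ≤ Q) (hQ' : (Q : ℝ) ≤ qp η d (-(P.cN + 2)))
    (hli : ∑ j, |li (eqNode P.n 0 1) 0 1 j| ≤ W) (hCg : 0 ≤ Cg)
    (hZ1 : 2 * (8 * W * (1 + Cg)) ^ P.n ≤ Z) (hZ2 : Cs ≤ Z) (hZ3 : 4 * (W + 1) ^ 2 ≤ Z)
    (hZ4 : (D : ℝ) + 3 ≤ Z)
    (hgrow : ∀ V, Mem (d := d) V → ∀ k ≤ P.n, ∀ (y : Inp d (σ ⊕ Fin 4)) (i : Fin (P.n + 1)),
      ‖(itB P.n rs ws V G PA a (topS G / (2 * eAt ε η P.m d)) y k i).1‖
        + ‖(itB P.n rs ws V G PA a (topS G / (2 * eAt ε η P.m d)) y k i).2‖ ≤ Cg * wt y)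
    (hmeas : ∀ V, Mem (d := d) V → Measurable fun y =>
      outB P.n rs ws V G PA a (topS G / (2 * eAt ε η P.m d)) y P.n)
    (hideal : ∀ V, Mem (d := d) V → ∀ (x : Inp d (Option σ)) (φ : E d → ℝ), LipschitzWith 1 φ →
      |∫ ζ, (∫ w, φ (outB P.n rs ws V G PA a (topS G / (2 * eAt ε η P.m d)) (mkB a x ζ) P.n
          + √((topS G / eAt ε η P.m d) ^ 2 - (topS G / (2 * eAt ε η P.m d)) ^ 2) • w) ∂γ d)
          ∂γs d (Fin 3)
        - ∫ w, φ ((∫ u, G.val V (upd a x u) ∂γ d) + (topS G / eAt ε η P.m d) • w) ∂γ d|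
        ≤ 4 * topS G * (d : ℝ) ^ (-(A + ε / 6)) * wt x) :
    ∃ q : ℕ, (q : ℝ) ≤ (P.n + 1) * (∑ i, (qt i : ℝ))
        + (P.n + 1) * (Cs * Cs * max Cn 1 * qp η d (-(2 * P.s + cn))
          + qp η d (-(3 * P.n * (P.cN + 2))) * ((qm : ℝ) + qf + qΦ)) ∧
      Smp (d := d) (σ := Option σ) q
        (fun o => o.elim (a * qp η d P.κ) fun j => b j * qp η d (P.κ + P.κtop))
        (fun o => 2 * W * max Cn 1 ^ D * (Lt + 1) * topG (eAt ε η P.m d) G o) β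
        (stepErr D W Cg (max Cn 1) * Γ * (∑ i, |G.coef i| * ρt i
          + (Lt + 1) * topS G * (d : ℝ) ^ (-(A + ε / 6))))
        (fun V x => ∫ u, G.val V (upd a x u) ∂γ d) := by
  obtain ⟨hθe, -, hcN, he0, -, -, -, -, -, -⟩ := hP.derived
  have hd := hbig.d_one
  have hd0 : (0 : ℝ) < d := by linarith
  have hη' := hη.le
  have he : 0 < eAt ε η P.m d := Real.rpow_pos_of_pos hd0 _
  have hS := topS_nonneg G
  have hW0 : (0 : ℝ) ≤ W := zero_le_one.trans h.one_le_W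
  have hc0 : (0 : ℝ) ≤ max Cn 1 := zero_le_one.trans (le_max_right _ _)
  have hσr : (Fintype.card σ : ℝ) ≤ D := Nat.cast_le.2 hσ
  have hcard : (Fintype.card (Option σ) : ℝ) = Fintype.card σ + 1 := by
    rw [Fintype.card_option]; push_cast; ring
  have hW4 : 4 * (W + 1) ^ 2 ≤ qp η d (-1) := hZ3.trans hbig.Z_le
  have hW1 : W ≤ qp η d (-1) := by linarith [sq_nonneg W, mul_nonneg hW0 (zero_le_one : (0:ℝ) ≤ 1)]
  obtain ⟨qo, hqo, ho⟩ := smp_val (D := D) (b₁ := topS G / eAt ε η (P.m + 1 / 2) d)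
    (θ := qp η d (P.κin + P.κn + P.κtop + P.s + 2)) hd hη' hn ht.1 hP.κn hP.κtop
    (le_of_eq rfl : P.m + P.κn + P.κtop ≤ P.mo) (hbig.e_third.trans hbig.third_one) h.a_pos.le hb
    hlin hdep hsize (hZ2.trans hbig.Z_le) hΓ hgr hG ht.2 le_rfl (qp_nonneg _) hP.κin le_rfl
    (by linarith [hbig.Z_le])
  obtain ⟨hτ, hτB, hb'⟩ := out_tau (σ := σ) hP hd hη' hQ hQ'
    (by linarith [sq_nonneg W, h.one_le_W])
  obtain ⟨hΓg, hY⟩ := out_lev (W := W) (Cg := Cg) hbig hS hZ1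
  have hρo : 0 ≤ (2 * Γ * (∑ i, |G.coef i| * ρt i)
      + 2 * Γ * (Lt * max Cn 1 * (1 + max Cn 1) ^ D) * eAt ε η P.m d * topS G * (d : ℝ) ^ (-A))
      * (1 + Fintype.card (Option σ)) := by
    have := ht.1
    have h1 : 0 ≤ ∑ i, |G.coef i| * ρt i :=
      sum_nonneg fun i _ => mul_nonneg (abs_nonneg _) (ht.2 i).1
    positivity
  have hθt : W * qp η d P.ue ≤ qp η d (P.κin + P.κn + P.κtop + P.s + 2) := by
    refine (mul_le_mul_of_nonneg_right hW1 (qp_nonneg _)).trans ?_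
    rw [qp_add hd0]
    refine qp_le hd hη' ?_
    rw [SE.ue]
    linarith
  have hτt : ∀ l, b l * qp η d P.κtop * qp η d P.e0
      ≤ b l * qp η d (P.κin + P.κn + P.κtop + P.s + 2) := by
    intro l
    rw [mul_assoc, qp_add hd0]
    refine mul_le_mul_of_nonneg_left (qp_le hd hη' ?_) (hb l)
    rw [SE.e0, SE.fe]
    linarith [hP.κn]
  have hcore := binder_core h hQ hσQ hRQ hnQ hCg hgrow hΓg hθt hτt
    (mul_nonneg ht.1 (pow_nonneg hc0 _)) hρo hli (out_noise hd h.one_le_W hS hW4) ho (qp_nonneg _)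
    hτ hτB (hb' b hb) hmeas hideal
  have hβ : topS G / eAt ε η P.m d ≤ β := by
    have h1 := ((Prog.adm_def _ _ _ _ _ _).1 hG).1
    simp only [hlin, abs_zero, zero_mul, sum_const_zero, zero_add] at h1
    exact h1
  refine ⟨_, out_count qm qf qΦ hd hQ' hqo,
    ((hcore.noise (pow_le_pow_left₀ (div_nonneg hS he.le) hβ 2)).mono le_rfl (fun o => ?_) ?_)⟩
  · refine mul_le_mul_of_nonneg_right ?_ (topG_nonneg he.le G o)
    linarith [mul_nonneg hW0 (pow_nonneg hc0 D)]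
  · have herr := step_err_le (D := D) (W := W) (Cg := Cg) (c := max Cn 1) (Γ := Γ) (Lt := Lt)
      (T := ∑ i, |G.coef i| * ρt i) (E := topS G * (d : ℝ) ^ (-(A + ε / 6)))
      (eA := topS G * (eAt ε η P.m d * (d : ℝ) ^ (-A))) (k := (Fintype.card σ : ℝ) + 1)
      (ρo := (2 * Γ * (∑ i, |G.coef i| * ρt i)
          + 2 * Γ * (Lt * max Cn 1 * (1 + max Cn 1) ^ D) * eAt ε η P.m d * topS G * (d : ℝ) ^ (-A))
          * (1 + Fintype.card (Option σ)))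
      (Y := topS G * ((8 * W * qp η d (-P.Le) * (1 + Cg)) ^ P.n * qp η d (-P.Le)
        * (2 * eAt ε η P.m d * (d : ℝ) ^ (-A))))
      (by positivity) (by linarith) hW0 hCg hc0 hΓ ht.1
      (sum_nonneg fun i _ => mul_nonneg (abs_nonneg _) (ht.2 i).1)
      (mul_nonneg hS (Real.rpow_nonneg hd0.le _))
      (mul_le_mul_of_nonneg_left hbig.top_acc hS) hY
      (le_of_eq (by rw [hcard]; ring))
    exact le_trans (le_of_eq (by ring)) (herr.trans (le_of_eq (by ring)))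

end

end Vale.Agent.P347.Zero
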