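import Vale.Agent.P347.Zero.BinderFacts
import Vale.Agent.P347.Zero.BinderPar

/-!
# P347, exponent 0: the ideal binder at one dimension
-/

namespace Vale.Agent.P347.Zero

open MeasureTheory Real Finset
open Vale.Agent.P347.Quarter (E γ)
open Vale.Agent.P347.Colour (Pt)

noncomputable section

variable {d : ℕ} {σ : Type} [Fintype σ] [DecidableEq σ]

/-- The conclusion of `exists_binder_ideal` at one instance. -/
def IdealAt (n Nr c₀ M N : ℕ) (C : ℝ) (rs ws : Fin (N * (M + 1)) → ℝ) (G : Prog (Option σ))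
    (PA : Prog (Option (σ ⊕ Bool))) (a b₀ β : ℝ) (d : ℕ) : Prop :=
  ∀ K KM Λ δ : ℝ, 0 ≤ K → C * K ≤ 1 → 0 ≤ KM → 0 ≤ Λ → C * Λ ≤ 1 → 0 ≤ δ → δ ≤ 1 →
    (∀ V, Mem (d := d) V → ∀ x : Inp d (Option σ),
      Temp (vecT (fB V G a b₀ x)) ∧ RB Nr (gradT (vecT (fB V G a b₀ x))) K ∧
        RB (c₀ * (M + 1)) (gradT (vecT (fB V G a b₀ x))) KM) →
    (∀ V, Mem (d := d) V → ∀ (x : Inp d (Option σ)) (u u' : E d),
      ‖fB V G a b₀ x u - fB V G a b₀ x u'‖ ≤ Λ * ‖u - u'‖) →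
    (∀ V, Mem (d := d) V → ∀ (x : Inp d (Option σ)) (u u' K₁ K₂ H H' : E d),
      ‖phiB V PA a b₀ x u K₁ H - phiB V PA a b₀ x u' K₂ H'‖
        ≤ Λ * (‖u - u'‖ + ‖K₁ - K₂‖ + ‖H - H'‖)) →
    (∀ V, Mem (d := d) V → ∀ (x : Inp d (Option σ)) (u : E d),
      Integrable (fun q : E d × E d =>
          ‖phiB V PA a b₀ x u q.1 q.2 - (fderiv ℝ (fB V G a b₀ x) u).adjoint q.1‖ ^ 2)
        ((γ d).prod (γ d)) ∧
      ∫ q : E d × E d,
          ‖phiB V PA a b₀ x u q.1 q.2 - (fderiv ℝ (fB V G a b₀ x) u).adjoint q.1‖ ^ 2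
          ∂(γ d).prod (γ d) ≤ (δ * wt (upd a x u)) ^ 2) →
    ∀ V, Mem (d := d) V → ∀ k : ℕ,
      (∀ (y : Inp d (σ ⊕ Fin 4)) (i : Fin (n + 1)),
        ‖(itB n rs ws V G PA a b₀ y k i).1‖ + ‖(itB n rs ws V G PA a b₀ y k i).2‖
          ≤ C ^ (k + 1) * wt y) ∧
      Measurable (fun y : Inp d (σ ⊕ Fin 4) => outB n rs ws V G PA a b₀ y k) ∧
      ∀ (x : Inp d (Option σ)) (φ : E d → ℝ), LipschitzWith 1 φ →
        |∫ ζ, ∫ w, φ (outB n rs ws V G PA a b₀ (mkB a x ζ) k + √(β ^ 2 - b₀ ^ 2) • w)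
              ∂γ d ∂γs d (Fin 3)
            - ∫ w, φ ((∫ u, G.val V (upd a x u) ∂γ d) + β • w) ∂γ d|
          ≤ b₀ * C * K * (√d * (K ^ n + KM * (1 / (N : ℝ)) ^ M + (C * (K + Λ)) ^ k) + δ * wt x)

theorem step_ideal {ε η A α a β Z Cid CR CRM CA : ℝ} {M N D : ℕ} {P : SE} (hP : P.Pos)
    (hη : 0 < η) (hA : 0 ≤ A + ε / 6) (hbig : P.Big ε η A M Z d) {rs ws : Fin (N * (M + 1)) → ℝ}
    {G : Prog (Option σ)} {PA : Prog (Option (σ ⊕ Bool))} {b : σ → ℝ}
    (hid : IdealAt P.n P.Nr P.c₀ M N Cid rs ws G PA a (topS G / (2 * eAt ε η P.m d))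
      (topS G / eAt ε η P.m d) d)
    (hR : ∀ V, Mem (d := d) V → ∀ x : Inp d (Option σ),
      Temp (vecT (fB V G a (topS G / (2 * eAt ε η P.m d)) x)) ∧
      RB P.Nr (gradT (vecT (fB V G a (topS G / (2 * eAt ε η P.m d)) x)))
        ((topS G / (2 * eAt ε η P.m d))⁻¹ * (CR * (qp η d P.κin)⁻¹ ^ (P.Nr + 1) * topS G)) ∧
      RB (P.c₀ * (M + 1)) (gradT (vecT (fB V G a (topS G / (2 * eAt ε η P.m d)) x)))
        ((topS G / (2 * eAt ε η P.m d))⁻¹
          * (CRM * (qp η d P.κin)⁻¹ ^ (P.c₀ * (M + 1) + 1) * topS G)))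
    (ha : 0 < a) (ha1 : a ≤ 1) (hb : ∀ j, 0 ≤ b j) (hdep : G.depth ≤ D) (hlin : ∀ o, G.lin o = 0)
    (hG : G.Adm ((d : ℝ) ^ (-ε)) ((d : ℝ) ^ (-α * η)) (eAt ε η P.m d)
      (fun o => o.elim (a * qp η d P.κin) b) β) (hS : 0 < topS G)
    (hgain : a * topG (eAt ε η P.m d) G none ≤ qp η d (-P.Le) * topS G)
    (hPlin : ∀ o, PA.lin o = 0)
    (hPadm : PA.Adm ((d : ℝ) ^ (-ε)) ((d : ℝ) ^ (-(α + P.c₁) * η)) (eAt ε η P.mΦ d)
      (bAdj a (qp η d P.c₁) b) (topS PA / eAt ε η P.mΦ d))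
    (hPg : ∀ o : Option σ, topG (eAt ε η P.mΦ d) PA (o.elim none fun j => some (.inl j))
      ≤ CA * qp η d (-P.c₁) * topG (eAt ε η P.m d) G o)
    (hPk : ∀ k : Bool, topG (eAt ε η P.mΦ d) PA (some (.inr k)) ≤ CA * qp η d (-P.c₁) * topS G)
    (hPerr : ∀ V, Mem (d := d) V → ∀ x : Inp d (Option σ),
      Integrable (fun p : E d × E d => ‖PA.val V (inpAdj x p.1 p.2)
          - a • (fderiv ℝ (fun y => G.val V (Function.update x none y)) (x none)).adjoint p.1‖ ^ 2)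
        ((γ d).prod (γ d)) ∧
      ∫ p : E d × E d, ‖PA.val V (inpAdj x p.1 p.2)
          - a • (fderiv ℝ (fun y => G.val V (Function.update x none y)) (x none)).adjoint p.1‖ ^ 2
          ∂(γ d).prod (γ d) ≤ (CA * (d : ℝ) ^ (-(A + ε / 6 + 1)) * topS G * wt x) ^ 2)
    (hN : qp η d (-P.cN) ≤ N) (hCid : 1 ≤ Cid) (hCR : 1 ≤ CR) (hCRM : 0 ≤ CRM) (hCA : 1 ≤ CA)
    (z1 : 4 * Cid * CR ≤ Z) (z2 : 2 * Cid * CR * CRM ≤ Z) (z3 : 2 * Cid * CR * CA ≤ Z)
    (z4 : 48 * Cid ≤ Z) :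
    ∀ V, Mem (d := d) V →
      (∀ k ≤ P.n, ∀ (y : Inp d (σ ⊕ Fin 4)) (i : Fin (P.n + 1)),
        ‖(itB P.n rs ws V G PA a (topS G / (2 * eAt ε η P.m d)) y k i).1‖
          + ‖(itB P.n rs ws V G PA a (topS G / (2 * eAt ε η P.m d)) y k i).2‖
          ≤ Cid ^ (P.n + 1) * wt y) ∧
      (Measurable fun y => outB P.n rs ws V G PA a (topS G / (2 * eAt ε η P.m d)) y P.n) ∧
      ∀ (x : Inp d (Option σ)) (φ : E d → ℝ), LipschitzWith 1 φ →
        |∫ ζ, (∫ w, φ (outB P.n rs ws V G PA a (topS G / (2 * eAt ε η P.m d)) (mkB a x ζ) P.n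
            + √((topS G / eAt ε η P.m d) ^ 2 - (topS G / (2 * eAt ε η P.m d)) ^ 2) • w) ∂γ d)
            ∂γs d (Fin 3)
          - ∫ w, φ ((∫ u, G.val V (upd a x u) ∂γ d) + (topS G / eAt ε η P.m d) • w) ∂γ d|
          ≤ 4 * topS G * (d : ℝ) ^ (-(A + ε / 6)) * wt x := by
  intro V₀ hV₀
  have hd := hbig.d_one
  have hd0 : (0 : ℝ) < d := by linarith
  obtain ⟨hθe, hfe, hcN, he0, hp, hue, hmΦ, hLe, hκK, -⟩ := hP.derived
  set S := topS G
  set e := eAt ε η P.m d with he_def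
  have he : 0 < e := eAt_pos hd0 _
  have he1 : e ≤ 1 := (eAt_mono hd hη.le hmΦ).trans hbig.eΦ_one
  set X := (d : ℝ) ^ (-ε / 3)
  set T := (d : ℝ) ^ (-(A + ε / 6))
  have hX0 : 0 < X := Real.rpow_pos_of_pos hd0 _
  have hX1 : X ≤ 1 := hbig.third_one
  set R := qp η d (-P.κK)
  have hR1 : 1 ≤ R := one_le_qp hd hη.le (by linarith)
  set K := 2 * e * CR * R
  set KM := 2 * e * CRM * qp η d (-(P.κin * ((P.c₀ * (M + 1) + 1 : ℕ) : ℝ)))
  set L2 := qp η d (-(2 * P.Le))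
  have hL2 : 1 ≤ L2 := one_le_qp hd hη.le (by linarith)
  set Λ := 24 * e * L2
  set δ := 2 * e * CA * (d : ℝ) ^ (-(A + ε / 6 + 1))
  have hCid0 : (0 : ℝ) ≤ Cid := zero_le_one.trans hCid
  have hCR0 : (0 : ℝ) ≤ CR := zero_le_one.trans hCR
  have hCA0 : (0 : ℝ) ≤ CA := zero_le_one.trans hCA
  have hK0 : 0 ≤ K := mul_nonneg (by positivity) (zero_le_one.trans hR1)
  have hΛ0 : 0 ≤ Λ := mul_nonneg (by positivity) (zero_le_one.trans hL2)
  have hKM0 : 0 ≤ KM := mul_nonneg (by positivity) (qp_nonneg _)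
  have hδ0 : 0 ≤ δ := by positivity
  have hsum : Cid * (K + Λ) ≤ X := by
    have h1 : 4 * Cid * CR * e * R ≤ X :=
      le_trans (mul_le_mul_of_nonneg_right (mul_le_mul_of_nonneg_right z1 he.le)
        (zero_le_one.trans hR1)) hbig.reg
    have h2 : 48 * Cid * e * L2 ≤ X :=
      le_trans (mul_le_mul_of_nonneg_right (mul_le_mul_of_nonneg_right z4 he.le)
        (zero_le_one.trans hL2)) hbig.lam
    linarith
  have hCK : Cid * K ≤ X :=
    (mul_le_mul_of_nonneg_left (le_add_of_nonneg_right hΛ0) hCid0).trans hsum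
  have hCΛ : Cid * Λ ≤ X :=
    (mul_le_mul_of_nonneg_left (le_add_of_nonneg_left hK0) hCid0).trans hsum
  have hb₀ : 0 < S / (2 * e) := by positivity
  have hKeq : (S / (2 * e))⁻¹ * (CR * (qp η d P.κin)⁻¹ ^ (P.Nr + 1) * S) = K := by
    simp only [K, R, SE.κK, qp_inv_pow hd0, Nat.cast_add, Nat.cast_one]
    field_simp
  have hKMeq : (S / (2 * e))⁻¹ * (CRM * (qp η d P.κin)⁻¹ ^ (P.c₀ * (M + 1) + 1) * S) = KM := by
    simp only [KM, qp_inv_pow hd0]
    field_simp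
  have hsur := hbig.sur
  have hT1 : T ≤ 1 := Real.rpow_le_one_of_one_le_of_nonpos hd (by linarith)
  set U := (d : ℝ) ^ (-(A + ε / 6 + 1))
  have hU : 0 ≤ U := Real.rpow_nonneg hd0.le _
  have hδT : Cid * CR * R * δ ≤ T := by
    refine le_trans ?_ hsur
    calc Cid * CR * R * (2 * e * CA * U) = 2 * Cid * CR * CA * e * R * U := by ring
      _ ≤ Z * 1 * R * U := by
          refine mul_le_mul_of_nonneg_right (mul_le_mul_of_nonneg_right ?_ (zero_le_one.trans hR1)) hU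
          exact mul_le_mul z3 he1 he.le ((by positivity : (0 : ℝ) ≤ 2 * Cid * CR * CA).trans z3)
      _ = Z * R * U := by ring
  have hδ1 : δ ≤ 1 := by
    have : δ ≤ Cid * CR * R * δ := le_mul_of_one_le_left hδ0
      (one_le_mul_of_one_le_of_one_le (one_le_mul_of_one_le_of_one_le hCid hCR) hR1)
    linarith
  have hLS : ∀ {x : ℝ}, x ≤ qp η d (-(2 * P.Le)) * S →
      4 * (S / (2 * e))⁻¹ * x ≤ 8 * e * L2 := fun {x} hx => by
    refine (mul_le_mul_of_nonneg_left hx (by positivity)).trans (le_of_eq ?_)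
    simp only [L2]
    field_simp
    ring
  have hLΛ : qp η d (-P.Le) ≤ L2 := qp_le hd hη.le (by linarith)
  have hCq : CA * qp η d (-P.c₁) ≤ qp η d (-P.Le) := by
    have : CA ≤ Z := by
      have : CA ≤ Cid * CR * CA :=
        le_mul_of_one_le_left hCA0 (one_le_mul_of_one_le_of_one_le hCid hCR)
      linarith
    refine (mul_le_mul_of_nonneg_right (this.trans hbig.Z_le) (qp_nonneg _)).trans ?_
    rw [qp_add hd0]
    exact qp_le hd hη.le (by unfold SE.Le; linarith [hP.κin, hP.s, hP.c₁])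
  have hall := hid K KM Λ δ hK0 (hCK.trans hX1) hKM0 hΛ0 (hCΛ.trans hX1) hδ0 hδ1
    (fun V hV x => by
      obtain ⟨h1, h2, h3⟩ := hR V hV x
      exact ⟨h1, hKeq ▸ h2, hKMeq ▸ h3⟩)
    (fun V hV x u u' => (fB_lip hV he he1 hlin hG ha.le hb₀ x u u').trans
      (mul_le_mul_of_nonneg_right ((hLS (hgain.trans (mul_le_mul_of_nonneg_right hLΛ hS.le))).trans (by
        simp only [Λ]; linarith [mul_nonneg he.le (zero_le_one.trans hL2)])) (norm_nonneg _)))
    (fun V hV x u u' K₁ K₂ H H' => by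
      have heΦ := eAt_pos (ε := ε) (η := η) hd0 P.mΦ
      refine (phiB_lip hV heΦ hbig.eΦ_one hPlin hPadm ha.le hb₀ x u u' K₁ K₂ H H').trans
        (mul_le_mul_of_nonneg_right ?_ (by positivity))
      have h1 : a * topG (eAt ε η P.mΦ d) PA none ≤ L2 * S := by
        refine (mul_le_mul_of_nonneg_left (hPg none) ha.le).trans ?_
        calc a * (CA * qp η d (-P.c₁) * topG e G none)
            = CA * qp η d (-P.c₁) * (a * topG e G none) := by ring
          _ ≤ qp η d (-P.Le) * (qp η d (-P.Le) * S) :=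
              mul_le_mul hCq hgain (mul_nonneg ha.le (topG_nonneg he.le G none)) (qp_nonneg _)
          _ = L2 * S := by
              rw [← mul_assoc, qp_add hd0, show -P.Le + -P.Le = -(2 * P.Le) by ring]
      have h2 : ∀ k : Bool, topG (eAt ε η P.mΦ d) PA (some (.inr k)) ≤ L2 * S := fun k =>
        (hPk k).trans (mul_le_mul_of_nonneg_right (hCq.trans hLΛ) hS.le)
      have := add_le_add (add_le_add (hLS h1) (hLS (h2 true))) (hLS (h2 false))
      simp only [mul_add] at this ⊢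
      simp only [Λ]
      linarith)
    (fun V hV x u => by
      have := phiB_err (θ := qp η d P.κin) (ρ := CA * U * S) hV hbig.h_one he he1 (qp_pos hd0 _)
        (qp_le_one hd hη.le hP.κin) ha hb₀ hb (by positivity) hlin hG (hPerr V hV) x u
      have e1 : (S / (2 * e))⁻¹ * (CA * U * S) = δ := by
        show (S / (2 * e))⁻¹ * (CA * U * S) = 2 * e * CA * U
        generalize U = U'
        field_simp
      rwa [e1] at this)
  refine ⟨fun k hk y i => ((hall V₀ hV₀ k).1 y i).trans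
      (mul_le_mul_of_nonneg_right (pow_le_pow_right₀ hCid (by omega)) (wt_nonneg _)),
    (hall V₀ hV₀ P.n).2.1, fun x φ hφ => ((hall V₀ hV₀ P.n).2.2 x φ hφ).trans ?_⟩
  have hc : 0 ≤ Cid * CR * R := mul_nonneg (by positivity) (zero_le_one.trans hR1)
  have hpow : ∀ {y : ℝ}, 0 ≤ y → y ≤ X → Cid * CR * R * y ^ P.n ≤ T := fun {y} hy hyX => by
    refine le_trans ?_ hbig.col
    refine mul_le_mul (mul_le_mul_of_nonneg_right (le_trans (by
      nlinarith [mul_nonneg hCid0 hCR0]) z1) (zero_le_one.trans hR1)) (pow_le_pow_left₀ hy hyX _)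
      (pow_nonneg hy _) (mul_nonneg ((by positivity : (0 : ℝ) ≤ 4 * Cid * CR).trans z1) (qp_nonneg _))
  have hquad : Cid * CR * R * (KM * (1 / (N : ℝ)) ^ M) ≤ T := by
    refine le_trans ?_ hbig.quad
    have hN' : (1 / (N : ℝ)) ^ M ≤ qp η d (P.cN * M) := by
      rw [← qp_pow hd0]
      refine pow_le_pow_left₀ (by positivity) ?_ _
      have hNpos : (0 : ℝ) < N := (qp_pos hd0 _).trans_le hN
      rw [div_le_iff₀ hNpos]
      calc (1 : ℝ) = qp η d P.cN * qp η d (-P.cN) := by rw [qp_add hd0, add_neg_cancel, qp_zero]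
        _ ≤ qp η d P.cN * N := mul_le_mul_of_nonneg_left hN (qp_nonneg _)
    calc Cid * CR * R * (KM * (1 / (N : ℝ)) ^ M)
        ≤ Cid * CR * R * (KM * qp η d (P.cN * M)) :=
          mul_le_mul_of_nonneg_left (mul_le_mul_of_nonneg_left hN' hKM0) hc
      _ = 2 * Cid * CR * CRM * e * R * qp η d (M - P.κin * (P.c₀ + 1)) := by
          simp only [KM, mul_assoc]
          rw [qp_add hd0, show -(P.κin * ((P.c₀ * (M + 1) + 1 : ℕ) : ℝ)) + P.cN * M
            = M - P.κin * (P.c₀ + 1) by simp only [SE.cN]; push_cast; ring]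
          ring
      _ ≤ Z * 1 * R * qp η d (M - P.κin * (P.c₀ + 1)) := by
          refine mul_le_mul_of_nonneg_right (mul_le_mul_of_nonneg_right ?_ (zero_le_one.trans hR1))
            (qp_nonneg _)
          exact mul_le_mul z2 he1 he.le ((by positivity : (0 : ℝ) ≤ 2 * Cid * CR * CRM).trans z2)
      _ = _ := by ring
  have hw : √(d : ℝ) ≤ wt x := le_add_of_nonneg_right (sum_nonneg fun s _ => norm_nonneg _)
  have hmain : Cid * CR * R * (K ^ P.n + KM * (1 / (N : ℝ)) ^ M + (Cid * (K + Λ)) ^ P.n)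
      ≤ 3 * T := by
    rw [mul_add, mul_add]
    have := hpow hK0 ((le_mul_of_one_le_left hK0 hCid).trans hCK)
    have := hpow (mul_nonneg hCid0 (add_nonneg hK0 hΛ0)) hsum
    linarith
  have hnn : 0 ≤ K ^ P.n + KM * (1 / (N : ℝ)) ^ M + (Cid * (K + Λ)) ^ P.n := by
    have := mul_nonneg hCid0 (add_nonneg hK0 hΛ0)
    positivity
  calc S / (2 * e) * Cid * K * (√(d : ℝ) * (K ^ P.n + KM * (1 / (N : ℝ)) ^ M
        + (Cid * (K + Λ)) ^ P.n) + δ * wt x)
      = S * (√(d : ℝ) * (Cid * CR * R * (K ^ P.n + KM * (1 / (N : ℝ)) ^ M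
          + (Cid * (K + Λ)) ^ P.n)) + Cid * CR * R * δ * wt x) := by
        simp only [K]; field_simp
    _ ≤ S * (wt x * (3 * T) + T * wt x) := by
        refine mul_le_mul_of_nonneg_left (add_le_add ?_ ?_) hS.le
        · exact mul_le_mul hw hmain (mul_nonneg hc hnn) (wt_nonneg _)
        · exact mul_le_mul_of_nonneg_right hδT (wt_nonneg _)
    _ = _ := by ring

end

end Vale.Agent.P347.Zero
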