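import Vale.Agent.P347.Zero.BinderStepData
import Vale.Agent.P347.Zero.BinderStepIdeal
import Vale.Agent.P347.Zero.BinderOut

/-!
# P347, exponent 0: the binder gains `ε / 6`
-/

namespace Vale.Agent.P347.Zero

open MeasureTheory Real Finset Filter
open Vale.Agent.P347.Quarter (E γ)
open Vale.Agent.P347.Colour (Pt)

noncomputable section

theorem exists_ub : ∀ l : List ℝ, ∃ Z : ℝ, 1 ≤ Z ∧ ∀ x ∈ l, x ≤ Z
  | [] => ⟨1, le_rfl, by simp⟩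
  | x :: l => by
    obtain ⟨Z, hZ, h⟩ := exists_ub l
    refine ⟨max x Z, hZ.trans (le_max_right _ _), fun y hy => ?_⟩
    rcases List.mem_cons.1 hy with rfl | hy
    · exact le_max_left _ _
    · exact (h y hy).trans (le_max_right _ _)

/-- A programme of size zero vanishes. -/
theorem smp_of_topS_eq_zero {d : ℕ} {σ : Type} [Fintype σ] [DecidableEq σ] {G : Prog (Option σ)}
    {b' L : Option σ → ℝ} {β ρ a h r e : ℝ} {b : Option σ → ℝ} {β₀ : ℝ} (hlin : ∀ o, G.lin o = 0)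
    (hG : G.Adm h r e b β₀) (hS : topS G = 0) (hL : ∀ o, 0 ≤ L o) (hρ : 0 ≤ ρ) :
    Smp (d := d) (σ := Option σ) 0 b' L β ρ (fun V x => ∫ ξ, G.val V (upd a x ξ) ∂γ d) := by
  have hc : ∀ i, G.coef i = 0 := fun i => by
    have h1 := (sum_eq_zero_iff_of_nonneg fun i _ =>
      mul_nonneg (abs_nonneg (G.coef i)) (Real.sqrt_nonneg _)).1 hS i (mem_univ i)
    rcases mul_eq_zero.1 h1 with h2 | h2
    · exact abs_eq_zero.1 h2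
    · exact absurd h2 (Real.sqrt_pos.2 (((Prog.adm_def _ _ _ _ _ _).1 hG).2 i).1.v_pos).ne'
  have hv : ∀ (V : Pt d → ℝ) x, G.val V x = 0 := fun V x => by
    rw [Prog.val_def]; simp [hlin, hc]
  refine (((Smp.affine (b := b') (fun _ => (0 : ℝ)) (β := β)
    (by simpa using sq_nonneg β)).mono le_rfl (fun o => by simpa using hL o) hρ).congr
      fun V _ x => ?_)
  simp [hv]

/-- What the binder step uses of the adjoint programme. -/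
structure AdjAt {d : ℕ} {σ : Type} [Fintype σ] [DecidableEq σ] (ε η A α : ℝ) (P : SE) (CA a : ℝ) (b : σ → ℝ)
    (D₂ : ℕ) (G : Prog (Option σ)) (PA : Prog (Option (σ ⊕ Bool))) : Prop where
  lin : ∀ o, PA.lin o = 0
  dep : PA.depth ≤ D₂
  size : (PA.size : ℝ) ≤ CA * qp η d (-P.c₁)
  grow : PA.Grow d (CA * qp η d (-P.c₁))
  tops : topS PA ≤ CA * qp η d (-P.c₁) * topS G
  adm : PA.Adm ((d : ℝ) ^ (-ε)) ((d : ℝ) ^ (-(α + P.c₁) * η)) (eAt ε η P.mΦ d)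
    (bAdj a (qp η d P.c₁) b) (topS PA / eAt ε η P.mΦ d)
  gslot : ∀ o : Option σ, topG (eAt ε η P.mΦ d) PA (o.elim none fun j => some (.inl j))
    ≤ CA * qp η d (-P.c₁) * topG (eAt ε η P.m d) G o
  gseed : ∀ k : Bool, topG (eAt ε η P.mΦ d) PA (some (.inr k)) ≤ CA * qp η d (-P.c₁) * topS G
  err : ∀ V, Mem (d := d) V → ∀ x : Inp d (Option σ),
    Integrable (fun p : E d × E d => ‖PA.val V (inpAdj x p.1 p.2)
        - a • (fderiv ℝ (fun y => G.val V (Function.update x none y)) (x none)).adjoint p.1‖ ^ 2)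
      ((γ d).prod (γ d)) ∧
    ∫ p : E d × E d, ‖PA.val V (inpAdj x p.1 p.2)
        - a • (fderiv ℝ (fun y => G.val V (Function.update x none y)) (x none)).adjoint p.1‖ ^ 2
        ∂(γ d).prod (γ d) ≤ (CA * (d : ℝ) ^ (-(A + ε / 6 + 1)) * topS G * wt x) ^ 2

/-- The adjoint programme at one dimension. -/
theorem exists_adjAt {ε : ℝ} (hε : 0 < ε) {D : ℕ} {A α : ℝ} (hα : 0 ≤ α) {κin s : ℝ} (hκin : 0 ≤ κin)
    (hs : 0 ≤ s) :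
    ∃ (D' : ℕ) (c₁ η₁ : ℝ), 0 ≤ c₁ ∧ 0 < η₁ ∧ ∀ η : ℝ, 0 < η → η ≤ η₁ → ∀ Cs : ℝ, ∃ CA : ℝ,
      1 ≤ CA ∧ ∀ P : SE, P.Pos → P.c₁ = c₁ → ∀ d : ℕ, CA ≤ d → (1 : ℝ) ≤ d →
        eAt ε η P.m d ≤ (d : ℝ) ^ (-ε / 3) → eAt ε η P.mΦ d ≤ 1 →
        ∀ (σ : Type) [Fintype σ] [DecidableEq σ], Fintype.card σ ≤ D →
        ∀ (G : Prog (Option σ)) (a β Γ : ℝ) (b : σ → ℝ),
          0 < a → a ≤ 1 → (∀ j, 0 ≤ b j) → (∀ o, G.lin o = 0) → G.depth ≤ D →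
          (G.size : ℝ) ≤ Cs * qp η d (-s) → 1 ≤ Γ → Γ ≤ Cs * qp η d (-s) → G.Grow d Γ →
          G.Adm ((d : ℝ) ^ (-ε)) ((d : ℝ) ^ (-α * η)) (eAt ε η P.m d)
            (fun o => o.elim (a * qp η d κin) b) β →
          ∃ PA, AdjAt (d := d) ε η A α P CA a b D' G PA := by
  obtain ⟨D', c₁, η₁, hc₁, hη₁, hadj⟩ := exists_adj hε D (A + ε / 6 + 1) α κin s hα hκin hs
  refine ⟨D', c₁, η₁, hc₁, hη₁, fun η hη hη' Cs => ?_⟩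
  obtain ⟨Ca, hadj⟩ := hadj η hη hη' Cs
  refine ⟨max |Ca| 1, le_max_right _ _, fun P hP hPc d hd hd1 he3 heΦ σ _ _ hσ G a β Γ b ha ha1 hb
    hlin hdep hsize hΓ hΓ' hgr hG => ?_⟩
  have hd0 : (0 : ℝ) < d := by linarith
  have hCa : Ca ≤ max |Ca| 1 := (le_abs_self Ca).trans (le_max_left _ _)
  rw [qp_neg] at hsize hΓ'
  obtain ⟨PA, hlinP, hdepP, hsizeP, hgrP, hPS, hPtop, hPerr⟩ :=
    hadj d (hCa.trans hd) (eAt ε η P.m d) (eAt ε η P.m d) (eAt_mono hd1 hη.le hP.m) le_rfl he3 σ hσ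
      G a β Γ b ha ha1 hb hlin hdep hsize hΓ hΓ' hgr hG
  obtain ⟨hadm, hg, hk⟩ := hPtop (eAt ε η P.mΦ d) (le_of_eq_of_le
      (show eAt ε η P.m d * (d : ℝ) ^ (c₁ * η) = eAt ε η (P.m + c₁) d by
        rw [eAt_shift hd0, qp_neg])
      (eAt_mono hd1 hη.le (by unfold SE.mΦ; linarith [hP.derived.2.2.2.2.2.1]))) heΦ
  have hup : ∀ x : ℝ, 0 ≤ x →
      Ca * (d : ℝ) ^ (c₁ * η) * x ≤ max |Ca| 1 * qp η d (-c₁) * x := fun x hx => by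
    rw [qp_neg]
    exact mul_le_mul_of_nonneg_right (mul_le_mul_of_nonneg_right hCa (by positivity)) hx
  have hup1 : Ca * (d : ℝ) ^ (c₁ * η) ≤ max |Ca| 1 * qp η d (-c₁) := by
    simpa using hup 1 zero_le_one
  have he := eAt_pos (ε := ε) (η := η) hd0 P.m
  subst hPc
  refine ⟨PA, hlinP, hdepP, hsizeP.trans hup1, Prog.Grow.mono hup1 hgrP,
    hPS.trans (hup _ (topS_nonneg G)), hadm, fun o => (hg o).trans (hup _ (topG_nonneg he.le G o)),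
    fun k => (hk k).trans (hup _ (topS_nonneg G)), fun V hV x =>
      ⟨(hPerr V hV x).1, (hPerr V hV x).2.trans (sq_le_sq.2 ?_)⟩⟩
  have hU : (0 : ℝ) ≤ (d : ℝ) ^ (-(A + ε / 6 + 1)) := Real.rpow_nonneg hd0.le _
  have hw := wt_nonneg x
  show |Ca * (d : ℝ) ^ (-(A + ε / 6 + 1)) * topS G * wt x|
    ≤ |max |Ca| 1 * (d : ℝ) ^ (-(A + ε / 6 + 1)) * topS G * wt x|
  simp only [abs_mul, abs_of_nonneg hU, abs_of_nonneg (topS_nonneg G), abs_of_nonneg hw,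
    abs_of_nonneg (zero_le_one.trans (le_max_right |Ca| 1))]
  exact mul_le_mul_of_nonneg_right (mul_le_mul_of_nonneg_right
    (mul_le_mul_of_nonneg_right (le_max_left _ _) hU) (topS_nonneg G)) hw

/-- The constant of the query count. -/
def stepK (n : ℕ) (CB₁ CB₂ CA Cs Cn₁ Cn₂ Cn₃ Cno : ℝ) : ℝ :=
  (n + 1 : ℝ) * (Cs * Cs * max Cno 1 + stepQ CB₁ CB₂ CA Cs Cn₁ Cn₂ Cn₃)

/-- All requirements on the constant `Z`. -/
structure StepZ (D D₂ n M : ℕ) (CB₁ CB₂ CA Cs Cn₁ Cn₂ Cn₃ Cid CR CRM W Cg Z : ℝ) : Prop where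
  z1 : CB₁ * (2 * max Cn₁ 1 + 1) * Cs * (D + 3) ≤ Z
  z2 : CB₂ * (2 * max Cn₂ 1 + 1) * CA * CA * (D₂ + 3) ≤ Z
  z3 : (2 * max Cn₃ 1 + 2 * max Cn₃ 1 * max Cn₃ 1 * (1 + max Cn₃ 1) ^ D) * Cs * (D + 3) ≤ Z
  z4 : 2 * CA ≤ Z
  z5 : (D₂ : ℝ) + 1 ≤ Z
  z6 : (5 : ℝ) ^ D ≤ Z
  z7 : 2 * Cid ≤ Z
  z8 : 3 * W + 1 ≤ Z
  z9 : Cs ≤ Z
  i1 : 4 * Cid * CR ≤ Z
  i2 : 2 * Cid * CR * CRM ≤ Z
  i3 : 2 * Cid * CR * CA ≤ Z
  i4 : 48 * Cid ≤ Z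
  o1 : 2 * (8 * W * (1 + Cg)) ^ n ≤ Z
  o3 : 4 * (W + 1) ^ 2 ≤ Z
  o4 : (D : ℝ) + 3 ≤ Z
  zQ : (n + 1) * (2 * ((M : ℝ) + 1) + 2) + D + 8 ≤ Z

/-- The step at one dimension, given the quadrature. -/
theorem step_at {d : ℕ} {σ : Type} [Fintype σ] [DecidableEq σ]
    {ε η A α a β Γ Lt Z W Cid CR CRM Cs CA CB₁ CB₂ Cn₁ Cn₂ Cn₃ Cno cm cB cn₁ cn₂ cn₃ cno : ℝ}
    {M N D D₂ : ℕ} {P : SE} (hP : P.Pos) (hη : 0 < η) (hA : 0 ≤ A + ε / 6)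
    (hbig : P.Big ε η A M Z d) {rs ws : Fin (N * (M + 1)) → ℝ}
    {G : Prog (Option σ)} {PA : Prog (Option (σ ⊕ Bool))} {b : σ → ℝ}
    {qt : Fin G.num → ℕ} {ρt : Fin G.num → ℝ}
    (hBm : BinderAt ε A D α P.κin P.s P.κm P.mm P.κn cm η Cs CB₁ d)
    (hn₁ : NodeAt ε A α P.κn (P.mm + 1 / 2) cn₁ η Cn₁ d)
    (hn₃ : NodeAt ε A α P.κn P.mf cn₃ η Cn₃ d)
    (hno : NodeAt ε A α P.κn P.mo cno η Cno d)
    (hBΦ : BinderAt ε A D₂ (α + P.c₁) P.c₁ P.c₁ P.κB P.mΦ P.κn₂ cB η CA CB₂ d)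
    (hn₂ : NodeAt ε A (α + P.c₁) P.κn₂ (P.mΦ + 1 / 2) cn₂ η Cn₂ d)
    (hcm : 0 ≤ cm) (hcB : 0 ≤ cB) (hcn₁ : 0 ≤ cn₁) (hcn₂ : 0 ≤ cn₂) (hcn₃ : 0 ≤ cn₃) (hcno : 0 ≤ cno)
    (hσ : Fintype.card σ ≤ D) (hD₂ : D + 2 ≤ D₂) (ha : 0 < a) (ha1 : a ≤ 1) (hb : ∀ j, 0 ≤ b j)
    (hlin : ∀ o, G.lin o = 0) (hdep : G.depth ≤ D) (hsize : (G.size : ℝ) ≤ Cs * qp η d (-P.s))
    (hΓ : 1 ≤ Γ) (hΓ' : Γ ≤ Cs * qp η d (-P.s)) (hgr : G.Grow d Γ)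
    (hG : G.Adm ((d : ℝ) ^ (-ε)) ((d : ℝ) ^ (-α * η)) (eAt ε η P.m d)
      (fun o => o.elim (a * qp η d P.κin) b) β)
    (ht : TopOK ε η (P.m + 1 / 2) P.κtop d G qt Lt ρt)
    (hS : 0 < topS G) (hPA : AdjAt (d := d) ε η A α P CA a b D₂ G PA)
    (hN : N = ⌈qp η d (-P.cN)⌉₊)
    (hrs : ∀ r, 0 ≤ rs r ∧ rs r ≤ 1 - 1 / (Cid * N)) (hws : ∑ r, |ws r| ≤ Cid)
    (hid : IdealAt P.n P.Nr P.c₀ M N Cid rs ws G PA a (topS G / (2 * eAt ε η P.m d))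
      (topS G / eAt ε η P.m d) d)
    (hR : ∀ V, Mem (d := d) V → ∀ x : Inp d (Option σ),
      Temp (vecT (fB V G a (topS G / (2 * eAt ε η P.m d)) x)) ∧
      RB P.Nr (gradT (vecT (fB V G a (topS G / (2 * eAt ε η P.m d)) x)))
        ((topS G / (2 * eAt ε η P.m d))⁻¹ * (CR * (qp η d P.κin)⁻¹ ^ (P.Nr + 1) * topS G)) ∧
      RB (P.c₀ * (M + 1)) (gradT (vecT (fB V G a (topS G / (2 * eAt ε η P.m d)) x)))
        ((topS G / (2 * eAt ε η P.m d))⁻¹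
          * (CRM * (qp η d P.κin)⁻¹ ^ (P.c₀ * (M + 1) + 1) * topS G)))
    (hCid : 1 ≤ Cid) (hCR : 1 ≤ CR) (hCRM : 0 ≤ CRM) (hCs : 1 ≤ Cs) (hCA : 1 ≤ CA) (hCB₁ : 1 ≤ CB₁)
    (hCB₂ : 1 ≤ CB₂) (hW : 1 ≤ W) (hW1 : Cid ≤ W)
    (hW2 : ∀ i, ∑ j, |wCol P.n i j| ≤ W ∧ (∑ j, |wCol P.n i j|) * Cid ≤ W)
    (hW3 : ∑ j, |li (eqNode P.n 0 1) 0 1 j| ≤ W)
    (hZ : StepZ D D₂ P.n M CB₁ CB₂ CA Cs Cn₁ Cn₂ Cn₃ Cid CR CRM W (Cid ^ (P.n + 1)) Z) :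
    ∃ q : ℕ, (q : ℝ) ≤ (P.n + 1) * (∑ i, (qt i : ℝ)) + stepK P.n CB₁ CB₂ CA Cs Cn₁ Cn₂ Cn₃ Cno
        * qp η d (-(3 * P.n * (P.cN + 2) + (2 * P.s + P.c₁ + cn₁ + cn₂ + cn₃ + cm + cB)
          + 2 * P.s + cno)) ∧
      Smp (d := d) (σ := Option σ) q
        (fun o => o.elim (a * qp η d P.κ) fun j => b j * qp η d (P.κ + P.κtop))
        (fun o => 2 * W * max Cno 1 ^ D * (Lt + 1) * topG (eAt ε η P.m d) G o) β
        (stepErr D W (Cid ^ (P.n + 1)) (max Cno 1) * Γ * (∑ i, |G.coef i| * ρt i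
          + (Lt + 1) * topS G * (d : ℝ) ^ (-(A + ε / 6))))
        (fun V x => ∫ u, G.val V (upd a x u) ∂γ d) := by
  have hd1 := hbig.d_one
  have hd0 : (0 : ℝ) < d := by linarith
  obtain ⟨hθe, hfe, hcN, he0, hp, hue, hmΦ, hLe, hκK, -⟩ := hP.derived
  have hq1 : 1 ≤ qp η d (-P.cN) := one_le_qp hd1 hη.le (by linarith)
  have hN1 : 1 ≤ N := by
    rw [hN]; exact Nat.one_le_iff_ne_zero.2 (Nat.ceil_pos.2 (zero_lt_one.trans_le hq1)).ne'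
  have hN' : (N : ℝ) ≤ 2 * qp η d (-P.cN) := by
    have := Nat.ceil_lt_add_one (zero_le_one.trans hq1)
    rw [← hN] at this
    linarith
  obtain ⟨qm, qf, qΦ, hqs, hdata⟩ := step_data (P := P) hP hη hbig hBm hn₁ hn₃ hBΦ hn₂ hcm hcB hcn₁
    hcn₂ hcn₃ hσ hD₂ ha ha1 hb hlin hdep hsize hΓ hΓ' hgr hG hS hPA.lin hPA.dep hPA.size hPA.grow
    hPA.tops hPA.adm hPA.gslot hPA.gseed hN1 hN' hrs (hws.trans hW1)
    (fun i => ⟨(hW2 i).1, (mul_le_mul_of_nonneg_left hws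
      (sum_nonneg fun j _ => abs_nonneg _)).trans (hW2 i).2⟩)
    hCid hW hCs hCA hCB₁ hCB₂ hZ.z1 hZ.z2 hZ.z3 hZ.z4 hZ.z5 hZ.z6 hZ.z7 hZ.z8 hZ.z9
  have hfacts := step_ideal (P := P) hP hη hA hbig hid hR ha ha1 hb hdep hlin hG hS hdata.gain_none
    hPA.lin hPA.adm hPA.gslot hPA.gseed hPA.err (by rw [hN]; exact Nat.le_ceil _) hCid hCR hCRM hCA
    hZ.i1 hZ.i2 hZ.i3 hZ.i4
  set Q := (P.n + 1) * (N * (M + 1) + 2) + D + 8 with hQ_def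
  have hQ' : (Q : ℝ) ≤ qp η d (-(P.cN + 2)) := by
    calc (Q : ℝ) = (P.n + 1) * ((N : ℝ) * (M + 1) + 2) + (D + 8) := by rw [hQ_def]; push_cast; ring
      _ ≤ (P.n + 1) * ((2 * qp η d (-P.cN)) * (M + 1) + 2 * qp η d (-P.cN))
            + (D + 8) * qp η d (-P.cN) :=
          add_le_add (mul_le_mul_of_nonneg_left (add_le_add
            (mul_le_mul_of_nonneg_right hN' (by positivity)) (by linarith)) (by positivity))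
            (le_mul_of_one_le_right (by positivity) hq1)
      _ = ((P.n + 1) * (2 * ((M : ℝ) + 1) + 2) + D + 8) * qp η d (-P.cN) := by ring
      _ ≤ qp η d (-1) * qp η d (-P.cN) :=
          mul_le_mul_of_nonneg_right (hZ.zQ.trans hbig.Z_le) (qp_nonneg _)
      _ ≤ _ := by rw [qp_add hd0]; exact qp_le hd1 hη.le (by linarith)
  have hQ1 : (P.n + 1) * (N * (M + 1)) + 2 * (P.n + 1) ≤ Q := by
    have e1 : (P.n + 1) * (N * (M + 1) + 2) = (P.n + 1) * (N * (M + 1)) + 2 * (P.n + 1) := by ring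
    omega
  obtain ⟨q, hq, hsmp⟩ := step_out (P := P) (Q := Q) (Cg := Cid ^ (P.n + 1)) hP hη hbig hdata hno hσ hb
    hlin hdep hCs hsize hΓ hgr hG ht (by omega) (by omega) hQ1 (by omega) hQ' hW3
    (pow_nonneg (zero_le_one.trans hCid) _) hZ.o1 hZ.z9 hZ.o3 hZ.o4
    (fun V hV => (hfacts V hV).1) (fun V hV => (hfacts V hV).2.1) (fun V hV => (hfacts V hV).2.2)
  refine ⟨q, hq.trans (add_le_add le_rfl ?_), hsmp⟩
  set c := 3 * (P.n : ℝ) * (P.cN + 2) + (2 * P.s + P.c₁ + cn₁ + cn₂ + cn₃ + cm + cB) + 2 * P.s + cno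
  have h3 : 0 ≤ 3 * (P.n : ℝ) * (P.cN + 2) := mul_nonneg (by positivity) (by linarith)
  have hK0 : ∀ x : ℝ, (0 : ℝ) ≤ max x 1 := fun x => zero_le_one.trans (le_max_right _ _)
  have hQ0 : (0 : ℝ) ≤ stepQ CB₁ CB₂ CA Cs Cn₁ Cn₂ Cn₃ := by
    have := hK0 Cn₁
    have := hK0 Cn₂
    have := hK0 Cn₃
    unfold stepQ; positivity
  have a1 : Cs * Cs * max Cno 1 * qp η d (-(2 * P.s + cno))
      ≤ Cs * Cs * max Cno 1 * qp η d (-c) := mul_le_mul_of_nonneg_left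
    (qp_le hd1 hη.le (by simp only [c]; linarith [hP.s, hP.c₁]))
    (mul_nonneg (mul_self_nonneg _) (hK0 _))
  have a2 : qp η d (-(3 * P.n * (P.cN + 2))) * ((qm : ℝ) + qf + qΦ)
      ≤ stepQ CB₁ CB₂ CA Cs Cn₁ Cn₂ Cn₃ * qp η d (-c) := by
    refine (mul_le_mul_of_nonneg_left hqs (qp_nonneg _)).trans ?_
    rw [mul_left_comm, qp_add hd0]
    exact mul_le_mul_of_nonneg_left (qp_le hd1 hη.le (by simp only [c]; linarith [hP.s])) hQ0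
  refine (mul_le_mul_of_nonneg_left (add_le_add a1 a2) (by positivity)).trans (le_of_eq ?_)
  unfold stepK
  ring

/-- The regularity of the programme in units of the noise. -/
theorem step_reg {d : ℕ} {σ : Type} [Fintype σ] [DecidableEq σ] {ε η A α a β b₀ κin Z CR' CM' : ℝ}
    {M Nr k D : ℕ} {P : SE} {G : Prog (Option σ)} {b : σ → ℝ}
    (hreg : ∀ (d : ℕ) (V : Pt d → ℝ), Mem V →
      ∀ (σ : Type) [Fintype σ] [DecidableEq σ] (h r e β θ a b₀ : ℝ) (b : σ → ℝ), h ≤ 1 → 0 < e → e ≤ 1 →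
        0 < θ → θ ≤ 1 → 0 ≤ a → 0 < b₀ → (∀ s, 0 ≤ b s) → ∀ (G : Prog (Option σ)), G.depth ≤ D →
          (∀ o, G.lin o = 0) → G.Adm h r e (fun o => o.elim (a * θ) b) β → ∀ x : Inp d (Option σ),
            Temp (vecT (fB V G a b₀ x)) ∧
            RB Nr (gradT (vecT (fB V G a b₀ x))) (b₀⁻¹ * (CR' * θ⁻¹ ^ (Nr + 1) * topS G)))
    (hregM : ∀ (d : ℕ) (V : Pt d → ℝ), Mem V →
      ∀ (σ : Type) [Fintype σ] [DecidableEq σ] (h r e β θ a b₀ : ℝ) (b : σ → ℝ), h ≤ 1 → 0 < e → e ≤ 1 →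
        0 < θ → θ ≤ 1 → 0 ≤ a → 0 < b₀ → (∀ s, 0 ≤ b s) → ∀ (G : Prog (Option σ)), G.depth ≤ D →
          (∀ o, G.lin o = 0) → G.Adm h r e (fun o => o.elim (a * θ) b) β → ∀ x : Inp d (Option σ),
            Temp (vecT (fB V G a b₀ x)) ∧
            RB k (gradT (vecT (fB V G a b₀ x))) (b₀⁻¹ * (CM' * θ⁻¹ ^ (k + 1) * topS G)))
    (hbig : P.Big ε η A M Z d) (hη : 0 < η) (hκin : 0 ≤ κin) (ha : 0 < a) (hb : ∀ j, 0 ≤ b j)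
    (hdep : G.depth ≤ D) (hlin : ∀ o, G.lin o = 0)
    (hG : G.Adm ((d : ℝ) ^ (-ε)) ((d : ℝ) ^ (-α * η)) (eAt ε η P.m d)
      (fun o => o.elim (a * qp η d κin) b) β) (hb₀ : 0 < b₀) :
    ∀ V, Mem (d := d) V → ∀ x : Inp d (Option σ),
      Temp (vecT (fB V G a b₀ x)) ∧
      RB Nr (gradT (vecT (fB V G a b₀ x)))
        (b₀⁻¹ * (max CR' 1 * (qp η d κin)⁻¹ ^ (Nr + 1) * topS G)) ∧
      RB k (gradT (vecT (fB V G a b₀ x))) (b₀⁻¹ * (CM' * (qp η d κin)⁻¹ ^ (k + 1) * topS G)) := by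
  intro V hV x
  have hd0 : (0 : ℝ) < d := by linarith [hbig.d_one]
  have he := eAt_pos (ε := ε) (η := η) hd0 P.m
  have he1 := hbig.e_third.trans hbig.third_one
  have hθ := qp_le_one (η := η) hbig.d_one hη.le hκin
  obtain ⟨h1, h2⟩ := hreg d V hV σ _ _ _ β (qp η d κin) a b₀ b hbig.h_one he he1 (qp_pos hd0 _) hθ ha.le
    hb₀ hb G hdep hlin hG x
  obtain ⟨-, h3⟩ := hregM d V hV σ _ _ _ β (qp η d κin) a b₀ b hbig.h_one he he1 (qp_pos hd0 _) hθ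
    ha.le hb₀ hb G hdep hlin hG x
  exact ⟨h1, h2.of_le le_rfl (mul_le_mul_of_nonneg_left (mul_le_mul_of_nonneg_right
    (mul_le_mul_of_nonneg_right (le_max_left _ _) (pow_nonneg (inv_nonneg.2 (qp_nonneg _)) _))
    (topS_nonneg G)) (inv_nonneg.2 hb₀.le)), h3⟩

theorem binder_step_of {ε A : ℝ} (hε : 0 < ε) (hA : -(ε / 6) ≤ A) (hn : NodeOK ε A)
    (hb : BinderOK ε A) : BinderOK ε (A + ε / 6) := by
  intro D α κin s hα hκin hs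
  have hA₁ : 0 ≤ A + ε / 6 := by linarith
  obtain ⟨κn, hκn, hn₁⟩ := hn α hα
  obtain ⟨κm, hκm, hm₁⟩ := hb D α κin s hα hκin hs
  obtain ⟨D₁, c₁, η₁, hc₁, hη₁, hadj⟩ := exists_adjAt hε (D := D) (A := A) hα hκin hs
  set D₂ := max D₁ (D + 2) with hD₂
  obtain ⟨κn₂, hκn₂, hn₂⟩ := hn (α + c₁) (add_nonneg hα hc₁)
  obtain ⟨κB, hκB, hb₂⟩ := hb D₂ (α + c₁) c₁ c₁ (add_nonneg hα hc₁) hc₁ hc₁
  set n := ⌈3 * (A + ε / 6 + 2) / ε⌉₊ + 1 with hn_def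
  have hnε : A + ε / 6 + 2 ≤ (n : ℝ) * (ε / 3) := by
    have h1 := (Nat.le_ceil (3 * (A + ε / 6 + 2) / ε)).trans
      (le_add_of_nonneg_right (zero_le_one (α := ℝ)))
    rw [div_le_iff₀ hε] at h1
    simp only [hn_def, Nat.cast_add, Nat.cast_one]
    linarith
  obtain ⟨Nr, c₀, hideal⟩ := exists_binder_ideal n (by omega)
  obtain ⟨CR', hCR', hreg⟩ := exists_fB_reg Nr D
  refine ⟨(SE.mk κin s κn κm κB κn₂ c₁ n Nr c₀ 0 0).κ,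
    (SE.Pos.derived (P := SE.mk κin s κn κm κB κn₂ c₁ n Nr c₀ 0 0)
      ⟨hκin, hs, hκn, hκm, hκB, hκn₂, hc₁, le_rfl, le_rfl⟩).2.2.2.2.2.2.2.2.2,
    fun m κtop hm hκtop => ?_⟩
  set P := SE.mk κin s κn κm κB κn₂ c₁ n Nr c₀ m κtop with hP_def
  have hP : P.Pos := ⟨hκin, hs, hκn, hκm, hκB, hκn₂, hc₁, hm, hκtop⟩
  obtain ⟨hθe, hfe, hcN, he0, hp, hue, hmΦ, hLe, hκK, -⟩ := hP.derived
  have hmm : 0 ≤ P.mm := by unfold SE.mm; linarith [hP.m]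
  have hmf : 0 ≤ P.mf := by unfold SE.mf; linarith [hP.m, hP.κn]
  have hmo : 0 ≤ P.mo := by unfold SE.mo; linarith [hP.m, hP.κn, hP.κtop]
  have hmΦ0 : 0 ≤ P.mΦ := hP.m.trans hmΦ
  obtain ⟨cm, ηm, hcm, hηm, hm₁⟩ := hm₁ P.mm κn hmm hκn
  obtain ⟨cn₁, ηn₁, hcn₁, hηn₁, hn_m⟩ := hn₁ (P.mm + 1 / 2) (by linarith)
  obtain ⟨cn₃, ηn₃, hcn₃, hηn₃, hn_f⟩ := hn₁ P.mf hmf
  obtain ⟨cno, ηno, hcno, hηno, hn_o⟩ := hn₁ P.mo hmo
  obtain ⟨cB, ηB, hcB, hηB, hb₂⟩ := hb₂ P.mΦ κn₂ hmΦ0 hκn₂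
  obtain ⟨cn₂, ηn₂, hcn₂, hηn₂, hn₂⟩ := hn₂ (P.mΦ + 1 / 2) (by linarith)
  have hbig1 := hP.one_le_big
  set cq := 2 * s + c₁ + cn₁ + cn₂ + cn₃ + cm + cB with hcq
  refine ⟨3 * n * (P.cN + 2) + cq + 2 * s + cno,
    min (min (min η₁ ηm) (min ηn₁ ηn₃)) (min (min ηno ηB) (min ηn₂
      (min (ε / (12 * P.big)) (1 / (2 * P.big))))), by positivity,
    by simp only [lt_min_iff]; refine ⟨⟨⟨hη₁, hηm⟩, hηn₁, hηn₃⟩, ⟨hηno, hηB⟩, hηn₂, ?_, ?_⟩ <;>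
      positivity, fun η hη hη' Cs => ?_⟩
  simp only [le_min_iff] at hη'
  obtain ⟨⟨⟨hηa, hηb⟩, hηc, hηd⟩, ⟨hηe, hηf⟩, hηg, hηh, hηi⟩ := hη'
  rw [le_div_iff₀ (by positivity)] at hηh hηi
  set Cs₀ := max Cs 1
  obtain ⟨CA, hCA, hadj⟩ := hadj η hη hηa Cs₀
  obtain ⟨Cm, hm₁⟩ := hm₁ η hη hηb Cs₀
  obtain ⟨Cn₁, hn_m⟩ := hn_m η hη hηc
  obtain ⟨Cn₃, hn_f⟩ := hn_f η hη hηd
  obtain ⟨Cno, hn_o⟩ := hn_o η hη hηe
  obtain ⟨CBΦ, hb₂⟩ := hb₂ η hη hηf CA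
  obtain ⟨Cn₂, hn₂⟩ := hn₂ η hη hηg
  set M := ⌈(A + ε / 6 + 1) / η + κin * (Nr + c₀ + 2)⌉₊ + 1 with hM_def
  have hM : (A + ε / 6 + 1) / η + κin * (Nr + c₀ + 2) ≤ (M : ℝ) := by
    refine (Nat.le_ceil _).trans ?_
    simp [hM_def]
  obtain ⟨Cid, hCid, hideal⟩ := hideal M (by omega)
  obtain ⟨CM', hCM', hregM⟩ := exists_fB_reg (c₀ * (M + 1)) D
  set CR := max CR' 1
  set CB₁ := max Cm 1
  set CB₂ := max CBΦ 1
  set Wc := ∑ i, ∑ j, |wCol n i j|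
  set Wl := ∑ j, |li (eqNode n 0 1) 0 1 j|
  have hWc : 0 ≤ Wc := sum_nonneg fun i _ => sum_nonneg fun j _ => abs_nonneg _
  have hWl : 0 ≤ Wl := sum_nonneg fun j _ => abs_nonneg _
  set W := 1 + Cid + Wc + Wc * Cid + Wl with hW_def
  have hWC := mul_nonneg hWc (zero_le_one.trans hCid)
  have hW : 1 ≤ W := by linarith
  have hW1 : Cid ≤ W := by linarith
  have hW3 : Wl ≤ W := by linarith
  have hW2 : ∀ i, ∑ j, |wCol n i j| ≤ W ∧ (∑ j, |wCol n i j|) * Cid ≤ W := fun i => by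
    have h1 : ∑ j, |wCol n i j| ≤ Wc := single_le_sum (f := fun i => ∑ j, |wCol n i j|)
      (fun i _ => sum_nonneg fun j _ => abs_nonneg _) (mem_univ i)
    have h2 := mul_le_mul_of_nonneg_right h1 (zero_le_one.trans hCid)
    constructor <;> linarith
  set Cg := Cid ^ (n + 1)
  obtain ⟨Z, hZ1, hZ⟩ := exists_ub [CB₁ * (2 * max Cn₁ 1 + 1) * Cs₀ * (D + 3),
    CB₂ * (2 * max Cn₂ 1 + 1) * CA * CA * (D₂ + 3),
    (2 * max Cn₃ 1 + 2 * max Cn₃ 1 * max Cn₃ 1 * (1 + max Cn₃ 1) ^ D) * Cs₀ * (D + 3),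
    2 * CA, (D₂ : ℝ) + 1, (5 : ℝ) ^ D, 2 * Cid, 3 * W + 1, Cs₀,
    4 * Cid * CR, 2 * Cid * CR * CM', 2 * Cid * CR * CA, 48 * Cid,
    2 * (8 * W * (1 + Cg)) ^ n, 4 * (W + 1) ^ 2, (D : ℝ) + 3,
    (n + 1) * (2 * ((M : ℝ) + 1) + 2) + D + 8]
  simp only [List.mem_cons, List.not_mem_nil, or_false, forall_eq_or_imp, forall_eq] at hZ
  obtain ⟨z1, z2, z3, z4, z5, z6, z7, z8, z9, i1, i2, i3, i4, o1, o3, o4, zQ⟩ := hZ
  have hev := (SE.ev_big hP hε hη hA₁ (by linarith) (by linarith) hnε hM Z).and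
    ((ev_le CA).and ((ev_le Cm).and ((ev_le Cn₁).and ((ev_le Cn₃).and ((ev_le Cno).and
      ((ev_le CBΦ).and (ev_le Cn₂)))))))
  obtain ⟨d₀, hd₀⟩ := eventually_atTop.1 hev
  set Kq := stepK n CB₁ CB₂ CA Cs₀ Cn₁ Cn₂ Cn₃ Cno
  set KL := 2 * W * max Cno 1 ^ D
  set KE := stepErr D W Cg (max Cno 1)
  obtain ⟨C, hC1, hC⟩ := exists_ub [(d₀ : ℝ), n + 1, Kq, KL, KE]
  simp only [List.mem_cons, List.not_mem_nil, or_false, forall_eq_or_imp, forall_eq] at hC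
  obtain ⟨hCd, hCn, hCq, hCL, hCE⟩ := hC
  refine ⟨C, fun d hd σ _ _ hσ G a β Γ b qt Lt ρt ha ha1 hb hlin' hdep hsize hΓ hΓ' hgr hG ht => ?_⟩
  obtain ⟨hbig, dA, dm, dn₁, dn₃, dno, dB, dn₂⟩ := hd₀ d (by exact_mod_cast hCd.trans hd)
  have hd1 := hbig.d_one
  have hd0 : (0 : ℝ) < d := by linarith
  have hlin : ∀ o, G.lin o = 0 := hlin'
  set e := eAt ε η m d
  have he : 0 < e := eAt_pos hd0 m
  have hC0 : 0 ≤ C := zero_le_one.trans hC1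
  have hΓ0 : 0 ≤ Γ := zero_le_one.trans hΓ
  have hLt : 0 ≤ Lt + 1 := by linarith [ht.1]
  have htopS := topS_nonneg G
  have hErr : 0 ≤ C * Γ * (∑ i, |G.coef i| * ρt i
      + (Lt + 1) * topS G * (d : ℝ) ^ (-(A + ε / 6))) :=
    mul_nonneg (mul_nonneg hC0 hΓ0) (add_nonneg (sum_nonneg fun i _ =>
      mul_nonneg (abs_nonneg _) (ht.2 i).1) (by positivity))
  rcases htopS.eq_or_lt with hS | hS
  · exact ⟨0, by push_cast; positivity, smp_of_topS_eq_zero hlin hG hS.symm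
      (fun o => mul_nonneg (mul_nonneg hC0 hLt) (topG_nonneg he.le G o)) hErr⟩
  have hsize₀ : (G.size : ℝ) ≤ Cs₀ * qp η d (-s) := by
    rw [qp_neg]; exact hsize.trans (mul_le_mul_of_nonneg_right (le_max_left _ _) (by positivity))
  have hΓ₀ : Γ ≤ Cs₀ * qp η d (-s) := by
    rw [qp_neg]; exact hΓ'.trans (mul_le_mul_of_nonneg_right (le_max_left _ _) (by positivity))
  obtain ⟨PA, hPA⟩ := hadj P hP rfl d dA hd1 hbig.e_third hbig.eΦ_one σ hσ G a β Γ b ha ha1 hb hlin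
    hdep hsize₀ hΓ hΓ₀ hgr hG
  have hPA' : AdjAt (d := d) ε η A α P CA a b D₂ G PA :=
    { hPA with dep := hPA.dep.trans (le_max_left _ _) }
  set N := ⌈qp η d (-P.cN)⌉₊ with hN_def
  obtain ⟨rs, ws, hrs, hws, hideal⟩ := hideal N (Nat.one_le_iff_ne_zero.2
    (Nat.ceil_pos.2 (qp_pos hd0 _)).ne')
  have hb₀ : 0 < topS G / (2 * e) := by positivity
  have hid : IdealAt P.n P.Nr P.c₀ M N Cid rs ws G PA a (topS G / (2 * e)) (topS G / e) d :=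
    fun K KM Λ δ h1 h2 h3 h4 h5 h6 h7 => hideal d (by exact_mod_cast hd1) σ G PA a (topS G / (2 * e))
      (topS G / e) K KM Λ δ ha ha1 hb₀ (div_le_div_of_nonneg_left htopS he (by linarith)) h1 h2 h3 h4
      h5 h6 h7
  obtain ⟨q, hq, hsmp⟩ := step_at (P := P) (D := D) (D₂ := D₂) (CR := CR) (CRM := CM') hP hη hA₁ hbig
    (BinderAt.mono hd0 (hm₁ d dm) (le_max_left _ _)) (hn_m d dn₁) (hn_f d dn₃) (hn_o d dno)
    (BinderAt.mono hd0 (hb₂ d dB) (le_max_left _ _)) (hn₂ d dn₂) hcm hcB hcn₁ hcn₂ hcn₃ hcno hσ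
    (le_max_right _ _) ha ha1 hb hlin hdep hsize₀ hΓ hΓ₀ hgr hG ht hS hPA' hN_def hrs hws hid
    (step_reg hreg hregM hbig hη hκin ha hb hdep hlin hG hb₀) hCid (le_max_right _ _) hCM'
    (le_max_right _ _) hCA (le_max_right _ _) (le_max_right _ _) hW hW1 hW2 hW3
    ⟨z1, z2, z3, z4, z5, z6, z7, z8, z9, i1, i2, i3, i4, o1, o3, o4, zQ⟩
  refine ⟨q, hq.trans ?_, hsmp.mono le_rfl (fun o => ?_) ?_⟩
  · refine add_le_add (mul_le_mul_of_nonneg_right hCn (sum_nonneg fun i _ => Nat.cast_nonneg _)) ?_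
    rw [← qp_neg]
    exact mul_le_mul_of_nonneg_right hCq (qp_nonneg _)
  · exact mul_le_mul_of_nonneg_right (mul_le_mul_of_nonneg_right hCL hLt) (topG_nonneg he.le G o)
  · exact mul_le_mul_of_nonneg_right (mul_le_mul_of_nonneg_right hCE hΓ0)
      (add_nonneg (sum_nonneg fun i _ => mul_nonneg (abs_nonneg _) (ht.2 i).1) (by positivity))

end

end Vale.Agent.P347.Zero
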