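import Vale.Agent.P347.Zero.Sample

/-!
# P347, exponent 0: operations on sampleable values
-/

namespace Vale.Agent.P347.Zero

open MeasureTheory ProbabilityTheory Real Finset
open Vale.Agent.P347.Quarter (E γ)
open Vale.Agent.P347.Colour (Pt Resp Uses oracle)
open scoped NNReal

noncomputable section

set_option linter.unusedSectionVars false

variable {d : ℕ} {σ σ' : Type} [Fintype σ] [Fintype σ'] [DecidableEq σ] [DecidableEq σ']

/-- A slot is a sample of itself. -/
theorem Smp.slot (s : σ) {b : σ → ℝ} :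
    Smp (d := d) 0 b (Pi.single s 1) (b s) 0 fun _ x => x s := by
  refine ⟨Unit, inferInstance, Measure.dirac (), inferInstance, fun _ p => p.1 s,
    Uses.zero (by fun_prop), fun V _ => ⟨by fun_prop, fun y => integrable_const _, fun ω y y' => ?_,
    fun x φ hφ => ?_⟩⟩
  · rw [sum_eq_single s (fun j _ hj => by simp [hj]) (fun h => absurd (mem_univ s) h)]
    simp
  · rw [zero_mul, integral_prod _ (integrable_lip ((integrable_blur b x s).comp_fst _) hφ)]
    simp only [integral_dirac, blur]
    rw [integral_coord s (f := fun w => φ (x s + b s • w))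
      (hφ.continuous.comp (by fun_prop)).stronglyMeasurable]
    simp

/-- A larger query budget, worse constants. -/
theorem Smp.mono {q q' : ℕ} {b L L' : σ → ℝ} {β ρ ρ' : ℝ} {val : (Pt d → ℝ) → Inp d σ → E d}
    (h : Smp q b L β ρ val) (hq : q ≤ q') (hL : ∀ s, L s ≤ L' s) (hρ : ρ ≤ ρ') :
    Smp q' b L' β ρ' val := by
  obtain ⟨Ω, _, μ, hμ, F, hF, hS⟩ := h
  refine ⟨Ω, inferInstance, μ, hμ, F, Quarter.Uses.mono' hF hq, fun V hV => ?_⟩
  obtain ⟨hm, hi, hl, hc⟩ := hS V hV
  exact ⟨hm, hi, fun ω y y' => (hl ω y y').trans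
    (sum_le_sum fun s _ => mul_le_mul_of_nonneg_right (hL s) (norm_nonneg _)),
    fun x φ hφ => (hc x φ hφ).trans (mul_le_mul_of_nonneg_right hρ (wt_nonneg x))⟩

/-- A value which does not depend on the potential only through `val` may be replaced by an equal one. -/
theorem Smp.congr {q : ℕ} {b L : σ → ℝ} {β ρ : ℝ} {val val' : (Pt d → ℝ) → Inp d σ → E d}
    (h : Smp q b L β ρ val) (he : ∀ V, Mem V → ∀ x, val V x = val' V x) :
    Smp q b L β ρ val' := by
  obtain ⟨Ω, _, μ, hμ, F, hF, hS⟩ := h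
  refine ⟨Ω, inferInstance, μ, hμ, F, hF, fun V hV => ?_⟩
  obtain ⟨hm, hi, hl, hc⟩ := hS V hV
  exact ⟨hm, hi, hl, fun x φ hφ => he V hV x ▸ hc x φ hφ⟩

/-- Adding independent noise. -/
theorem Smp.noise {q : ℕ} {b L : σ → ℝ} {β β' ρ : ℝ} {val : (Pt d → ℝ) → Inp d σ → E d}
    (h : Smp q b L β ρ val) (hβ : β ^ 2 ≤ β' ^ 2) : Smp q b L β' ρ val := by
  obtain ⟨Ω, _, μ, hμ, F, hF, hS⟩ := h
  set c := √(β' ^ 2 - β ^ 2)
  refine ⟨Ω × E d, inferInstance, μ.prod (γ d), inferInstance,
    fun O p => F O (p.1, p.2.1) + c • p.2.2,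
    hF.map (h := fun p : Inp d σ × Ω × E d => (p.1, p.2.1)) (by fun_prop)
      (g := fun b : (Inp d σ × Ω × E d) × E d => b.2 + c • b.1.2.2) (by fun_prop), fun V hV => ?_⟩
  have hP := hS V hV
  have hm := hP.meas
  refine ⟨by fun_prop, fun y => ((hP.int y).comp_fst _).add
      (((IsGaussian.integrable_id (μ := γ d)).smul c).comp_snd μ), fun ω y y' => ?_, fun x φ hφ => ?_⟩
  · simpa using hP.lip ω.1 y y'
  -- the test after the new noise
  set ψ : E d → ℝ := fun v => ∫ w, φ (v + c • w) ∂γ d
  have hψ : LipschitzWith 1 ψ := LipschitzWith.of_dist_le_mul fun a a' => by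
    rw [NNReal.coe_one, one_mul, Real.dist_eq]
    have ha := fun v => integrable_lip (integrable_noise (d := d) v c) hφ
    rw [← integral_sub (ha a) (ha a'), ← norm_eq_abs]
    refine (norm_integral_le_of_norm_le_const (C := dist a a') (ae_of_all _ fun w => ?_)).trans
      (le_of_eq (by simp))
    rw [← dist_eq_norm]
    simpa using hφ.dist_le_mul (a + c • w) (a' + c • w)
  have h1 := hP.close x ψ hψ
  have hI : Integrable (fun p : Inp d σ × Ω × E d =>
      φ (F (oracle V) (blur b x p.1, p.2.1) + c • p.2.2)) ((γs d σ).prod (μ.prod (γ d))) := by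
    refine integrable_lip (Integrable.add ?_ (((IsGaussian.integrable_id (μ := γ d)).smul c).comp_snd μ |>.comp_snd _)) hφ
    have hmp : MeasurePreserving (fun p : Inp d σ × Ω × E d => (p.1, p.2.1))
        ((γs d σ).prod (μ.prod (γ d))) ((γs d σ).prod μ) :=
      (MeasurePreserving.id _).prod measurePreserving_fst
    exact (hmp.integrable_comp (hP.integrable_run x).1).2 (hP.integrable_run x)
  have e1 : ∫ p, φ (F (oracle V) (blur b x p.1, p.2.1) + c • p.2.2) ∂((γs d σ).prod (μ.prod (γ d)))
      = ∫ p, ψ (F (oracle V) (blur b x p.1, p.2)) ∂((γs d σ).prod μ) := by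
    rw [integral_prod _ hI, integral_prod _ (integrable_lip (hP.integrable_run x) hψ)]
    refine integral_congr_ae ?_
    filter_upwards [hI.prod_right_ae] with ξ hξ
    rw [integral_prod _ hξ]
  have e2 : ∫ w, ψ (val V x + β • w) ∂γ d = ∫ w, φ (val V x + β' • w) ∂γ d := by
    have hi : Integrable (fun p : E d × E d => φ (val V x + β • p.1 + c • p.2)) ((γ d).prod (γ d)) :=
      integrable_lip (((integrable_noise (d := d) (val V x) β).comp_fst _).add
        (((IsGaussian.integrable_id (μ := γ d)).smul c).comp_snd _)) hφ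
    rw [show ∫ w, ψ (val V x + β • w) ∂γ d
      = ∫ p : E d × E d, φ (val V x + β • p.1 + c • p.2) ∂(γ d).prod (γ d) from (integral_prod _ hi).symm]
    have hc : β ^ 2 + c ^ 2 = β' ^ 2 := by rw [sq_sqrt (by linarith)]; ring
    simp only [add_assoc]
    exact integral_two β c β' hc (f := fun v => φ (val V x + v))
      (hφ.continuous.comp (by fun_prop)).stronglyMeasurable
  rw [e1, ← e2]
  exact h1

end

end Vale.Agent.P347.Zero
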