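import Vale.Agent.P347.Zero.Levels
import Vale.Agent.P347.Zero.SampleOps

/-!
# P347, exponent 0: elementary operations used by the recursion on the nodes
-/

namespace Vale.Agent.P347.Zero

open MeasureTheory ProbabilityTheory Real Finset
open Vale.Agent.P347.Quarter (E γ)
open Vale.Agent.P347.Colour (Pt Resp Uses oracle)
open scoped NNReal

noncomputable section

set_option linter.unusedSectionVars false

variable {d : ℕ} {σ : Type} [Fintype σ] [DecidableEq σ]

/-- A nearby value may replace the value. -/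
theorem Smp.shift {q : ℕ} {b L : σ → ℝ} {β ρ ρ' : ℝ} {val val' : (Pt d → ℝ) → Inp d σ → E d}
    (h : Smp q b L β ρ val) (he : ∀ V, Mem V → ∀ x, ‖val V x - val' V x‖ ≤ ρ' * wt x) :
    Smp q b L β (ρ + ρ') val' := by
  obtain ⟨Ω, _, μ, hμ, F, hF, hS⟩ := h
  refine ⟨Ω, inferInstance, μ, hμ, F, hF, fun V hV => ?_⟩
  obtain ⟨hm, hi, hl, hc⟩ := hS V hV
  refine ⟨hm, hi, hl, fun x φ hφ => ?_⟩
  rw [add_mul]
  refine (abs_sub_le _ (∫ w, φ (val V x + β • w) ∂γ d) _).trans (add_le_add (hc x φ hφ) ?_)
  rw [← integral_sub (integrable_lip (integrable_noise _ β) hφ)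
    (integrable_lip (integrable_noise _ β) hφ), ← norm_eq_abs]
  refine (norm_integral_le_of_norm_le_const (C := ‖val V x - val' V x‖)
    (ae_of_all _ fun w => ?_)).trans (by simpa using he V hV x)
  simpa [dist_eq_norm] using hφ.dist_le_mul (val V x + β • w) (val' V x + β • w)

/-- Renaming the slots. -/
theorem Smp.rename {τ : Type} [Fintype τ] [DecidableEq τ] (e : σ ≃ τ) {q : ℕ} {b L : σ → ℝ}
    {β ρ : ℝ} {val : (Pt d → ℝ) → Inp d σ → E d} (h : Smp q b L β ρ val) :
    Smp q (b ∘ e.symm) (L ∘ e.symm) β ρ (fun V (y : Inp d τ) => val V (y ∘ e)) := by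
  obtain ⟨Ω, _, μ, hμ, F, hF, hS⟩ := h
  refine ⟨Ω, inferInstance, μ, hμ, fun O p => F O (p.1 ∘ e, p.2),
    hF.map (h := fun p : Inp d τ × Ω => (p.1 ∘ e, p.2)) (by fun_prop)
      (g := fun z : (Inp d τ × Ω) × E d => z.2) measurable_snd, fun V hV => ?_⟩
  obtain ⟨hm, hi, hl, hc⟩ := hS V hV
  refine ⟨by fun_prop, fun y => hi (y ∘ e), fun ω y y' => ?_, fun x φ hφ => ?_⟩
  · refine (hl ω (y ∘ e) (y' ∘ e)).trans (le_of_eq ?_)
    rw [← e.sum_comp fun t => (L ∘ e.symm) t * ‖y t - y' t‖]
    simp
  have h0 := hc (x ∘ e) φ hφ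
  have hw : wt (x ∘ e) = wt x := by
    simp only [wt, Function.comp, e.sum_comp fun t => ‖x t‖]
  rw [hw] at h0
  refine le_of_eq_of_le ?_ h0
  congr 2
  have hmp : MeasurePreserving (fun ξ : Inp d τ => ξ ∘ e) (γs d τ) (γs d σ) := by
    refine ⟨by fun_prop, ?_⟩
    have h1 := map_lin_eq (d := d) (fun (i : σ) (j : τ) => if e i = j then (1 : ℝ) else 0)
      (fun (i j : σ) => if i = j then (1 : ℝ) else 0) (by intro i i'; simp)
    have e2 : (lin fun (i : σ) (j : τ) => if e i = j then (1 : ℝ) else 0)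
        = fun ξ : Inp d τ => ξ ∘ e := by funext ξ i; simp [lin, ite_smul]
    have e3 : (lin fun (i j : σ) => if i = j then (1 : ℝ) else 0 : Inp d σ → Inp d σ) = id := by
      funext ξ i; simp [lin, ite_smul]
    rw [e2, e3, Measure.map_id] at h1
    exact h1
  have hP := hS V hV
  have e1 : ∀ ξ : Inp d τ, blur (b ∘ e.symm) x ξ ∘ e = blur b (x ∘ e) (ξ ∘ e) := fun ξ => by
    funext s; simp [blur]
  simp only [e1]
  rw [← (hmp.prod (MeasurePreserving.id μ)).map_eq, integral_map]
  · rfl
  · fun_prop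
  · exact (integrable_lip (hP.integrable_run (x ∘ e)) hφ).1.mono_ac
      (by rw [(hmp.prod (MeasurePreserving.id μ)).map_eq])

/-- A slot whose value is zero is filled by fresh noise. -/
theorem Smp.fillNone {q : ℕ} {a : ℝ} {b : σ → ℝ} {L : Option σ → ℝ} {β ρ : ℝ}
    {val : (Pt d → ℝ) → Inp d (Option σ) → E d}
    (h : Smp q (fun o => o.elim a b) L β ρ val) :
    Smp q b (fun s => L (some s)) β ρ (fun V (x : Inp d σ) => val V fun o => o.elim 0 x) := by
  obtain ⟨Ω, _, μ, hμ, F, hF, hS⟩ := h
  have hmI : ∀ o : Option σ, Measurable fun p : Inp d σ × E d =>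
      (o.elim (a • p.2) p.1 : E d) := fun o => by
    cases o <;> simp <;> fun_prop
  refine ⟨E d × Ω, inferInstance, (γ d).prod μ, inferInstance,
    fun O p => F O (fun o => o.elim (a • p.2.1) p.1, p.2.2),
    hF.map (h := fun p : Inp d σ × E d × Ω => ((fun o => o.elim (a • p.2.1) p.1), p.2.2))
      (Measurable.prodMk (measurable_pi_lambda _ fun o => (hmI o).comp
        (measurable_fst.prodMk (measurable_fst.comp measurable_snd))) (by fun_prop))
      (g := fun z : (Inp d σ × E d × Ω) × E d => z.2) measurable_snd, fun V hV => ?_⟩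
  obtain ⟨hm, hi, hl, hc⟩ := hS V hV
  have hP := hS V hV
  refine ⟨hm.comp (Measurable.prodMk (measurable_pi_lambda _ fun o => (hmI o).comp
        (measurable_fst.prodMk (measurable_fst.comp measurable_snd))) (by fun_prop)),
    fun y => ?_, fun ω y y' => ?_, fun x φ hφ => ?_⟩
  · refine hP.integrable_of (ν := γ d) (Y := fun ξ => fun o => o.elim (a • ξ) y)
      (measurable_pi_lambda _ fun o => (hmI o).comp (measurable_const.prodMk measurable_id))
      fun o => ?_
    cases o with
    | none => exact (IsGaussian.integrable_id (μ := γ d)).smul a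
    | some s => simp
  · refine (hl ω.2 _ _).trans (le_of_eq ?_)
    simp [Fintype.sum_option]
  set X : Inp d (Option σ) := fun o => o.elim 0 x
  have h0 := hc X φ hφ
  have hw : wt X = wt x := by simp [wt, X, Fintype.sum_option]
  rw [hw] at h0
  refine le_of_eq_of_le ?_ h0
  congr 2
  have hmp : MeasurePreserving (fun ξ : Inp d (Option σ) => ((fun s => ξ (some s)), ξ none))
      (γs d (Option σ)) ((γs d σ).prod (γ d)) := by
    refine ⟨by fun_prop, ?_⟩
    rw [γs, ← Measure.pi_map_piOptionEquivProd (fun _ : Option σ => γ d),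
      Measure.map_map (by fun_prop) (MeasurableEquiv.measurable _)]
    have e : (fun ξ : Inp d (Option σ) => ((fun s => ξ (some s)), ξ none)) ∘
        ⇑(MeasurableEquiv.piOptionEquivProd (δ := σ) fun _ => E d).symm = id := by
      funext p
      exact (MeasurableEquiv.piOptionEquivProd (δ := σ) fun _ => E d).apply_symm_apply p
    rw [e, Measure.map_id]
    rfl
  set Φ : Inp d (Option σ) × Ω → Inp d σ × E d × Ω :=
    fun p => ((fun s => p.1 (some s)), p.1 none, p.2)
  have hΦ : MeasurePreserving Φ ((γs d (Option σ)).prod μ) ((γs d σ).prod ((γ d).prod μ)) :=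
    (measurePreserving_prodAssoc (γs d σ) (γ d) μ).comp (hmp.prod (MeasurePreserving.id μ))
  have hmI' : Measurable fun p : Inp d σ × E d × Ω =>
      F (oracle V) ((fun o => o.elim (a • p.2.1) (blur b x p.1)), p.2.2) :=
    hm.comp (Measurable.prodMk (measurable_pi_lambda _ fun o => (hmI o).comp
      (((measurable_blur b x).comp measurable_fst).prodMk (measurable_fst.comp measurable_snd)))
      (by fun_prop))
  rw [← hΦ.map_eq, integral_map (f := fun p : Inp d σ × E d × Ω =>
      φ (F (oracle V) ((fun o => o.elim (a • p.2.1) (blur b x p.1)), p.2.2)))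
    hΦ.measurable.aemeasurable (hφ.continuous.measurable.comp hmI').aestronglyMeasurable]
  refine integral_congr_ae (ae_of_all _ fun p => ?_)
  simp only [Φ]
  congr 2
  refine Prod.ext (funext fun o => ?_) rfl
  cases o <;> simp [blur, X]

/-- Adding noise to a single input: a finer sample may be used. -/
theorem Smp.finer {q : ℕ} {b b' L : ℝ} {β ρ : ℝ} {val : (Pt d → ℝ) → Inp d Unit → E d}
    (h : Smp q (fun _ => b) (fun _ => L) β ρ val) (hb : b' ^ 2 ≤ b ^ 2) :
    Smp q (fun _ => b') (fun _ => L) β ρ val := by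
  obtain ⟨Ω, _, μ, hμ, F, hF, hS⟩ := h
  set c := √(b ^ 2 - b' ^ 2)
  refine ⟨E d × Ω, inferInstance, (γ d).prod μ, inferInstance,
    fun O p => F O ((fun _ => p.1 () + c • p.2.1), p.2.2),
    hF.map (h := fun p : Inp d Unit × E d × Ω => ((fun _ => p.1 () + c • p.2.1), p.2.2))
      (by fun_prop) (g := fun z : (Inp d Unit × E d × Ω) × E d => z.2) measurable_snd,
    fun V hV => ?_⟩
  obtain ⟨hm, hi, hl, hc⟩ := hS V hV
  have hP := hS V hV
  refine ⟨by fun_prop, fun y => ?_, fun ω y y' => ?_, fun x φ hφ => ?_⟩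
  · exact hP.integrable_of (ν := γ d) (Y := fun ξ _ => y () + c • ξ) (by fun_prop)
      fun _ => integrable_noise _ c
  · refine (hl ω.2 _ _).trans (le_of_eq ?_)
    simp
  have h0 := hc x φ hφ
  refine le_of_eq_of_le ?_ h0
  congr 2
  set f : E d × Ω → ℝ := fun p => φ (F (oracle V) ((fun _ => x () + p.1), p.2))
  have hf : Measurable f := hφ.continuous.measurable.comp (hm.comp (by fun_prop))
  have hI1 : Integrable (fun p : Inp d Unit × E d × Ω =>
      φ (F (oracle V) ((fun _ => x () + b' • p.1 () + c • p.2.1), p.2.2)))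
      ((γs d Unit).prod ((γ d).prod μ)) := by
    have h1 := hP.integrable_of (ν := (γs d Unit).prod (γ d))
      (Y := fun p _ => x () + b' • p.1 () + c • p.2) (by fun_prop) fun _ =>
        ((integrable_blur (fun _ => b') x ()).comp_fst _).add
          (((IsGaussian.integrable_id (μ := γ d)).smul c).comp_snd _)
    exact (measurePreserving_prodAssoc (γs d Unit) (γ d) μ).symm.integrable_comp
      (integrable_lip h1 hφ).1 |>.2 (integrable_lip h1 hφ)
  have hI2 : Integrable (fun p : Inp d Unit × Ω => φ (F (oracle V) (blur (fun _ => b) x p.1, p.2)))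
      ((γs d Unit).prod μ) := integrable_lip (hP.integrable_run x) hφ
  have hbx : ∀ (w : ℝ) (ξ : Inp d Unit), blur (fun _ => w) x ξ = fun _ => x () + w • ξ () :=
    fun w ξ => by funext u; simp [blur]
  simp only [hbx] at hI2 ⊢
  have key : ∀ ω, ∫ ξ, φ (F (oracle V) ((fun _ => x () + b • ξ ()), ω)) ∂γs d Unit
      = ∫ p : E d × E d, φ (F (oracle V) ((fun _ => x () + b' • p.1 + c • p.2), ω))
        ∂(γ d).prod (γ d) := by
    intro ω
    have hg : StronglyMeasurable fun v => φ (F (oracle V) ((fun _ : Unit => x () + v), ω)) :=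
      (hφ.continuous.measurable.comp (hm.comp (by fun_prop))).stronglyMeasurable
    rw [integral_coord () (f := fun w => φ (F (oracle V) ((fun _ : Unit => x () + b • w), ω)))
      (hg.comp_measurable (by fun_prop))]
    rw [← integral_two b' c b (by rw [sq_sqrt (by linarith)]; ring) hg]
    simp only [add_assoc]
  have hI1' : Integrable (fun p : (Inp d Unit × E d) × Ω =>
      φ (F (oracle V) ((fun _ => x () + b' • p.1.1 () + c • p.1.2), p.2)))
      (((γs d Unit).prod (γ d)).prod μ) :=
    integrable_lip (hP.integrable_of (ν := (γs d Unit).prod (γ d))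
      (Y := fun p _ => x () + b' • p.1 () + c • p.2) (by fun_prop) fun _ =>
        ((integrable_blur (fun _ => b') x ()).comp_fst _).add
          (((IsGaussian.integrable_id (μ := γ d)).smul c).comp_snd _)) hφ
  rw [← (measurePreserving_prodAssoc (γs d Unit) (γ d) μ).integral_comp' (fun p : Inp d Unit × E d × Ω =>
      φ (F (oracle V) ((fun _ => x () + b' • p.1 () + c • p.2.1), p.2.2)))]
  simp only [MeasurableEquiv.prodAssoc, MeasurableEquiv.coe_mk, Equiv.prodAssoc_apply]
  rw [integral_prod_symm _ hI1', integral_prod_symm _ hI2]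
  refine integral_congr_ae (ae_of_all _ fun ω => ?_)
  simp only [key]
  have hg : StronglyMeasurable fun p : E d × E d =>
      φ (F (oracle V) ((fun _ : Unit => x () + b' • p.1 + c • p.2), ω)) :=
    (hφ.continuous.measurable.comp (hm.comp (by fun_prop))).stronglyMeasurable
  rw [← ((measurePreserving_coord (d := d) (κ := Unit) ()).prod (MeasurePreserving.id (γ d))).map_eq,
    integral_map (by fun_prop) hg.aestronglyMeasurable]
  rfl

end

end Vale.Agent.P347.Zero
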