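import Vale.Agent.P347.Zero.NodeBase
import Vale.Agent.P347.Zero.NodeOps
import Vale.Agent.P347.Zero.CurProg

/-!
# P347, exponent 0: the recursion on the levels

A node of variance `v` averages nodes of variance `q ^ 2 v`; finitely many levels end in one query.
-/

namespace Vale.Agent.P347.Zero

open MeasureTheory Real Finset
open Vale.Agent.P347.Quarter (E γ)
open Vale.Agent.P347.Colour (Pt)

noncomputable section

variable {d : ℕ} {ε η : ℝ}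

theorem eAt_pos (hd : 0 < (d : ℝ)) (m : ℝ) : 0 < eAt ε η m d := Real.rpow_pos_of_pos hd _

theorem eAt_mono (hd : 1 ≤ (d : ℝ)) (hη : 0 ≤ η) {m m' : ℝ} (h : m ≤ m') :
    eAt ε η m d ≤ eAt ε η m' d :=
  Real.rpow_le_rpow_of_exponent_le hd (by linarith [mul_le_mul_of_nonneg_right h hη])

theorem eAt_succ (hd : 0 < (d : ℝ)) (m : ℝ) :
    eAt ε η m d = eAt ε η (m + 1) d * (d : ℝ) ^ (-η) := by
  rw [eAt, eAt, ← Real.rpow_add hd]
  ring_nf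

theorem sqrt_level (hd : 0 < (d : ℝ)) (v : ℝ) :
    √((d : ℝ) ^ (-2 * η) * v) = (d : ℝ) ^ (-η) * √v := by
  rw [Real.sqrt_mul (Real.rpow_nonneg hd.le _), show (-2 * η) = -η + -η by ring, Real.rpow_add hd,
    Real.sqrt_mul_self (Real.rpow_nonneg hd.le _)]

/-- A worse lower bound on the smoothing radii. -/
theorem Prog.Adm.mono_r {σ : Type} [Fintype σ] {h r r' e : ℝ} {b : σ → ℝ} (hr : r' ≤ r) :
    ∀ {P : Prog σ} {β : ℝ}, P.Adm h r e b β → P.Adm h r' e b β := by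
  intro P
  induction P with
  | mk n l c nd ch ih =>
    intro β hP
    exact ⟨hP.1, fun i => ⟨(hP.2 i).1.mono le_rfl hr, ih i (hP.2 i).2⟩⟩

/-- One node applied to the first slot. -/
def slotProg : Prog (Option Empty) :=
  Prog.mk 0 (fun o => o.elim 1 Empty.elim) Fin.elim0 Fin.elim0 Fin.elim0

/-- The instance of the binder at one dimension. -/
def BinderAt (ε A : ℝ) (D : ℕ) (α κin s κ m κtop c η Cs C : ℝ) (d : ℕ) : Prop :=
  ∀ (σ : Type) [Fintype σ] [DecidableEq σ], Fintype.card σ ≤ D →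
    ∀ (G : Prog (Option σ)) (a β Γ : ℝ) (b : σ → ℝ) (qt : Fin G.num → ℕ)
      (Lt : ℝ) (ρt : Fin G.num → ℝ),
      0 < a → a ≤ 1 → (∀ j, 0 ≤ b j) → (∀ j, G.lin j = 0) →
      G.depth ≤ D → (G.size : ℝ) ≤ Cs * (d : ℝ) ^ (s * η) →
      1 ≤ Γ → Γ ≤ Cs * (d : ℝ) ^ (s * η) → G.Grow d Γ →
      G.Adm ((d : ℝ) ^ (-ε)) ((d : ℝ) ^ (-α * η)) (eAt ε η m d)
        (fun o => o.elim (a * (d : ℝ) ^ (-κin * η)) b) β →
      TopOK ε η (m + 1 / 2) κtop d G qt Lt ρt →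
      ∃ q : ℕ, (q : ℝ) ≤ C * (∑ i, (qt i : ℝ)) + C * (d : ℝ) ^ (c * η) ∧
        Smp (d := d) (σ := Option σ) q
          (fun o => o.elim (a * (d : ℝ) ^ (-κ * η)) fun j => b j * (d : ℝ) ^ (-(κ + κtop) * η))
          (fun o => C * (Lt + 1) * ∑ i, |G.coef i| * (G.child i).grs (eAt ε η m d) o)
          β
          (C * Γ * (∑ i, |G.coef i| * ρt i
            + (Lt + 1) * (∑ i, |G.coef i| * √(G.node i).v) * (d : ℝ) ^ (-A)))
          (fun V x => ∫ ξ, G.val V (fun o => o.elim (x none + a • ξ) fun j => x (some j)) ∂γ d)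

/-- A smoothed node from the node itself. -/
theorem smp_smoothed {A κB m κN c C Cs L ρ : ℝ} {qN : ℕ} {nd : Nd} {r : ℝ}
    (hd : 1 ≤ (d : ℝ)) (hh : (d : ℝ) ^ (-ε) ≤ 1) (hC : 0 ≤ C) (hCs : 3 ≤ Cs) (hL : 0 ≤ L)
    (hρ : 0 ≤ ρ) (hB : BinderAt ε A 2 0 0 0 κB m κN c η Cs C d)
    (hnd : nd.Ok ((d : ℝ) ^ (-ε)) r) (ha : 0 < nd.a)
    (hN : Smp (d := d) (σ := Unit) qN (fun _ => √nd.v * (d : ℝ) ^ (-κN * η)) (fun _ => L)
      (√nd.v / eAt ε η (m + 1 / 2) d) ρ (fun V x => (Nd.mk nd.v 0).val V (x ()))) :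
    ∃ q : ℕ, (q : ℝ) ≤ C * (qN : ℝ) + C * (d : ℝ) ^ (c * η) ∧
      Smp (d := d) (σ := Unit) q (fun _ => nd.a * (d : ℝ) ^ (-κB * η)) (fun _ => C * (L + 1))
        (√nd.v / eAt ε η m d) (C * (ρ + (L + 1) * √nd.v * (d : ℝ) ^ (-A)))
        (fun V x => nd.val V (x ())) := by
  have hd0 : (0 : ℝ) < d := by linarith
  have ha1 : nd.a ≤ 1 := hnd.a_le.trans (by
    rw [← Real.sqrt_one]; exact Real.sqrt_le_sqrt (hnd.v_le.trans hh))
  have hscale : (Nd.mk nd.v 0).scale = √nd.v := by simp [Nd.scale]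
  have hok : (Nd.mk nd.v 0).Ok ((d : ℝ) ^ (-ε)) ((d : ℝ) ^ (-(0 : ℝ) * η)) :=
    ⟨hnd.v_pos, hnd.v_le, Real.sqrt_nonneg _, Or.inl rfl⟩
  obtain ⟨q, hq, hS⟩ := hB Empty (by simp) (Prog.mk 1 (fun _ => 0) (fun _ => 1) (fun _ => Nd.mk nd.v 0) (fun _ => slotProg) : Prog (Option Empty))
    nd.a (√nd.v / eAt ε η m d) 1 Empty.elim
    (fun _ => qN) L (fun _ => ρ) ha ha1 (fun j => j.elim) (fun _ => rfl)
    (by simp [Prog.depth, slotProg])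
    (by simp [Prog.size, slotProg]; linarith)
    le_rfl (by simp; linarith)
    (by
      intro i
      refine ⟨fun V _ x => ?_, fun j => Fin.elim0 j⟩
      show ‖slotProg.val V x‖ ≤ _
      simp only [slotProg, Prog.val, Fintype.sum_option, wt]
      simp)
    (by
      refine ⟨?_, fun i => ⟨hok, ?_⟩⟩
      · simp
      · refine ⟨?_, fun j => Fin.elim0 j⟩
        simp only [hscale, Fintype.sum_option]
        simp [hnd.a_le])
    ⟨hL, fun i => ⟨hρ, by simpa [Prog.node, hscale] using hN⟩⟩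
  refine ⟨q, hq.trans (le_of_eq ?_), ?_⟩
  · show C * (∑ _i : Fin 1, (qN : ℝ)) + _ = _
    simp
  let e : Option Empty ≃ Unit :=
    ⟨fun _ => (), fun _ => none, fun o => o.casesOn rfl (fun j => j.elim), fun _ => rfl⟩
  have hgrs : slotProg.grs (eAt ε η m d) none = 1 := by simp [slotProg, Prog.grs]
  have hz : ∀ (V : Pt d → ℝ) (w : E d), (Nd.mk nd.v 0).val V w = Nv V nd.v w := fun V w => by
    simp [Nd.val, Quarter.G]
  have h1 := (hS.rename e).congr (val' := fun V (y : Inp d Unit) => nd.val V (y ()))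
    fun V _ y => by
      show ∫ ξ, _ ∂γ d = Quarter.G (nd.a ^ 2) (Nv V nd.v) (y ())
      rw [Quarter.G, Real.sqrt_sq ha.le]
      refine integral_congr_ae (ae_of_all _ fun ξ => ?_)
      show ∑ o : Option Empty, (0 : ℝ) • _ + ∑ _i : Fin 1, (1 : ℝ) • _ = _
      simp only [slotProg, Prog.val, Fintype.sum_option, Fin.sum_univ_one, hz]
      simp [e]
  have hb : ((fun o : Option Empty => o.elim (nd.a * (d : ℝ) ^ (-κB * η))
      fun j => Empty.elim j * (d : ℝ) ^ (-(κB + κN) * η)) ∘ e.symm)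
      = fun _ : Unit => nd.a * (d : ℝ) ^ (-κB * η) := funext fun _ => rfl
  rw [hb] at h1
  refine h1.mono le_rfl (fun u => ?_) (le_of_eq ?_)
  · show C * (L + 1) * ∑ _i : Fin 1, |(1 : ℝ)| * slotProg.grs (eAt ε η m d) (e.symm u) ≤ _
    simp [e, hgrs]
  · show C * 1 * (∑ _i : Fin 1, |(1 : ℝ)| * ρ
      + (L + 1) * (∑ _i : Fin 1, |(1 : ℝ)| * √nd.v) * (d : ℝ) ^ (-A)) = _
    simp

/-- A node from the smoothed nodes at the next level. -/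
theorem smp_bridged {A κB m κtop c C Cs Cb s L ρ : ℝ} {D : ℕ} {qG : ℕ} {v a : ℝ}
    {P : Prog (Option Unit)} (hd : 1 ≤ (d : ℝ)) (hη : 0 ≤ η) (hh : (d : ℝ) ^ (-ε) ≤ 1)
    (hm : 0 ≤ m) (hC : 0 ≤ C) (hCb : 1 ≤ Cb) (hCs : Cb + 3 ≤ Cs) (hs : 0 ≤ s) (hL : 0 ≤ L)
    (hρ : 0 ≤ ρ) (hB : BinderAt ε A (D + 2) 1 3 s κB m κtop c η Cs C d)
    (hv : 0 < v) (hvh : v ≤ (d : ℝ) ^ (-ε))
    (haU : a ≤ (d : ℝ) ^ (-η) * √v) (haL : (d : ℝ) ^ (-2 * η) * √v ≤ a)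
    (hdep : P.depth ≤ D) (hsize : (P.size : ℝ) ≤ Cb * (d : ℝ) ^ (s * η)) (hgrow : P.Grow d Cb)
    (hPadm : P.Adm ((d : ℝ) ^ (-ε)) 1 (eAt ε η m d)
      (fun o => o.elim ((d : ℝ) ^ (-3 * η)) fun _ => √v * (d : ℝ) ^ (-3 * η)) a)
    (hgrs : P.grs (eAt ε η m d) (some ()) ≤ 2)
    (hval : ∀ V, Mem (d := d) V → ∀ y : Inp d (Option Unit), ‖P.val V y‖ ≤ Cb * wt y)
    (happ : ∀ V, Mem (d := d) V → ∀ x : E d,
      ‖Nv V v x - ∫ z, (Nd.mk ((d : ℝ) ^ (-2 * η) * v) a).val V (P.val V (inp2 z x)) ∂γ d‖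
        ≤ Cb * √v * (d : ℝ) ^ (-A) * (√d + ‖x‖))
    (hG : Smp (d := d) (σ := Unit) qG (fun _ => a * (d : ℝ) ^ (-κtop * η)) (fun _ => L)
      (√((d : ℝ) ^ (-2 * η) * v) / eAt ε η (m + 1 / 2) d) ρ
      (fun V x => (Nd.mk ((d : ℝ) ^ (-2 * η) * v) a).val V (x ()))) :
    ∃ q : ℕ, (q : ℝ) ≤ C * (qG : ℝ) + C * (d : ℝ) ^ (c * η) ∧
      Smp (d := d) (σ := Unit) q (fun _ => √v * (d : ℝ) ^ (-(3 + κB + κtop) * η))
        (fun _ => 2 * (C * (L + 1))) (√v / eAt ε η (m + 1) d)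
        (C * Cb * (ρ + (L + 1) * ((d : ℝ) ^ (-η) * √v) * (d : ℝ) ^ (-A))
          + Cb * √v * (d : ℝ) ^ (-A))
        (fun V x => (Nd.mk v 0).val V (x ())) := by
  have hd0 : (0 : ℝ) < d := by linarith
  set v' := (d : ℝ) ^ (-2 * η) * v with hv'
  have hs' : √v' = (d : ℝ) ^ (-η) * √v := sqrt_level hd0 v
  have hv'0 : 0 < v' := mul_pos (Real.rpow_pos_of_pos hd0 _) hv
  have ha : 0 < a :=
    lt_of_lt_of_le (mul_pos (Real.rpow_pos_of_pos hd0 _) (Real.sqrt_pos.2 hv)) haL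
  have hv'v : v' ≤ v := mul_le_of_le_one_left hv.le
    (Real.rpow_le_one_of_one_le_of_nonpos hd (by linarith))
  have hok : (Nd.mk v' a).Ok ((d : ℝ) ^ (-ε)) ((d : ℝ) ^ (-(1 : ℝ) * η)) := by
    refine ⟨hv'0, hv'v.trans hvh, by rw [hs']; exact haU, Or.inr ⟨ha, ?_⟩⟩
    refine le_trans (le_of_eq ?_) haL
    show (d : ℝ) ^ (-(1 : ℝ) * η) * √v' = _
    rw [hs', ← mul_assoc, ← Real.rpow_add hd0]
    ring_nf
  have hr : (d : ℝ) ^ (-(1 : ℝ) * η) ≤ 1 :=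
    Real.rpow_le_one_of_one_le_of_nonpos hd (by linarith)
  have hscale : (Nd.mk v' a).scale = a := by simp [Nd.scale, ha.ne']
  have hpow : (1 : ℝ) ≤ (d : ℝ) ^ (s * η) := Real.one_le_rpow hd (mul_nonneg hs hη)
  have hb : (fun o : Option Unit => o.elim (1 * (d : ℝ) ^ (-(3 : ℝ) * η))
      fun _ => √v * (d : ℝ) ^ (-3 * η))
      = fun o => o.elim ((d : ℝ) ^ (-3 * η)) fun _ => √v * (d : ℝ) ^ (-3 * η) := by simp
  obtain ⟨q, hq, hS⟩ := hB Unit (by simp) (Prog.mk 1 (fun _ => 0) (fun _ => 1) (fun _ => Nd.mk v' a) (fun _ => P) : Prog (Option Unit))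
    1 (√v' / eAt ε η m d) Cb
    (fun _ => √v * (d : ℝ) ^ (-3 * η)) (fun _ => qG) L (fun _ => ρ)
    one_pos le_rfl (fun _ => by positivity) (fun _ => rfl)
    (by simp [Prog.depth]; omega)
    (by
      simp [Prog.size]
      nlinarith [mul_le_mul_of_nonneg_right hCs (zero_le_one.trans hpow)])
    hCb
    (le_trans (by linarith) (le_mul_of_one_le_right (by linarith) hpow))
    (fun i => ⟨hval, hgrow⟩)
    (by
      refine ⟨?_, fun i => ⟨hok, ?_⟩⟩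
      · simp
      · rw [hb, hscale]; exact hPadm.mono_r hr)
    ⟨hL, fun i => ⟨hρ, by simpa [Prog.node, hscale] using hG⟩⟩
  refine ⟨q, hq.trans (le_of_eq ?_), ?_⟩
  · show C * (∑ _i : Fin 1, (qG : ℝ)) + _ = _
    simp
  have h1 := hS.fillNone
  have h2 : Smp (d := d) (σ := Unit) q
      (fun _ => √v * (d : ℝ) ^ (-(3 + κB + κtop) * η))
      (fun _ => 2 * (C * (L + 1))) (√v / eAt ε η (m + 1) d)
      (C * Cb * (ρ + (L + 1) * ((d : ℝ) ^ (-η) * √v) * (d : ℝ) ^ (-A)))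
      (fun V x => ∫ z, (Nd.mk v' a).val V (P.val V (inp2 z (x ()))) ∂γ d) := by
    have hb' : (fun _ : Unit => √v * (d : ℝ) ^ (-(3 + κB + κtop) * η))
        = fun _ => √v * (d : ℝ) ^ (-3 * η) * (d : ℝ) ^ (-(κB + κtop) * η) := by
      funext u; rw [mul_assoc, ← Real.rpow_add hd0]; ring_nf
    have hβ : √v' / eAt ε η m d = √v / eAt ε η (m + 1) d := by
      rw [hs', eAt_succ hd0 m, mul_comm ((d : ℝ) ^ (-η)) √v,
        mul_div_mul_right _ _ (Real.rpow_pos_of_pos hd0 _).ne']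
    have hfun : (fun V (x : Inp d Unit) => ∫ ξ, (Prog.mk 1 (fun _ => 0) (fun _ => 1) (fun _ => Nd.mk v' a) (fun _ => P) : Prog (Option Unit)).val V (fun o => o.elim
          ((fun o : Option Unit => o.elim 0 x) none + (1 : ℝ) • ξ)
            fun j => (fun o : Option Unit => o.elim 0 x) (some j)) ∂γ d)
        = fun V (x : Inp d Unit) => ∫ z, (Nd.mk v' a).val V (P.val V (inp2 z (x ()))) ∂γ d := by
      funext V x
      congr 1; funext z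
      simp [Prog.val]
      exact congrArg _ (congrArg (P.val V) (funext fun o => by cases o <;> rfl))
    rw [hfun, hβ, ← hb'] at h1
    refine h1.mono le_rfl (fun u => ?_) (le_of_eq ?_)
    · show C * (L + 1) * ∑ _i : Fin 1, |(1 : ℝ)| * P.grs (eAt ε η m d) (some u) ≤ _
      simp only [abs_one, one_mul, Fin.sum_univ_one]
      calc C * (L + 1) * P.grs (eAt ε η m d) (some u) ≤ C * (L + 1) * 2 :=
            mul_le_mul_of_nonneg_left hgrs (mul_nonneg hC (by linarith))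
        _ = 2 * (C * (L + 1)) := by ring
    · show C * Cb * (∑ _i : Fin 1, |(1 : ℝ)| * ρ
        + (L + 1) * (∑ _i : Fin 1, |(1 : ℝ)| * √v') * (d : ℝ) ^ (-A)) = _
      simp [hs']
  refine h2.shift fun V hV x => ?_
  rw [norm_sub_rev, show (Nd.mk v 0).val V (x ()) = Nv V v (x ()) by simp [Nd.val, Quarter.G]]
  simpa [wt] using happ V hV (x ())

theorem BinderAt.mono {A : ℝ} {D : ℕ} {α κin s κ m κtop c Cs C C' : ℝ} (hd : 0 < (d : ℝ))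
    (h : BinderAt ε A D α κin s κ m κtop c η Cs C d) (hC : C ≤ C') :
    BinderAt ε A D α κin s κ m κtop c η Cs C' d := by
  intro σ _ _ hσ G a β Γ b qt Lt ρt h1 h2 h3 h4 h5 h6 h7 h8 h9 h10 h11
  obtain ⟨q', hq', hS⟩ := h σ hσ G a β Γ b qt Lt ρt h1 h2 h3 h4 h5 h6 h7 h8 h9 h10 h11
  refine ⟨q', hq'.trans ?_, hS.mono le_rfl (fun o => ?_) ?_⟩
  · exact add_le_add (mul_le_mul_of_nonneg_right hC (sum_nonneg fun i _ => Nat.cast_nonneg _))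
      (mul_le_mul_of_nonneg_right hC (Real.rpow_nonneg hd.le _))
  · exact mul_le_mul_of_nonneg_right (mul_le_mul_of_nonneg_right hC (by linarith [h11.1]))
      (sum_nonneg fun i _ => mul_nonneg (abs_nonneg _) (Prog.grs_nonneg (eAt_pos hd _).le _ _))
  · exact mul_le_mul_of_nonneg_right (mul_le_mul_of_nonneg_right hC (by linarith))
      (add_nonneg (sum_nonneg fun i _ => mul_nonneg (abs_nonneg _) (h11.2 i).1)
        (mul_nonneg (mul_nonneg (by linarith [h11.1]) (sum_nonneg fun i _ => by positivity))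
          (Real.rpow_nonneg hd.le _)))

/-- The constants of the levels: queries, Lipschitz constant, error. -/
def levC (C₁ C₂ Cb : ℝ) : ℕ → ℝ × ℝ × ℝ
  | 0 => (1, 2, 10)
  | j + 1 => (C₂ * (C₁ * (levC C₁ C₂ Cb j).1 + C₁) + C₂,
      2 * (C₂ * (C₁ * ((levC C₁ C₂ Cb j).2.1 + 1) + 1)),
      C₂ * Cb * (C₁ * ((levC C₁ C₂ Cb j).2.2 + ((levC C₁ C₂ Cb j).2.1 + 1))
        + (C₁ * ((levC C₁ C₂ Cb j).2.1 + 1) + 1)) + Cb)

theorem one_le_levC {C₁ C₂ Cb : ℝ} (h1 : 1 ≤ C₁) (h2 : 1 ≤ C₂) (hb : 1 ≤ Cb) (j : ℕ) :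
    1 ≤ (levC C₁ C₂ Cb j).1 ∧ 1 ≤ (levC C₁ C₂ Cb j).2.1 ∧ 1 ≤ (levC C₁ C₂ Cb j).2.2 := by
  induction j with
  | zero => norm_num [levC]
  | succ j ih =>
    obtain ⟨i1, i2, i3⟩ := ih
    have k1 : 0 ≤ C₁ := by linarith
    have k2 : 0 ≤ C₂ := by linarith
    have kb : 0 ≤ Cb := by linarith
    refine ⟨?_, ?_, ?_⟩
    · show 1 ≤ C₂ * (C₁ * (levC C₁ C₂ Cb j).1 + C₁) + C₂
      exact le_add_of_nonneg_of_le (by positivity) h2
    · show 1 ≤ 2 * (C₂ * (C₁ * ((levC C₁ C₂ Cb j).2.1 + 1) + 1))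
      have : 1 ≤ C₂ * (C₁ * ((levC C₁ C₂ Cb j).2.1 + 1) + 1) :=
        one_le_mul_of_one_le_of_one_le h2 (le_add_of_nonneg_left (by positivity))
      linarith
    · show 1 ≤ C₂ * Cb * (C₁ * ((levC C₁ C₂ Cb j).2.2 + ((levC C₁ C₂ Cb j).2.1 + 1))
        + (C₁ * ((levC C₁ C₂ Cb j).2.1 + 1) + 1)) + Cb
      exact le_add_of_nonneg_of_le (by positivity) hb

/-- One level costs one factor `q` in the bottom error. -/
theorem level_err {C₁ C₂ Cb R L s q δ t t' : ℝ} (h1 : 0 ≤ C₁) (h2 : 0 ≤ C₂) (hb : 0 ≤ Cb)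
    (hR : 0 ≤ R) (hL : 0 ≤ L) (hs : 0 ≤ s) (hq : q ≤ 1) (hδ : 0 ≤ δ)
    (ht : 0 ≤ t') (htt : q * t = t') :
    C₂ * Cb * (C₁ * (R * (q * s) * (δ + t) + (L + 1) * (q * s) * δ)
        + (C₁ * (L + 1) + 1) * (q * s) * δ) + Cb * s * δ
      ≤ (C₂ * Cb * (C₁ * (R + (L + 1)) + (C₁ * (L + 1) + 1)) + Cb) * s * (δ + t') := by
  have e1 : q * (δ + t) ≤ δ + t' := by
    rw [mul_add, htt]; exact add_le_add (mul_le_of_le_one_left hδ hq) le_rfl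
  have e2 : q * δ ≤ δ + t' :=
    (mul_le_of_le_one_left hδ hq).trans (le_add_of_nonneg_right ht)
  have e3 : δ ≤ δ + t' := le_add_of_nonneg_right ht
  calc C₂ * Cb * (C₁ * (R * (q * s) * (δ + t) + (L + 1) * (q * s) * δ)
        + (C₁ * (L + 1) + 1) * (q * s) * δ) + Cb * s * δ
      = C₂ * Cb * (C₁ * (R * s * (q * (δ + t)) + (L + 1) * s * (q * δ))
        + (C₁ * (L + 1) + 1) * s * (q * δ)) + Cb * s * δ := by ring
    _ ≤ C₂ * Cb * (C₁ * (R * s * (δ + t') + (L + 1) * s * (δ + t'))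
        + (C₁ * (L + 1) + 1) * s * (δ + t')) + Cb * s * (δ + t') := by gcongr
    _ = _ := by ring

/-- All levels at one dimension. -/
theorem smp_levels {A κG κ₁ c c₁ c₂ s m C₁ C₂ Cb κN : ℝ} {D : ℕ} (hd : 1 ≤ (d : ℝ)) (hη : 0 ≤ η)
    (hh : (d : ℝ) ^ (-ε) ≤ 1 / 4) (hm : 0 ≤ m) (h1 : 1 ≤ C₁) (h2 : 1 ≤ C₂) (hb : 1 ≤ Cb)
    (hs : 0 ≤ s) (hκ : κN = 3 + κ₁ + κG) (hκ0 : 0 ≤ κN) (hc : 0 ≤ c) (hc₁ : c₁ ≤ c) (hc₂ : c₂ ≤ c)
    (hBG : BinderAt ε A 2 0 0 0 κG (m + 1 / 2) κN c₁ η 3 C₁ d)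
    (hBN : BinderAt ε A (D + 2) 1 3 s κ₁ m κG c₂ η (Cb + 3) C₂ d)
    (hbr : ∀ v : ℝ, 0 < v → v ≤ (d : ℝ) ^ (-ε) → ∃ (P : Prog (Option Unit)) (a : ℝ),
      a ≤ (d : ℝ) ^ (-η) * √v ∧ (d : ℝ) ^ (-2 * η) * √v ≤ a ∧ P.depth ≤ D ∧
      (P.size : ℝ) ≤ Cb * (d : ℝ) ^ (s * η) ∧ P.Grow d Cb ∧
      P.Adm ((d : ℝ) ^ (-ε)) 1 (eAt ε η m d)
        (fun o => o.elim ((d : ℝ) ^ (-3 * η)) fun _ => √v * (d : ℝ) ^ (-3 * η)) a ∧
      P.grs (eAt ε η m d) (some ()) ≤ 2 ∧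
      (∀ V, Mem (d := d) V → ∀ y : Inp d (Option Unit), ‖P.val V y‖ ≤ Cb * wt y) ∧
      ∀ V, Mem (d := d) V → ∀ x : E d,
        ‖Nv V v x - ∫ z, (Nd.mk ((d : ℝ) ^ (-2 * η) * v) a).val V (P.val V (inp2 z x)) ∂γ d‖
          ≤ Cb * √v * (d : ℝ) ^ (-A) * (√d + ‖x‖)) :
    ∀ j : ℕ, ∀ v : ℝ, 0 < v → v ≤ (d : ℝ) ^ (-ε) → ∃ qN : ℕ,
      (qN : ℝ) ≤ (levC C₁ C₂ Cb j).1 * (d : ℝ) ^ (c * η) ∧
      Smp (d := d) (σ := Unit) qN (fun _ => √v * (d : ℝ) ^ (-κN * η))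
        (fun _ => (levC C₁ C₂ Cb j).2.1) (√v / eAt ε η (m + 1) d)
        ((levC C₁ C₂ Cb j).2.2 * √v * ((d : ℝ) ^ (-A) + ((d : ℝ) ^ (-η)) ^ j))
        (fun V x => (Nd.mk v 0).val V (x ())) := by
  have hd0 : (0 : ℝ) < d := by linarith
  have hpc : 1 ≤ (d : ℝ) ^ (c * η) := Real.one_le_rpow hd (mul_nonneg hc hη)
  intro j
  induction j with
  | zero =>
    intro v hv hvh
    have hok : (Nd.mk v 0).Ok ((d : ℝ) ^ (-ε)) 1 :=
      ⟨hv, hvh, Real.sqrt_nonneg _, Or.inl rfl⟩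
    refine ⟨1, by simpa [levC] using hpc, (smp_node_query hok hh
      (mul_nonneg (Real.sqrt_nonneg _) (Real.rpow_nonneg hd0.le _))
      (mul_le_of_le_one_right (Real.sqrt_nonneg _)
        (Real.rpow_le_one_of_one_le_of_nonpos hd (by nlinarith)))).mono
        le_rfl (fun _ => le_rfl) ?_⟩
    show 10 * √v ≤ 10 * √v * ((d : ℝ) ^ (-A) + ((d : ℝ) ^ (-η)) ^ 0)
    exact le_mul_of_one_le_right (by positivity)
      (by rw [pow_zero]; exact le_add_of_nonneg_left (Real.rpow_nonneg hd0.le _))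
  | succ j ih =>
    intro v hv hvh
    obtain ⟨P, a, haU, haL, hdep, hsize, hgrow, hPadm, hgrs, hval, happ⟩ := hbr v hv hvh
    set v' := (d : ℝ) ^ (-2 * η) * v
    have hs' : √v' = (d : ℝ) ^ (-η) * √v := sqrt_level hd0 v
    have hv'0 : 0 < v' := mul_pos (Real.rpow_pos_of_pos hd0 _) hv
    have hv'h : v' ≤ (d : ℝ) ^ (-ε) := le_trans (mul_le_of_le_one_left hv.le
      (Real.rpow_le_one_of_one_le_of_nonpos hd (by linarith))) hvh
    have ha : 0 < a :=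
      lt_of_lt_of_le (mul_pos (Real.rpow_pos_of_pos hd0 _) (Real.sqrt_pos.2 hv)) haL
    obtain ⟨qN, hqN, hN⟩ := ih v' hv'0 hv'h
    obtain ⟨i1, i2, i3⟩ := one_le_levC h1 h2 hb j
    set L := (levC C₁ C₂ Cb j).2.1 with hLd
    set R := (levC C₁ C₂ Cb j).2.2 with hRd
    set ρ := R * √v' * ((d : ℝ) ^ (-A) + ((d : ℝ) ^ (-η)) ^ j) with hρd
    have hρ : 0 ≤ ρ := by positivity
    have hok : (Nd.mk v' a).Ok ((d : ℝ) ^ (-ε)) 0 :=
      ⟨hv'0, hv'h, by rw [hs']; exact haU, Or.inr ⟨ha, by simpa using ha.le⟩⟩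
    obtain ⟨qG, hqG, hG⟩ := smp_smoothed (m := m + 1 / 2) (nd := ⟨v', a⟩) hd
      (hh.trans (by norm_num)) (zero_le_one.trans h1) le_rfl (zero_le_one.trans i2) hρ hBG hok ha
      (by rw [show m + 1 / 2 + 1 / 2 = m + 1 by ring]; exact hN)
    obtain ⟨qO, hqO, hO⟩ := smp_bridged (m := m) hd hη (hh.trans (by norm_num)) hm
      (zero_le_one.trans h2) hb le_rfl hs (by positivity) (by positivity) hBN hv hvh haU haL hdep
      hsize hgrow hPadm hgrs hval happ hG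
    refine ⟨qO, hqO.trans ?_, ?_⟩
    · show C₂ * (qG : ℝ) + C₂ * (d : ℝ) ^ (c₂ * η)
        ≤ (C₂ * (C₁ * (levC C₁ C₂ Cb j).1 + C₁) + C₂) * (d : ℝ) ^ (c * η)
      have hp1 : (d : ℝ) ^ (c₁ * η) ≤ (d : ℝ) ^ (c * η) :=
        Real.rpow_le_rpow_of_exponent_le hd (mul_le_mul_of_nonneg_right hc₁ hη)
      have hp2 : (d : ℝ) ^ (c₂ * η) ≤ (d : ℝ) ^ (c * η) :=
        Real.rpow_le_rpow_of_exponent_le hd (mul_le_mul_of_nonneg_right hc₂ hη)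
      have hg : (qG : ℝ) ≤ (C₁ * (levC C₁ C₂ Cb j).1 + C₁) * (d : ℝ) ^ (c * η) := by
        rw [add_mul, mul_assoc]
        exact hqG.trans (add_le_add (mul_le_mul_of_nonneg_left hqN (by linarith))
          (mul_le_mul_of_nonneg_left hp1 (by linarith)))
      rw [add_mul, mul_assoc]
      exact add_le_add (mul_le_mul_of_nonneg_left hg (by linarith))
        (mul_le_mul_of_nonneg_left hp2 (by linarith))
    · rw [← hκ] at hO
      refine hO.mono le_rfl (fun _ => le_rfl) ?_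
      rw [hρd, hs']
      exact level_err (by linarith) (by linarith) (by linarith) (by linarith) (by linarith)
        (Real.sqrt_nonneg v) (Real.rpow_le_one_of_one_le_of_nonpos hd (by linarith))
        (Real.rpow_nonneg hd0.le _) (by positivity) (pow_succ' _ j).symm

/-- The nodes follow the binder. -/
theorem node_step {ε A : ℝ} (hε : 0 < ε) (_hA : 0 ≤ A) (hb : BinderOK ε A) : NodeOK ε A := by
  intro α _
  obtain ⟨D, s, ηb, hs, hηb, hbr⟩ := exists_bridge hε A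
  obtain ⟨κG, hκG, hBG⟩ := hb 2 0 0 0 le_rfl le_rfl le_rfl
  obtain ⟨κ₁, hκ₁, hBN⟩ := hb (D + 2) 1 3 s zero_le_one (by norm_num) hs
  refine ⟨3 + κ₁ + κG, by linarith, fun m hm => ?_⟩
  obtain ⟨c₁, η₁, hc₁, hη₁, hBG⟩ := hBG (m + 1 / 2) (3 + κ₁ + κG) (by linarith) (by linarith)
  obtain ⟨c₂, η₂, hc₂, hη₂, hBN⟩ := hBN m κG hm hκG
  refine ⟨max c₁ c₂, min ηb (min η₁ η₂), le_max_of_le_left hc₁, lt_min hηb (lt_min hη₁ hη₂),
    fun η hη hη' => ?_⟩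
  simp only [le_min_iff] at hη'
  obtain ⟨hηa, hηb', hηc⟩ := hη'
  obtain ⟨Cb₀, hbr⟩ := hbr η hη hηa
  obtain ⟨C₁', hBG⟩ := hBG η hη hηb' 3
  obtain ⟨C₂', hBN⟩ := hBN η hη hηc (max Cb₀ 1 + 3)
  obtain ⟨Ch, hCh1, hCh⟩ := exists_dim_h hε (δ := 1 / 4) (by norm_num)
  obtain ⟨J, hJ⟩ := exists_nat_ge (A / η)
  set Cb := max Cb₀ 1
  set C₁ := max C₁' 1
  set C₂ := max C₂' 1
  obtain ⟨i1, i2, i3⟩ := one_le_levC (le_max_right C₁' 1) (le_max_right C₂' 1) (le_max_right Cb₀ 1) J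
  set K := levC C₁ C₂ Cb J
  obtain ⟨C, hC⟩ : ∃ C : ℝ, Cb₀ ≤ C ∧ C₁' ≤ C ∧ C₂' ≤ C ∧ Ch ≤ C ∧ C₁ * K.1 + C₁ ≤ C ∧ K.1 ≤ C ∧
      C₁ * (K.2.1 + 1) ≤ C ∧ K.2.1 ≤ C ∧ C₁ * (2 * K.2.2 + (K.2.1 + 1)) ≤ C ∧ 2 * K.2.2 ≤ C :=
    ⟨max (max (max Cb₀ C₁') (max C₂' Ch)) (max (max (C₁ * K.1 + C₁) K.1)
      (max (max (C₁ * (K.2.1 + 1)) K.2.1)
        (max (C₁ * (2 * K.2.2 + (K.2.1 + 1))) (2 * K.2.2)))), by
      refine ⟨?_, ?_, ?_, ?_, ?_, ?_, ?_, ?_, ?_, ?_⟩ <;>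
        simp only [le_max_iff, le_refl, true_or, or_true]⟩
  obtain ⟨hCb, hC1, hC2, hC3, hC4, hC5, hC6, hC7, hC8, hC9⟩ := hC
  refine ⟨C, fun d hd nd hnd => ?_⟩
  have hd1 : (1 : ℝ) ≤ d := hCh1.trans (hC3.trans hd)
  have hd0 : (0 : ℝ) < d := by linarith
  have hh : (d : ℝ) ^ (-ε) ≤ 1 / 4 := hCh d (hC3.trans hd)
  have hBG' : BinderAt ε A 2 0 0 0 κG (m + 1 / 2) (3 + κ₁ + κG) c₁ η 3 C₁ d :=
    BinderAt.mono hd0 (hBG d (hC1.trans hd)) (le_max_left _ _)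
  have hBN' : BinderAt ε A (D + 2) 1 3 s κ₁ m κG c₂ η (Cb + 3) C₂ d :=
    BinderAt.mono hd0 (hBN d (hC2.trans hd)) (le_max_left _ _)
  obtain ⟨qN, hqN, hN⟩ := smp_levels (c := max c₁ c₂) hd1 hη.le hh hm (le_max_right _ _)
    (le_max_right _ _) (le_max_right _ _) hs rfl (by linarith) (le_max_of_le_left hc₁)
    (le_max_left _ _) (le_max_right _ _) hBG' hBN'
    (fun v hv hvh => by
      obtain ⟨P, a, h1, h2, h3, h4, h5, _, h6, h7⟩ := hbr d (hCb.trans hd) v hv hvh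
      obtain ⟨h8, _, h9⟩ := h6 _ (eAt_mono hd1 hη.le hm)
      exact ⟨P, a, h1, h2, h3,
        h4.trans (mul_le_mul_of_nonneg_right (le_max_left _ _) (Real.rpow_nonneg hd0.le _)),
        h5.mono (le_max_left _ _), h8, h9,
        fun V hV y => ((h7 V hV).1 y).trans
          (mul_le_mul_of_nonneg_right (le_max_left _ _) (wt_nonneg y)),
        fun V hV x => ((h7 V hV).2 x).1.trans (by
          have h0 := le_max_left Cb₀ 1
          gcongr)⟩) J nd.v hnd.v_pos hnd.v_le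
  have hsv := Real.sqrt_nonneg nd.v
  have hδ : 0 ≤ (d : ℝ) ^ (-A) := Real.rpow_nonneg hd0.le _
  have hpc : 0 ≤ (d : ℝ) ^ (max c₁ c₂ * η) := Real.rpow_nonneg hd0.le _
  have hqJ : ((d : ℝ) ^ (-η)) ^ J ≤ (d : ℝ) ^ (-A) := by
    rw [← Real.rpow_natCast, ← Real.rpow_mul hd0.le]
    refine Real.rpow_le_rpow_of_exponent_le hd1 ?_
    rw [div_le_iff₀ hη] at hJ
    linarith
  have hρN : K.2.2 * √nd.v * ((d : ℝ) ^ (-A) + ((d : ℝ) ^ (-η)) ^ J)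
      ≤ 2 * K.2.2 * √nd.v * (d : ℝ) ^ (-A) :=
    (mul_le_mul_of_nonneg_left (add_le_add le_rfl hqJ) (by positivity)).trans (le_of_eq (by ring))
  have hnoise : ∀ M : ℝ, m ≤ M → (√nd.v / eAt ε η M d) ^ 2 ≤ (√nd.v / eAt ε η m d) ^ 2 :=
    fun M hM => pow_le_pow_left₀ (div_nonneg hsv (eAt_pos hd0 _).le)
      (div_le_div_of_nonneg_left hsv (eAt_pos hd0 _) (eAt_mono hd1 hη.le hM)) 2
  rcases hnd.a_ge with h0 | ⟨ha, -⟩
  · have hnd0 : nd = Nd.mk nd.v 0 := congrArg (Nd.mk nd.v) h0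
    have hscale : nd.scale = √nd.v := by simp [Nd.scale, h0]
    refine ⟨qN, hqN.trans (mul_le_mul_of_nonneg_right hC5 hpc), ?_⟩
    rw [hscale]
    exact (((hN.noise (hnoise _ (by linarith))).congr fun V _ x => by rw [← hnd0]).mono le_rfl
      (fun _ => hC7)
      (hρN.trans (mul_le_mul_of_nonneg_right (mul_le_mul_of_nonneg_right hC9 hsv) hδ)))
  · obtain ⟨qG, hqG, hG⟩ := smp_smoothed (m := m + 1 / 2) hd1 (hh.trans (by norm_num))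
      (zero_le_one.trans (le_max_right C₁' 1)) le_rfl (zero_le_one.trans i2)
      (ρ := K.2.2 * √nd.v * ((d : ℝ) ^ (-A) + ((d : ℝ) ^ (-η)) ^ J)) (by positivity) hBG' hnd ha
      (by rw [show m + 1 / 2 + 1 / 2 = m + 1 by ring]; exact hN)
    have hscale : nd.scale = nd.a := by simp [Nd.scale, ha.ne']
    have hC₁ : 0 ≤ C₁ := zero_le_one.trans (le_max_right C₁' 1)
    refine ⟨qG, hqG.trans ?_, ?_⟩
    · calc C₁ * (qN : ℝ) + C₁ * (d : ℝ) ^ (c₁ * η)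
          ≤ C₁ * (K.1 * (d : ℝ) ^ (max c₁ c₂ * η)) + C₁ * (d : ℝ) ^ (max c₁ c₂ * η) :=
            add_le_add (mul_le_mul_of_nonneg_left hqN hC₁) (mul_le_mul_of_nonneg_left
              (Real.rpow_le_rpow_of_exponent_le hd1
                (mul_le_mul_of_nonneg_right (le_max_left _ _) hη.le)) hC₁)
        _ = (C₁ * K.1 + C₁) * (d : ℝ) ^ (max c₁ c₂ * η) := by ring
        _ ≤ _ := mul_le_mul_of_nonneg_right hC4 hpc
    · rw [hscale]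
      refine ((hG.finer (b' := nd.a * (d : ℝ) ^ (-(3 + κ₁ + κG) * η)) ?_).noise
        (hnoise _ (by linarith))).mono le_rfl (fun _ => hC6) ?_
      · exact pow_le_pow_left₀ (mul_nonneg ha.le (Real.rpow_nonneg hd0.le _))
          (mul_le_mul_of_nonneg_left (Real.rpow_le_rpow_of_exponent_le hd1 (by nlinarith)) ha.le) 2
      · calc C₁ * (K.2.2 * √nd.v * ((d : ℝ) ^ (-A) + ((d : ℝ) ^ (-η)) ^ J)
              + (K.2.1 + 1) * √nd.v * (d : ℝ) ^ (-A))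
            ≤ C₁ * (2 * K.2.2 * √nd.v * (d : ℝ) ^ (-A)
              + (K.2.1 + 1) * √nd.v * (d : ℝ) ^ (-A)) :=
              mul_le_mul_of_nonneg_left (add_le_add hρN le_rfl) hC₁
          _ = C₁ * (2 * K.2.2 + (K.2.1 + 1)) * √nd.v * (d : ℝ) ^ (-A) := by ring
          _ ≤ _ := mul_le_mul_of_nonneg_right (mul_le_mul_of_nonneg_right hC8 hsv) hδ

end

end Vale.Agent.P347.Zero
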