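import Vale.Agent.P347.Zero.SampleOps

/-!
# P347, exponent 0: substitution of sampleable values

One sample per slot is split into independent samples for the inner values, whose outputs are the
samples asked for by the outer value. Sums, multiples and merged slots are special cases.
-/

namespace Vale.Agent.P347.Zero

open MeasureTheory ProbabilityTheory Real Finset
open Vale.Agent.P347.Quarter (E γ)
open Vale.Agent.P347.Colour (Pt Resp Uses oracle)
open scoped NNReal

noncomputable section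

set_option linter.unusedSectionVars false

variable {d : ℕ} {σ τ : Type} [Fintype σ] [Fintype τ] [DecidableEq σ] [DecidableEq τ]

/-! ## Programs side by side -/

theorem uses_pi_fin {β : Type} [MeasurableSpace β] :
    ∀ {n : ℕ} {q : Fin n → ℕ} {α : Type} [MeasurableSpace α]
      {F : Fin n → (Pt d → Resp d) → α → β}, (∀ i, Uses (q i) α (F i)) →
      Uses (∑ i, q i) α fun O a i => F i O a := by
  intro n
  induction n with
  | zero =>
    intro q α _ F _
    exact ⟨fun _ i => i.elim0, measurable_const, fun O a => funext fun i => i.elim0⟩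
  | succ n ih =>
    intro q α _ F h
    have h2 := (ih fun i => h i.succ).map (h := fun b : α × β => b.1) measurable_fst
      (g := fun b : (α × β) × (Fin n → β) => (Fin.cons b.1.2 b.2 : Fin (n + 1) → β))
      (measurable_pi_lambda _ fun i => by
        refine Fin.cases ?_ (fun i => ?_) i <;> simp <;> fun_prop)
    have h3 := (h 0).comp h2
    rw [show ∑ i, q i = ∑ i : Fin n, q i.succ + q 0 by rw [Fin.sum_univ_succ, Nat.add_comm]]
    convert h3 using 1
    funext O a i
    refine Fin.cases ?_ (fun i => ?_) i <;> simp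

theorem uses_pi {β : Type} [MeasurableSpace β] {q : τ → ℕ} {α : Type} [MeasurableSpace α]
    {F : τ → (Pt d → Resp d) → α → β} (h : ∀ t, Uses (q t) α (F t)) :
    Uses (∑ t, q t) α fun O a t => F t O a := by
  set e := Fintype.equivFin τ
  have h2 := (uses_pi_fin fun i => h (e.symm i)).map (h := id) measurable_id
    (g := fun b : α × (Fin (Fintype.card τ) → β) => fun t => b.2 (e t))
    (measurable_pi_lambda _ fun t => by fun_prop)
  rw [← e.symm.sum_comp]
  simpa using h2

/-! ## Replacing independent inputs one at a time -/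

/-- Tests with any Lipschitz constant. -/
theorem close_scale {α : Type*} [MeasurableSpace α] {ν : Measure α} [IsProbabilityMeasure ν]
    {X : α → E d} {m : E d} {s e : ℝ}
    (h : ∀ φ : E d → ℝ, LipschitzWith 1 φ →
      |∫ a, φ (X a) ∂ν - ∫ w, φ (m + s • w) ∂γ d| ≤ e)
    {f : E d → ℝ} {L : ℝ} (hL : 0 ≤ L) (hf : ∀ u v, |f u - f v| ≤ L * ‖u - v‖) :
    |∫ a, f (X a) ∂ν - ∫ w, f (m + s • w) ∂γ d| ≤ L * e := by
  rcases eq_or_lt_of_le hL with rfl | hL0
  · have e' : ∀ v, f v = f 0 := fun v => by simpa [sub_eq_zero] using hf v 0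
    rw [integral_congr_ae (ae_of_all _ fun a => e' (X a)),
      integral_congr_ae (ae_of_all _ fun w => e' (m + s • w))]
    simp
  · have h1 : LipschitzWith 1 fun v => L⁻¹ * f v := LipschitzWith.of_dist_le_mul fun a c => by
      rw [NNReal.coe_one, one_mul, Real.dist_eq, ← mul_sub, abs_mul, abs_inv, abs_of_pos hL0,
        inv_mul_le_iff₀ hL0, dist_eq_norm]
      exact hf a c
    have h2 := h _ h1
    rwa [integral_const_mul, integral_const_mul, ← mul_sub, abs_mul, abs_inv, abs_of_pos hL0,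
      inv_mul_le_iff₀ hL0] at h2

/-- A function of several points with a Lipschitz constant in each is integrable. -/
theorem integrable_multi {α : Type*} [MeasurableSpace α] {ν : Measure α} [IsFiniteMeasure ν]
    {Y : α → τ → E d} (hY : ∀ t, Integrable (fun a => Y a t) ν) {L : τ → ℝ} (hL : ∀ t, 0 ≤ L t)
    {Φ : (τ → E d) → ℝ} (hΦ : ∀ z z', |Φ z - Φ z'| ≤ ∑ t, L t * ‖z t - z' t‖) :
    Integrable (fun a => Φ (Y a)) ν := by
  have hc : LipschitzWith (∑ t, L t).toNNReal Φ := LipschitzWith.of_dist_le' fun z z' => by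
    rw [Real.dist_eq, sum_mul]
    refine (hΦ z z').trans (sum_le_sum fun t _ => mul_le_mul_of_nonneg_left ?_ (hL t))
    rw [← dist_eq_norm]
    exact dist_le_pi_dist z z' t
  refine ((integrable_finsetSum (univ : Finset τ) fun t _ => (hY t).norm.const_mul (L t)).add
    (integrable_const |Φ 0|)).mono'
    (hc.continuous.comp_aestronglyMeasurable ?_) (ae_of_all _ fun a => ?_)
  · exact (aemeasurable_pi_lambda _ fun t => (hY t).1.aemeasurable).aestronglyMeasurable
  · have h1 := hΦ (Y a) 0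
    simp only [Pi.zero_apply, sub_zero] at h1
    simp only [Pi.add_apply, norm_eq_abs]
    linarith [abs_add_le (Φ (Y a) - Φ 0) (Φ 0), sub_add_cancel (Φ (Y a)) (Φ 0),
      show |Φ (Y a)| ≤ |Φ (Y a) - Φ 0| + |Φ 0| by simpa using abs_add_le (Φ (Y a) - Φ 0) (Φ 0)]

theorem close_pi_fin : ∀ {n : ℕ} {α : Fin n → Type} [∀ i, MeasurableSpace (α i)]
    (ν : ∀ i, Measure (α i)) [∀ i, IsProbabilityMeasure (ν i)] {X : ∀ i, α i → E d}
    (_ : ∀ i, Integrable (X i) (ν i)) (m : Fin n → E d) (s : Fin n → ℝ) {e L : Fin n → ℝ}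
    (_ : ∀ i, 0 ≤ L i)
    (_ : ∀ i, ∀ φ : E d → ℝ, LipschitzWith 1 φ →
      |∫ a, φ (X i a) ∂ν i - ∫ w, φ (m i + s i • w) ∂γ d| ≤ e i)
    {Φ : (Fin n → E d) → ℝ} (_ : ∀ z z', |Φ z - Φ z'| ≤ ∑ i, L i * ‖z i - z' i‖),
    |∫ a, Φ (fun i => X i (a i)) ∂Measure.pi ν - ∫ w, Φ (fun i => m i + s i • w i) ∂γs d (Fin n)|
      ≤ ∑ i, L i * e i := by
  intro n
  induction n with
  | zero =>
    intro α _ ν _ X _ m s e L _ _ Φ _
    have e' : ∀ z, Φ z = Φ 0 := fun z => by rw [Subsingleton.elim z 0]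
    rw [show (fun a : ∀ i, α i => Φ fun i => X i (a i)) = fun _ => Φ 0 from funext fun a => e' _,
      show (fun w : Fin 0 → E d => Φ fun i => m i + s i • w i) = fun _ => Φ 0 from funext fun a => e' _]
    simp
  | succ n ih =>
    intro α _ ν _ X hX m s e L hL hc Φ hΦ
    set ν' := fun j : Fin n => ν j.succ
    set Pν := Measure.pi ν'
    have hcoord : ∀ j : Fin n, Integrable (fun a : ∀ j, α (Fin.succ j) => X j.succ (a j)) Pν :=
      fun j => ((measurePreserving_eval ν' j).integrable_comp (hX j.succ).1).2 (hX j.succ)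
    have hnoise : ∀ i : Fin (n + 1), Integrable (fun w => m i + s i • w) (γ d) := fun i =>
      integrable_noise _ _
    -- the two decompositions
    have t1 := (measurePreserving_piFinSuccAbove ν 0).symm (MeasurableEquiv.piFinSuccAbove α 0)
    have t2 := (measurePreserving_piFinSuccAbove (fun _ : Fin (n + 1) => γ d) 0).symm
      (MeasurableEquiv.piFinSuccAbove (fun _ => E d) 0)
    set Y1 : α 0 × (∀ j : Fin n, α j.succ) → Fin (n + 1) → E d := fun p =>
      Fin.cons (α := fun _ => E d) (X 0 p.1) fun j => X j.succ (p.2 j)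
    set Y2 : E d × (Fin n → E d) → Fin (n + 1) → E d := fun p =>
      Fin.cons (α := fun _ => E d) (m 0 + s 0 • p.1) fun j => m j.succ + s j.succ • p.2 j
    have hY1 : Integrable (fun p => Φ (Y1 p)) ((ν 0).prod Pν) := by
      refine integrable_multi (fun i => ?_) hL hΦ
      refine Fin.cases ?_ (fun j => ?_) i <;> simp only [Y1, Fin.cons_zero, Fin.cons_succ]
      exacts [(hX 0).comp_fst Pν, (hcoord j).comp_snd _]
    have hY2 : Integrable (fun p => Φ (Y2 p)) ((γ d).prod (γs d (Fin n))) := by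
      refine integrable_multi (fun i => ?_) hL hΦ
      refine Fin.cases ?_ (fun j => ?_) i <;> simp only [Y2, Fin.cons_zero, Fin.cons_succ]
      exacts [(hnoise 0).comp_fst _,
        (((measurePreserving_coord (d := d) j).integrable_comp (hnoise j.succ).1).2
          (hnoise j.succ)).comp_snd _]
    have e1 : ∫ a, Φ (fun i => X i (a i)) ∂Measure.pi ν = ∫ p, Φ (Y1 p) ∂(ν 0).prod Pν := by
      rw [← t1.integral_comp']
      refine integral_congr_ae (ae_of_all _ fun p => congrArg Φ (funext fun i => ?_))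
      show X i ((Fin.insertNth 0 p.1 p.2 : ∀ i, α i) i) = Y1 p i
      refine Fin.cases ?_ (fun j => ?_) i <;> simp [Y1, Fin.insertNth_zero] <;> rfl
    have e2 : ∫ w, Φ (fun i => m i + s i • w i) ∂γs d (Fin (n + 1))
        = ∫ p, Φ (Y2 p) ∂(γ d).prod (γs d (Fin n)) := by
      rw [γs, ← t2.integral_comp']
      refine integral_congr_ae (ae_of_all _ fun p => congrArg Φ (funext fun i => ?_))
      show m i + s i • (Fin.insertNth 0 p.1 p.2 : Fin (n + 1) → E d) i = Y2 p i
      refine Fin.cases ?_ (fun j => ?_) i <;> simp [Y2]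
    rw [e1, e2]
    -- the first input
    set Ψ : (Fin n → E d) → ℝ := fun z => ∫ w, Φ (Fin.cons (α := fun _ => E d) (m 0 + s 0 • w) z) ∂γ d
    have hw : ∀ z, Integrable (fun w => Φ (Fin.cons (α := fun _ => E d) (m 0 + s 0 • w) z)) (γ d) := by
      intro z
      refine integrable_multi (fun i => ?_) hL hΦ
      refine Fin.cases ?_ (fun j => ?_) i <;> simp only [Fin.cons_zero, Fin.cons_succ]
      exacts [hnoise 0, integrable_const _]
    have hΨ : ∀ z z', |Ψ z - Ψ z'| ≤ ∑ j : Fin n, L j.succ * ‖z j - z' j‖ := fun z z' => by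
      rw [← integral_sub (hw z) (hw z'), ← norm_eq_abs]
      refine (norm_integral_le_of_norm_le_const (C := ∑ j : Fin n, L j.succ * ‖z j - z' j‖)
        (ae_of_all _ fun w => ?_)).trans (le_of_eq (by simp))
      refine (hΦ _ _).trans (le_of_eq ?_)
      rw [Fin.sum_univ_succ]; simp
    have hi1 : Integrable (fun a : ∀ j, α (Fin.succ j) => Ψ fun j => X j.succ (a j)) Pν :=
      integrable_multi hcoord (fun j => hL _) hΨ
    have hA : |∫ p, Φ (Y1 p) ∂(ν 0).prod Pν - ∫ a, Ψ (fun j => X j.succ (a j)) ∂Pν| ≤ L 0 * e 0 := by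
      rw [integral_prod_symm _ hY1, ← integral_sub hY1.integral_prod_right hi1, ← norm_eq_abs]
      refine (norm_integral_le_of_norm_le_const (C := L 0 * e 0) (ae_of_all _ fun a => ?_)).trans
        (le_of_eq (by simp))
      refine close_scale (hc 0)
        (f := fun v => Φ (Fin.cons (α := fun _ => E d) v fun j => X j.succ (a j))) (hL 0) fun u v => ?_
      refine (hΦ _ _).trans (le_of_eq ?_)
      rw [Fin.sum_univ_succ]; simp
    have hB : ∫ p, Φ (Y2 p) ∂(γ d).prod (γs d (Fin n))
        = ∫ w, Ψ (fun j => m j.succ + s j.succ • w j) ∂γs d (Fin n) := integral_prod_symm _ hY2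
    have hC := ih ν' (fun j => hX j.succ) (fun j => m j.succ) (fun j => s j.succ) (fun j => hL j.succ)
      (fun j => hc j.succ) hΨ
    rw [hB, Fin.sum_univ_succ]
    exact (abs_sub_le _ _ _).trans (add_le_add hA hC)

theorem close_pi {α : τ → Type} [∀ t, MeasurableSpace (α t)] (ν : ∀ t, Measure (α t))
    [∀ t, IsProbabilityMeasure (ν t)] {X : ∀ t, α t → E d} (hX : ∀ t, Integrable (X t) (ν t))
    (m : τ → E d) (s : τ → ℝ) {e L : τ → ℝ} (hL : ∀ t, 0 ≤ L t)
    (hc : ∀ t, ∀ φ : E d → ℝ, LipschitzWith 1 φ →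
      |∫ a, φ (X t a) ∂ν t - ∫ w, φ (m t + s t • w) ∂γ d| ≤ e t)
    {Φ : (τ → E d) → ℝ} (hΦ : ∀ z z', |Φ z - Φ z'| ≤ ∑ t, L t * ‖z t - z' t‖) :
    |∫ a, Φ (fun t => X t (a t)) ∂Measure.pi ν - ∫ w, Φ (fun t => m t + s t • w t) ∂γs d τ|
      ≤ ∑ t, L t * e t := by
  set f := (Fintype.equivFin τ).symm
  have hΦ' : ∀ z z' : Fin (Fintype.card τ) → E d,
      |Φ (fun t => z (f.symm t)) - Φ (fun t => z' (f.symm t))| ≤ ∑ i, L (f i) * ‖z i - z' i‖ :=
    fun z z' => (hΦ _ _).trans (le_of_eq (by rw [← f.sum_comp]; simp))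
  have h := close_pi_fin (fun i => ν (f i)) (fun i => hX (f i)) (fun i => m (f i)) (fun i => s (f i))
    (fun i => hL (f i)) (fun i => hc (f i)) hΦ'
  have t1 := measurePreserving_piCongrLeft ν f
  have t2 := measurePreserving_piCongrLeft (fun _ : τ => γ d) f
  rw [f.sum_comp fun t => L t * e t] at h
  rw [← t1.integral_comp', γs, ← t2.integral_comp']
  convert h using 3
  · refine integral_congr_ae (ae_of_all _ fun a => congrArg Φ (funext fun t => ?_))
    obtain ⟨i, rfl⟩ := f.surjective t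
    simp only [MeasurableEquiv.piCongrLeft_apply_apply]
    generalize hk : f.symm (f i) = k
    obtain rfl : k = i := by simp [← hk]
    rfl
  · rw [γs]
    refine integral_congr_ae (ae_of_all _ fun a => congrArg Φ (funext fun t => ?_))
    obtain ⟨i, rfl⟩ := f.surjective t
    simp only [MeasurableEquiv.piCongrLeft_apply_apply]
    generalize hk : f.symm (f i) = k
    obtain rfl : k = i := by simp [← hk]
    rfl

/-! ## Splitting -/

/-- The correction of a split whose squared weights add up to `r`. -/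
def kap (r : ℝ) : ℝ := (1 + √(1 - r))⁻¹

theorem kap_eq {r : ℝ} (hr : r ≤ 1) : 2 * kap r - kap r ^ 2 * r = 1 := by
  have h := sq_sqrt (show 0 ≤ 1 - r by linarith)
  have h1 : 0 < 1 + √(1 - r) := by positivity
  unfold kap
  field_simp
  linarith [show (1 + √(1 - r)) ^ 2 = 1 + 2 * √(1 - r) + √(1 - r) ^ 2 by ring]

/-- The fresh noise of a split. -/
abbrev SplitIx (τ σ : Type) := τ × σ

/-- One sample per slot at the scales `b`, made into one for each `t` at the scales `B t`; here
`b s = w t s * B t s`. -/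
def split (b : σ → ℝ) (B w : τ → σ → ℝ) (y : Inp d σ) (η : Inp d (SplitIx τ σ)) : τ → Inp d σ :=
  fun t s => y s + B t s • η (t, s) - (kap (∑ u, w u s ^ 2) * b s) • ∑ u, w u s • η (u, s)

@[fun_prop]
theorem measurable_split (b : σ → ℝ) (B w : τ → σ → ℝ) :
    Measurable fun p : Inp d σ × Inp d (SplitIx τ σ) => split b B w p.1 p.2 := by
  unfold split; fun_prop

theorem split_sub (b : σ → ℝ) (B w : τ → σ → ℝ) (y y' : Inp d σ) (η : Inp d (SplitIx τ σ)) (t : τ)
    (s : σ) : split b B w y η t s - split b B w y' η t s = y s - y' s := by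
  simp only [split]; abel

theorem integrable_coord {κ : Type} [Fintype κ] (k : κ) :
    Integrable (fun w : κ → E d => w k) (γs d κ) :=
  ((measurePreserving_coord k).integrable_comp aestronglyMeasurable_id).2 IsGaussian.integrable_id

theorem integrable_split (b : σ → ℝ) (B w : τ → σ → ℝ) (y : Inp d σ) (t : τ) (s : σ) :
    Integrable (fun η => split b B w y η t s) (γs d (SplitIx τ σ)) := by
  unfold split
  have hc := fun k : SplitIx τ σ => integrable_coord (d := d) k
  exact ((integrable_const (y s)).add ((hc (t, s)).smul (B t s))).sub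
    ((integrable_finsetSum (univ : Finset τ) fun u _ => (hc (u, s)).smul (w u s)).smul
      (kap (∑ u, w u s ^ 2) * b s))

/-- The law of a split. -/
theorem split_law (b : σ → ℝ) (B w : τ → σ → ℝ) (hw : ∀ t s, b s = w t s * B t s)
    (hw1 : ∀ s, ∑ t, w t s ^ 2 ≤ 1) (x : Inp d σ) :
    MeasurePreserving (fun p : Inp d σ × Inp d (SplitIx τ σ) => split b B w (blur b x p.1) p.2)
      ((γs d σ).prod (γs d (SplitIx τ σ))) (Measure.pi fun t => (γs d σ).map (blur (B t) x)) := by
  set A : τ × σ → σ ⊕ SplitIx τ σ → ℝ := fun i => Sum.elim (fun s => if s = i.2 then b s else 0)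
    fun p => if p.2 = i.2 then (if p.1 = i.1 then B i.1 i.2 else 0)
      - kap (∑ u, w u i.2 ^ 2) * b i.2 * w p.1 i.2 else 0
  set D : τ × σ → τ × σ → ℝ := fun i k => if k = i then B i.1 i.2 else 0
  have hA : ∀ i i', ∑ k, A i k * A i' k = ∑ k, D i k * D i' k := by
    rintro ⟨t, s⟩ ⟨t', s'⟩
    simp only [A, D, Fintype.sum_sum_type, Sum.elim_inl, Sum.elim_inr, ite_mul, zero_mul,
      Finset.sum_ite_eq', Finset.mem_univ, if_true, Prod.mk.injEq]
    rw [Fintype.sum_prod_type]
    simp only [Finset.sum_ite_eq', Finset.mem_univ, if_true]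
    by_cases hs : s = s'
    · subst hs
      simp only [if_true, and_true]
      set K := kap (∑ u, w u s ^ 2) * b s
      have e : ∀ u : τ, ((if u = t then B t s else 0) - K * w u s)
          * ((if u = t' then B t' s else 0) - K * w u s)
          = (if u = t then (if u = t' then B t s * B t' s else 0) else 0)
            - (if u = t then K * (B t s * w u s) else 0)
            - (if u = t' then K * (B t' s * w u s) else 0) + K ^ 2 * w u s ^ 2 := by
        intro u; split_ifs <;> ring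
      simp only [e]
      rw [Finset.sum_add_distrib, Finset.sum_sub_distrib, Finset.sum_sub_distrib, ← Finset.mul_sum]
      simp only [Finset.sum_ite_eq', Finset.mem_univ, if_true, mul_ite, mul_zero]
      linear_combination (-(b s ^ 2)) * kap_eq (hw1 s) + K * hw t s + K * hw t' s
    · simp [hs]
  set cu : (τ × σ → E d) → τ → Inp d σ := fun u t s => u (t, s)
  have hcu : MeasurePreserving cu (γs d (τ × σ)) (Measure.pi fun _ => γs d σ) := by
    refine ⟨by fun_prop, ?_⟩
    have h := Measure.infinitePi_map_curry (ι := τ) (κ := σ) fun _ _ => γ d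
    simp only [Measure.infinitePi_eq_pi] at h
    exact h
  set sh : (τ → Inp d σ) → τ → Inp d σ := fun v t => fun s => x s + v t s
  have hD : MeasurePreserving (fun u => sh (cu (lin D u))) (γs d (τ × σ))
      (Measure.pi fun t => (γs d σ).map (blur (B t) x)) := by
    have : ∀ t, IsProbabilityMeasure ((γs d σ).map (blur (B t) x)) := fun t =>
      Measure.isProbabilityMeasure_map (by fun_prop)
    have h1 : MeasurePreserving (fun (v : τ → Inp d σ) t => blur (B t) x (v t))
        (Measure.pi fun _ => γs d σ) (Measure.pi fun t => (γs d σ).map (blur (B t) x)) :=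
      measurePreserving_pi _ _ fun t => ⟨by fun_prop, rfl⟩
    have e : (fun u => sh (cu (lin D u))) = (fun (v : τ → Inp d σ) t => blur (B t) x (v t)) ∘ cu := by
      funext u t s
      simp [sh, cu, lin, D, blur, ite_smul]
    rw [e]
    exact h1.comp hcu
  have hAD : MeasurePreserving (fun u => sh (cu (lin A u))) (γs d (σ ⊕ SplitIx τ σ))
      (Measure.pi fun t => (γs d σ).map (blur (B t) x)) := by
    have hm : Measurable fun u : τ × σ → E d => sh (cu u) := by fun_prop
    refine ⟨by fun_prop, ?_⟩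
    rw [← hD.map_eq, show (fun u => sh (cu (lin A u))) = (fun u => sh (cu u)) ∘ lin A from rfl,
      show (fun u => sh (cu (lin D u))) = (fun u => sh (cu u)) ∘ lin D from rfl,
      ← Measure.map_map hm (measurable_lin A), ← Measure.map_map hm (measurable_lin D),
      map_lin_eq A D hA]
  have hsum := (measurePreserving_sumPiEquivProdPi (fun _ : σ ⊕ SplitIx τ σ => γ d)).symm
    (MeasurableEquiv.sumPiEquivProdPi _)
  have e : (fun p : Inp d σ × Inp d (SplitIx τ σ) => split b B w (blur b x p.1) p.2)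
      = (fun u => sh (cu (lin A u))) ∘
        (MeasurableEquiv.sumPiEquivProdPi fun _ : σ ⊕ SplitIx τ σ => E d).symm := by
    funext p t s
    simp only [Function.comp_apply, sh, cu, lin, A, Fintype.sum_sum_type, Sum.elim_inl, Sum.elim_inr,
      ite_smul, zero_smul, sub_smul, Finset.sum_sub_distrib, Finset.sum_ite_eq', Finset.mem_univ,
      if_true]
    rw [Fintype.sum_prod_type]
    simp only [Finset.sum_ite_eq', Finset.mem_univ, if_true, sub_smul, ite_smul, zero_smul,
      Finset.sum_sub_distrib]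
    simp only [split, blur, MeasurableEquiv.coe_sumPiEquivProdPi_symm, Equiv.sumPiEquivProdPi_symm_apply,
      Finset.smul_sum, smul_smul]
    abel
  rw [e]
  exact hAD.comp hsum

/-! ## Substitution -/

/-- A family of values over one randomness. -/
theorem smp_family {q : τ → ℕ} {B L : τ → σ → ℝ} {βt ρt : τ → ℝ}
    {g : τ → (Pt d → ℝ) → Inp d σ → E d} (h : ∀ t, Smp (q t) (B t) (L t) (βt t) (ρt t) (g t)) :
    ∃ (Ω : Type) (_ : MeasurableSpace Ω) (μ : Measure Ω), IsProbabilityMeasure μ ∧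
      ∃ F : τ → (Pt d → Resp d) → Inp d σ × Ω → E d, (∀ t, Uses (q t) (Inp d σ × Ω) (F t)) ∧
        ∀ t V, Mem V → SmpProp (B t) (L t) (βt t) (ρt t) (g t V) μ (F t (oracle V)) := by
  choose Ω mΩ μ hμ F hF hS using h
  refine ⟨∀ t, Ω t, inferInstance, Measure.pi μ, inferInstance,
    fun t O p => F t O (p.1, p.2 t), fun t => ?_, fun t V hV => ?_⟩
  · exact (hF t).map (h := fun p : Inp d σ × (∀ t, Ω t) => (p.1, p.2 t)) (by fun_prop)
      (g := fun b : (Inp d σ × (∀ t, Ω t)) × E d => b.2) measurable_snd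
  have hP := hS t V hV
  have he := measurePreserving_eval μ t
  refine ⟨hP.meas.comp (by fun_prop), fun y => (he.integrable_comp (hP.int y).1).2 (hP.int y),
    fun ω => hP.lip (ω t), fun x φ hφ => ?_⟩
  have hp : MeasurePreserving (fun p : Inp d σ × (∀ t, Ω t) => (p.1, p.2 t))
      ((γs d σ).prod (Measure.pi μ)) ((γs d σ).prod (μ t)) := (MeasurePreserving.id _).prod he
  have h1 := hP.close x φ hφ
  have hm : Measurable fun p : Inp d σ × Ω t => φ (F t (oracle V) (blur (B t) x p.1, p.2)) :=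
    hφ.continuous.measurable.comp (hP.meas.comp (by fun_prop))
  rw [← hp.map_eq, integral_map hp.measurable.aemeasurable hm.aestronglyMeasurable] at h1
  exact h1

variable {b : σ → ℝ}

/-- The split samples with the inner and outer randomness. -/
theorem split_pairs_law {B w : τ → σ → ℝ} (hw : ∀ t s, b s = w t s * B t s)
    (hw1 : ∀ s, ∑ t, w t s ^ 2 ≤ 1) (x : Inp d σ) {Ω Ωo : Type}
    [MeasurableSpace Ω] [MeasurableSpace Ωo] (μ : Measure Ω) [IsProbabilityMeasure μ]
    (μo : Measure Ωo) [IsProbabilityMeasure μo] :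
    MeasurePreserving
      (fun p : Inp d σ × (((τ → Ω) × Inp d (SplitIx τ σ)) × Ωo) =>
        ((fun t => (split b B w (blur b x p.1) p.2.1.2 t, p.2.1.1 t)), p.2.2))
      ((γs d σ).prod (((Measure.pi fun _ : τ => μ).prod (γs d (SplitIx τ σ))).prod μo))
      ((Measure.pi fun t => ((γs d σ).map (blur (B t) x)).prod μ).prod μo) := by
  have hprob : ∀ t, IsProbabilityMeasure ((γs d σ).map (blur (B t) x)) := fun t =>
    Measure.isProbabilityMeasure_map (by fun_prop)
  have hA : MeasurePreserving (fun q : (τ → Inp d σ) × (τ → Ω) => fun t => (q.1 t, q.2 t))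
      ((Measure.pi fun t => (γs d σ).map (blur (B t) x)).prod (Measure.pi fun _ : τ => μ))
      (Measure.pi fun t => ((γs d σ).map (blur (B t) x)).prod μ) := by
    have h := (measurePreserving_arrowProdEquivProdArrow (Inp d σ) Ω τ
      (fun t => (γs d σ).map (blur (B t) x)) (fun _ : τ => μ)).symm
      (MeasurableEquiv.arrowProdEquivProdArrow (Inp d σ) Ω τ)
    exact h
  have h0 : MeasurePreserving
      (fun p : Inp d σ × ((τ → Ω) × Inp d (SplitIx τ σ)) => ((p.1, p.2.2), p.2.1))
      ((γs d σ).prod ((Measure.pi fun _ : τ => μ).prod (γs d (SplitIx τ σ))))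
      (((γs d σ).prod (γs d (SplitIx τ σ))).prod (Measure.pi fun _ : τ => μ)) := by
    have h := ((measurePreserving_prodAssoc (γs d σ) (γs d (SplitIx τ σ))
      (Measure.pi fun _ : τ => μ)).symm MeasurableEquiv.prodAssoc).comp
      ((MeasurePreserving.id (γs d σ)).prod
        (Measure.measurePreserving_swap (μ := Measure.pi fun _ : τ => μ) (ν := γs d (SplitIx τ σ))))
    exact h
  have h1 : MeasurePreserving
      (fun q : (Inp d σ × Inp d (SplitIx τ σ)) × (τ → Ω) => (split b B w (blur b x q.1.1) q.1.2, q.2))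
      (((γs d σ).prod (γs d (SplitIx τ σ))).prod (Measure.pi fun _ : τ => μ))
      ((Measure.pi fun t => (γs d σ).map (blur (B t) x)).prod (Measure.pi fun _ : τ => μ)) :=
    (split_law b B w hw hw1 x).prod (MeasurePreserving.id _)
  have hT := (hA.comp h1).comp h0
  have h2 := (measurePreserving_prodAssoc (γs d σ)
    ((Measure.pi fun _ : τ => μ).prod (γs d (SplitIx τ σ))) μo).symm MeasurableEquiv.prodAssoc
  have e : (fun p : Inp d σ × (((τ → Ω) × Inp d (SplitIx τ σ)) × Ωo) =>
        ((fun t => (split b B w (blur b x p.1) p.2.1.2 t, p.2.1.1 t)), p.2.2))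
      = Prod.map (((fun q : (τ → Inp d σ) × (τ → Ω) => fun t => (q.1 t, q.2 t)) ∘
          fun q : (Inp d σ × Inp d (SplitIx τ σ)) × (τ → Ω) =>
            (split b B w (blur b x q.1.1) q.1.2, q.2)) ∘
          fun p : Inp d σ × ((τ → Ω) × Inp d (SplitIx τ σ)) => ((p.1, p.2.2), p.2.1)) id ∘
        (MeasurableEquiv.prodAssoc (α := Inp d σ) (β := (τ → Ω) × Inp d (SplitIx τ σ))
          (γ := Ωo)).symm := by
    funext p
    simp [MeasurableEquiv.prodAssoc]
  rw [e]
  exact (hT.prod (MeasurePreserving.id μo)).comp h2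

section

variable {b' Lo : τ → ℝ} {β ρ Γ : ℝ} {val : Inp d τ → E d} {B L w : τ → σ → ℝ} {ρi : τ → ℝ}
  {g : τ → Inp d σ → E d} {Ω Ωo : Type} [MeasurableSpace Ω] [MeasurableSpace Ωo] {μ : Measure Ω}
  [IsProbabilityMeasure μ] {μo : Measure Ωo} [IsProbabilityMeasure μo]
  {Fo : Inp d τ × Ωo → E d} {F : τ → Inp d σ × Ω → E d}

theorem subst_int (hPo : SmpProp b' Lo β ρ val μo Fo)
    (hP : ∀ t, SmpProp (B t) (L t) (b' t) (ρi t) (g t) μ (F t)) (y : Inp d σ) :
    Integrable (fun ω : ((τ → Ω) × Inp d (SplitIx τ σ)) × Ωo =>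
        Fo (fun t => F t (split b B w y ω.1.2 t, ω.1.1 t), ω.2))
      (((Measure.pi fun _ : τ => μ).prod (γs d (SplitIx τ σ))).prod μo) := by
  have hmF : ∀ t, Measurable (F t) := fun t => (hP t).meas
  refine hPo.integrable_of (ν := (Measure.pi fun _ : τ => μ).prod (γs d (SplitIx τ σ)))
    (Y := fun a t => F t (split b B w y a.2 t, a.1 t)) (by fun_prop) fun t => ?_
  have h1 := (hP t).integrable_of (ν := γs d (SplitIx τ σ)) (Y := fun η => split b B w y η t)
    (by fun_prop) fun s => integrable_split b B w y t s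
  have h2 : MeasurePreserving (fun a : (τ → Ω) × Inp d (SplitIx τ σ) => (a.2, a.1 t))
      ((Measure.pi fun _ : τ => μ).prod (γs d (SplitIx τ σ))) ((γs d (SplitIx τ σ)).prod μ) :=
    ((MeasurePreserving.id _).prod (measurePreserving_eval (fun _ : τ => μ) t)).comp
      Measure.measurePreserving_swap
  exact (h2.integrable_comp h1.1).2 h1

theorem subst_close (hPo : SmpProp b' Lo β ρ val μo Fo)
    (hP : ∀ t, SmpProp (B t) (L t) (b' t) (ρi t) (g t) μ (F t))
    (hw : ∀ t s, b s = w t s * B t s) (hw1 : ∀ s, ∑ t, w t s ^ 2 ≤ 1) (hLo : ∀ t, 0 ≤ Lo t) (x : Inp d σ)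
    (hΓ : ρ * wt (fun t => g t x) ≤ Γ * wt x) {φ : E d → ℝ} (hφ : LipschitzWith 1 φ) :
    |∫ p, φ (Fo (fun t => F t (split b B w (blur b x p.1) p.2.1.2 t, p.2.1.1 t), p.2.2))
        ∂((γs d σ).prod (((Measure.pi fun _ : τ => μ).prod (γs d (SplitIx τ σ))).prod μo))
      - ∫ w, φ (val (fun t => g t x) + β • w) ∂γ d| ≤ (Γ + ∑ t, Lo t * ρi t) * wt x := by
  have hmF : ∀ t, Measurable (F t) := fun t => (hP t).meas
  have hmFo := hPo.meas
  set ν : τ → Measure (Inp d σ × Ω) := fun t => ((γs d σ).map (blur (B t) x)).prod μ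
  have hprob : ∀ t, IsProbabilityMeasure ((γs d σ).map (blur (B t) x)) := fun t =>
    Measure.isProbabilityMeasure_map (by fun_prop)
  have hT2 := split_pairs_law hw hw1 x μ μo
  set Z : (τ → Inp d σ × Ω) → Inp d τ := fun a t => F t (a t)
  have hX : ∀ t, Integrable (F t) (ν t) := fun t =>
    (hP t).integrable_of (ν := (γs d σ).map (blur (B t) x)) (Y := id) measurable_id fun s =>
      (integrable_map_measure (measurable_pi_apply s).aestronglyMeasurable
        (measurable_blur (B t) x).aemeasurable).2 (integrable_blur (B t) x s)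
  have hZ : ∀ t, Integrable (fun a => Z a t) (Measure.pi ν) := fun t =>
    ((measurePreserving_eval ν t).integrable_comp (hX t).1).2 (hX t)
  have hI : Integrable (fun p : (τ → Inp d σ × Ω) × Ωo => φ (Fo (Z p.1, p.2)))
      ((Measure.pi ν).prod μo) :=
    integrable_lip (hPo.integrable_of (Y := Z) (by fun_prop) hZ) hφ
  set Φ : Inp d τ → ℝ := fun z => ∫ o, φ (Fo (z, o)) ∂μo
  have hΦ : ∀ z z', |Φ z - Φ z'| ≤ ∑ t, Lo t * ‖z t - z' t‖ := fun z z' => by
    rw [← integral_sub (integrable_lip (hPo.int z) hφ) (integrable_lip (hPo.int z') hφ),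
      ← norm_eq_abs]
    refine (norm_integral_le_of_norm_le_const (C := ∑ t, Lo t * ‖z t - z' t‖)
      (ae_of_all _ fun o => ?_)).trans (le_of_eq (by simp))
    refine (hφ.norm_sub_le _ _).trans ?_
    rw [NNReal.coe_one, one_mul]
    exact hPo.lip o z z'
  have e1 : ∫ p, φ (Fo (fun t => F t (split b B w (blur b x p.1) p.2.1.2 t, p.2.1.1 t), p.2.2))
      ∂((γs d σ).prod (((Measure.pi fun _ : τ => μ).prod (γs d (SplitIx τ σ))).prod μo))
      = ∫ a, Φ (Z a) ∂Measure.pi ν := by
    have h := integral_prod _ hI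
    rw [← hT2.map_eq, integral_map hT2.measurable.aemeasurable
      (by rw [hT2.map_eq]; exact hI.1)] at h
    exact h
  have h2 := close_pi ν hX (fun t => g t x) b' (e := fun t => ρi t * wt x) hLo (fun t φ hφ => by
    have h := (hP t).close x φ hφ
    have hmb : MeasurePreserving (fun p : Inp d σ × Ω => (blur (B t) x p.1, p.2))
        ((γs d σ).prod μ) (ν t) :=
      (⟨by fun_prop, rfl⟩ : MeasurePreserving (blur (B t) x) (γs d σ)
        ((γs d σ).map (blur (B t) x))).prod (MeasurePreserving.id _)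
    rw [← hmb.map_eq, integral_map hmb.measurable.aemeasurable
      (hφ.continuous.comp_aestronglyMeasurable (hP t).meas.aestronglyMeasurable)]
    exact h) hΦ
  have h3 := (hPo.close (fun t => g t x) φ hφ).trans hΓ
  rw [integral_prod _ (integrable_lip (hPo.integrable_run _) hφ)] at h3
  rw [e1]
  refine (abs_sub_le _ (∫ w, Φ (fun t => g t x + b' t • w t) ∂γs d τ) _).trans ?_
  refine (add_le_add h2 h3).trans (le_of_eq ?_)
  simp only [← mul_assoc, ← Finset.sum_mul]
  ring

theorem SmpProp.subst (hPo : SmpProp b' Lo β ρ val μo Fo)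
    (hP : ∀ t, SmpProp (B t) (L t) (b' t) (ρi t) (g t) μ (F t))
    (hw : ∀ t s, b s = w t s * B t s) (hw1 : ∀ s, ∑ t, w t s ^ 2 ≤ 1) (hLo : ∀ t, 0 ≤ Lo t)
    (hΓ : ∀ x, ρ * wt (fun t => g t x) ≤ Γ * wt x) :
    SmpProp b (fun s => ∑ t, Lo t * L t s) β (Γ + ∑ t, Lo t * ρi t)
      (fun x => val fun t => g t x)
      (((Measure.pi fun _ : τ => μ).prod (γs d (SplitIx τ σ))).prod μo)
      (fun p => Fo (fun t => F t (split b B w p.1 p.2.1.2 t, p.2.1.1 t), p.2.2)) := by
  have hmF : ∀ t, Measurable (F t) := fun t => (hP t).meas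
  have hmFo := hPo.meas
  refine ⟨by fun_prop, subst_int hPo hP, fun ω y y' => ?_, fun x φ hφ =>
    subst_close hPo hP hw hw1 hLo x (hΓ x) hφ⟩
  refine (hPo.lip ω.2 _ _).trans ?_
  simp only [Finset.sum_mul, mul_assoc]
  rw [Finset.sum_comm]
  refine sum_le_sum fun t _ => ?_
  rw [← Finset.mul_sum]
  refine mul_le_mul_of_nonneg_left (((hP t).lip (ω.1.1 t) _ _).trans (le_of_eq ?_)) (hLo t)
  simp only [split_sub]

end

/-- Substitution: the inner values at the scales `b'` are the samples for the outer one. The weight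
`w t s ^ 2` is the share of the slot `s` given to `t`. -/
theorem Smp.subst_weighted {q : ℕ} {b' Lo : τ → ℝ} {β ρ Γ : ℝ} {val : (Pt d → ℝ) → Inp d τ → E d}
    (ho : Smp q b' Lo β ρ val) {qi : τ → ℕ} {B L : τ → σ → ℝ} {ρi : τ → ℝ}
    {g : τ → (Pt d → ℝ) → Inp d σ → E d} (hi : ∀ t, Smp (qi t) (B t) (L t) (b' t) (ρi t) (g t))
    (w : τ → σ → ℝ) (hw : ∀ t s, b s = w t s * B t s) (hw1 : ∀ s, ∑ t, w t s ^ 2 ≤ 1) (hLo : ∀ t, 0 ≤ Lo t)
    (hΓ : ∀ V, Mem V → ∀ x, ρ * wt (fun t => g t V x) ≤ Γ * wt x) :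
    Smp (q + ∑ t, qi t) b (fun s => ∑ t, Lo t * L t s) β (Γ + ∑ t, Lo t * ρi t)
      (fun V x => val V fun t => g t V x) := by
  obtain ⟨Ωo, _, μo, hμo, Fo, hFo, hSo⟩ := ho
  obtain ⟨Ω, _, μ, hμ, F, hF, hS⟩ := smp_family hi
  refine ⟨((τ → Ω) × Inp d (SplitIx τ σ)) × Ωo, inferInstance,
    ((Measure.pi fun _ : τ => μ).prod (γs d (SplitIx τ σ))).prod μo, inferInstance, fun O p =>
      Fo O (fun t => F t O (split b B w p.1 p.2.1.2 t, p.2.1.1 t), p.2.2), ?_,
    fun V hV => (hSo V hV).subst (fun t => hS t V hV) hw hw1 hLo (hΓ V hV)⟩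
  have h1 : Uses (∑ t, qi t) (Inp d σ × (((τ → Ω) × Inp d (SplitIx τ σ)) × Ωo)) fun O p t =>
      F t O (split b B w p.1 p.2.1.2 t, p.2.1.1 t) :=
    uses_pi fun t => (hF t).map
      (h := fun p : Inp d σ × (((τ → Ω) × Inp d (SplitIx τ σ)) × Ωo) =>
        (split b B w p.1 p.2.1.2 t, p.2.1.1 t)) (by fun_prop)
      (g := fun b : (Inp d σ × (((τ → Ω) × Inp d (SplitIx τ σ)) × Ωo)) × E d => b.2) measurable_snd
  exact h1.comp (hFo.map
    (h := fun b : (Inp d σ × (((τ → Ω) × Inp d (SplitIx τ σ)) × Ωo)) × Inp d τ => (b.2, b.1.2.2))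
    (by fun_prop)
    (g := fun b : ((Inp d σ × (((τ → Ω) × Inp d (SplitIx τ σ)) × Ωo)) × Inp d τ) × E d => b.2)
    measurable_snd)

/-- Weights for an equal split. -/
theorem equal_split {B : τ → σ → ℝ} (hb : ∀ t s, (Fintype.card τ : ℝ) * b s ^ 2 ≤ B t s ^ 2) :
    (∀ t s, b s = b s / B t s * B t s) ∧ ∀ s, ∑ t, (b s / B t s) ^ 2 ≤ 1 := by
  refine ⟨fun t s => ?_, fun s => ?_⟩
  · rcases eq_or_ne (B t s) 0 with h | h
    · have h1 := hb t s
      have hc : (1 : ℝ) ≤ Fintype.card τ := by exact_mod_cast Fintype.card_pos_iff.2 ⟨t⟩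
      rw [h] at h1
      have : b s ^ 2 = 0 := le_antisymm (by nlinarith [sq_nonneg (b s)]) (sq_nonneg _)
      simp [sq_eq_zero_iff.1 this, h]
    · rw [div_mul_cancel₀ _ h]
  · refine (sum_le_sum (g := fun _ => (1 : ℝ) / Fintype.card τ) fun t _ => ?_).trans ?_
    · have hc : (0 : ℝ) < Fintype.card τ := by exact_mod_cast Fintype.card_pos_iff.2 ⟨t⟩
      rcases eq_or_ne (B t s) 0 with h | h
      · simp [h]
      · rw [div_pow, div_le_div_iff₀ (by positivity) hc]
        linarith [hb t s]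
    · rw [Finset.sum_const, Finset.card_univ, nsmul_eq_mul, mul_one_div]
      exact div_self_le_one _

/-- Substitution with an equal split. -/
theorem Smp.subst {q : ℕ} {b' Lo : τ → ℝ} {β ρ Γ : ℝ} {val : (Pt d → ℝ) → Inp d τ → E d}
    (ho : Smp q b' Lo β ρ val) {qi : τ → ℕ} {B L : τ → σ → ℝ} {ρi : τ → ℝ}
    {g : τ → (Pt d → ℝ) → Inp d σ → E d} (hi : ∀ t, Smp (qi t) (B t) (L t) (b' t) (ρi t) (g t))
    (hb : ∀ t s, (Fintype.card τ : ℝ) * b s ^ 2 ≤ B t s ^ 2) (hLo : ∀ t, 0 ≤ Lo t)
    (hΓ : ∀ V, Mem V → ∀ x, ρ * wt (fun t => g t V x) ≤ Γ * wt x) :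
    Smp (q + ∑ t, qi t) b (fun s => ∑ t, Lo t * L t s) β (Γ + ∑ t, Lo t * ρi t)
      (fun V x => val V fun t => g t V x) :=
  ho.subst_weighted hi _ (equal_split hb).1 (equal_split hb).2 hLo hΓ

/-! ## Special cases -/

/-- An affine combination of the slots. -/
theorem Smp.affine (c : σ → ℝ) {β : ℝ} (hβ : ∑ s, (c s * b s) ^ 2 ≤ β ^ 2) :
    Smp (d := d) 0 b (fun s => |c s|) β 0 fun _ x => ∑ s, c s • x s := by
  set β₀ := √(∑ s, (c s * b s) ^ 2)
  refine Smp.noise (β := β₀) ?_ (by rw [sq_sqrt (sum_nonneg fun s _ => sq_nonneg _)]; exact hβ)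
  refine ⟨Unit, inferInstance, Measure.dirac (), inferInstance, fun _ p => ∑ s, c s • p.1 s,
    Uses.zero (by fun_prop), fun V _ => ⟨by fun_prop, fun y => integrable_const (∑ s, c s • y s), fun ω y y' => ?_,
    fun x φ hφ => ?_⟩⟩
  · rw [← Finset.sum_sub_distrib]
    refine (norm_sum_le _ _).trans (le_of_eq (sum_congr rfl fun s _ => ?_))
    rw [← smul_sub, norm_smul, norm_eq_abs]
  · dsimp only
    have hi : Integrable (fun p : Inp d σ × Unit => ∑ s, c s • blur b x p.1 s)
        ((γs d σ).prod (Measure.dirac ())) := integrable_finsetSum _ fun s _ =>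
      (((integrable_blur b x s).smul (c s)).comp_fst (Measure.dirac ()))
    rw [zero_mul, integral_prod _ (integrable_lip hi hφ)]
    simp only [integral_dirac]
    have key := integral_lin_eq (d := d) (ι := Unit) (κ := σ) (κ' := Unit)
      (fun _ s => c s * b s) (fun _ _ => β₀) (fun _ _ => by
        simp [β₀, ← sq, sq_sqrt (sum_nonneg fun s _ => sq_nonneg (c s * b s))])
      (f := fun v => φ (∑ s, c s • x s + v ()))
      (hφ.continuous.comp (by fun_prop)).stronglyMeasurable
    simp only [lin, Finset.univ_unique, Finset.sum_singleton] at key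
    simp only [blur, smul_add, Finset.sum_add_distrib, smul_smul]
    rw [key, integral_coord (PUnit.unit : Unit) (f := fun w => φ (∑ s, c s • x s + β₀ • w))
      (hφ.continuous.comp (by fun_prop)).stronglyMeasurable]
    simp

/-- A linear combination of values, with independent copies of every slot. -/
theorem Smp.sum {qi : τ → ℕ} {B L : τ → σ → ℝ} {βi ρi : τ → ℝ} {β : ℝ}
    {g : τ → (Pt d → ℝ) → Inp d σ → E d} (hi : ∀ t, Smp (qi t) (B t) (L t) (βi t) (ρi t) (g t))
    (hb : ∀ t s, (Fintype.card τ : ℝ) * b s ^ 2 ≤ B t s ^ 2) (c : τ → ℝ)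
    (hβ : ∑ t, (c t * βi t) ^ 2 ≤ β ^ 2) :
    Smp (∑ t, qi t) b (fun s => ∑ t, |c t| * L t s) β (∑ t, |c t| * ρi t)
      (fun V x => ∑ t, c t • g t V x) := by
  simpa using (Smp.affine c hβ).subst (Γ := 0) hi hb (fun t => abs_nonneg _) fun V _ x => by simp

/-- A multiple. -/
theorem Smp.smul {q : ℕ} {L : σ → ℝ} {β ρ : ℝ} {val : (Pt d → ℝ) → Inp d σ → E d}
    (h : Smp q b L β ρ val) (c : ℝ) :
    Smp q b (fun s => |c| * L s) (c * β) (|c| * ρ) (fun V x => c • val V x) := by
  simpa using Smp.sum (τ := Unit) (b := b) (β := c * β) (fun _ => h) (by simp) (fun _ => c) (by simp)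

/-- A sum of two values. -/
theorem Smp.add {q q' : ℕ} {B B' L L' : σ → ℝ} {β β' β'' ρ ρ' : ℝ}
    {val val' : (Pt d → ℝ) → Inp d σ → E d} (h : Smp q B L β ρ val) (h' : Smp q' B' L' β' ρ' val')
    (hb : ∀ s, 2 * b s ^ 2 ≤ B s ^ 2) (hb' : ∀ s, 2 * b s ^ 2 ≤ B' s ^ 2)
    (hβ : β ^ 2 + β' ^ 2 ≤ β'' ^ 2) :
    Smp (q + q') b (fun s => L s + L' s) β'' (ρ + ρ') (fun V x => val V x + val' V x) := by
  have := Smp.sum (τ := Bool) (b := b) (β := β'') (qi := fun t => bif t then q else q')
    (B := fun t => bif t then B else B') (L := fun t => bif t then L else L')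
    (βi := fun t => bif t then β else β') (ρi := fun t => bif t then ρ else ρ')
    (g := fun t => bif t then val else val') (fun t => by cases t <;> assumption)
    (fun t s => by cases t <;> simp [hb, hb']) (fun _ => 1) (by simpa using hβ)
  simpa [add_comm] using this

theorem wt_comp_le (f : τ → σ) (x : Inp d σ) :
    wt (fun t => x (f t)) ≤ (1 + Fintype.card τ) * wt x := by
  have h0 : 0 ≤ √(d : ℝ) := sqrt_nonneg _
  have h1 : ∀ t, ‖x (f t)‖ ≤ ∑ s, ‖x s‖ := fun t =>
    single_le_sum (f := fun s => ‖x s‖) (fun s _ => norm_nonneg _) (mem_univ _)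
  have h2 : ∑ t, ‖x (f t)‖ ≤ Fintype.card τ * ∑ s, ‖x s‖ :=
    (sum_le_sum fun t _ => h1 t).trans (le_of_eq (by simp))
  have h3 : 0 ≤ ∑ s, ‖x s‖ := sum_nonneg fun s _ => norm_nonneg _
  unfold wt
  nlinarith [Nat.cast_nonneg (α := ℝ) (Fintype.card τ)]

/-- Merging and renaming slots. -/
theorem Smp.merge {q : ℕ} {b' L : τ → ℝ} {β ρ : ℝ} {val : (Pt d → ℝ) → Inp d τ → E d}
    (h : Smp q b' L β ρ val) (f : τ → σ) (hL : ∀ t, 0 ≤ L t) (hρ : 0 ≤ ρ)
    (hb : ∀ t, (Fintype.card τ : ℝ) * b (f t) ^ 2 ≤ b' t ^ 2) :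
    Smp q b (fun s => ∑ t, if f t = s then L t else 0) β (ρ * (1 + Fintype.card τ))
      (fun V x => val V fun t => x (f t)) := by
  set B : τ → σ → ℝ := fun t s => if s = f t then b' t else √(Fintype.card τ) * b s
  have hi : ∀ t, Smp (d := d) 0 (B t) (Pi.single (f t) 1) (b' t) 0 fun _ x => x (f t) := fun t => by
    simpa [B] using Smp.slot (d := d) (b := B t) (f t)
  have := h.subst (b := b) (Γ := ρ * (1 + Fintype.card τ)) hi (fun t s => by
      simp only [B]; split_ifs with hs
      · subst hs; exact hb t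
      · rw [mul_pow, sq_sqrt (Nat.cast_nonneg _)]) hL
    fun V _ x => by rw [mul_assoc]; exact mul_le_mul_of_nonneg_left (wt_comp_le f x) hρ
  simpa [Pi.single_apply, eq_comm] using this

end

end Vale.Agent.P347.Zero
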