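import Vale.Agent.P347.Zero.Levels
import Vale.Agent.P347.Zero.SampleOps2

/-!
# P347, exponent 0: sampling the value of a programme

Every slot is split over its occurrences in proportion to the size of the branches, and every node
is fed by the sample of its argument.
-/

namespace Vale.Agent.P347.Zero

open MeasureTheory Real Finset
open Vale.Agent.P347.Quarter (E γ)
open Vale.Agent.P347.Colour (Pt)

noncomputable section

/-- A node applied to a programme that has been sampled. -/
theorem Smp.node_comp {d : ℕ} {σ : Type} [Fintype σ] [DecidableEq σ] {q q' : ℕ} {b L : σ → ℝ}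
    {a β ρ ρ' L₀ Γ : ℝ} {val : (Pt d → ℝ) → E d → E d} {g : (Pt d → ℝ) → Inp d σ → E d}
    (hn : Smp (d := d) (σ := Unit) q (fun _ => a) (fun _ => L₀) β ρ fun V x => val V (x ()))
    (hg : Smp q' b L a ρ' g) (hL₀ : 0 ≤ L₀) (hρ : 0 ≤ ρ) (hΓ : 1 ≤ Γ)
    (hgr : ∀ V, Mem V → ∀ x, ‖g V x‖ ≤ Γ * wt x) :
    Smp (q + q') b (fun s => L₀ * L s) β (2 * ρ * Γ + L₀ * ρ') (fun V x => val V (g V x)) := by
  have h := hn.subst (b := b) (Γ := 2 * ρ * Γ) (qi := fun _ => q') (B := fun _ => b)
    (L := fun _ => L) (ρi := fun _ => ρ') (g := fun _ => g) (fun _ => hg) (fun _ s => by simp)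
    (fun _ => hL₀) fun V hV x => by
      rw [mul_comm 2 ρ, mul_assoc ρ, mul_assoc]
      refine mul_le_mul_of_nonneg_left ?_ hρ
      have h1 := hgr V hV x
      have hd : √(d : ℝ) ≤ wt x := le_add_of_nonneg_right (sum_nonneg fun s _ => norm_nonneg _)
      have hΓw : wt x ≤ Γ * wt x := le_mul_of_one_le_left (wt_nonneg x) hΓ
      simp only [wt, Finset.univ_unique, Finset.sum_singleton] at hd hΓw h1 ⊢
      linarith
  simpa using h

/-- A programme whose nodes can be sampled at the argument precision `θ` and the threshold `e'` can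
be sampled at the precision `k`, one sample per slot being split over all occurrences. -/
theorem Prog.smp {d : ℕ} {σ : Type} [Fintype σ] [DecidableEq σ] {h r e e' θ k C₀ L₀ δ Γ β : ℝ}
    {q₀ : ℕ} {b : σ → ℝ} (P : Prog σ) (he : 0 < e) (he1 : e ≤ 1) (hθ : 0 < θ) (hθ1 : θ ≤ 1)
    (hk : 0 < k) (hk1 : k ≤ 1) (hb : ∀ s, 0 ≤ b s) (hL : 1 ≤ L₀) (hC : 0 ≤ C₀) (hδ : 0 ≤ δ)
    (hΓ : 1 ≤ Γ) (hee : e ≤ e' * min k θ)
    (hn : ∀ nd : Nd, nd.Ok h r → Smp (d := d) (σ := Unit) q₀ (fun _ => nd.scale * θ) (fun _ => L₀)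
      (√nd.v / e') (C₀ * √nd.v * δ) (fun V x => nd.val V (x ())))
    (hP : P.Adm h r e b β) (hG : P.Grow d Γ) :
    Smp (d := d) (σ := σ) (P.size * q₀) (fun s => b s * min k θ / √(P.size))
      (fun o => L₀ ^ P.depth * P.grs e o) (k * β)
      (2 * C₀ * (1 + L₀) ^ P.depth * Γ * (∑ i, |P.coef i| * √(P.node i).v) * δ)
      (fun V x => P.val V x) := by
  induction P generalizing k β with
  | mk n l c nd ch ih =>
  obtain ⟨hP1, hP2⟩ := hP
  set m := min k θ
  have hm : 0 < m := lt_min hk hθ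
  have he' : 0 < e' := pos_of_mul_pos_left (lt_of_lt_of_le he hee) hm.le
  set D := (Prog.mk n l c nd ch).depth
  set sz := fun i => (ch i).size
  set S : ℝ := ((Prog.mk n l c nd ch).size : ℝ)
  have hS : S = 1 + ∑ i, (1 + (sz i : ℝ)) := by simp [S, sz, Prog.size]
  have hsz : ∀ i, (1 : ℝ) ≤ sz i := fun i => by
    have : 1 ≤ sz i := by
      cases hi : ch i with
      | mk a b' c' d' e'' => simp [sz, hi, Prog.size]
    exact_mod_cast this
  have hS0 : 0 < S := by rw [hS]; positivity
  have hS1 : 0 < √S := sqrt_pos.2 hS0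
  have hD : ∀ i, (ch i).depth + 1 ≤ D := fun i =>
    Finset.le_sup (f := fun i => (ch i).depth + 1) (mem_univ i)
  -- the arguments and the nodes
  have hpiece : ∀ i, Smp (d := d) (σ := σ) (q₀ + sz i * q₀) (fun s => b s * θ / √(sz i : ℝ))
      (fun o => L₀ * (L₀ ^ (ch i).depth * (ch i).grs e o)) (√(nd i).v / e')
      (2 * C₀ * (1 + L₀) ^ D * Γ * √(nd i).v * δ)
      (fun V x => (nd i).val V ((ch i).val V x)) := by
    intro i
    obtain ⟨hOk, hAdm⟩ := hP2 i
    obtain ⟨hgr, hG'⟩ := hG i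
    have hc := ih i hθ hθ1 (hee.trans (by
      rw [min_self]; exact mul_le_mul_of_nonneg_left (min_le_right _ _) he'.le)) hAdm hG'
    rw [min_self] at hc
    have hvv : (√(nd i).v) ≥ 0 := sqrt_nonneg _
    set Sc := ∑ j, |(ch i).coef j| * √((ch i).node j).v
    have hSc : Sc ≤ √(nd i).v := by
      have h1 := ((Prog.adm_def _ _ _ _ _ _).1 hAdm).1
      have h2 : 0 ≤ ∑ s, |(ch i).lin s| * b s := sum_nonneg fun s _ => mul_nonneg (abs_nonneg _) (hb s)
      have h3 : Sc / e ≤ (nd i).scale := by linarith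
      rw [div_le_iff₀ he] at h3
      exact h3.trans ((mul_le_of_le_one_right hOk.scale_pos.le he1).trans hOk.scale_le)
    rw [mul_comm θ] at hc
    refine ((hn _ hOk).node_comp hc (by linarith) (by positivity) hΓ hgr).mono le_rfl
      (fun o => le_rfl) ?_
    have hpow : (1 + L₀) ^ (ch i).depth * (1 + L₀) ≤ (1 + L₀) ^ D := by
      rw [← pow_succ]; exact pow_le_pow_right₀ (by linarith) (hD i)
    have h1 : 1 ≤ (1 + L₀) ^ (ch i).depth := one_le_pow₀ (by linarith)
    calc 2 * (C₀ * √(nd i).v * δ) * Γ + L₀ * (2 * C₀ * (1 + L₀) ^ (ch i).depth * Γ * Sc * δ)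
        ≤ 2 * (C₀ * √(nd i).v * δ) * Γ * (1 + L₀) ^ (ch i).depth
          + L₀ * (2 * C₀ * (1 + L₀) ^ (ch i).depth * Γ * √(nd i).v * δ) := by
          refine add_le_add (le_mul_of_one_le_right (by positivity) h1) ?_
          gcongr
      _ = 2 * C₀ * Γ * √(nd i).v * δ * ((1 + L₀) ^ (ch i).depth * (1 + L₀)) := by ring
      _ ≤ 2 * C₀ * Γ * √(nd i).v * δ * (1 + L₀) ^ D := mul_le_mul_of_nonneg_left hpow (by positivity)
      _ = _ := by ring
  -- the sum
  set β₀ := k * ∑ s, |l s| * b s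
  have hlin : Smp (d := d) (σ := σ) 0 (fun s => b s * k) (fun s => |l s|) β₀ 0
      fun _ x => ∑ s, l s • x s := by
    refine Smp.affine l ?_
    have h0 : ∀ s, 0 ≤ |l s| * (b s * k) := fun s => by have := hb s; positivity
    refine le_trans (le_of_eq ?_) ((sum_sq_le_sq_sum_of_nonneg (s := univ) (f := fun s => |l s| * (b s * k)) fun s _ => h0 s).trans (le_of_eq ?_))
    · exact sum_congr rfl fun s _ => by simp only [mul_pow, sq_abs]
    · simp only [β₀, mul_sum]
      exact congrArg (· ^ 2) (sum_congr rfl fun s _ => by ring)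
  set cc : Option (Fin n) → ℝ := fun o => o.elim 1 c
  set bb : Option (Fin n) → ℝ := fun o => o.elim β₀ fun i => √(nd i).v / e'
  have hnoise : ∑ t, (cc t * bb t) ^ 2 ≤ (k * β) ^ 2 := by
    have h0 : 0 ≤ β₀ := mul_nonneg hk.le (sum_nonneg fun s _ => mul_nonneg (abs_nonneg _) (hb s))
    have h1 : ∀ t ∈ (univ : Finset (Option (Fin n))), 0 ≤ |cc t * bb t| := fun t _ => abs_nonneg _
    refine le_trans (le_of_eq (sum_congr rfl fun t _ => (sq_abs _).symm))
      ((sum_sq_le_sq_sum_of_nonneg h1).trans (pow_le_pow_left₀ (sum_nonneg h1) ?_ 2))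
    simp only [Fintype.sum_option, cc, bb, Option.elim, abs_one, one_mul, abs_of_nonneg h0, abs_mul, abs_div,
      abs_of_nonneg (sqrt_nonneg _), abs_of_pos he']
    have hek : 1 / e' ≤ k / e := by
      rw [div_le_div_iff₀ he' he, one_mul, mul_comm k]
      exact hee.trans (mul_le_mul_of_nonneg_left (min_le_left _ _) he'.le)
    calc β₀ + ∑ i, |c i| * (√(nd i).v / e')
        = k * (∑ s, |l s| * b s) + (∑ i, |c i| * √(nd i).v) * (1 / e') := by
          rw [sum_mul]
          exact congrArg₂ (· + ·) rfl (sum_congr rfl fun i _ => by ring)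
      _ ≤ k * (∑ s, |l s| * b s) + (∑ i, |c i| * √(nd i).v) * (k / e) :=
          add_le_add le_rfl (mul_le_mul_of_nonneg_left hek (sum_nonneg fun i _ => by positivity))
      _ = k * (∑ s, |l s| * b s + (∑ i, |c i| * √(nd i).v) / e) := by ring
      _ ≤ k * β := mul_le_mul_of_nonneg_left hP1 hk.le
  set qq : Option (Fin n) → ℕ := fun o => o.elim 0 fun i => q₀ + sz i * q₀
  set BB : Option (Fin n) → σ → ℝ := fun o s =>
    o.elim (b s * k) fun i => b s * θ / √(sz i : ℝ)
  set LL : Option (Fin n) → σ → ℝ := fun o s =>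
    o.elim |l s| fun i => L₀ * (L₀ ^ (ch i).depth * (ch i).grs e s)
  set RR : Option (Fin n) → ℝ := fun o =>
    o.elim 0 fun i => 2 * C₀ * (1 + L₀) ^ D * Γ * √(nd i).v * δ
  set W : Option (Fin n) → σ → ℝ := fun o _ =>
    o.elim (m / k / √S) fun i => m / θ * √(sz i : ℝ) / √S
  set gg : Option (Fin n) → (Pt d → ℝ) → Inp d σ → E d := fun o V x =>
    o.elim (∑ s, l s • x s) fun i => (nd i).val V ((ch i).val V x)
  have hall : ∀ t, Smp (d := d) (σ := σ) (qq t) (BB t) (LL t) (bb t) (RR t) (gg t) := by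
    rintro (_ | i)
    · exact hlin
    · exact hpiece i
  have h := (Smp.affine (d := d) cc hnoise).subst_weighted (Γ := 0)
    (b := fun s => b s * m / √S) hall W (by
      rintro (_ | i) s
      · simp only [W, BB, Option.elim]; field_simp
      · have hs : 0 < √(sz i : ℝ) := sqrt_pos.2 (lt_of_lt_of_le one_pos (hsz i))
        simp only [W, BB, Option.elim]; field_simp) (fun s => by
      simp only [W, Fintype.sum_option, Option.elim]
      have h1 : (m / k / √S) ^ 2 ≤ 1 / S := by
        rw [div_pow (m / k), sq_sqrt hS0.le]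
        exact div_le_div_of_nonneg_right (pow_le_one₀ (by positivity)
          ((div_le_one hk).2 (min_le_left _ _))) hS0.le
      have h2 : ∀ i, (m / θ * √(sz i : ℝ) / √S) ^ 2 ≤ (1 + (sz i : ℝ)) / S := fun i => by
        rw [div_pow (m / θ * _), sq_sqrt hS0.le, mul_pow, sq_sqrt (Nat.cast_nonneg _)]
        refine div_le_div_of_nonneg_right ((mul_le_of_le_one_left (Nat.cast_nonneg _) ?_).trans
          (by linarith)) hS0.le
        exact pow_le_one₀ (by positivity) ((div_le_one hθ).2 (min_le_right _ _))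
      refine (add_le_add h1 (sum_le_sum fun i _ => h2 i)).trans (le_of_eq ?_)
      rw [← Finset.sum_div, ← add_div, ← hS, div_self hS0.ne'])
    (fun t => abs_nonneg _) fun V _ x => by simp
  have hfun : (fun V x => ∑ t, cc t • gg t V x) = fun V x => (Prog.mk n l c nd ch).val V x := by
    funext V x
    simp [cc, gg, Fintype.sum_option, Prog.val]
  rw [hfun] at h
  have hq : 0 + ∑ t, qq t ≤ (Prog.mk n l c nd ch).size * q₀ := by
    simp only [zero_add, qq, Fintype.sum_option, Option.elim, Prog.size, sz, add_mul, one_mul, sum_mul]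
    exact Nat.le_add_left _ _
  refine h.mono hq (fun o => ?_) ?_
  · simp only [cc, LL, Fintype.sum_option, Option.elim, abs_one, one_mul]
    rw [Prog.grs_def, mul_add]
    refine add_le_add (le_mul_of_one_le_left (abs_nonneg _) (one_le_pow₀ hL)) ?_
    have h4 : 1 ≤ 4 / e := by rw [le_div_iff₀ he]; linarith
    show _ ≤ L₀ ^ D * (4 / e * ∑ i, |c i| * (ch i).grs e o)
    simp only [mul_sum]
    refine sum_le_sum fun i _ => ?_
    have hg0 := (ch i).grs_nonneg he.le o
    calc |c i| * (L₀ * (L₀ ^ (ch i).depth * (ch i).grs e o))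
        = L₀ ^ ((ch i).depth + 1) * (1 * (|c i| * (ch i).grs e o)) := by rw [pow_succ]; ring
      _ ≤ L₀ ^ D * (4 / e * (|c i| * (ch i).grs e o)) :=
          mul_le_mul (pow_le_pow_right₀ hL (hD i)) (mul_le_mul_of_nonneg_right h4 (by positivity))
            (by positivity) (by positivity)
  · simp only [cc, RR, Fintype.sum_option, Option.elim, mul_zero, zero_add]
    show _ ≤ 2 * C₀ * (1 + L₀) ^ D * Γ * (∑ i, |c i| * √(nd i).v) * δ
    rw [mul_sum, sum_mul]
    exact le_of_eq (sum_congr rfl fun i _ => by ring)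

end

end Vale.Agent.P347.Zero
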