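import Vale.Agent.P347.Zero.NodeStep
import Vale.Agent.P347.Zero.Realise
import Vale.Agent.P347.Zero.ProgOps
import Vale.Agent.P347.Zero.Bridge
import Vale.Agent.P347.Colour.Coord

/-!
# P347, exponent 0: the posterior sampler from the nodes

Finitely many bridge steps, each one realised programme at a frozen point, reach a variance so
small that the point itself is the sample.
-/

namespace Vale.Agent.P347.Zero

open MeasureTheory ProbabilityTheory Real Finset
open Vale.Agent.P347.Quarter (E γ Lip1)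
open Vale.Agent.P347.Quarter.Tgt (back)
open Vale.Agent.P347.Colour (Pt Resp Uses Impl BM oracle)
open scoped NNReal

noncomputable section

variable {d : ℕ}

theorem lip1_lipschitz {u : E d → ℝ} {L : ℝ} (hu : Lip1 u L) : LipschitzWith L.toNNReal u :=
  lipschitzWith_of_nnnorm_fderiv_le (hu.smooth.differentiable one_ne_zero) fun x => by
    rw [← NNReal.coe_le_coe, coe_nnnorm, Real.coe_toNNReal _ ((norm_nonneg _).trans (hu.lip x))]
    exact hu.lip x

/-- The posterior mean of a test is a test. -/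
theorem lip1_exv {V : Pt d → ℝ} (hV : Mem V) {v : ℝ} (hv : 0 < v) {u : E d → ℝ} {L : ℝ}
    (hu : Lip1 u L) : Lip1 (fun y => exv V v y u) L := by
  have hL : 0 ≤ L := (norm_nonneg _).trans (hu.lip 0)
  have hgr : Gr u := Gr.of_le hu.smooth.continuous.measurable (C := 1) fun w => by
    nlinarith [hu.bdd w, norm_nonneg w]
  refine ⟨fun y => ?_, (contDiff_exv hV hv hgr).of_le (by norm_cast), fun y => ?_⟩
  · have := isProb_back hV hv y
    exact Quarter.Tgt.abs_int_le hu.bdd
  · refine norm_fderiv_le_of_lip' ℝ hL (Filter.Eventually.of_forall fun z => ?_)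
    simpa [norm_eq_abs] using exv_lip hV hv hL hu.smooth hu.lip z y

/-- At a small variance the point is a posterior sample. -/
theorem exv_point {V : Pt d → ℝ} (hV : Mem V) {v : ℝ} (hv : 0 < v) (hv' : v ≤ 1 / 4) {u : E d → ℝ}
    {L : ℝ} (hu : Lip1 u L) (y : E d) : |u y - exv V v y u| ≤ L * (4 * √v * (√d + ‖y‖)) := by
  have hL : 0 ≤ L := (norm_nonneg _).trans (hu.lip 0)
  have hgr : Gr u := Gr.of_le hu.smooth.continuous.measurable (C := 1) fun w => by
    nlinarith [hu.bdd w, norm_nonneg w]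
  have hdist : Gr fun w => ‖w - y‖ := Gr.of_le (by fun_prop) (C := 1 + ‖y‖) fun w => by
    rw [abs_norm]; nlinarith [norm_sub_le w y, norm_nonneg w, norm_nonneg y]
  set S := √(v * d) + v * ‖Nv V v y‖
  have hS : exv V v y (fun w => ‖w - y‖ ^ 2) ≤ S ^ 2 := by
    refine (exv_dist_sq_le hV hv y).trans ?_
    nlinarith [sq_sqrt (show 0 ≤ v * d by positivity),
      mul_nonneg (mul_nonneg hv.le (sqrt_nonneg (v * d))) (norm_nonneg (Nv V v y))]
  have h1 : |exv V v y fun w => ‖w - y‖ * 1| ≤ S * 1 :=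
    abs_exv_mul_le hV hv y hdist (gr_const 1) (by positivity) zero_le_one hS
      (by simp [exv_const hV hv])
  simp only [mul_one] at h1
  have hsv : √v ≤ 1 / 2 := (Real.sqrt_le_sqrt hv').trans (le_of_eq (by
    rw [show (1 / 4 : ℝ) = (1 / 2) ^ 2 by norm_num, sqrt_sq (by norm_num)]))
  have hS' : S ≤ 4 * √v * (√d + ‖y‖) := by
    have hN := Nv_norm_le hV hv hv' y
    simp only [S]
    rw [Real.sqrt_mul hv.le] at hN ⊢
    have e1 : v * (√v * √d) ≤ 1 / 4 * (√v * √d) := mul_le_mul_of_nonneg_right hv' (by positivity)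
    have e2 : v * ‖y‖ ≤ 1 / 2 * √v * ‖y‖ :=
      mul_le_mul_of_nonneg_right (by nlinarith [mul_self_sqrt hv.le, sqrt_nonneg v]) (norm_nonneg y)
    have e3 := mul_le_mul_of_nonneg_left hN hv.le
    linarith [mul_nonneg (sqrt_nonneg v) (sqrt_nonneg (d : ℝ)),
      mul_nonneg (sqrt_nonneg v) (norm_nonneg y)]
  have h2 : |exv V v y (fun w => u w - u y)| ≤ exv V v y fun w => L * ‖w - y‖ := by
    have hl : ∀ w, |u w - u y| ≤ L * ‖w - y‖ := fun w => Quarter.Tgt.lip_le hu w y
    refine abs_le.2 ⟨?_, exv_mono hV hv y (hgr.sub (gr_const _)) (hdist.const_mul L)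
      fun w => (abs_le.1 (hl w)).2⟩
    have h := exv_mono hV hv y (hdist.const_mul (-L)) (hgr.sub (gr_const (u y)))
      fun w => by linarith [(abs_le.1 (hl w)).1]
    rw [exv_const_mul] at h ⊢
    linarith
  rw [exv_sub hV hv y hgr (gr_const _), exv_const hV hv, exv_const_mul] at h2
  rw [abs_sub_comm]
  exact h2.trans (mul_le_mul_of_nonneg_left ((le_abs_self _).trans (h1.trans hS')) hL)

/-- One bridge step as an averaging operator: it follows the law of the programme plus noise
against tests, and it grows the weight by at most `M`. -/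
theorem smp_step {q : ℕ} {bz bx : ℝ} {Ls : Option Unit → ℝ} {a ρ Cv : ℝ}
    {val : (Pt d → ℝ) → Inp d (Option Unit) → E d}
    (hS : Smp q (fun o => o.elim bz fun _ => bx) Ls a ρ val) (ha : 0 ≤ a) (hρ : 0 ≤ ρ) (hCv : 0 ≤ Cv)
    (hm : ∀ V, Mem V → Measurable (val V))
    (hv : ∀ V, Mem V → ∀ y, ‖val V y‖ ≤ Cv * wt y) :
    ∃ T : (Pt d → Resp d) → (E d → ℝ) → E d → ℝ, Impl q T ∧ ∀ V, Mem V →
      (∀ (u : E d → ℝ) (L : ℝ), Lip1 u L → ∀ y,
        |T (oracle V) u y - ∫ z, ∫ w, u (val V (inp2 z y) + a • w) ∂γ d ∂γ d|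
          ≤ L * (2 * ρ) * (√d + ‖y‖)) ∧
      (∀ f g : E d → ℝ, BM f → BM g → ∀ K : ℝ, 0 ≤ K → (∀ x, |f x - g x| ≤ K * (√d + ‖x‖)) →
        ∀ y, |T (oracle V) f y - T (oracle V) g y|
          ≤ K * ((2 * (Cv + ρ) + 1 + a) * (√d + ‖y‖))) := by
  obtain ⟨Ω, _, μ, hμ, F, hF, hP'⟩ := hS
  set b : Option Unit → ℝ := fun o => o.elim bz fun _ => bx
  have hi2 : ∀ z y : E d, wt (inp2 z y) = √d + (‖z‖ + ‖y‖) := fun z y => by
    simp [wt, inp2, Fintype.sum_option]
  have hm2 : Measurable fun p : E d × E d => inp2 p.1 p.2 :=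
    measurable_pi_lambda _ fun o => by cases o <;> simp [inp2] <;> fun_prop
  refine ⟨fun O u y => ∫ p : E d × (Inp d (Option Unit) × Ω),
      u (F O (blur b (inp2 p.1 y) p.2.1, p.2.2)) ∂(γ d).prod ((γs d (Option Unit)).prod μ),
    ⟨E d × (Inp d (Option Unit) × Ω), inferInstance, (γ d).prod ((γs d (Option Unit)).prod μ),
      inferInstance, fun O a => F O (blur b (inp2 a.2.1 a.1) a.2.2.1, a.2.2.2), ?_,
      fun O _ u _ y => rfl⟩, fun V hV => ?_⟩
  · have hh : Measurable fun a : E d × (E d × (Inp d (Option Unit) × Ω)) =>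
        (blur b (inp2 a.2.1 a.1) a.2.2.1, a.2.2.2) := by
      have := hm2.comp (show Measurable fun a : E d × (E d × (Inp d (Option Unit) × Ω)) =>
        (a.2.1, a.1) by fun_prop)
      unfold blur; fun_prop
    exact hF.map (h := fun a : E d × (E d × (Inp d (Option Unit) × Ω)) =>
        (blur b (inp2 a.2.1 a.1) a.2.2.1, a.2.2.2)) hh
      (g := fun c : (E d × (E d × (Inp d (Option Unit) × Ω))) × E d => c.2) measurable_snd
  have hP := hP' V hV
  have hmF := hP.meas
  have hvm := hm V hV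
  -- the run from a point
  have hY : ∀ y : E d, Measurable fun p : E d × Inp d (Option Unit) => blur b (inp2 p.1 y) p.2 := by
    intro y
    have := hm2.comp (show Measurable fun p : E d × Inp d (Option Unit) => (p.1, y) by fun_prop)
    unfold blur; fun_prop
  have hI : ∀ y : E d, Integrable (fun p : E d × (Inp d (Option Unit) × Ω) =>
      F (oracle V) (blur b (inp2 p.1 y) p.2.1, p.2.2)) ((γ d).prod ((γs d (Option Unit)).prod μ)) := by
    intro y
    have h := hP.integrable_of (ν := (γ d).prod (γs d (Option Unit)))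
      (Y := fun p => blur b (inp2 p.1 y) p.2) (hY y) fun o => ?_
    · exact ((measurePreserving_prodAssoc (γ d) (γs d (Option Unit)) μ).integrable_comp_emb
        (MeasurableEquiv.measurableEmbedding _)).1 h
    · cases o with
      | none =>
        exact ((IsGaussian.integrable_id (μ := γ d)).comp_fst _).add
          (((integrable_coord (d := d) (none : Option Unit)).smul bz).comp_snd _)
      | some s =>
        exact (integrable_const y).add
          (((integrable_coord (d := d) (some s)).smul bx).comp_snd _)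
  have hwt : ∀ y : E d, Integrable (fun z : E d => wt (inp2 z y)) (γ d) := fun y => by
    simp only [hi2]
    exact (integrable_const _).add (Quarter.γ_norm_integrable.add (integrable_const _))
  have hwt2 : ∀ y : E d, ∫ z, wt (inp2 z y) ∂γ d ≤ 2 * (√d + ‖y‖) := fun y => by
    simp only [hi2]
    rw [integral_add (integrable_const _) (Quarter.γ_norm_integrable.fun_add (integrable_const _)),
      integral_add Quarter.γ_norm_integrable (integrable_const _)]
    simp only [integral_const, probReal_univ, one_smul]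
    linarith [Quarter.Tgt.γ_norm_le (d := d), norm_nonneg y]
  refine ⟨fun u L hu y => ?_, fun f g hf hg K hK hfg y => ?_⟩
  · have hl := lip1_lipschitz hu
    have hL : 0 ≤ L := (norm_nonneg _).trans (hu.lip 0)
    have hg : Integrable (fun z => ∫ w, u (val V (inp2 z y) + a • w) ∂γ d) (γ d) := by
      have hin : Measurable fun p : E d × E d => u (val V (inp2 p.1 y) + a • p.2) := by
        have := hvm.comp (hm2.comp (show Measurable fun p : E d × E d => (p.1, y) by fun_prop))
        exact hu.smooth.continuous.measurable.comp (by fun_prop)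
      exact Integrable.of_bound (hin.stronglyMeasurable.integral_prod_right').aestronglyMeasurable 1
        (ae_of_all _ fun z => by rw [norm_eq_abs]; exact Quarter.Tgt.abs_int_le fun w => hu.bdd _)
    have hIu : Integrable (fun p : E d × (Inp d (Option Unit) × Ω) =>
        u (F (oracle V) (blur b (inp2 p.1 y) p.2.1, p.2.2)))
        ((γ d).prod ((γs d (Option Unit)).prod μ)) := integrable_lip (hI y) hl
    dsimp only
    rw [integral_prod _ hIu, ← integral_sub hIu.integral_prod_left hg]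
    refine (abs_integral_le_integral_abs.trans (integral_mono (hIu.integral_prod_left.sub hg).abs
      ((hwt y).const_mul (L * ρ)) fun z => ?_)).trans ?_
    · have h1 := hP.close_lip (inp2 z y) hl
      rw [Real.coe_toNNReal _ hL, ← mul_assoc] at h1
      exact h1
    · rw [integral_const_mul]
      calc L * ρ * ∫ z, wt (inp2 z y) ∂γ d ≤ L * ρ * (2 * (√d + ‖y‖)) :=
            mul_le_mul_of_nonneg_left (hwt2 y) (mul_nonneg hL hρ)
        _ = _ := by ring
  · have hFm : Measurable fun p : E d × (Inp d (Option Unit) × Ω) =>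
        F (oracle V) (blur b (inp2 p.1 y) p.2.1, p.2.2) := by
      have := (hY y).comp (show Measurable fun p : E d × (Inp d (Option Unit) × Ω) =>
        (p.1, p.2.1) by fun_prop)
      exact hmF.comp (this.prodMk (by fun_prop))
    have hbf : ∀ {f : E d → ℝ}, BM f → Integrable (fun p : E d × (Inp d (Option Unit) × Ω) =>
        f (F (oracle V) (blur b (inp2 p.1 y) p.2.1, p.2.2)))
        ((γ d).prod ((γs d (Option Unit)).prod μ)) := fun hf =>
      Integrable.of_bound (hf.1.comp hFm).aestronglyMeasurable hf.2.choose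
        (ae_of_all _ fun p => by rw [norm_eq_abs]; exact hf.2.choose_spec _)
    have hB : Integrable (fun p : E d × (Inp d (Option Unit) × Ω) =>
        K * (√d + ‖F (oracle V) (blur b (inp2 p.1 y) p.2.1, p.2.2)‖))
        ((γ d).prod ((γs d (Option Unit)).prod μ)) :=
      ((integrable_const _).add (hI y).norm).const_mul K
    dsimp only
    rw [← integral_sub (hbf hf) (hbf hg)]
    refine (abs_integral_le_integral_abs.trans
      (integral_mono ((hbf hf).sub (hbf hg)).abs hB fun p => hfg _)).trans ?_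
    rw [integral_const_mul]
    refine mul_le_mul_of_nonneg_left ?_ hK
    rw [integral_add (integrable_const _) (hI y).norm, integral_const, probReal_univ, one_smul,
      integral_prod _ (hI y).norm]
    have hn : ∀ z, ∫ q : Inp d (Option Unit) × Ω,
        ‖F (oracle V) (blur b (inp2 z y) q.1, q.2)‖ ∂((γs d (Option Unit)).prod μ)
          ≤ (Cv + ρ) * wt (inp2 z y) + a * √d := fun z => by
      have h1 := hP.close (inp2 z y) (fun v => ‖v‖) lipschitzWith_one_norm
      have h2 : ∫ w, ‖val V (inp2 z y) + a • w‖ ∂γ d ≤ Cv * wt (inp2 z y) + a * √d := by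
        have hw : Integrable (fun w : E d => a * ‖w‖) (γ d) := Quarter.γ_norm_integrable.const_mul a
        refine (integral_mono (integrable_noise _ a).norm
          ((integrable_const ‖val V (inp2 z y)‖).add hw) fun w => ?_).trans ?_
        · refine (norm_add_le _ _).trans (le_of_eq ?_)
          simp [norm_smul, abs_of_nonneg ha]
        · simp only [Pi.add_apply]
          rw [integral_add (integrable_const _) hw, integral_const_mul]
          simp only [integral_const, probReal_univ, one_smul]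
          exact add_le_add (hv V hV _) (mul_le_mul_of_nonneg_left Quarter.Tgt.γ_norm_le ha)
      linarith [(abs_le.1 h1).2]
    have hJ : Integrable (fun z => (Cv + ρ) * wt (inp2 z y) + a * √d) (γ d) :=
      ((hwt y).const_mul _).add (integrable_const _)
    have h3 := integral_mono (hI y).norm.integral_prod_left hJ hn
    rw [integral_add ((hwt y).const_mul _) (integrable_const _), integral_const_mul] at h3
    simp only [integral_const, probReal_univ, one_smul] at h3
    have h4 := mul_le_mul_of_nonneg_left (hwt2 y) (add_nonneg hCv hρ)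
    nlinarith [norm_nonneg y, sqrt_nonneg (d : ℝ), mul_nonneg ha (norm_nonneg y)]

/-- The constant of the descent. -/
def chainC (M B : ℝ) : ℕ → ℝ
  | 0 => 4
  | j + 1 => M * chainC M B j + B

theorem chainC_nonneg {M B : ℝ} (hM : 0 ≤ M) (hB : 0 ≤ B) : ∀ j, 0 ≤ chainC M B j
  | 0 => by norm_num [chainC]
  | j + 1 => by
    have := chainC_nonneg hM hB j
    rw [chainC]; positivity

/-- The descent: `j` bridge steps. -/
theorem chain_levels {h r δ M B : ℝ} {qT : ℕ} (hr : 0 < r) (hr1 : r ≤ 1) (hh : h ≤ 1 / 4)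
    (hδ : 0 ≤ δ) (hM : 0 ≤ M) (hB : 0 ≤ B)
    (hstep : ∀ v : ℝ, 0 < v → v ≤ h → ∃ T : (Pt d → Resp d) → (E d → ℝ) → E d → ℝ, Impl qT T ∧
      ∀ V, Mem V →
        (∀ (u : E d → ℝ) (L : ℝ), Lip1 u L → ∀ y,
          |T (oracle V) (fun x => exv V (r ^ 2 * v) x u) y - exv V v y u|
            ≤ L * B * √v * δ * (√d + ‖y‖)) ∧
        (∀ f g : E d → ℝ, BM f → BM g → ∀ K : ℝ, 0 ≤ K → (∀ x, |f x - g x| ≤ K * (√d + ‖x‖)) →
          ∀ y, |T (oracle V) f y - T (oracle V) g y| ≤ K * (M * (√d + ‖y‖)))) :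
    ∀ (j : ℕ) (v : ℝ), 0 < v → v ≤ h → ∃ S : (Pt d → Resp d) → (E d → ℝ) → E d → ℝ,
      Impl (j * qT) S ∧ ∀ V, Mem V → ∀ (u : E d → ℝ) (L : ℝ), Lip1 u L → ∀ y,
        |S (oracle V) u y - exv V v y u| ≤ L * chainC M B j * √v * (δ + r ^ j) * (√d + ‖y‖) := by
  intro j
  induction j with
  | zero =>
    intro v hv hvh
    refine ⟨fun _ u => u, by rw [zero_mul]; exact Colour.Impl.id', fun V hV u L hu y => ?_⟩
    have hL : 0 ≤ L := (norm_nonneg _).trans (hu.lip 0)
    refine (exv_point hV hv (hvh.trans hh) hu y).trans ?_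
    simp only [chainC, pow_zero]
    have h0 : 0 ≤ L * 4 * √v * (√d + ‖y‖) := by positivity
    nlinarith [mul_nonneg h0 hδ]
  | succ j ih =>
    intro v hv hvh
    obtain ⟨T, hT, hTV⟩ := hstep v hv hvh
    obtain ⟨S, hS, hSV⟩ := ih (r ^ 2 * v) (by positivity)
      (le_trans (mul_le_of_le_one_left hv.le (pow_le_one₀ hr.le hr1)) hvh)
    refine ⟨fun O u => T O (S O u), by rw [Nat.succ_mul]; exact hT.comp hS, fun V hV u L hu y => ?_⟩
    have hL : 0 ≤ L := (norm_nonneg _).trans (hu.lip 0)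
    have hO := hV.measurable_oracle
    obtain ⟨hT1, hT2⟩ := hTV V hV
    have hu' := lip1_exv hV (show 0 < r ^ 2 * v by positivity) hu
    have hs : √(r ^ 2 * v) = r * √v := by rw [Real.sqrt_mul (sq_nonneg r), sqrt_sq hr.le]
    have hc := chainC_nonneg hM hB j
    set K := L * chainC M B j * (r * √v) * (δ + r ^ j)
    have h1 : |T (oracle V) (S (oracle V) u) y
        - T (oracle V) (fun x => exv V (r ^ 2 * v) x u) y| ≤ K * (M * (√d + ‖y‖)) :=
      hT2 _ _ ⟨((hS.good hO).bdd u 1 hu.smooth.continuous.measurable hu.bdd).1, 1,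
          ((hS.good hO).bdd u 1 hu.smooth.continuous.measurable hu.bdd).2⟩
        ⟨hu'.smooth.continuous.measurable, 1, hu'.bdd⟩ K (by positivity)
        (fun x => by
          have := hSV V hV u L hu x
          rw [hs] at this
          exact this) y
    refine (abs_sub_le _ (T (oracle V) (fun x => exv V (r ^ 2 * v) x u) y) _).trans
      ((add_le_add h1 (hT1 u L hu y)).trans ?_)
    have hb : 0 ≤ L * √v * (√d + ‖y‖) := by positivity
    have e1 : r * (δ + r ^ j) ≤ δ + r ^ (j + 1) := by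
      rw [mul_add, pow_succ' r j]
      exact add_le_add (mul_le_of_le_one_left hδ hr1) le_rfl
    have e2 : δ ≤ δ + r ^ (j + 1) := le_add_of_nonneg_right (by positivity)
    calc K * (M * (√d + ‖y‖)) + L * B * √v * δ * (√d + ‖y‖)
        = L * √v * (√d + ‖y‖) * (M * chainC M B j * (r * (δ + r ^ j)) + B * δ) := by
          simp only [K]; ring
      _ ≤ L * √v * (√d + ‖y‖) * (M * chainC M B j * (δ + r ^ (j + 1)) + B * (δ + r ^ (j + 1))) :=
          mul_le_mul_of_nonneg_left (add_le_add (mul_le_mul_of_nonneg_left e1 (by positivity))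
            (mul_le_mul_of_nonneg_left e2 hB)) hb
      _ = _ := by simp only [chainC]; ring

/-- A posterior sample from the nodes, by finitely many bridge steps. -/
theorem postStep_of_nodeOK' (h : ∀ ε : ℝ, 0 < ε → ∀ A : ℝ, NodeOK ε A) : PostStep := by
  intro ε hε A
  set A' : ℝ := (A : ℝ) + 1
  obtain ⟨D, s, ηb, hs, hηb, hbr⟩ := exists_bridge hε A'
  obtain ⟨κ, hκ, hN⟩ := h ε hε A' 0 le_rfl
  obtain ⟨c, ηn, hc, hηn, hN⟩ := hN (κ + 1) (by linarith)
  set η := min (min ηb ηn) (min 1 (ε / (2 * (s + c + 1))))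
  have hη : 0 < η := lt_min (lt_min hηb hηn) (lt_min one_pos (by positivity))
  have hηs : (s + c) * η ≤ ε := by
    have h1 : η ≤ ε / (2 * (s + c + 1)) := (min_le_right _ _).trans (min_le_right _ _)
    rw [le_div_iff₀ (by positivity)] at h1
    nlinarith
  obtain ⟨Cb, hbr⟩ := hbr η hη ((min_le_left _ _).trans (min_le_left _ _))
  obtain ⟨Cn, hN⟩ := hN η hη ((min_le_left _ _).trans (min_le_right _ _))
  obtain ⟨Ch, hCh1, hCh⟩ := exists_dim_h hε (δ := 1 / 4) (by norm_num)
  obtain ⟨J, hJ⟩ := exists_nat_ge (A' / η)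
  set Γ := max Cb 1
  set C₀ := max Cn 1
  set R := 2 * C₀ * (1 + C₀) ^ D * Γ
  set M := 2 * (Γ + R) + 2
  set B := 2 * R + Γ
  have hΓ : 1 ≤ Γ := le_max_right _ _
  have hC₀ : 1 ≤ C₀ := le_max_right _ _
  have hR : 0 ≤ R := by positivity
  set K := chainC M B J
  have hK : 0 ≤ K := chainC_nonneg (by positivity) (by positivity) J
  obtain ⟨D', hD'⟩ := exists_nat_ge (max (max Cb Cn) (max Ch (2 * K + 1)))
  refine ⟨J * (Γ * (C₀ + 1)), D', fun d hd => ?_⟩
  have hdC : max (max Cb Cn) (max Ch (2 * K + 1)) ≤ (d : ℝ) := hD'.trans (by exact_mod_cast hd)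
  simp only [max_le_iff] at hdC
  obtain ⟨⟨hdb, hdn⟩, hdh, hdK⟩ := hdC
  have hd1 : (1 : ℝ) ≤ d := hCh1.trans hdh
  have hd0 : (0 : ℝ) < d := by linarith
  set hv := (d : ℝ) ^ (-ε) with hhdef
  have hh4 : hv ≤ 1 / 4 := hCh d hdh
  have hh0 : 0 < hv := Real.rpow_pos_of_pos hd0 _
  -- one query budget for all nodes and programmes
  have hpc : 1 ≤ (d : ℝ) ^ (c * η) := Real.one_le_rpow hd1 (by positivity)
  have hps : 1 ≤ (d : ℝ) ^ (s * η) := Real.one_le_rpow hd1 (by positivity)
  set q₀ := ⌊C₀ * (d : ℝ) ^ (c * η)⌋₊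
  set n₀ := ⌊Γ * (d : ℝ) ^ (s * η)⌋₊
  refine ⟨J * (n₀ * q₀), ?_, ?_⟩
  · push_cast
    have h1 : (n₀ : ℝ) * q₀ ≤ Γ * (d : ℝ) ^ (s * η) * (C₀ * (d : ℝ) ^ (c * η)) :=
      mul_le_mul (Nat.floor_le (by positivity)) (Nat.floor_le (by positivity)) (Nat.cast_nonneg _)
        (by positivity)
    have h2 : (d : ℝ) ^ (s * η) * (d : ℝ) ^ (c * η) ≤ (d : ℝ) ^ ε := by
      rw [← Real.rpow_add hd0]
      exact Real.rpow_le_rpow_of_exponent_le hd1 (by linarith)
    calc (J : ℝ) * ((n₀ : ℝ) * q₀)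
        ≤ (J : ℝ) * (Γ * C₀ * ((d : ℝ) ^ (s * η) * (d : ℝ) ^ (c * η))) :=
          mul_le_mul_of_nonneg_left (h1.trans (le_of_eq (by ring))) (Nat.cast_nonneg _)
      _ ≤ (J : ℝ) * (Γ * (C₀ + 1) * (d : ℝ) ^ ε) := by gcongr; linarith
      _ = _ := by ring
  set r := (d : ℝ) ^ (-η) with hrdef
  have hr : 0 < r := Real.rpow_pos_of_pos hd0 _
  have hr1 : r ≤ 1 := Real.rpow_le_one_of_one_le_of_nonpos hd1 (by linarith)
  have hr2 : r ^ 2 = (d : ℝ) ^ (-2 * η) := by
    rw [hrdef, ← Real.rpow_natCast, ← Real.rpow_mul hd0.le]; ring_nf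
  set δ := (d : ℝ) ^ (-A') with hδdef
  have hδ : 0 ≤ δ := Real.rpow_nonneg hd0.le _
  set θ := (d : ℝ) ^ (-κ * η)
  have hθ : 0 < θ := Real.rpow_pos_of_pos hd0 _
  have hθ1 : θ ≤ 1 := Real.rpow_le_one_of_one_le_of_nonpos hd1 (by nlinarith)
  set e := eAt ε η 0 d
  have he : 0 < e := Real.rpow_pos_of_pos hd0 _
  have he1 : e ≤ 1 := Real.rpow_le_one_of_one_le_of_nonpos hd1 (by linarith)
  have hee : e ≤ eAt ε η (κ + 1) d * min 1 θ := by
    rw [min_eq_right hθ1]
    simp only [e, θ, eAt, ← Real.rpow_add hd0]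
    exact Real.rpow_le_rpow_of_exponent_le hd1 (by linarith)
  have hnode : ∀ nd : Nd, nd.Ok hv 1 → Smp (d := d) (σ := Unit) q₀ (fun _ => nd.scale * θ)
      (fun _ => C₀) (√nd.v / eAt ε η (κ + 1) d) (C₀ * √nd.v * δ) (fun V x => nd.val V (x ())) := by
    intro nd hnd
    obtain ⟨q, hq, hS⟩ := hN d hdn nd (by simpa using hnd)
    exact hS.mono (Nat.le_floor (hq.trans (mul_le_mul_of_nonneg_right (le_max_left _ _) (by positivity))))
      (fun _ => le_max_left _ _) (by gcongr; exact le_max_left _ _)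
  have hstep : ∀ v : ℝ, 0 < v → v ≤ hv →
      ∃ T : (Pt d → Resp d) → (E d → ℝ) → E d → ℝ, Impl (n₀ * q₀) T ∧ ∀ V, Mem V →
        (∀ (u : E d → ℝ) (L : ℝ), Lip1 u L → ∀ y,
          |T (oracle V) (fun x => exv V (r ^ 2 * v) x u) y - exv V v y u|
            ≤ L * B * √v * δ * (√d + ‖y‖)) ∧
        (∀ f g : E d → ℝ, BM f → BM g → ∀ K : ℝ, 0 ≤ K → (∀ x, |f x - g x| ≤ K * (√d + ‖x‖)) →
          ∀ y, |T (oracle V) f y - T (oracle V) g y| ≤ K * (M * (√d + ‖y‖))) := by
    intro v hv0 hvh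
    obtain ⟨P, a, haU, haL, hdep, hsize, hgrow, -, hadm, hval⟩ := hbr d hdb v hv0 hvh
    obtain ⟨hP, -, -⟩ := hadm e le_rfl
    have ha0 : 0 ≤ a := le_trans (by positivity) haL
    have hav : a ≤ √v := haU.trans (mul_le_of_le_one_left (Real.sqrt_nonneg _) hr1)
    have hv1 : √v ≤ 1 := Real.sqrt_le_one.2 (hvh.trans (hh4.trans (by norm_num)))
    have hb : ∀ o : Option Unit,
        0 ≤ o.elim ((d : ℝ) ^ (-3 * η)) fun _ => √v * (d : ℝ) ^ (-3 * η) := by
      rintro (_ | _) <;> simp <;> positivity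
    have hS := P.smp (k := 1) (q₀ := q₀) (Γ := Γ) (C₀ := C₀) (L₀ := C₀) (δ := δ) he he1 hθ hθ1
      one_pos le_rfl hb hC₀ (zero_le_one.trans hC₀) hδ hΓ hee hnode hP
      (hgrow.mono (le_max_left _ _))
    rw [one_mul] at hS
    have hSc : ∑ i, |P.coef i| * √(P.node i).v ≤ √v := by
      have h1 := ((Prog.adm_def _ _ _ _ _ _).1 hP).1
      have h2 : 0 ≤ ∑ o : Option Unit,
          |P.lin o| * o.elim ((d : ℝ) ^ (-3 * η)) fun _ => √v * (d : ℝ) ^ (-3 * η) :=
        sum_nonneg fun o _ => mul_nonneg (abs_nonneg _) (hb o)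
      have h3 : (∑ i, |P.coef i| * √(P.node i).v) / e ≤ a := by linarith
      rw [div_le_iff₀ he] at h3
      exact h3.trans ((mul_le_of_le_one_right ha0 he1).trans hav)
    have hρ : 2 * C₀ * (1 + C₀) ^ P.depth * Γ * (∑ i, |P.coef i| * √(P.node i).v) * δ
        ≤ R * √v * δ := by
      simp only [R]
      have hp : (1 + C₀) ^ P.depth ≤ (1 + C₀) ^ D := pow_le_pow_right₀ (by linarith) hdep
      have hS0 : 0 ≤ ∑ i, |P.coef i| * √(P.node i).v := sum_nonneg fun i _ => by positivity
      gcongr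
    have hq : P.size * q₀ ≤ n₀ * q₀ := Nat.mul_le_mul_right _ (Nat.le_floor
      (hsize.trans (mul_le_mul_of_nonneg_right (le_max_left _ _) (by positivity))))
    have hS' := hS.mono hq (fun _ => le_rfl) hρ
    have hb2 : (fun o : Option Unit =>
        o.elim ((d : ℝ) ^ (-3 * η)) (fun _ => √v * (d : ℝ) ^ (-3 * η)) * min 1 θ / √(P.size : ℝ))
        = fun o : Option Unit => o.elim ((d : ℝ) ^ (-3 * η) * min 1 θ / √(P.size : ℝ))
          fun _ => √v * (d : ℝ) ^ (-3 * η) * min 1 θ / √(P.size : ℝ) := by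
      funext o; cases o <;> rfl
    rw [hb2] at hS'
    have hmeas : ∀ V, Mem (d := d) V → Measurable fun y => P.val V y := fun V hV => by
      have hl : LipschitzWith (∑ o, P.grs e o).toNNReal fun y => P.val V y :=
        LipschitzWith.of_dist_le' fun y y' => by
          rw [dist_eq_norm, sum_mul]
          refine (Prog.val_lip hV he he1 hP y y').trans
            (sum_le_sum fun o _ => mul_le_mul_of_nonneg_left ?_ (P.grs_nonneg he.le o))
          rw [← dist_eq_norm]
          exact dist_le_pi_dist y y' o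
      exact hl.continuous.measurable
    obtain ⟨T, hT, hTV⟩ := smp_step hS' ha0 (by positivity) (zero_le_one.trans hΓ) hmeas
      fun V hV y => ((hval V hV).1 y).trans
        (mul_le_mul_of_nonneg_right (le_max_left _ _) (wt_nonneg y))
    refine ⟨T, hT, fun V hV => ⟨fun u L hu y => ?_, fun f g hf hg K hK hfg y => ?_⟩⟩
    · have hL : 0 ≤ L := (norm_nonneg _).trans (hu.lip 0)
      have h1 := (hTV V hV).1 _ L (lip1_exv hV (show 0 < r ^ 2 * v by positivity) hu) y
      have h2 := ((hval V hV).2 y).2 u L hu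
      rw [hr2] at h1 ⊢
      rw [abs_sub_comm] at h2
      refine (abs_sub_le _ _ _).trans ((add_le_add h1 h2).trans ?_)
      have hCb : Cb ≤ Γ := le_max_left _ _
      calc L * (2 * (R * √v * δ)) * (√d + ‖y‖) + L * Cb * √v * δ * (√d + ‖y‖)
          = L * (2 * R + Cb) * √v * δ * (√d + ‖y‖) := by ring
        _ ≤ _ := by simp only [B]; gcongr
    · refine ((hTV V hV).2 f g hf hg K hK hfg y).trans ?_
      gcongr
      simp only [M]
      have hδ1 : δ ≤ 1 := Real.rpow_le_one_of_one_le_of_nonpos hd1 (neg_nonpos.2 (by positivity))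
      nlinarith [mul_le_mul_of_nonneg_left (mul_le_one₀ hv1 hδ hδ1) hR]
  obtain ⟨S, hS, hSV⟩ := chain_levels hr hr1 hh4 hδ (show 0 ≤ M by positivity)
    (show 0 ≤ B by positivity) hstep J hv hh0 le_rfl
  refine ⟨S, hS, fun V hV u L hu y => ?_⟩
  have hL : 0 ≤ L := (norm_nonneg _).trans (hu.lip 0)
  refine (hSV V hV u L hu y).trans ?_
  have hrJ : r ^ J ≤ δ := by
    rw [hrdef, hδdef, ← Real.rpow_natCast, ← Real.rpow_mul hd0.le]
    refine Real.rpow_le_rpow_of_exponent_le hd1 ?_
    rw [div_le_iff₀ hη] at hJ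
    linarith
  have hδA : δ * d = ((d : ℝ) ^ A)⁻¹ := by
    rw [hδdef, ← Real.rpow_add_one hd0.ne', ← Real.rpow_natCast (d : ℝ) A, ← Real.rpow_neg hd0.le]
    simp [A']
  have hsv : √hv ≤ 1 := Real.sqrt_le_one.2 (hh4.trans (by norm_num))
  have hK2 : K * √hv * (δ + r ^ J) ≤ ((d : ℝ) ^ A)⁻¹ := by
    calc K * √hv * (δ + r ^ J) ≤ K * 1 * (δ + δ) := by gcongr
      _ = (2 * K) * δ := by ring
      _ ≤ (d : ℝ) * δ := mul_le_mul_of_nonneg_right (by linarith) hδ
      _ = _ := by rw [mul_comm, hδA]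
  calc L * K * √hv * (δ + r ^ J) * (√d + ‖y‖) = L * (K * √hv * (δ + r ^ J)) * (√d + ‖y‖) := by ring
    _ ≤ _ := by gcongr

end

end Vale.Agent.P347.Zero
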