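import Vale.Agent.P347.Zero.Levels
import Vale.Agent.P347.Zero.NodeStep
import Vale.Agent.P347.Zero.PostBridge
import Vale.Agent.P347.Zero.BinderStep
import Vale.Agent.P347.Zero.BinderBase

/-!
# P347, exponent 0: assembly of the recursion
-/

namespace Vale.Agent.P347.Zero

open Real

noncomputable section

/-- The binder gains `ε / 6`. -/
theorem binder_step {ε A : ℝ} (hε : 0 < ε) (hA : -(ε / 6) ≤ A) (hn : NodeOK ε A)
    (hb : BinderOK ε A) : BinderOK ε (A + ε / 6) := binder_step_of hε hA hn hb

theorem recursion {ε : ℝ} (hε : 0 < ε) :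
    ∀ k : ℕ, NodeOK ε (k * (ε / 6) - ε / 6) ∧ BinderOK ε (k * (ε / 6) - ε / 6) := by
  intro k
  induction k with
  | zero =>
    have hn := (node_base hε).anti (A' := -(ε / 6)) (by linarith)
    simpa using And.intro hn (binder_base hε hn)
  | succ k ih =>
    have hA : (0 : ℝ) ≤ k * (ε / 6) := by positivity
    have hb := binder_step hε (by linarith) ih.1 ih.2
    have e : ((k + 1 : ℕ) : ℝ) * (ε / 6) - ε / 6 = k * (ε / 6) - ε / 6 + ε / 6 := by
      push_cast; ring
    rw [e]
    exact ⟨node_step hε (by linarith) hb, hb⟩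

theorem nodeOK {ε : ℝ} (hε : 0 < ε) (A : ℝ) : NodeOK ε A := by
  obtain ⟨k, hk⟩ := exists_nat_ge (A / (ε / 6) + 1)
  have h1 : A / (ε / 6) ≤ (k : ℝ) - 1 := by linarith
  rw [div_le_iff₀ (by positivity)] at h1
  exact (recursion hε k).1.anti (by linarith)

/-- A posterior sample from the nodes, by finitely many bridge steps. -/
theorem postStep : PostStep := postStep_of_nodeOK' fun _ hε A => nodeOK hε A

end

end Vale.Agent.P347.Zero
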