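import Vale.Agent.P347.Zero.BinderMix

/-!
# P347, exponent 0: one run of the binder scheme
-/

namespace Vale.Agent.P347.Zero

open MeasureTheory Real Finset
open Vale.Agent.P347.Quarter (E γ)
open Vale.Agent.P347.Colour (Pt)

noncomputable section

variable {d : ℕ} {σ : Type} [Fintype σ] [DecidableEq σ] {n R : ℕ} {rs ws : Fin R → ℝ}
  {G : Prog (Option σ)} {PA : Prog (Option (σ ⊕ Bool))} {a b₀ : ℝ}
  {b bs : σ → ℝ} {g : Option σ → ℝ} {S : ℝ} {qm qf qΦ : ℕ} {θ θf θ₀ θu θy μ W Λ δ Cg : ℝ}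

theorem binder_core (h : BinderData n rs ws G PA a b₀ d b bs g S qm qf qΦ θ θf θ₀ θu θy μ W Λ δ)
    {K Q qo : ℕ} {θt Λt βo βt β₁ ρo ρ' τ : ℝ} {b' : σ → ℝ} (hQ : 4 ≤ Q)
    (hσ : Fintype.card σ + 3 ≤ Q) (hR : (n + 1) * R + 2 * (n + 1) ≤ Q) (hn : n + 2 ≤ Q)
    (hCg : 0 ≤ Cg)
    (hgrow : ∀ V, Mem (d := d) V → ∀ k ≤ K, ∀ (y : Inp d (σ ⊕ Fin 4)) (i : Fin (n + 1)),
      ‖(itB n rs ws V G PA a b₀ y k i).1‖ + ‖(itB n rs ws V G PA a b₀ y k i).2‖ ≤ Cg * wt y)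
    (hΓg : (8 * W * Λ * (1 + Cg)) ^ K * (Λ * S) ≤ b₀) (hθt : W * θu ≤ θt)
    (hτt : ∀ l, bs l * θ₀ ≤ b l * θt) (hΛt : 0 ≤ Λt) (hρo : 0 ≤ ρo)
    (hli : ∑ j, |li (eqNode n 0 1) 0 1 j| ≤ W) (hβ : (W * βo) ^ 2 ≤ βt ^ 2)
    (ho : Smp (d := d) (σ := Option σ) qo (fun o => o.elim (a * θt) fun l => b l * θt)
      (fun o => Λt * g o) βo ρo (fun V x => G.val V x))
    (hτ : 0 ≤ τ) (hτ2 : 2 * τ ^ 2 ≤ 1)
    (hτB : 2 * τ ^ 2 ≤ (θ₀ / (Q : ℝ) ^ (4 * (K + 1))) ^ 2)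
    (hb' : ∀ j, 0 ≤ b' j ∧ b' j ≤ bs j * (θ₀ / (Q : ℝ) ^ (4 * (K + 1))))
    (hmeas : ∀ V, Mem (d := d) V → Measurable fun y => outB n rs ws V G PA a b₀ y K)
    (hmix : ∀ V, Mem (d := d) V → ∀ (x : Inp d (Option σ)) (φ : E d → ℝ), LipschitzWith 1 φ →
      |∫ ζ, (∫ w, φ (outB n rs ws V G PA a b₀ (mkB a x ζ) K + βt • w) ∂γ d) ∂γs d (Fin 3)
        - ∫ w, φ ((∫ u, G.val V (upd a x u) ∂γ d) + β₁ • w) ∂γ d| ≤ ρ' * wt x) :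
    Smp (d := d) (σ := Option σ) ((n + 1) * (qo + Q ^ (3 * K) * (qm + qf + qΦ)))
      (fun o => o.elim (a * τ) b') (fun o => 2 * W * Λt * g o) β₁
      ((Fintype.card σ + 8) * (W * (ρo * (1 + Cg) + Λt * (Λ * S) * ((8 * W * Λ * (1 + Cg)) ^ K * δ)))
        + ρ') (fun V x => ∫ u, G.val V (upd a x u) ∂γ d) := by
  have hQ1 : (1 : ℝ) ≤ Q := by exact_mod_cast (show 1 ≤ Q by omega)
  have hW := zero_le_one.trans h.one_le_W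
  have hΛ := zero_le_one.trans h.one_le_Λ
  have hΓ : 0 ≤ (8 * W * Λ * (1 + Cg)) ^ K := pow_nonneg (by positivity) _
  obtain ⟨L, hL, hS⟩ := smp_outB (h := h) (θt := θt) (Λt := Λt) (βo := βo) (βt := βt)
    (div_nonneg h.θ₀_nn (pow_nonneg (Nat.cast_nonneg Q) _))
    (div_le_self h.θ₀_nn (one_le_pow₀ hQ1)) hQ hσ hn hΓ hΓg hθt hτt hΛt hρo hCg hli hβ
    (levB_all h hQ hσ hR hCg (fun V hV k hk => hgrow V hV k hk.le) K le_rfl)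
    (fun V hV => hgrow V hV K le_rfl) ho
  have e : θ₀ / (Q : ℝ) ^ (4 * K) / Q / Q / Q / Q = θ₀ / (Q : ℝ) ^ (4 * (K + 1)) := by
    rw [div_div, div_div, div_div, div_div, show 4 * (K + 1) = 4 * K + 4 by ring, pow_add]
    ring
  rw [e] at hS
  have hS0 : 0 ≤ Λt * (Λ * S) := mul_nonneg hΛt (mul_nonneg hΛ h.S_nn)
  have hρ : 0 ≤ W * (ρo * (1 + Cg) + Λt * (Λ * S) * ((8 * W * Λ * (1 + Cg)) ^ K * δ)) :=
    mul_nonneg hW (add_nonneg (mul_nonneg hρo (by linarith))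
      (mul_nonneg hS0 (mul_nonneg hΓ h.δ_nn)))
  refine (smp_binder_mix hS h.a_pos h.a_one hτ hτ2 hτB hb' hρ hL.1 hmeas hmix).mono le_rfl
    (fun o => ?_) le_rfl
  cases o with
  | none => exact hL.2.1
  | some j => exact hL.2.2 j

end

end Vale.Agent.P347.Zero
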