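import Vale.Agent.P347.Zero.SchemeAux

/-!
# P347, exponent 0: the collocation scheme of the skew flow

`f` is the value of a programme in units of the noise, `Φ` a surrogate of `(Df u)ᵀ K`, `η` its frozen
seed. The scheme only evaluates `f` and means of `Φ (r u + √(1 - r ²) ξ) y η`.
-/

namespace Vale.Agent.P347.Zero

open MeasureTheory ProbabilityTheory Real Finset
open scoped NNReal Topology
open Vale.Agent.P347.Quarter (E γ)

noncomputable section

variable {d : ℕ}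

/-- The quadrature surrogate of `W (u)ᵀ y`. -/
def fieldS {R : ℕ} (rs ws : Fin R → ℝ) (Φ : E d → E d → E d → E d) (η u y : E d) : E d :=
  ∑ k, ws k • ∫ ξ, Φ (rs k • u + √(1 - rs k ^ 2) • ξ) y η ∂γ d

/-- Collocation weights on `[0, 1]`. -/
def wCol (n : ℕ) (i j : Fin (n + 1)) : ℝ := li (eqNode n 0 1) 0 (eqNode n 0 1 i) j

/-- The Picard iterates `(u, y)` at the collocation times; the seeds are `p = (u₀, y₀, η)`. -/
def iterS (n : ℕ) {R : ℕ} (rs ws : Fin R → ℝ) (f : E d → E d) (Φ : E d → E d → E d → E d)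
    (p : E d × E d × E d) : ℕ → Fin (n + 1) → E d × E d
  | 0 => fun _ => (p.1, p.2.1)
  | k + 1 => fun i =>
      (p.1 - ∑ j, wCol n i j •
          fieldS rs ws Φ p.2.2 (iterS n rs ws f Φ p k j).1 (iterS n rs ws f Φ p k j).2,
        p.2.1 + ∑ j, wCol n i j • (f (iterS n rs ws f Φ p k j).1 - ∫ w, f w ∂γ d))

/-- The output, close in law to `m + w` for `m` the mean of `f`. -/
def outS (n : ℕ) {R : ℕ} (rs ws : Fin R → ℝ) (f : E d → E d) (Φ : E d → E d → E d → E d)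
    (p : E d × E d × E d) (k : ℕ) : E d :=
  p.2.1 + ∑ j, li (eqNode n 0 1) 0 1 j • f (iterS n rs ws f Φ p k j).1

/-- The law of the seeds. -/
def seedS (d : ℕ) : Measure (E d × E d × E d) := (γ d).prod ((γ d).prod (γ d))

instance : IsProbabilityMeasure (seedS d) := by unfold seedS; infer_instance

/-! ## Regularity of the surrogate field -/

section Field

variable {R : ℕ} {rs ws : Fin R → ℝ} {Φ : E d → E d → E d → E d} {L : ℝ}

theorem norm_surrogate_le
    (hl : ∀ u u' y y' η, ‖Φ u y η - Φ u' y' η‖ ≤ L * (‖u - u'‖ + ‖y - y'‖)) (v y η : E d) :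
    ‖Φ v y η‖ ≤ ‖Φ 0 0 η‖ + L * (‖v‖ + ‖y‖) := by
  have h := hl v 0 y 0 η
  rw [sub_zero, sub_zero] at h
  linarith [norm_le_norm_sub_add (Φ v y η) (Φ 0 0 η)]

theorem integrable_surrogate (hc : Continuous fun q : E d × E d × E d => Φ q.1 q.2.1 q.2.2)
    (hl : ∀ u u' y y' η, ‖Φ u y η - Φ u' y' η‖ ≤ L * (‖u - u'‖ + ‖y - y'‖)) (hL : 0 ≤ L)
    (a : E d) (c : ℝ) (y η : E d) : Integrable (fun ξ => Φ (a + c • ξ) y η) (γ d) := by
  refine ((integrable_const (‖Φ 0 0 η‖ + L * (‖a‖ + ‖y‖))).add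
    (Quarter.γ_norm_integrable.const_mul (L * |c|))).mono'
    (hc.comp (f := fun ξ : E d => (a + c • ξ, y, η)) (by fun_prop)).aestronglyMeasurable
    (ae_of_all _ fun ξ => ?_)
  refine (norm_surrogate_le hl _ _ _).trans ?_
  have h1 : ‖a + c • ξ‖ ≤ ‖a‖ + |c| * ‖ξ‖ := (norm_add_le _ _).trans
    (by rw [norm_smul, Real.norm_eq_abs])
  rw [Pi.add_apply]
  nlinarith [mul_le_mul_of_nonneg_left h1 hL]

theorem continuous_fieldS (hc : Continuous fun q : E d × E d × E d => Φ q.1 q.2.1 q.2.2)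
    (hl : ∀ u u' y y' η, ‖Φ u y η - Φ u' y' η‖ ≤ L * (‖u - u'‖ + ‖y - y'‖)) (hL : 0 ≤ L) :
    Continuous fun q : E d × E d × E d => fieldS rs ws Φ q.2.2 q.1 q.2.1 := by
  unfold fieldS
  refine continuous_finsetSum _ fun k _ => Continuous.const_smul ?_ (ws k)
  set c := √(1 - rs k ^ 2)
  have h0 : Continuous fun η : E d => ‖Φ 0 0 η‖ :=
    (hc.comp (f := fun η : E d => ((0 : E d), (0 : E d), η)) (by fun_prop)).norm
  refine continuous_iff_continuousAt.2 fun q₀ => ?_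
  refine continuousAt_of_dominated
    (bound := fun ξ => ‖Φ 0 0 q₀.2.2‖ + 1 + L * (|rs k| * ‖q₀.1‖ + ‖q₀.2.1‖ + 1) + L * |c| * ‖ξ‖)
    (Filter.Eventually.of_forall fun q =>
      (integrable_surrogate hc hl hL (rs k • q.1) c q.2.1 q.2.2).aestronglyMeasurable) ?_
    ((integrable_const _).add (Quarter.γ_norm_integrable.const_mul (L * |c|)))
    (ae_of_all _ fun ξ => (hc.comp
      (f := fun q : E d × E d × E d => (rs k • q.1 + c • ξ, q.2.1, q.2.2)) (by fun_prop)).continuousAt)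
  have e1 : ∀ᶠ q : E d × E d × E d in 𝓝 q₀, ‖Φ 0 0 q.2.2‖ < ‖Φ 0 0 q₀.2.2‖ + 1 :=
    (isOpen_lt (h0.comp (continuous_snd.comp continuous_snd)) continuous_const).mem_nhds
      (show ‖Φ 0 0 q₀.2.2‖ < ‖Φ 0 0 q₀.2.2‖ + 1 by linarith)
  have e2 : ∀ᶠ q : E d × E d × E d in 𝓝 q₀,
      |rs k| * ‖q.1‖ + ‖q.2.1‖ < |rs k| * ‖q₀.1‖ + ‖q₀.2.1‖ + 1 :=
    (isOpen_lt (by fun_prop) continuous_const).mem_nhds
      (show |rs k| * ‖q₀.1‖ + ‖q₀.2.1‖ < |rs k| * ‖q₀.1‖ + ‖q₀.2.1‖ + 1 by linarith)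
  filter_upwards [e1, e2] with q h1 h2
  refine ae_of_all _ fun ξ => (norm_surrogate_le hl _ _ _).trans ?_
  have h3 : ‖rs k • q.1 + c • ξ‖ ≤ |rs k| * ‖q.1‖ + |c| * ‖ξ‖ := (norm_add_le _ _).trans
    (by rw [norm_smul, norm_smul, Real.norm_eq_abs, Real.norm_eq_abs])
  nlinarith [mul_le_mul_of_nonneg_left h3 hL, mul_le_mul_of_nonneg_left h2.le hL]

theorem norm_fieldS_sub_le (hc : Continuous fun q : E d × E d × E d => Φ q.1 q.2.1 q.2.2)
    (hl : ∀ u u' y y' η, ‖Φ u y η - Φ u' y' η‖ ≤ L * (‖u - u'‖ + ‖y - y'‖)) (hL : 0 ≤ L)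
    (hr : ∀ k, |rs k| ≤ 1) {W : ℝ} (hW : ∑ k, |ws k| ≤ W) (η u y u' y' : E d) :
    ‖fieldS rs ws Φ η u y - fieldS rs ws Φ η u' y'‖ ≤ W * (L * (‖u - u'‖ + ‖y - y'‖)) := by
  unfold fieldS
  rw [← sum_sub_distrib]
  refine (norm_sum_le _ _).trans (le_trans (sum_le_sum fun k _ => ?_)
    (le_trans (le_of_eq (sum_mul _ _ _).symm) (mul_le_mul_of_nonneg_right hW (by positivity))))
  rw [← smul_sub, norm_smul, Real.norm_eq_abs,
    ← integral_sub (integrable_surrogate hc hl hL _ _ _ _) (integrable_surrogate hc hl hL _ _ _ _)]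
  refine mul_le_mul_of_nonneg_left ((norm_integral_le_of_norm_le
    (integrable_const (L * (‖u - u'‖ + ‖y - y'‖))) (ae_of_all _ fun ξ => (hl _ _ _ _ _).trans ?_)).trans
      (le_of_eq (by simp))) (abs_nonneg _)
  refine mul_le_mul_of_nonneg_left (add_le_add ?_ le_rfl) hL
  rw [add_sub_add_right_eq_sub, ← smul_sub, norm_smul, Real.norm_eq_abs]
  exact mul_le_of_le_one_left (norm_nonneg _) (hr k)

theorem continuous_iterS {f : E d → E d} (hf : Continuous f) (n : ℕ)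
    (hS : Continuous fun q : E d × E d × E d => fieldS rs ws Φ q.2.2 q.1 q.2.1) :
    ∀ k i, Continuous fun p : E d × E d × E d => iterS n rs ws f Φ p k i := by
  intro k
  induction k with
  | zero => intro i; simp only [iterS]; fun_prop
  | succ k ih =>
    intro i
    simp only [iterS]
    refine (continuous_fst.sub (continuous_finsetSum _ fun j _ => Continuous.const_smul ?_
      (wCol n i j))).prodMk ((continuous_fst.comp continuous_snd).add (continuous_finsetSum _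
        fun j _ => Continuous.const_smul ((hf.comp (continuous_fst.comp (ih j))).sub
          continuous_const) (wCol n i j)))
    exact hS.comp (f := fun p : E d × E d × E d =>
      ((iterS n rs ws f Φ p k j).1, (iterS n rs ws f Φ p k j).2, p.2.2))
      ((continuous_fst.comp (ih j)).prodMk
        ((continuous_snd.comp (ih j)).prodMk (continuous_snd.comp continuous_snd)))

theorem continuous_outS {f : E d → E d} (hf : Continuous f) (n : ℕ)
    (hS : Continuous fun q : E d × E d × E d => fieldS rs ws Φ q.2.2 q.1 q.2.1) (k : ℕ) :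
    Continuous fun p : E d × E d × E d => outS n rs ws f Φ p k := by
  unfold outS
  exact (continuous_fst.comp continuous_snd).add (continuous_finsetSum _ fun j _ =>
    Continuous.const_smul (hf.comp (continuous_fst.comp (continuous_iterS hf n hS k j)))
      (li (eqNode n 0 1) 0 1 j))

/-- The surrogate field as a field on pairs. -/
def fldP (rs ws : Fin R → ℝ) (f : E d → E d) (Φ : E d → E d → E d → E d) (η : E d)
    (p : E d × E d) : E d × E d :=
  (-fieldS rs ws Φ η p.1 p.2, f p.1 - ∫ w, f w ∂γ d)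

theorem iterS_eq_picard (n : ℕ) (f : E d → E d) (p : E d × E d × E d) : ∀ k i,
    iterS n rs ws f Φ p k i = picard (fun _ : Fin (n + 1) => fldP rs ws f Φ p.2.2) (wCol n)
      (p.1, p.2.1) (fun _ => (p.1, p.2.1)) k i := by
  intro k
  induction k with
  | zero => intro i; rfl
  | succ k ih =>
    intro i
    simp only [iterS, picard]
    rw [← (funext ih : iterS n rs ws f Φ p k = _)]
    refine Prod.ext ?_ ?_
    · simp [fldP, Prod.fst_sum, sub_eq_add_neg]
    · simp [fldP, Prod.snd_sum]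

theorem lipschitz_fldP (hc : Continuous fun q : E d × E d × E d => Φ q.1 q.2.1 q.2.2)
    (hl : ∀ u u' y y' η, ‖Φ u y η - Φ u' y' η‖ ≤ L * (‖u - u'‖ + ‖y - y'‖)) (hL : 0 ≤ L)
    (hr : ∀ k, |rs k| ≤ 1) {W : ℝ} (hW0 : 0 ≤ W) (hW : ∑ k, |ws k| ≤ W) {f : E d → E d} {K : ℝ}
    (hK : 0 ≤ K) (hfl : LipschitzWith K.toNNReal f) (η : E d) :
    LipschitzWith (2 * W * L + K).toNNReal (fldP rs ws f Φ η) := by
  refine LipschitzWith.of_dist_le_mul fun p q => ?_
  rw [dist_eq_norm, dist_eq_norm, Real.coe_toNNReal _ (by positivity), Prod.norm_def]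
  have h1 : ‖p.1 - q.1‖ ≤ ‖p - q‖ := norm_fst_le (p - q)
  have h2 : ‖p.2 - q.2‖ ≤ ‖p - q‖ := norm_snd_le (p - q)
  refine max_le ?_ ?_
  · show ‖-fieldS rs ws Φ η p.1 p.2 - -fieldS rs ws Φ η q.1 q.2‖ ≤ _
    rw [neg_sub_neg, norm_sub_rev]
    refine (norm_fieldS_sub_le hc hl hL hr hW η _ _ _ _).trans ?_
    nlinarith [mul_le_mul_of_nonneg_left (add_le_add h1 h2) (mul_nonneg hW0 hL),
      mul_nonneg hK (norm_nonneg (p - q))]
  · show ‖(f p.1 - _) - (f q.1 - _)‖ ≤ _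
    rw [sub_sub_sub_cancel_right]
    refine (hfl.norm_sub_le _ _).trans ?_
    rw [Real.coe_toNNReal _ hK]
    nlinarith [mul_le_mul_of_nonneg_left h1 hK,
      mul_nonneg (mul_nonneg hW0 hL) (norm_nonneg (p - q))]

/-- The error of the surrogate in mean, at one node of the `r`-quadrature. -/
theorem node_surrogate {f : E d → E d} {K δ r : ℝ} (hd : 1 ≤ d) (hδ : 0 ≤ δ)
    (hf : Temp (vecT f)) {m : ℕ} (hR : RB m (gradT (vecT f)) K) (hK : 0 ≤ K) (hr : |r| ≤ 1)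
    (hc : Continuous fun q : E d × E d × E d => Φ q.1 q.2.1 q.2.2)
    (hl : ∀ u u' y y' η, ‖Φ u y η - Φ u' y' η‖ ≤ L * (‖u - u'‖ + ‖y - y'‖)) (hL : 0 ≤ L)
    (hΦ : ∀ u, Integrable (fun q : E d × E d => ‖Φ u q.1 q.2 - (fderiv ℝ f u).adjoint q.1‖ ^ 2)
        ((γ d).prod (γ d)) ∧
      ∫ q : E d × E d, ‖Φ u q.1 q.2 - (fderiv ℝ f u).adjoint q.1‖ ^ 2 ∂(γ d).prod (γ d)
        ≤ (δ * (1 + ‖u‖ / √d)) ^ 2) :
    Integrable (fun q : E d × E d × E d =>
        ‖(∫ ξ, Φ (r • q.1 + √(1 - r ^ 2) • ξ) q.2.1 q.2.2 ∂γ d) - dfT f 0 r q.1 q.2.1‖) (seedS d) ∧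
      ∫ q : E d × E d × E d,
        ‖(∫ ξ, Φ (r • q.1 + √(1 - r ^ 2) • ξ) q.2.1 q.2.2 ∂γ d) - dfT f 0 r q.1 q.2.1‖ ∂seedS d
        ≤ 2 * δ := by
  set c := √(1 - r ^ 2) with hcdef
  have hr2 : r ^ 2 + c ^ 2 = 1 := by
    rw [hcdef, Real.sq_sqrt (by nlinarith [sq_abs r, abs_nonneg r])]; ring
  set D : E d × E d × E d → ℝ := fun q => ‖Φ q.1 q.2.1 q.2.2 - (fderiv ℝ f q.1).adjoint q.2.1‖
    with hD
  have hDc : Continuous D := (hc.sub ((continuous_adjoint_fderiv hf).comp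
    (f := fun q : E d × E d × E d => (q.1, q.2.1)) (by fun_prop))).norm
  have hsec : ∀ v, Integrable (fun w : E d × E d => D (v, w)) ((γ d).prod (γ d)) ∧
      ∫ w, |D (v, w)| ∂(γ d).prod (γ d) ≤ δ * (1 + ‖v‖ / √d) := fun v =>
    integral_abs_le_of_sq (hDc.comp (f := fun w => (v, w)) (by fun_prop)).aestronglyMeasurable
      (hΦ v).1 (by positivity) (hΦ v).2
  have habs : ∀ q, |D q| = D q := fun q => abs_of_nonneg (norm_nonneg _)
  have hbnd : Integrable (fun v : E d => δ * (1 + ‖v‖ / √d)) (γ d) :=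
    ((integrable_const (1 : ℝ)).add (Quarter.γ_norm_integrable.div_const _)).const_mul δ
  have hDi : Integrable D (seedS d) := by
    refine (integrable_prod_iff hDc.aestronglyMeasurable).2 ⟨ae_of_all _ fun v => (hsec v).1, ?_⟩
    refine hbnd.mono' hDc.norm.aestronglyMeasurable.integral_prod_right' (ae_of_all _ fun v => ?_)
    rw [Real.norm_eq_abs, abs_of_nonneg (integral_nonneg fun w => norm_nonneg _)]
    simpa only [Real.norm_eq_abs] using (hsec v).2
  have hD2 : ∫ q, D q ∂seedS d ≤ 2 * δ := by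
    rw [seedS, integral_prod _ hDi]
    refine (integral_mono hDi.integral_prod_left hbnd fun v => ?_).trans ?_
    · simpa only [habs] using (hsec v).2
    · rw [integral_const_mul, integral_add (integrable_const _)
        (Quarter.γ_norm_integrable.div_const _), integral_div]
      have hsd : (0 : ℝ) < √d := Real.sqrt_pos.2 (by exact_mod_cast hd)
      have h1 : (∫ x, ‖x‖ ∂γ d) / √d ≤ 1 := by
        rw [div_le_one hsd]; exact Quarter.Tgt.γ_norm_le
      simp only [integral_const, probReal_univ, smul_eq_mul, mul_one]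
      nlinarith
  -- the rotation of `u` and the averaging variable
  have hρ : MeasurePreserving (fun p : (E d × E d × E d) × E d => (r • p.1.1 + c • p.2, p.1.2))
      ((seedS d).prod (γ d)) (seedS d) := by
    have h1 := measurePreserving_prodAssoc (γ d) ((γ d).prod (γ d)) (γ d)
    have h2 : MeasurePreserving
        (fun p : E d × (E d × E d) × E d => (p.1, p.2.2, p.2.1))
        ((γ d).prod (((γ d).prod (γ d)).prod (γ d))) ((γ d).prod ((γ d).prod ((γ d).prod (γ d)))) :=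
      (MeasurePreserving.id _).prod Measure.measurePreserving_swap
    have h3 := (measurePreserving_prodAssoc (γ d) (γ d) ((γ d).prod (γ d))).symm
    have h4 := (measurePreserving_rot2 (d := d) hr2).prod (MeasurePreserving.id ((γ d).prod (γ d)))
    exact h4.comp (h3.comp (h2.comp h1))
  have hci : Integrable (fun p : (E d × E d × E d) × E d =>
      D (r • p.1.1 + c • p.2, p.1.2)) ((seedS d).prod (γ d)) :=
    hρ.integrable_comp_of_integrable hDi
  have hce : ∫ p : (E d × E d × E d) × E d, D (r • p.1.1 + c • p.2, p.1.2) ∂(seedS d).prod (γ d)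
      = ∫ q, D q ∂seedS d := by
    conv_rhs => rw [← hρ.map_eq]
    rw [integral_map hρ.measurable.aemeasurable hDc.aestronglyMeasurable]
  have hpt : ∀ q : E d × E d × E d,
      ‖(∫ ξ, Φ (r • q.1 + c • ξ) q.2.1 q.2.2 ∂γ d) - dfT f 0 r q.1 q.2.1‖
        ≤ ∫ ξ, D (r • q.1 + c • ξ, q.2) ∂γ d := by
    intro q
    have hi2 : Integrable (fun ξ => (fderiv ℝ f (r • q.1 + c • ξ)).adjoint q.2.1) (γ d) :=
      (integrable_const (K * ‖q.2.1‖)).mono'
        ((continuous_adjoint_fderiv hf).comp (f := fun ξ : E d => (r • q.1 + c • ξ, q.2.1))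
          (by fun_prop)).aestronglyMeasurable
        (ae_of_all _ fun ξ => norm_adjoint_fderiv_le hf hR hK _ _)
    rw [dfT_zero_eq hf hR hK, ← hcdef,
      ← integral_sub (integrable_surrogate hc hl hL _ _ _ _) hi2]
    exact norm_integral_le_integral_norm _
  have hmeas : AEStronglyMeasurable (fun q : E d × E d × E d =>
      ‖(∫ ξ, Φ (r • q.1 + c • ξ) q.2.1 q.2.2 ∂γ d) - dfT f 0 r q.1 q.2.1‖) (seedS d) := by
    have h1 : StronglyMeasurable fun q : E d × E d × E d =>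
        ∫ ξ, Φ (r • q.1 + c • ξ) q.2.1 q.2.2 ∂γ d :=
      StronglyMeasurable.integral_prod_right' (f := fun p : (E d × E d × E d) × E d =>
        Φ (r • p.1.1 + c • p.2) p.1.2.1 p.1.2.2) ((hc.comp
          (f := fun p : (E d × E d × E d) × E d => (r • p.1.1 + c • p.2, p.1.2.1, p.1.2.2))
          (by fun_prop)).stronglyMeasurable)
    have h2 : Continuous fun q : E d × E d × E d => dfT f 0 r q.1 q.2.1 :=
      (continuous_dfT hf 0 (abs_le.1 hr)).comp
        (f := fun q : E d × E d × E d => (q.1, q.2.1)) (by fun_prop)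
    exact ((h1.sub h2.stronglyMeasurable).norm).aestronglyMeasurable
  refine ⟨hci.integral_prod_left.mono' hmeas (ae_of_all _ fun q => by
    rw [norm_norm]; exact hpt q), ?_⟩
  refine (integral_mono_of_nonneg (ae_of_all _ fun q => norm_nonneg _)
    hci.integral_prod_left (ae_of_all _ hpt)).trans ?_
  rw [← integral_prod _ hci, hce]
  exact hD2

/-- The whole error of the surrogate field in mean. -/
theorem field_err {f : E d → E d} {K δ W Q : ℝ} (hd : 1 ≤ d) (hδ : 0 ≤ δ)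
    (hf : Temp (vecT f)) {m : ℕ} (hR : RB m (gradT (vecT f)) K) (hK : 0 ≤ K)
    (hrs : ∀ k, |rs k| ≤ 1) (hW : ∑ k, |ws k| ≤ W)
    (hc : Continuous fun q : E d × E d × E d => Φ q.1 q.2.1 q.2.2)
    (hl : ∀ u u' y y' η, ‖Φ u y η - Φ u' y' η‖ ≤ L * (‖u - u'‖ + ‖y - y'‖)) (hL : 0 ≤ L)
    (hΦ : ∀ u, Integrable (fun q : E d × E d => ‖Φ u q.1 q.2 - (fderiv ℝ f u).adjoint q.1‖ ^ 2)
        ((γ d).prod (γ d)) ∧
      ∫ q : E d × E d, ‖Φ u q.1 q.2 - (fderiv ℝ f u).adjoint q.1‖ ^ 2 ∂(γ d).prod (γ d)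
        ≤ (δ * (1 + ‖u‖ / √d)) ^ 2)
    (hq : Integrable (fun p : E d × E d =>
          ‖(∑ k, ws k • dfT f 0 (rs k) p.1 p.2) - ∫ r in (0 : ℝ)..1, dfT f 0 r p.1 p.2‖)
        ((γ d).prod (γ d)) ∧
      ∫ p : E d × E d,
          ‖(∑ k, ws k • dfT f 0 (rs k) p.1 p.2) - ∫ r in (0 : ℝ)..1, dfT f 0 r p.1 p.2‖
          ∂(γ d).prod (γ d) ≤ Q) :
    Integrable (fun q : E d × E d × E d =>
        ‖fieldS rs ws Φ q.2.2 q.1 q.2.1 - ∫ r in (0 : ℝ)..1, dfT f 0 r q.1 q.2.1‖) (seedS d) ∧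
      ∫ q : E d × E d × E d,
        ‖fieldS rs ws Φ q.2.2 q.1 q.2.1 - ∫ r in (0 : ℝ)..1, dfT f 0 r q.1 q.2.1‖ ∂seedS d
        ≤ Q + W * (2 * δ) := by
  set Ψ : Fin R → E d × E d × E d → ℝ := fun k q =>
    ‖(∫ ξ, Φ (rs k • q.1 + √(1 - rs k ^ 2) • ξ) q.2.1 q.2.2 ∂γ d) - dfT f 0 (rs k) q.1 q.2.1‖
  set G : E d × E d → ℝ := fun p =>
    ‖(∑ k, ws k • dfT f 0 (rs k) p.1 p.2) - ∫ r in (0 : ℝ)..1, dfT f 0 r p.1 p.2‖
  have hproj : MeasurePreserving (fun q : E d × E d × E d => (q.1, q.2.1)) (seedS d)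
      ((γ d).prod (γ d)) := (MeasurePreserving.id _).prod measurePreserving_fst
  have hGc : AEStronglyMeasurable G ((γ d).prod (γ d)) := hq.1.aestronglyMeasurable
  have hG : Integrable (fun q : E d × E d × E d => G (q.1, q.2.1)) (seedS d) :=
    hproj.integrable_comp_of_integrable hq.1
  have hGe : ∫ q : E d × E d × E d, G (q.1, q.2.1) ∂seedS d = ∫ p, G p ∂(γ d).prod (γ d) := by
    conv_rhs => rw [← hproj.map_eq]
    rw [integral_map hproj.measurable.aemeasurable (by rw [hproj.map_eq]; exact hGc)]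
  have hΨ : ∀ k, Integrable (Ψ k) (seedS d) ∧ ∫ q, Ψ k q ∂seedS d ≤ 2 * δ := fun k =>
    node_surrogate hd hδ hf hR hK (hrs k) hc hl hL hΦ
  have hsum : Integrable (fun q => ∑ k, |ws k| * Ψ k q) (seedS d) :=
    integrable_finsetSum _ fun k _ => (hΨ k).1.const_mul _
  have hpt : ∀ q : E d × E d × E d,
      ‖fieldS rs ws Φ q.2.2 q.1 q.2.1 - ∫ r in (0 : ℝ)..1, dfT f 0 r q.1 q.2.1‖
        ≤ G (q.1, q.2.1) + ∑ k, |ws k| * Ψ k q := by
    intro q
    refine (norm_sub_le_norm_sub_add_norm_sub _ (∑ k, ws k • dfT f 0 (rs k) q.1 q.2.1) _).trans ?_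
    rw [add_comm]
    refine add_le_add le_rfl ?_
    unfold fieldS
    rw [← sum_sub_distrib]
    refine (norm_sum_le _ _).trans (le_of_eq (Finset.sum_congr rfl fun k _ => ?_))
    rw [← smul_sub, norm_smul, Real.norm_eq_abs]
  have hcont : Continuous fun q : E d × E d × E d =>
      ‖fieldS rs ws Φ q.2.2 q.1 q.2.1 - ∫ r in (0 : ℝ)..1, dfT f 0 r q.1 q.2.1‖ :=
    ((continuous_fieldS hc hl hL).sub ((continuous_integral_dfT hf).comp
      (f := fun q : E d × E d × E d => (q.1, q.2.1)) (by fun_prop))).norm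
  refine ⟨(hG.add hsum).mono' hcont.aestronglyMeasurable (ae_of_all _ fun q => by
    rw [norm_norm]; exact hpt q), ?_⟩
  refine (integral_mono_of_nonneg (ae_of_all _ fun q => norm_nonneg _) (hG.add hsum)
    (ae_of_all _ hpt)).trans ?_
  simp only [Pi.add_apply]
  rw [integral_add hG hsum, hGe, integral_finsetSum _ fun k _ => (hΨ k).1.const_mul _]
  refine add_le_add hq.2 ((sum_le_sum fun k _ => ?_).trans
    (le_trans (le_of_eq (sum_mul _ _ _).symm) (mul_le_mul_of_nonneg_right hW (by positivity))))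
  rw [integral_const_mul]
  exact mul_le_mul_of_nonneg_left (hΨ k).2 (abs_nonneg _)

end Field

/-! ## The exact path -/

section Exact

variable {K : ℝ} {f : E d → E d}

/-- The velocity field of the exact flow. -/
def bS (f : E d → E d) : ℝ → Sp (DD d) → Sp (DD d) := fun _ => vel (skewOf (liftM f))

/-- The exact flow. -/
def flS (f : E d → E d) (z : Sp (DD d)) : ℝ → Sp (DD d) := flow (bS f) 1 z

/-- The length of the exact velocity's `n`-th derivative. -/
def spd (f : E d → E d) (n : ℕ) (z : Sp (DD d)) : ℝ :=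
  ∫ t in (0 : ℝ)..1, ‖velV (skewOf (liftM f)) n (flS f z t)‖

/-- The exact path in mean: both lengths and their bounds. -/
theorem exact_spd (hf : Temp (vecT f)) (hK : 0 ≤ K) {n : ℕ}
    (h : RB (max 1 (nV n (nL2 (n + 1)))) (gradT (vecT f)) K) :
    Integrable (spd f n) (stdGaussian (Sp (DD d))) ∧
      ∫ z, spd f n z ∂stdGaussian (Sp (DD d)) ≤ √(bV n * 2) * √d * (2 * K) ^ (n + 1) := by
  have hA := rb_skewOf (rb_liftM hf h hK)
  set A := skewOf (liftM f) with hAdef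
  have ha : Anti A := anti_skewOf _
  have h1 : RB 1 A (2 * K) := hA.of_le (le_max_left _ _) le_rfl
  have hn : RB (nV n (nL2 (n + 1))) A (2 * K) := hA.of_le (le_max_right _ _) le_rfl
  have h2K : 0 ≤ 2 * K := by positivity
  obtain ⟨C, hb⟩ := vel_fld h1 h2K 1
  have hbV : 0 ≤ bV n := mul_nonneg (bL2_nonneg zero_le_one _) (sq_nonneg _)
  have hc : ContinuousOn (Function.uncurry fun t z => ‖velV A n (flS f z t)‖)
      (Set.Icc 0 1 ×ˢ Set.univ) :=
    ((temp_velV h1.temp ha n).1.continuous.norm).comp_continuousOn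
      (hb.flow_continuousOn_prod.comp (f := fun p : ℝ × Sp (DD d) => (p.2, p.1)) (by fun_prop)
        fun p hp => ⟨Set.mem_univ _, hp.1⟩)
  have key := integral_intervalIntegral_le (μ := stdGaussian (Sp (DD d)))
    (S := √(bV n * 2) * √d * (2 * K) ^ (n + 1)) zero_le_one hc (fun _ _ _ => norm_nonneg _)
    (fun t ht => ?_) (by positivity) (fun t ht => ?_)
  · rw [sub_zero, one_mul] at key
    exact key
  · refine Integrable.comp_measurable (g := fun v => ‖velV A n v‖ ^ 2) ?_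
      (hb.continuous_flow_at ht).measurable
    show Integrable _ ((stdGaussian (Sp (DD d))).map fun x => flow (fun _ => vel A) 1 x t)
    rw [vel_flow_map h1 h2K ha ht]
    simp only [norm_velV_sq]
    exact integrable_temp (temp_velN h1.temp ha n).sqT
  · refine (integral_velV ha h2K hn h1 ht).trans (le_of_eq ?_)
    rw [mul_pow (√(bV n * 2) * √(d : ℝ)), mul_pow (√(bV n * 2)), Real.sq_sqrt (by positivity),
      Real.sq_sqrt (Nat.cast_nonneg d), pow_mul']
    simp only [Fintype.card_sum, Fintype.card_fin]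
    push_cast
    ring

/-- One pathwise comparison of the scheme with the exact flow. -/
theorem scheme_pointwise {R : ℕ} {rs ws : Fin R → ℝ} {Φ : E d → E d → E d → E d} {L W Cc : ℝ}
    {n : ℕ} (hf : Temp (vecT f)) (hK : 0 ≤ K) (h1 : RB 1 (gradT (vecT f)) K)
    (hfi : Integrable f (γ d))
    (hc : Continuous fun q : E d × E d × E d => Φ q.1 q.2.1 q.2.2)
    (hl : ∀ u u' y y' η, ‖Φ u y η - Φ u' y' η‖ ≤ L * (‖u - u'‖ + ‖y - y'‖)) (hL : 0 ≤ L)
    (hr : ∀ k, |rs k| ≤ 1) (hW0 : 0 ≤ W) (hW : ∑ k, |ws k| ≤ W) (hCc : 1 ≤ Cc)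
    (hli : ∀ s ∈ Set.Icc (0 : ℝ) 1, ∑ j, |li (eqNode n 0 1) 0 s j| ≤ Cc)
    (hcol : ∀ (g : ℝ → Sp (DD d)), ContDiffOn ℝ (n + 1 : ℕ) g (Set.Icc 0 1) →
      ∀ s ∈ Set.Icc (0 : ℝ) 1,
        ‖(∫ t in (0 : ℝ)..s, g t) - ∑ j, li (eqNode n 0 1) 0 s j • g (eqNode n 0 1 j)‖
          ≤ Cc * topI n g 0 1)
    (hsm : Cc * (2 * W * L + K) ≤ 1 / 2) (k : ℕ) (z : Sp (DD d)) (η : E d) :
    ‖outS n rs ws f Φ (pull Sum.inl z, pull Sum.inr z, η) k
        - ((∫ u, f u ∂γ d) + pull Sum.inr (flS f z 1))‖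
      ≤ Cc * spd f (n + 1) z + Cc * K * ((Cc * (2 * W * L + K)) ^ k * ((n + 1) * spd f 0 z)
        + 2 * ((n + 1) * (Cc * spd f (n + 1) z) + Cc * ∑ j : Fin (n + 1),
          ‖fieldS rs ws Φ η (pull Sum.inl (flS f z (eqNode n 0 1 j)))
              (pull Sum.inr (flS f z (eqNode n 0 1 j)))
            - ∫ r in (0 : ℝ)..1, dfT f 0 r (pull Sum.inl (flS f z (eqNode n 0 1 j)))
                (pull Sum.inr (flS f z (eqNode n 0 1 j)))‖)) := by
  have hA := rb_skewOf (rb_liftM hf h1 hK)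
  set A := skewOf (liftM f) with hAdef
  have ha : Anti A := anti_skewOf _
  obtain ⟨C, hb⟩ := vel_fld hA (by positivity : (0 : ℝ) ≤ 2 * K) 1
  set g : ℝ → Sp (DD d) := fun t => vel A (flS f z t) with hg
  have hgd : ContDiffOn ℝ (n + 1 : ℕ) g (Set.Icc 0 1) :=
    contDiffOn_vel hA.temp ha hb z le_rfl one_pos le_rfl (n + 1)
  have htop : topI n g 0 1 = spd f (n + 1) z := by
    refine intervalIntegral.integral_congr fun t ht => ?_
    rw [Set.uIcc_of_le zero_le_one] at ht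
    exact congrArg norm (iteratedDerivWithin_vel hA.temp ha hb z le_rfl one_pos le_rfl (n + 1) ht)
  have hgi : ∀ s ∈ Set.Icc (0 : ℝ) 1, IntervalIntegrable g volume 0 s := fun s hs =>
    (hgd.continuousOn.mono (Set.Icc_subset_Icc_right hs.2)).intervalIntegrable_of_Icc hs.1
  have hftc : ∀ s ∈ Set.Icc (0 : ℝ) 1, ∫ t in (0 : ℝ)..s, g t = flS f z s - z := by
    intro s hs
    have e := intervalIntegral.integral_eq_sub_of_hasDerivAt_of_le
      (f := fun t => flS f z t) hs.1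
      ((hb.flow_sol z).continuousOn.mono (Set.Icc_subset_Icc_right hs.2))
      (fun t ht => (hb.flow_deriv z (t := t) ⟨ht.1.le, ht.2.le.trans hs.2⟩).hasDerivAt
        (Icc_mem_nhds ht.1 (lt_of_lt_of_le ht.2 hs.2))) (hgi s hs)
    refine e.trans ?_
    show flS f z s - flS f z 0 = _
    rw [show flS f z 0 = z from hb.flow_zero z]
  have ht : ∀ j, eqNode n (0 : ℝ) 1 j ∈ Set.Icc (0 : ℝ) 1 := fun j => eqNode_mem zero_le_one j
  set x : Fin (n + 1) → E d × E d := fun j => pullP d (flS f z (eqNode n 0 1 j)) with hx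
  set b : Fin (n + 1) → E d × E d := fun j => pullP d (g (eqNode n 0 1 j)) with hb'
  have hquad : ∀ s ∈ Set.Icc (0 : ℝ) 1,
      ‖pullP d (flS f z s) - pullP d z - ∑ j, li (eqNode n 0 1) 0 s j • b j‖
        ≤ Cc * spd f (n + 1) z := by
    intro s hs
    have e : pullP d (flS f z s) - pullP d z - ∑ j, li (eqNode n 0 1) 0 s j • b j
        = pullP d ((∫ t in (0 : ℝ)..s, g t)
          - ∑ j, li (eqNode n 0 1) 0 s j • g (eqNode n 0 1 j)) := by
      rw [hftc s hs]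
      simp only [map_sub, map_sum, map_smul, hb']
    rw [e, ← htop]
    exact (norm_pullP_le _).trans (hcol g hgd s hs)
  have hdisp : ∀ j, ‖pullP d z - x j‖ ≤ spd f 0 z := by
    intro j
    rw [norm_sub_rev, hx, ← map_sub, ← hftc _ (ht j)]
    refine ((norm_pullP_le _).trans
      (intervalIntegral.norm_integral_le_integral_norm (ht j).1)).trans ?_
    exact intervalIntegral.integral_mono_interval le_rfl (ht j).1 (ht j).2
      (Filter.Eventually.of_forall fun _ => norm_nonneg _)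
      (hgd.continuousOn.norm.intervalIntegrable_of_Icc zero_le_one)
  have hbj : ∀ j, b j = (-∫ r in (0 : ℝ)..1, dfT f 0 r (x j).1 (x j).2,
      f (x j).1 - ∫ u, f u ∂γ d) := fun j => vel_liftM hf hfi _
  have hfl := lipschitz_of_rb hf h1 hK
  have hLip := lipschitz_fldP (rs := rs) (ws := ws) hc hl hL hr hW0 hW hK hfl η
  set L' := (2 * W * L + K).toNNReal with hL'
  have hL'c : (L' : ℝ) = 2 * W * L + K := Real.coe_toNNReal _ (by positivity)
  have hw : ∀ i, ∑ j, |wCol n i j| ≤ Cc := fun i => hli _ (ht i)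
  have hpic := picard_err (F := fun _ : Fin (n + 1) => fldP rs ws f Φ η) (fun _ => hLip) hw
    (by linarith) (by rw [hL'c]; exact hsm) (pullP d z) (fun _ => pullP d z) x b k
  set P := picard (fun _ : Fin (n + 1) => fldP rs ws f Φ η) (wCol n) (pullP d z)
    (fun _ => pullP d z) k with hP
  have herr : ∀ j, ‖fldP rs ws f Φ η (x j) - b j‖ = ‖fieldS rs ws Φ η (x j).1 (x j).2
      - ∫ r in (0 : ℝ)..1, dfT f 0 r (x j).1 (x j).2‖ := fun j => by
    rw [hbj]
    simp [fldP, Prod.norm_def, ← sub_eq_neg_add, norm_sub_rev]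
  have hS : ∀ j, ‖P j - x j‖ ≤ (Cc * (2 * W * L + K)) ^ k * ((n + 1) * spd f 0 z)
      + 2 * ((n + 1) * (Cc * spd f (n + 1) z) + Cc * ∑ j : Fin (n + 1),
          ‖fieldS rs ws Φ η (x j).1 (x j).2 - ∫ r in (0 : ℝ)..1, dfT f 0 r (x j).1 (x j).2‖) := by
    intro j
    refine (hpic j).trans ?_
    simp only [herr, hL'c]
    refine add_le_add (mul_le_mul_of_nonneg_left ?_ (by positivity))
      (mul_le_mul_of_nonneg_left (add_le_add ?_ le_rfl) zero_le_two)
    · refine (sum_le_card_nsmul _ _ _ fun i _ => hdisp i).trans (le_of_eq ?_)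
      simp
    · refine (sum_le_card_nsmul _ _ _ fun i _ => hquad _ (ht i)).trans (le_of_eq ?_)
      simp
  have hout : outS n rs ws f Φ (pull Sum.inl z, pull Sum.inr z, η) k
      = pull Sum.inr z + ∑ j, li (eqNode n 0 1) 0 1 j • f (P j).1 := by
    simp only [outS, iterS_eq_picard]
    rfl
  have hli1 : ∑ j, li (eqNode n (0 : ℝ) 1) 0 1 j = 1 := by
    have := sum_li_pow (v := eqNode n (0 : ℝ) 1) (eqNode_injective one_pos) (Nat.zero_le n) 0 1
    simpa using this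
  have hy1 := hquad 1 ⟨zero_le_one, le_rfl⟩
  set e₂ := (pullP d (flS f z 1) - pullP d z - ∑ j, li (eqNode n 0 1) 0 1 j • b j).2 with he₂
  have e : outS n rs ws f Φ (pull Sum.inl z, pull Sum.inr z, η) k
      - ((∫ u, f u ∂γ d) + pull Sum.inr (flS f z 1))
      = ∑ j, li (eqNode n 0 1) 0 1 j • (f (P j).1 - f (x j).1) - e₂ := by
    rw [hout, he₂]
    simp only [Prod.snd_sub, Prod.snd_sum, Prod.smul_snd, hbj, pullP_apply, smul_sub,
      sum_sub_distrib, ← sum_smul, hli1, one_smul]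
    abel
  rw [e]
  refine (norm_sub_le _ _).trans ?_
  rw [add_comm]
  refine add_le_add ((norm_snd_le _).trans hy1) ((norm_sum_le _ _).trans ?_)
  refine (sum_le_sum fun j _ => ?_).trans (le_trans (le_of_eq (sum_mul univ
    (fun j => |li (eqNode n (0 : ℝ) 1) 0 1 j|) _).symm) (le_trans (mul_le_mul_of_nonneg_right
      (hli 1 ⟨zero_le_one, le_rfl⟩) ?_) (le_of_eq (mul_assoc Cc K _).symm)))
  · rw [norm_smul, Real.norm_eq_abs]
    refine mul_le_mul_of_nonneg_left ((hfl.norm_sub_le _ _).trans ?_) (abs_nonneg _)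
    rw [Real.coe_toNNReal _ hK]
    exact mul_le_mul_of_nonneg_left ((norm_fst_le _).trans (hS j)) hK
  · exact mul_nonneg hK ((norm_nonneg _).trans (hS 0))

/-- The scheme in mean, from the mean sizes of its error terms. -/
theorem scheme_mean {R : ℕ} {rs ws : Fin R → ℝ} {Φ : E d → E d → E d → E d} {L W Cc : ℝ} {n : ℕ}
    (hf : Temp (vecT f)) (hK : 0 ≤ K) (h1 : RB 1 (gradT (vecT f)) K)
    (hc : Continuous fun q : E d × E d × E d => Φ q.1 q.2.1 q.2.2)
    (hl : ∀ u u' y y' η, ‖Φ u y η - Φ u' y' η‖ ≤ L * (‖u - u'‖ + ‖y - y'‖)) (hL : 0 ≤ L)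
    (hr : ∀ k, |rs k| ≤ 1) (hW0 : 0 ≤ W) (hW : ∑ k, |ws k| ≤ W) (hCc : 1 ≤ Cc)
    (hli : ∀ s ∈ Set.Icc (0 : ℝ) 1, ∑ j, |li (eqNode n 0 1) 0 s j| ≤ Cc)
    (hcol : ∀ (g : ℝ → Sp (DD d)), ContDiffOn ℝ (n + 1 : ℕ) g (Set.Icc 0 1) →
      ∀ s ∈ Set.Icc (0 : ℝ) 1,
        ‖(∫ t in (0 : ℝ)..s, g t) - ∑ j, li (eqNode n 0 1) 0 s j • g (eqNode n 0 1 j)‖
          ≤ Cc * topI n g 0 1)
    (hsm : Cc * (2 * W * L + K) ≤ 1 / 2) {S I Eb : ℝ}
    (hS : Integrable (spd f (n + 1)) (stdGaussian (Sp (DD d))) ∧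
      ∫ z, spd f (n + 1) z ∂stdGaussian (Sp (DD d)) ≤ S)
    (hI : Integrable (spd f 0) (stdGaussian (Sp (DD d))) ∧
      ∫ z, spd f 0 z ∂stdGaussian (Sp (DD d)) ≤ I)
    (hErr : Integrable (fun q : E d × E d × E d =>
        ‖fieldS rs ws Φ q.2.2 q.1 q.2.1 - ∫ r in (0 : ℝ)..1, dfT f 0 r q.1 q.2.1‖) (seedS d) ∧
      ∫ q : E d × E d × E d,
        ‖fieldS rs ws Φ q.2.2 q.1 q.2.1 - ∫ r in (0 : ℝ)..1, dfT f 0 r q.1 q.2.1‖ ∂seedS d ≤ Eb)
    (k : ℕ) {φ : E d → ℝ} (hφ : LipschitzWith 1 φ) :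
    |∫ p, φ (outS n rs ws f Φ p k) ∂seedS d - ∫ w, φ ((∫ u, f u ∂γ d) + w) ∂γ d|
      ≤ Cc * S + Cc * K * ((Cc * (2 * W * L + K)) ^ k * (((n : ℝ) + 1) * I)
        + 2 * (((n : ℝ) + 1) * (Cc * S) + Cc * (((n : ℝ) + 1) * Eb))) := by
  obtain ⟨hS1, hS2⟩ := hS
  obtain ⟨hI1, hI2⟩ := hI
  obtain ⟨hE1, hE2⟩ := hErr
  have hfd : Differentiable ℝ f := hf.vec.1.differentiable (by simp)
  have hfl := lipschitz_of_rb hf h1 hK
  have hfi : Integrable f (γ d) := by
    refine ((integrable_const ‖f 0‖).add (Quarter.γ_norm_integrable.const_mul K)).mono'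
      hfd.continuous.aestronglyMeasurable (ae_of_all _ fun u => ?_)
    have h := hfl.norm_sub_le u 0
    rw [sub_zero, Real.coe_toNNReal _ hK] at h
    rw [Pi.add_apply]
    linarith [norm_le_norm_sub_add (f u) (f 0)]
  -- the exact flow carries the seeds to seeds
  set μ := (stdGaussian (Sp (DD d))).prod (γ d) with hμ
  have hA := rb_skewOf (rb_liftM hf h1 hK)
  obtain ⟨CF, hb⟩ := vel_fld hA (by positivity : (0 : ℝ) ≤ 2 * K) 1
  have hP : MeasurePreserving (pullP d) (stdGaussian (Sp (DD d))) ((γ d).prod (γ d)) :=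
    ⟨(pullP d).continuous.measurable, map_pullP⟩
  have hΨ : MeasurePreserving (fun p : Sp (DD d) × E d =>
      (pull Sum.inl p.1, pull Sum.inr p.1, p.2)) μ (seedS d) :=
    (measurePreserving_prodAssoc (γ d) (γ d) (γ d)).comp (hP.prod (MeasurePreserving.id (γ d)))
  have hZ : ∀ t ∈ Set.Icc (0 : ℝ) 1, MeasurePreserving (fun p : Sp (DD d) × E d =>
      (pull Sum.inl (flS f p.1 t), pull Sum.inr (flS f p.1 t), p.2)) μ (seedS d) := fun t ht =>
    hΨ.comp (MeasurePreserving.prod ⟨(hb.continuous_flow_at ht).measurable,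
      vel_flow_map hA (by positivity) (anti_skewOf _) ht⟩ (MeasurePreserving.id (γ d)))
  set err : E d × E d × E d → ℝ := fun q =>
    ‖fieldS rs ws Φ q.2.2 q.1 q.2.1 - ∫ r in (0 : ℝ)..1, dfT f 0 r q.1 q.2.1‖ with herr
  set Ej : Fin (n + 1) → Sp (DD d) × E d → ℝ := fun j p =>
    err (pull Sum.inl (flS f p.1 (eqNode n 0 1 j)), pull Sum.inr (flS f p.1 (eqNode n 0 1 j)), p.2)
  have hEj : ∀ j, Integrable (Ej j) μ ∧
      ∫ p, Ej j p ∂μ ≤ Eb := by
    intro j
    have h := hZ (eqNode n 0 1 j) (eqNode_mem zero_le_one j)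
    refine ⟨h.integrable_comp_of_integrable hE1, le_trans (le_of_eq ?_) hE2⟩
    conv_rhs => rw [← h.map_eq]
    rw [integral_map h.measurable.aemeasurable (by rw [h.map_eq]; exact hE1.aestronglyMeasurable)]
  set Nn : ℝ := (n : ℝ) + 1 with hNn
  set B : Sp (DD d) × E d → ℝ := fun p => Cc * spd f (n + 1) p.1 + Cc * K *
    ((Cc * (2 * W * L + K)) ^ k * (Nn * spd f 0 p.1)
      + 2 * (Nn * (Cc * spd f (n + 1) p.1) + Cc * ∑ j, Ej j p)) with hBdef
  have i0 : Integrable (fun p : Sp (DD d) × E d => spd f 0 p.1) μ := hI1.comp_fst _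
  have iS : Integrable (fun p : Sp (DD d) × E d => spd f (n + 1) p.1) μ := hS1.comp_fst _
  have iE : Integrable (fun p => ∑ j, Ej j p) μ := integrable_finsetSum _ fun j _ => (hEj j).1
  have iX : Integrable (fun p : Sp (DD d) × E d =>
      Nn * (Cc * spd f (n + 1) p.1) + Cc * ∑ j, Ej j p) μ :=
    ((iS.const_mul Cc).const_mul Nn).add (iE.const_mul Cc)
  have iY : Integrable (fun p : Sp (DD d) × E d =>
      (Cc * (2 * W * L + K)) ^ k * (Nn * spd f 0 p.1)
        + 2 * (Nn * (Cc * spd f (n + 1) p.1) + Cc * ∑ j, Ej j p)) μ :=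
    ((i0.const_mul Nn).const_mul _).add (iX.const_mul 2)
  have iB : Integrable B μ := (iS.const_mul Cc).add (iY.const_mul (Cc * K))
  set m := ∫ u, f u ∂γ d with hm
  set T : Sp (DD d) × E d → E d := fun p => m + pull Sum.inr (flS f p.1 1) with hT
  set O : Sp (DD d) × E d → E d := fun p =>
    outS n rs ws f Φ (pull Sum.inl p.1, pull Sum.inr p.1, p.2) k with hO
  have hpt : ∀ p, |φ (O p) - φ (T p)| ≤ B p := fun p => by
    refine (by simpa using hφ.norm_sub_le (O p) (T p) : |φ (O p) - φ (T p)| ≤ ‖O p - T p‖).trans ?_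
    exact scheme_pointwise hf hK h1 hfi hc hl hL hr hW0 hW hCc hli (hcol) hsm k
      p.1 p.2
  have hgi : Integrable (fun w => φ (m + w)) (γ d) := by
    refine ((integrable_const |φ m|).add Quarter.γ_norm_integrable).mono'
      (hφ.continuous.comp (by fun_prop)).aestronglyMeasurable (ae_of_all _ fun w => ?_)
    have h := hφ.norm_sub_le (m + w) m
    rw [add_sub_cancel_left, NNReal.coe_one, one_mul, Real.norm_eq_abs] at h
    rw [Pi.add_apply, Real.norm_eq_abs]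
    linarith [abs_sub_abs_le_abs_sub (φ (m + w)) (φ m)]
  have h1' := hZ 1 ⟨zero_le_one, le_rfl⟩
  have hsnd : MeasurePreserving (fun q : E d × E d × E d => q.2.1) (seedS d) (γ d) :=
    (measurePreserving_fst (μ := γ d) (ν := γ d)).comp
      (measurePreserving_snd (μ := γ d) (ν := (γ d).prod (γ d)))
  have hTmp : MeasurePreserving (fun p : Sp (DD d) × E d => pull Sum.inr (flS f p.1 1)) μ (γ d) :=
    hsnd.comp h1'
  have hTi : Integrable (fun p => φ (T p)) μ := hTmp.integrable_comp_of_integrable hgi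
  have hTe : ∫ p, φ (T p) ∂μ = ∫ w, φ (m + w) ∂γ d := by
    conv_rhs => rw [← hTmp.map_eq]
    exact (integral_map (f := fun w => φ (m + w)) hTmp.measurable.aemeasurable
      (hφ.continuous.comp (by fun_prop)).aestronglyMeasurable).symm
  have hOc : Continuous fun q : E d × E d × E d => φ (outS n rs ws f Φ q k) :=
    hφ.continuous.comp (continuous_outS hfd.continuous n (continuous_fieldS hc hl hL) k)
  have hOe : ∫ p, φ (O p) ∂μ = ∫ q, φ (outS n rs ws f Φ q k) ∂seedS d := by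
    conv_rhs => rw [← hΨ.map_eq]
    rw [integral_map hΨ.measurable.aemeasurable hOc.aestronglyMeasurable]
  have hOi : Integrable (fun p => φ (O p)) μ := by
    refine (hTi.abs.add iB).mono' (hOc.comp (f := fun p : Sp (DD d) × E d =>
      (pull Sum.inl p.1, pull Sum.inr p.1, p.2)) (by fun_prop)).aestronglyMeasurable
      (ae_of_all _ fun p => ?_)
    rw [Pi.add_apply, Real.norm_eq_abs]
    linarith [hpt p, abs_sub_abs_le_abs_sub (φ (O p)) (φ (T p))]
  rw [← hOe, ← hTe, ← integral_sub hOi hTi]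
  refine abs_integral_le_integral_abs.trans ((integral_mono_of_nonneg
    (ae_of_all _ fun p => abs_nonneg _) iB (ae_of_all _ hpt)).trans ?_)
  have bE : ∫ p, ∑ j, Ej j p ∂μ ≤ Nn * Eb := by
    rw [integral_finsetSum _ fun j _ => (hEj j).1]
    exact (sum_le_card_nsmul _ _ _ fun j _ => (hEj j).2).trans (le_of_eq (by simp [hNn]))
  have eS : ∫ p, spd f (n + 1) p.1 ∂μ ≤ S := by
    rw [hμ, integral_fun_fst]
    simpa using hS2
  have eI : ∫ p, spd f 0 p.1 ∂μ ≤ I := by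
    rw [hμ, integral_fun_fst]
    simpa using hI2
  simp only [hBdef]
  rw [integral_add (iS.const_mul Cc) (iY.const_mul (Cc * K)), integral_const_mul,
    integral_const_mul, integral_add ((i0.const_mul Nn).const_mul _) (iX.const_mul 2),
    integral_const_mul, integral_const_mul, integral_const_mul,
    integral_add ((iS.const_mul Cc).const_mul Nn) (iE.const_mul Cc), integral_const_mul,
    integral_const_mul, integral_const_mul]
  gcongr

end Exact

/-- The constants of the scheme. -/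
theorem scheme_const {Cc Cq Nn aS aI sd K Kn KM h X L δ Y C : ℝ} (hCc : 1 ≤ Cc) (hCq : 2 ≤ Cq)
    (hN : 0 ≤ Nn) (haS : 0 ≤ aS) (haI : 0 ≤ aI) (hsd : 0 ≤ sd) (hK : 0 ≤ K) (hKn : 0 ≤ Kn)
    (hKM : 0 ≤ KM) (hh : 0 ≤ h) (hX : 0 ≤ X) (hδ : 0 ≤ δ) (hL : L ≤ X)
    (hY : Y = Cq * sd * KM * h + Cq * (2 * δ))
    (hC : C = 8 * Cc * Cq + Cc * (1 + 2 * Cc * Nn) * aS + Cc * Nn * aI + 4 * Cc ^ 2 * Cq * Nn) :
    Cc * (aS * sd * (Kn * K)) + Cc * K * (L * (Nn * (aI * sd))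
        + 2 * (Nn * (Cc * (aS * sd * (Kn * K))) + Cc * (Nn * Y)))
      ≤ C * K * (sd * (Kn + KM * h + X) + δ) * (1 + K) := by
  have q1 : 0 ≤ sd * Kn * K := by positivity
  have q2 : 0 ≤ sd * KM * h * K := by positivity
  have q3 : 0 ≤ sd * X * K := by positivity
  have q4 : 0 ≤ δ * K := by positivity
  have a1 : Cc * K * (L * (Nn * (aI * sd))) ≤ Cc * K * (X * (Nn * (aI * sd))) := by gcongr
  have h0 : 0 ≤ C * K * (sd * (Kn + KM * h + X) + δ) * K := by
    rw [hC]; positivity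
  have h1 : (Cc * aS) * (sd * Kn * K) ≤ C * (sd * Kn * K) := by
    refine mul_le_mul_of_nonneg_right ?_ q1
    rw [hC]
    nlinarith [show 0 ≤ Cc * Cq + Cc * (2 * Cc * Nn) * aS + Cc * Nn * aI
      + 4 * Cc ^ 2 * Cq * Nn by positivity]
  have h2 : (Cc * (2 * Cc * Nn) * aS) * (sd * Kn * K * K) ≤ C * (sd * Kn * K * K) := by
    refine mul_le_mul_of_nonneg_right ?_ (by positivity)
    rw [hC]
    nlinarith [show 0 ≤ Cc * Cq + Cc * aS + Cc * Nn * aI + 4 * Cc ^ 2 * Cq * Nn by positivity]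
  have h3 : (Cc * Nn * aI) * (sd * X * K) ≤ C * (sd * X * K) := by
    refine mul_le_mul_of_nonneg_right ?_ q3
    rw [hC]
    nlinarith [show 0 ≤ Cc * Cq + Cc * (1 + 2 * Cc * Nn) * aS + 4 * Cc ^ 2 * Cq * Nn by positivity]
  have h4 : (2 * Cc ^ 2 * Cq * Nn) * (sd * KM * h * K) ≤ C * (sd * KM * h * K) := by
    refine mul_le_mul_of_nonneg_right ?_ q2
    rw [hC]
    nlinarith [show 0 ≤ Cc * Cq + Cc * (1 + 2 * Cc * Nn) * aS + Cc * Nn * aI
      + 2 * Cc ^ 2 * Cq * Nn by positivity]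
  have h5 : (4 * Cc ^ 2 * Cq * Nn) * (δ * K) ≤ C * (δ * K) := by
    refine mul_le_mul_of_nonneg_right ?_ q4
    rw [hC]
    nlinarith [show 0 ≤ Cc * Cq + Cc * (1 + 2 * Cc * Nn) * aS + Cc * Nn * aI by positivity]
  have h6 : 0 ≤ C * (sd * (KM * h + X) * K * K + δ * K * K) := by
    rw [hC]; positivity
  rw [hY]
  linarith


theorem scheme_pow {Cc Cq K L C : ℝ} (hCc : 1 ≤ Cc) (hCq : 2 ≤ Cq) (hK : 0 ≤ K) (hL : 0 ≤ L)
    (hC : 8 * Cc * Cq ≤ C) (k : ℕ) :
    (Cc * (2 * Cq * L + K)) ^ k ≤ (2 * C * (K + L)) ^ k := by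
  refine pow_le_pow_left₀ (by positivity) ?_ k
  have a1 : Cc * (2 * Cq) * L ≤ C * L := mul_le_mul_of_nonneg_right (by nlinarith) hL
  have a2 : Cc * K ≤ C * K := mul_le_mul_of_nonneg_right (by nlinarith) hK
  have a3 : 0 ≤ C * (K + L) := mul_nonneg (by nlinarith) (add_nonneg hK hL)
  linarith

/-- The scheme samples `N (m, I)` up to the collocation, quadrature, surrogate and Picard errors,
all of which gain one factor `K`. The order `n` of the collocation and the order `M` of the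
quadrature are separate: the regularity used by the quadrature is linear in `M`, so that the
dependence of `KM` on `M` only shifts the number of panels. -/
theorem exists_scheme (n : ℕ) (hn : 1 ≤ n) : ∃ (Nr c₀ : ℕ), 1 ≤ Nr ∧ ∀ M : ℕ, 1 ≤ M →
    ∃ C : ℝ, 1 ≤ C ∧ ∀ N : ℕ, 1 ≤ N →
    ∃ rs ws : Fin (N * (M + 1)) → ℝ, (∀ r, 0 ≤ rs r ∧ rs r ≤ 1 - 1 / (C * N)) ∧
      ∑ r, |ws r| ≤ C ∧
      ∀ (d : ℕ), 1 ≤ d → ∀ (f : E d → E d) (Φ : E d → E d → E d → E d) (K KM L δ : ℝ),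
        0 ≤ K → C * K ≤ 1 → 0 ≤ KM → 0 ≤ L → C * L ≤ 1 → 0 ≤ δ →
        Temp (vecT f) → RB Nr (gradT (vecT f)) K → RB (c₀ * (M + 1)) (gradT (vecT f)) KM →
        Continuous (fun q : E d × E d × E d => Φ q.1 q.2.1 q.2.2) →
        (∀ u u' y y' η, ‖Φ u y η - Φ u' y' η‖ ≤ L * (‖u - u'‖ + ‖y - y'‖)) →
        (∀ u, Integrable (fun q : E d × E d => ‖Φ u q.1 q.2 - (fderiv ℝ f u).adjoint q.1‖ ^ 2)
            ((γ d).prod (γ d)) ∧
          ∫ q : E d × E d, ‖Φ u q.1 q.2 - (fderiv ℝ f u).adjoint q.1‖ ^ 2 ∂(γ d).prod (γ d)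
            ≤ (δ * (1 + ‖u‖ / √d)) ^ 2) →
        ∀ (k : ℕ) (φ : E d → ℝ), LipschitzWith 1 φ →
          |∫ p, φ (outS n rs ws f Φ p k) ∂seedS d - ∫ w, φ ((∫ u, f u ∂γ d) + w) ∂γ d|
            ≤ C * K * (√d * (K ^ n + KM * (1 / (N : ℝ)) ^ M + (C * (K + L)) ^ k) + δ) := by
  obtain ⟨Cc, hCc1, hli, hcol0⟩ : ∃ C : ℝ, 1 ≤ C ∧
      (∀ s ∈ Set.Icc (0 : ℝ) 1, ∑ j, |li (eqNode n 0 1) 0 s j| ≤ C) ∧
      ∀ (d : ℕ) (g : ℝ → Sp (DD d)), ContDiffOn ℝ (n + 1 : ℕ) g (Set.Icc 0 1) →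
        ∀ s ∈ Set.Icc (0 : ℝ) 1,
          ‖(∫ t in (0 : ℝ)..s, g t) - ∑ j, li (eqNode n 0 1) 0 s j • g (eqNode n 0 1 j)‖
            ≤ C * topI n g 0 1 := by
    obtain ⟨B, hB0, hB⟩ := exists_eqNode_bound n
    exact ⟨1 + B, by linarith, fun s hs => li_abs_le hB0 hB hs,
      fun d g hg s hs => colloc_err hB0 hB hg hs⟩
  refine ⟨max 1 (max (nV 0 (nL2 1)) (nV (n + 1) (nL2 (n + 2)))), 2, le_max_left _ _,
    fun M hM => ?_⟩
  obtain ⟨Cq, hCq, hquad⟩ := exists_rquad M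
  set Nn : ℝ := (n : ℝ) + 1 with hNn
  set aS : ℝ := √(bV (n + 1) * 2) * 2 ^ (n + 2) with haS
  set aI : ℝ := √(bV 0 * 2) * 2 with haI
  have haS0 : 0 ≤ aS := by positivity
  have haI0 : 0 ≤ aI := by positivity
  have hN1 : 1 ≤ Nn := by rw [hNn]; linarith [(Nat.cast_nonneg n : (0 : ℝ) ≤ n)]
  set C := 8 * Cc * Cq + Cc * (1 + 2 * Cc * Nn) * aS + Cc * Nn * aI + 4 * Cc ^ 2 * Cq * Nn
    with hC
  have t0 : 8 * 1 * 2 ≤ 8 * Cc * Cq := by gcongr
  have t1 : 0 ≤ Cc * (1 + 2 * Cc * Nn) * aS := by positivity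
  have t2 : 0 ≤ Cc * Nn * aI := by positivity
  have t3 : 0 ≤ 4 * Cc ^ 2 * Cq * Nn := by positivity
  have hCbig : 8 * Cc * Cq ≤ C := by rw [hC]; linarith
  have hC1 : 1 ≤ C := by linarith
  refine ⟨2 * C, by linarith, fun N hN => ?_⟩
  obtain ⟨rs, ws, hrs, hws, hqd⟩ := hquad N hN
  have hN0 : (0 : ℝ) < N := by exact_mod_cast hN
  have hCqC : Cq ≤ C := le_trans (le_mul_of_one_le_left (by linarith) (by linarith)) hCbig
  refine ⟨rs, ws, fun k => ⟨(hrs k).1, (hrs k).2.trans ?_⟩, hws.trans (by linarith), ?_⟩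
  · have : 1 / (2 * C * N) ≤ 1 / (Cq * N) :=
      one_div_le_one_div_of_le (by positivity)
        (mul_le_mul_of_nonneg_right (by linarith) hN0.le)
    linarith
  intro d hd f Φ K KM L δ hK0 hCK' hKM hL hCL' hδ hf hR hRM hc hl hΦ k φ hφ
  have hCK : C * K ≤ 1 := le_trans (mul_le_mul_of_nonneg_right (by linarith) hK0) hCK'
  have hCL : C * L ≤ 1 := le_trans (mul_le_mul_of_nonneg_right (by linarith) hL) hCL'
  have hr : ∀ k, |rs k| ≤ 1 := fun k => abs_le.2 ⟨by linarith [(hrs k).1], by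
    linarith [(hrs k).2, (by positivity : (0 : ℝ) ≤ 1 / (Cq * N))]⟩
  have hK1 : K ≤ 1 := le_trans (le_mul_of_one_le_left hK0 hC1) hCK
  have hsm : Cc * (2 * Cq * L + K) ≤ 1 / 2 := by
    have a1 : 8 * Cc * Cq * L ≤ 1 :=
      le_trans (mul_le_mul_of_nonneg_right hCbig hL) hCL
    have a2 : 8 * Cc * Cq * K ≤ 1 :=
      le_trans (mul_le_mul_of_nonneg_right hCbig hK0) hCK
    have a3 : Cc * K * 2 ≤ Cc * K * Cq := mul_le_mul_of_nonneg_left hCq (by positivity)
    nlinarith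
  have hR1 : RB 1 (gradT (vecT f)) K := hR.of_le (le_max_left _ _) le_rfl
  obtain ⟨hS1, hS2⟩ := exact_spd hf hK0 (n := n + 1)
    (hR.of_le (max_le (le_max_left _ _) ((le_max_right _ _).trans (le_max_right _ _))) le_rfl)
  obtain ⟨hI1, hI2⟩ := exact_spd hf hK0 (n := 0)
    (hR.of_le (max_le (le_max_left _ _) ((le_max_left _ _).trans (le_max_right _ _))) le_rfl)
  have hq := hqd d f KM hKM hf hRM
  obtain ⟨hE1, hE2⟩ := field_err hd hδ hf hR1 hK0 hr hws hc hl hL hΦ hq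
  refine (scheme_mean hf hK0 hR1 hc hl hL hr (by linarith) hws hCc1 hli (hcol0 d) hsm
    (S := aS * √d * (K ^ n * K)) (I := aI * √d) ⟨hS1, hS2.trans ?_⟩ ⟨hI1, hI2.trans ?_⟩
    ⟨hE1, hE2⟩ k hφ).trans ?_
  · rw [mul_pow, show K ^ (n + 1 + 1) = K ^ n * K * K by ring, haS]
    calc √(bV (n + 1) * 2) * √d * (2 ^ (n + 1 + 1) * (K ^ n * K * K))
        = √(bV (n + 1) * 2) * 2 ^ (n + 2) * √d * (K ^ n * K) * K := by ring
      _ ≤ √(bV (n + 1) * 2) * 2 ^ (n + 2) * √d * (K ^ n * K) :=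
          mul_le_of_le_one_right (by positivity) hK1
  · rw [zero_add, pow_one, haI]
    calc √(bV 0 * 2) * √d * (2 * K) = √(bV 0 * 2) * 2 * √d * K := by ring
      _ ≤ _ := mul_le_of_le_one_right (by positivity) hK1
  set C' := 2 * C with hC'
  clear_value C' C aS aI Nn
  have hpow : (Cc * (2 * Cq * L + K)) ^ k ≤ (C' * (K + L)) ^ k := by
    rw [hC']
    exact scheme_pow hCc1 hCq hK0 hL hCbig k
  have hC0 : 0 ≤ C := zero_le_one.trans hC1
  have hX : 0 ≤ (C' * (K + L)) ^ k :=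
    pow_nonneg (mul_nonneg (hC'.symm ▸ mul_nonneg zero_le_two hC0) (add_nonneg hK0 hL)) k
  have key := scheme_const (Nn := Nn) (aS := aS) (aI := aI) (sd := √d) (K := K) (Kn := K ^ n)
    (KM := KM) (h := (1 / (N : ℝ)) ^ M) hCc1 hCq (by linarith) haS0 haI0 (Real.sqrt_nonneg _) hK0
    (by positivity) hKM (by positivity) hX hδ hpow rfl hC
  rw [← hNn]
  refine key.trans ?_
  have h2 : (1 : ℝ) + K ≤ 2 := by linarith only [hK1]
  refine le_trans (mul_le_mul_of_nonneg_left h2 ?_) (le_of_eq ?_)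
  · exact mul_nonneg (mul_nonneg hC0 hK0) (add_nonneg (mul_nonneg (Real.sqrt_nonneg _)
      (add_nonneg (add_nonneg (pow_nonneg hK0 n) (mul_nonneg hKM
        (pow_nonneg (one_div_nonneg.2 hN0.le) M))) hX)) hδ)
  · rw [hC']
    ring

end

end Vale.Agent.P347.Zero
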