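import Vale.Agent.P347.Zero.Adjoint
import Vale.Agent.P347.Zero.Scheme

/-!
# P347, exponent 0: the ideal value inside a binder

The binder runs on the slots `σ ⊕ Fin 4`: the other slots, the frozen point `P = x + a u₀`, and the
seeds `u₀`, `y₀`, `η`. The centre is read as `P - a u₀`, so that all weights stay linear.
-/

namespace Vale.Agent.P347.Zero

open MeasureTheory Real Finset
open Vale.Agent.P347.Quarter (E γ)
open Vale.Agent.P347.Colour (Pt)

noncomputable section

variable {d : ℕ} {σ : Type}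

/-- The total size of the top nodes. -/
def topS (G : Prog σ) : ℝ := ∑ i, |G.coef i| * √(G.node i).v

/-- The total sensitivity of the arguments of the top nodes. -/
def topG [Fintype σ] (e : ℝ) (G : Prog σ) (o : σ) : ℝ := ∑ i, |G.coef i| * (G.child i).grs e o

/-- The centre and the other slots. -/
def xB (a : ℝ) (y : Inp d (σ ⊕ Fin 4)) : Inp d (Option σ) :=
  fun o => o.elim (y (.inr 0) - a • y (.inr 1)) fun j => y (.inl j)

/-- The first slot moved by `a u`. -/
def upd (a : ℝ) (x : Inp d (Option σ)) (u : E d) : Inp d (Option σ) :=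
  fun o => o.elim (x none + a • u) fun j => x (some j)

/-- The inputs of the binder for the frozen Gaussians `ζ`. -/
def mkB (a : ℝ) (x : Inp d (Option σ)) (ζ : Inp d (Fin 3)) : Inp d (σ ⊕ Fin 4) :=
  Sum.elim (fun j => x (some j)) ![x none + a • ζ 0, ζ 0, ζ 1, ζ 2]

variable [Fintype σ]

/-- The programme in units of the noise `b₀`. -/
def fB (V : Pt d → ℝ) (G : Prog (Option σ)) (a b₀ : ℝ) (x : Inp d (Option σ)) (u : E d) : E d :=
  b₀⁻¹ • G.val V (upd a x u)

/-- The surrogate of its adjoint differential. -/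
def phiB (V : Pt d → ℝ) (PA : Prog (Option (σ ⊕ Bool))) (a b₀ : ℝ) (x : Inp d (Option σ))
    (u K H : E d) : E d :=
  b₀⁻¹ • PA.val V (inpAdj (upd a x u) K H)

variable (n : ℕ) {R : ℕ} (rs ws : Fin R → ℝ) (V : Pt d → ℝ) (G : Prog (Option σ))
  (PA : Prog (Option (σ ⊕ Bool))) (a b₀ : ℝ)

/-- The iterates `(u, y)`. -/
def itB (y : Inp d (σ ⊕ Fin 4)) (k : ℕ) (i : Fin (n + 1)) : E d × E d :=
  iterS n rs ws (fB V G a b₀ (xB a y)) (phiB V PA a b₀ (xB a y))
    (y (.inr 1), y (.inr 2), y (.inr 3)) k i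

/-- The output. -/
def outB (y : Inp d (σ ⊕ Fin 4)) (k : ℕ) : E d :=
  b₀ • outS n rs ws (fB V G a b₀ (xB a y)) (phiB V PA a b₀ (xB a y))
    (y (.inr 1), y (.inr 2), y (.inr 3)) k

end

end Vale.Agent.P347.Zero
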