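import Vale.Agent.P347.Zero.BinderSmp
import Vale.Agent.P347.Zero.Mix

/-!
# P347, exponent 0: from the frozen point and seeds to one sample of the centre

A sample `X` of the centre gives `P = X + p ξ` and a sample `U = (a / p) ξ + u ξ'` of the seed with
`p ^ 2 = a ^ 2 - (a τ) ^ 2`.
-/

namespace Vale.Agent.P347.Zero

open MeasureTheory Real Finset
open Vale.Agent.P347.Quarter (E γ)
open Vale.Agent.P347.Colour (Pt)

noncomputable section

variable {d : ℕ} {σ : Type} [Fintype σ] [DecidableEq σ]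

theorem smp_binder_mix {q : ℕ} {L : σ ⊕ Fin 4 → ℝ} {a τ B β β' ρ ρ' : ℝ} {bs b' : σ → ℝ}
    {out : (Pt d → ℝ) → Inp d (σ ⊕ Fin 4) → E d}
    {val : (Pt d → ℝ) → Inp d (Option σ) → E d}
    (h : Smp q (bB B bs) L β ρ out) (ha : 0 < a) (ha1 : a ≤ 1) (hτ : 0 ≤ τ)
    (hτ2 : 2 * τ ^ 2 ≤ 1) (hτB : 2 * τ ^ 2 ≤ B ^ 2) (hb : ∀ j, 0 ≤ b' j ∧ b' j ≤ bs j * B)
    (hρ : 0 ≤ ρ) (hL : ∀ t, 0 ≤ L t) (hmeas : ∀ V, Mem V → Measurable (out V))
    (hmix : ∀ V, Mem V → ∀ (x : Inp d (Option σ)) (φ : E d → ℝ), LipschitzWith 1 φ →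
      |∫ ζ, (∫ w, φ (out V (mkB a x ζ) + β • w) ∂γ d) ∂γs d (Fin 3)
        - ∫ w, φ (val V x + β' • w) ∂γ d| ≤ ρ' * wt x) :
    Smp (d := d) (σ := Option σ) q (fun o => o.elim (a * τ) b')
      (fun o => o.elim (L (.inr 0)) fun j => L (.inl j)) β'
      ((Fintype.card σ + 8) * ρ + ρ') val := by
  have hp : 0 < a ^ 2 - (a * τ) ^ 2 := by nlinarith [mul_pos ha ha, sq_nonneg τ]
  set p := √(a ^ 2 - (a * τ) ^ 2) with hp'
  have hp0 : 0 < p := Real.sqrt_pos.2 hp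
  have hp2 : p ^ 2 = a ^ 2 - (a * τ) ^ 2 := Real.sq_sqrt hp.le
  have hu : 0 ≤ B ^ 2 + 1 - (a / p) ^ 2 := by
    have h2 : 1 ≤ (1 + B ^ 2) * (1 - τ ^ 2) := by
      nlinarith [mul_le_mul_of_nonneg_right hτB (by nlinarith : (0 : ℝ) ≤ 1 - τ ^ 2), sq_nonneg τ]
    rw [div_pow, hp2, sub_nonneg, div_le_iff₀ hp]
    nlinarith [mul_le_mul_of_nonneg_left h2 (sq_nonneg a)]
  set u := √(B ^ 2 + 1 - (a / p) ^ 2) with hu'
  have hu2 : u ^ 2 = B ^ 2 + 1 - (a / p) ^ 2 := Real.sq_sqrt hu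
  set A : σ ⊕ Fin 4 → Option σ → ℝ := Sum.elim (fun j o => if o = some j then 1 else 0)
    ![fun o => if o = none then 1 else 0, 0, 0, 0] with hA
  set S : σ ⊕ Fin 4 → Fin 3 → ℝ := Sum.elim 0 ![![a, 0, 0], ![1, 0, 0], ![0, 1, 0], ![0, 0, 1]]
    with hS
  set c : σ → ℝ := fun j => √((bs j * B) ^ 2 - b' j ^ 2) with hc'
  have hc : ∀ j, c j ^ 2 = (bs j * B) ^ 2 - b' j ^ 2 := fun j =>
    Real.sq_sqrt (sub_nonneg.2 (pow_le_pow_left₀ (hb j).1 (hb j).2 2))
  set T : σ ⊕ Fin 4 → σ ⊕ Fin 4 → ℝ := Sum.elim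
    (fun j => Sum.elim (fun j' => if j' = j then c j else 0) 0)
    (fun l => Sum.elim 0 (![![p, 0, 0, 0], ![a / p, u, 0, 0], ![0, 0, 1, 0], ![0, 0, 0, 1]] l))
    with hT
  have hx : ∀ (x : Inp d (Option σ)) ζ, aff A S x ζ = mkB a x ζ := fun x ζ => by
    funext t
    rcases t with j | l
    · simp [aff, mkB, A, S, ite_smul]
    · fin_cases l <;> simp [aff, mkB, A, S, Fin.sum_univ_three]
  refine Smp.mono (h.mix (W := Fintype.card σ + 8) A S T (fun o => o.elim (a * τ) b') ?_ hρ hL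
    hmeas (fun x => ?_) fun V hV x φ hφ => ?_) le_rfl (fun o => le_of_eq ?_) le_rfl
  · rintro (j | l) (j' | l')
    · rcases eq_or_ne j j' with rfl | hne
      · simp [A, S, T, bB, Fintype.sum_sum_type]
        linear_combination hc j
      · simp [A, S, T, Fintype.sum_sum_type, hne, hne.symm]
    · fin_cases l' <;> simp [A, S, T, Fintype.sum_sum_type]
    · fin_cases l <;> simp [A, S, T, Fintype.sum_sum_type]
    · fin_cases l <;> fin_cases l' <;>
        simp [A, S, T, bB, Fintype.sum_sum_type, Fin.sum_univ_three,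
          Fin.sum_univ_four]
      · linear_combination hp2
      · field_simp
      · field_simp
      · linear_combination hu2
  · refine (integral_wt_aff_le A S x).trans (mul_le_mul_of_nonneg_right ?_ (wt_nonneg x))
    simp [A, S, Fintype.sum_sum_type, Fintype.sum_option, Fin.sum_univ_three, Fin.sum_univ_four,
      apply_ite abs, abs_of_pos ha]
    linarith
  · simp only [hx]
    exact hmix V hV x φ hφ
  · cases o <;> simp [A, Fintype.sum_sum_type, Fin.sum_univ_four, apply_ite abs, mul_ite]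

end

end Vale.Agent.P347.Zero
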