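import Vale.Agent.P347.Zero.BinderTop
import Vale.Agent.P347.Zero.NodeStep

/-!
# P347, exponent 0: powers of `q = d ^ (-η)` and the samplers used inside the binder step
-/

namespace Vale.Agent.P347.Zero

open MeasureTheory Real Finset Filter
open Vale.Agent.P347.Quarter (E γ)
open Vale.Agent.P347.Colour (Pt)

noncomputable section

/-- `q ^ x` for `q = d ^ (-η)`. -/
def qp (η : ℝ) (d : ℕ) (x : ℝ) : ℝ := (d : ℝ) ^ (-x * η)

section pow

variable {η : ℝ} {d : ℕ} {ε : ℝ}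

theorem qp_nonneg (x : ℝ) : 0 ≤ qp η d x := Real.rpow_nonneg (Nat.cast_nonneg d) _

theorem qp_pos (hd : 0 < (d : ℝ)) (x : ℝ) : 0 < qp η d x := Real.rpow_pos_of_pos hd _

theorem qp_add (hd : 0 < (d : ℝ)) (x y : ℝ) : qp η d x * qp η d y = qp η d (x + y) := by
  rw [qp, qp, qp, ← Real.rpow_add hd]
  ring_nf

theorem qp_zero : qp η d 0 = 1 := by simp [qp]

theorem qp_le (hd : 1 ≤ (d : ℝ)) (hη : 0 ≤ η) {x y : ℝ} (h : x ≤ y) : qp η d y ≤ qp η d x :=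
  Real.rpow_le_rpow_of_exponent_le hd (by nlinarith)

theorem qp_le_one (hd : 1 ≤ (d : ℝ)) (hη : 0 ≤ η) {x : ℝ} (h : 0 ≤ x) : qp η d x ≤ 1 :=
  (qp_le hd hη h).trans_eq qp_zero

theorem one_le_qp (hd : 1 ≤ (d : ℝ)) (hη : 0 ≤ η) {x : ℝ} (h : x ≤ 0) : 1 ≤ qp η d x :=
  qp_zero.symm.trans_le (qp_le hd hη h)

theorem qp_neg (s : ℝ) : qp η d (-s) = (d : ℝ) ^ (s * η) := by rw [qp, neg_neg]

theorem eAt_shift (hd : 0 < (d : ℝ)) (m x : ℝ) :
    eAt ε η (m + x) d = eAt ε η m d * qp η d (-x) := by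
  rw [eAt, eAt, qp, ← Real.rpow_add hd]
  ring_nf

/-- A constant loses against any power, for large `d`. -/
theorem ev_dom (C : ℝ) {x y : ℝ} (h : x < y) :
    ∀ᶠ d : ℕ in atTop, C * (d : ℝ) ^ x ≤ (d : ℝ) ^ y := by
  obtain ⟨D, -, hD⟩ := exists_dom C h
  filter_upwards [tendsto_natCast_atTop_atTop.eventually_ge_atTop D] with d hd using hD d hd

theorem ev_qp (C : ℝ) (hη : 0 < η) {x y : ℝ} (h : x < y) :
    ∀ᶠ d : ℕ in atTop, C * qp η d y ≤ qp η d x :=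
  ev_dom C (by nlinarith)

theorem ev_const (C : ℝ) (hη : 0 < η) {x : ℝ} (h : x < 0) :
    ∀ᶠ d : ℕ in atTop, C ≤ qp η d x :=
  (ev_qp C hη h).mono fun d hd => by simpa [qp_zero] using hd

theorem ev_one_le : ∀ᶠ d : ℕ in atTop, (1 : ℝ) ≤ d :=
  tendsto_natCast_atTop_atTop.eventually_ge_atTop 1

theorem ev_le (C : ℝ) : ∀ᶠ d : ℕ in atTop, C ≤ (d : ℝ) :=
  tendsto_natCast_atTop_atTop.eventually_ge_atTop C

end pow

variable {d : ℕ} {ε η A : ℝ}

/-- A node sampler at one dimension. -/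
def NodeAt (ε A α κ m c η C : ℝ) (d : ℕ) : Prop :=
  ∀ nd : Nd, nd.Ok ((d : ℝ) ^ (-ε)) ((d : ℝ) ^ (-α * η)) →
    ∃ q : ℕ, (q : ℝ) ≤ C * (d : ℝ) ^ (c * η) ∧
      Smp (d := d) (σ := Unit) q (fun _ => nd.scale * (d : ℝ) ^ (-κ * η)) (fun _ => C)
        (√nd.v / eAt ε η m d) (C * √nd.v * (d : ℝ) ^ (-A)) (fun V x => nd.val V (x ()))

/-- One number of queries and nonnegative constants. -/
theorem NodeAt.unif {α κ m c C : ℝ} (h : NodeAt ε A α κ m c η C d) (nd : Nd)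
    (hnd : nd.Ok ((d : ℝ) ^ (-ε)) ((d : ℝ) ^ (-α * η))) :
    Smp (d := d) (σ := Unit) ⌊C * (d : ℝ) ^ (c * η)⌋₊ (fun _ => nd.scale * qp η d κ)
      (fun _ => max C 1) (√nd.v / eAt ε η m d) (max C 1 * √nd.v * (d : ℝ) ^ (-A))
      (fun V x => nd.val V (x ())) := by
  obtain ⟨q, hq, hs⟩ := h nd hnd
  exact hs.mono (Nat.le_floor hq) (fun _ => le_max_left _ _) (by gcongr; exact le_max_left _ _)

theorem floor_le' {C x : ℝ} (hx : 0 ≤ x) : (⌊C * x⌋₊ : ℝ) ≤ max C 0 * x := by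
  rcases le_total 0 C with hC | hC
  · rw [max_eq_left hC]; exact Nat.floor_le (mul_nonneg hC hx)
  · rw [Nat.floor_of_nonpos (mul_nonpos_of_nonpos_of_nonneg hC hx)]; simp; positivity

/-- The mean of a programme from the binder and the nodes one order lower. -/
theorem smp_mean {α κin s κn κB m cB cn Cs CB Cn a β Γ : ℝ} {D : ℕ} {σ : Type} [Fintype σ]
    [DecidableEq σ] {G : Prog (Option σ)} {b : σ → ℝ}
    (hB : BinderAt ε A D α κin s κB m κn cB η Cs CB d)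
    (hn : NodeAt ε A α κn (m + 1 / 2) cn η Cn d)
    (hCB : 0 ≤ CB) (hσ : Fintype.card σ ≤ D) (ha : 0 < a) (ha1 : a ≤ 1) (hb : ∀ j, 0 ≤ b j)
    (hlin : ∀ o, G.lin o = 0) (hdep : G.depth ≤ D) (hsize : (G.size : ℝ) ≤ Cs * qp η d (-s))
    (hΓ : 1 ≤ Γ) (hΓ' : Γ ≤ Cs * qp η d (-s)) (hgr : G.Grow d Γ)
    (hG : G.Adm ((d : ℝ) ^ (-ε)) ((d : ℝ) ^ (-α * η)) (eAt ε η m d)
      (fun o => o.elim (a * qp η d κin) b) β) :
    ∃ q : ℕ, (q : ℝ) ≤ CB * (Cs * qp η d (-s) * (max Cn 0 * (d : ℝ) ^ (cn * η)))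
        + CB * (d : ℝ) ^ (cB * η) ∧
      Smp (d := d) (σ := Option σ) q
        (fun o => o.elim (a * qp η d κB) fun j => b j * qp η d (κB + κn))
        (fun o => CB * (max Cn 1 + 1) * topG (eAt ε η m d) G o) β
        (CB * (2 * max Cn 1 + 1) * Γ * topS G * (d : ℝ) ^ (-A))
        (fun V x => ∫ ξ, G.val V (upd a x ξ) ∂γ d) := by
  rw [qp_neg] at hsize hΓ' ⊢
  have hP := (Prog.adm_def _ _ _ _ _ _).1 hG
  obtain ⟨q, hq, hs⟩ := hB σ hσ G a β Γ b (fun _ => ⌊Cn * (d : ℝ) ^ (cn * η)⌋₊) (max Cn 1)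
    (fun i => max Cn 1 * √(G.node i).v * (d : ℝ) ^ (-A)) ha ha1 hb (fun j => hlin j) hdep hsize hΓ
    hΓ' hgr hG ⟨zero_le_one.trans (le_max_right _ _), fun i =>
      ⟨by positivity, hn.unif _ (hP.2 i).1⟩⟩
  refine ⟨q, hq.trans (add_le_add (mul_le_mul_of_nonneg_left ?_ hCB) le_rfl),
    hs.mono le_rfl (fun _ => le_rfl) (le_of_eq ?_)⟩
  · rw [sum_const, card_univ, Fintype.card_fin, nsmul_eq_mul]
    refine mul_le_mul (le_trans ?_ hsize) (floor_le' (by positivity)) (Nat.cast_nonneg _)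
      ((Nat.cast_nonneg _).trans hsize)
    cases G with
    | mk N l c nd ch =>
      exact Nat.cast_le.2 (show N ≤ 1 + ∑ i, (1 + (ch i).size) by simp [sum_add_distrib]; omega)
  · simp only [topS, mul_sum, sum_mul, ← sum_add_distrib]
    exact sum_congr rfl fun i _ => by ring

/-- The value of a programme, its top nodes having their own samplers. -/
theorem smp_val {α κin κn κtop m mn mt cn Cn s Cs a b₁ Γ Lt : ℝ} {D : ℕ} {σ : Type} [Fintype σ]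
    [DecidableEq σ] {G : Prog (Option σ)} {b : σ → ℝ} {qt : Fin G.num → ℕ} {ρt : Fin G.num → ℝ}
    {β : ℝ} (hd : 1 ≤ (d : ℝ)) (hη : 0 ≤ η) (hn : NodeAt ε A α κn mn cn η Cn d)
    (hLt : 0 ≤ Lt) (hκn : 0 ≤ κn) (hκtop : 0 ≤ κtop) (hmn : m + κn + κtop ≤ mn)
    (he1 : eAt ε η m d ≤ 1) (ha : 0 ≤ a) (hb : ∀ j, 0 ≤ b j) (hlin : ∀ o, G.lin o = 0)
    (hdep : G.depth ≤ D) (hsize : (G.size : ℝ) ≤ Cs * qp η d (-s))
    (hCs : Cs ≤ qp η d (-1)) (hΓ : 1 ≤ Γ) (hgr : G.Grow d Γ)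
    (hG : G.Adm ((d : ℝ) ^ (-ε)) ((d : ℝ) ^ (-α * η)) (eAt ε η m d)
      (fun o => o.elim (a * qp η d κin) b) β)
    (ht : ∀ i, 0 ≤ ρt i ∧ Smp (d := d) (σ := Unit) (qt i)
      (fun _ => (G.node i).scale * qp η d κtop) (fun _ => Lt) (√(G.node i).v / eAt ε η mt d) (ρt i)
      (fun V x => (G.node i).val V (x ())))
    (hb₁ : topS G / eAt ε η mt d ≤ b₁) {θ : ℝ} (hθ0 : 0 ≤ θ) (hκin : 0 ≤ κin)
    (hθ : θ ≤ qp η d (κin + κn + κtop + s + 2))
    (hcard : (Fintype.card (Option σ) : ℝ) ≤ qp η d (-1)) :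
    ∃ q : ℕ, (q : ℝ) ≤ (∑ i, (qt i : ℝ))
        + (Cs * qp η d (-s)) ^ 2 * (max Cn 0 * (d : ℝ) ^ (cn * η)) ∧
      Smp (d := d) (σ := Option σ) q (fun o => o.elim (a * θ) fun j => b j * θ)
        (fun o => Lt * max Cn 1 ^ D * topG (eAt ε η m d) G o) b₁
        ((2 * Γ * (∑ i, |G.coef i| * ρt i)
          + 2 * Γ * (Lt * max Cn 1 * (1 + max Cn 1) ^ D) * eAt ε η m d * topS G * (d : ℝ) ^ (-A))
          * (1 + Fintype.card (Option σ)))
        (fun V x => G.val V x) := by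
  have hd0 : (0 : ℝ) < d := by linarith
  have he : 0 < eAt ε η m d := eAt_pos hd0 m
  have hmin : qp η d (κn + κtop) ≤ min (qp η d κtop) (qp η d κn) :=
    le_min (qp_le hd hη (by linarith)) (qp_le hd hη (by linarith))
  have hee : eAt ε η m d ≤ eAt ε η mn d * min (qp η d κtop) (qp η d κn) := by
    refine le_trans ?_ (mul_le_mul_of_nonneg_left hmin (eAt_pos hd0 mn).le)
    rw [show mn = m + (mn - m) by ring, eAt_shift hd0, mul_assoc, qp_add hd0]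
    exact le_mul_of_one_le_right he.le (one_le_qp hd hη (by linarith))
  have h := smp_prog_top (D := D) (q₀ := ⌊Cn * (d : ℝ) ^ (cn * η)⌋₊) (C₀ := max Cn 1)
    (L₀ := max Cn 1) (δ := (d : ℝ) ^ (-A)) G he he1 (qp_pos hd0 κtop) (qp_le_one hd hη hκtop)
    (qp_pos hd0 κn) (qp_le_one hd hη hκn) (eAt_pos hd0 mt)
    (fun o => by cases o <;> simp [hb, mul_nonneg ha (qp_nonneg _)]) (le_max_right _ _)
    (zero_le_one.trans (le_max_right _ _)) (Real.rpow_nonneg hd0.le _) hΓ hLt hee hn.unif ht hlin hdep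
    hG hgr
  have hρ : 0 ≤ 2 * Γ * (∑ i, |G.coef i| * ρt i)
      + 2 * Γ * (Lt * max Cn 1 * (1 + max Cn 1) ^ D) * eAt ε η m d * topS G * (d : ℝ) ^ (-A) := by
    have h1 : 0 ≤ ∑ i, |G.coef i| * ρt i :=
      sum_nonneg fun i _ => mul_nonneg (abs_nonneg _) (ht i).1
    have h2 := topS_nonneg G
    have h3 : (0 : ℝ) ≤ max Cn 1 := zero_le_one.trans (le_max_right _ _)
    positivity
  have hsz1 : (1 : ℝ) ≤ G.size := by exact_mod_cast Prog.one_le_size G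
  have hkey : qp η d (-1) * θ * G.size ≤ qp η d κin * min (qp η d κtop) (qp η d κn) := by
    calc qp η d (-1) * θ * G.size
        ≤ qp η d (-1) * qp η d (κin + κn + κtop + s + 2) * (qp η d (-1) * qp η d (-s)) :=
          mul_le_mul (mul_le_mul_of_nonneg_left hθ (qp_nonneg _))
            (hsize.trans (mul_le_mul_of_nonneg_right hCs (qp_nonneg _))) (Nat.cast_nonneg _)
            (mul_nonneg (qp_nonneg _) (qp_nonneg _))
      _ = qp η d κin * qp η d (κn + κtop) := by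
          rw [qp_add hd0, qp_add hd0, qp_add hd0, qp_add hd0]; ring_nf
      _ ≤ _ := mul_le_mul_of_nonneg_left hmin (qp_nonneg _)
  have hm0 : 0 ≤ min (qp η d κtop) (qp η d κn) := le_min (qp_nonneg _) (qp_nonneg _)
  have hfit : ∀ (B : Option σ → ℝ) o, 0 ≤ B o →
      B o * θ * qp η d (-1) * G.size ≤ B o * qp η d κin * min (qp η d κtop) (qp η d κn) := by
    intro B o hB
    have := mul_le_mul_of_nonneg_left hkey hB
    linarith
  refine ⟨_, ?_, smp_finer (b' := fun o => o.elim (a * θ) fun j => b j * θ)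
    (h.noise (β' := b₁) (pow_le_pow_left₀ (div_nonneg (topS_nonneg G) (eAt_pos hd0 mt).le) hb₁ 2))
    (fun o => ?_) hρ fun o => ?_⟩
  · rw [Nat.cast_add, Nat.cast_mul, Nat.cast_mul, Nat.cast_sum, ← sq]
    refine add_le_add le_rfl (mul_le_mul (pow_le_pow_left₀ (Nat.cast_nonneg _) hsize 2)
      (floor_le' (by positivity)) (Nat.cast_nonneg _) (sq_nonneg _))
  · exact mul_nonneg (mul_nonneg hLt (by positivity)) (topG_nonneg he.le G o)
  · have hc : (Fintype.card (Option σ) : ℝ) ≤ qp η d (-1) ^ 2 :=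
      hcard.trans (le_self_pow₀ (one_le_qp hd hη (by norm_num)) two_ne_zero)
    refine (mul_le_mul_of_nonneg_right hc (sq_nonneg _)).trans ?_
    rw [← mul_pow]
    refine pow_le_pow_left₀ (mul_nonneg (qp_nonneg _) ?_) ?_ 2
    · cases o <;> simp [mul_nonneg, ha, hb, hθ0]
    rw [le_div_iff₀ (by linarith)]
    cases o with
    | none =>
      simp only [Option.elim_none]
      have := hfit (fun _ => a) none ha
      linarith
    | some j =>
      simp only [Option.elim_some]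
      have := hfit (fun _ => b j) none (hb j)
      have h1 := mul_le_mul_of_nonneg_right (mul_le_of_le_one_right (hb j)
        (qp_le_one hd hη hκin)) hm0
      linarith

theorem qp_inv_pow (hd : 0 < (d : ℝ)) (x : ℝ) (N : ℕ) : (qp η d x)⁻¹ ^ N = qp η d (-(x * N)) := by
  rw [qp, qp, ← Real.rpow_neg hd.le, ← Real.rpow_natCast, ← Real.rpow_mul hd.le]
  ring_nf

theorem qp_pow (hd : 0 < (d : ℝ)) (x : ℝ) (N : ℕ) : qp η d x ^ N = qp η d (x * N) := by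
  rw [qp, qp, ← Real.rpow_natCast, ← Real.rpow_mul hd.le]
  ring_nf

/-- A coarser output threshold. -/
theorem adm_retop {σ : Type} [Fintype σ] {h r e e' : ℝ} {b : σ → ℝ} {G : Prog σ} {β β' : ℝ}
    (he : 0 < e) (hee : e ≤ e') (hlin : ∀ o, G.lin o = 0) (hG : G.Adm h r e b β)
    (hβ : topS G / e' ≤ β') : G.Adm h r e' b β' := by
  have h1 := (Prog.adm_def _ _ _ _ _ _).1 (Prog.Adm.mono he hee hG le_rfl)
  refine (Prog.adm_def _ _ _ _ _ _).2 ⟨?_, h1.2⟩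
  simpa [hlin, topS] using hβ

/-- A small total fits into a finer scale. -/
theorem scale_fit (hd : 1 ≤ (d : ℝ)) (hη : 0 ≤ η) {S S' C c x p m : ℝ} (hS : 0 ≤ S)
    (hS' : S' ≤ C * qp η d (-c) * S) (hC : 2 * C ≤ qp η d (-1)) (hx : c + p + 1 ≤ x) :
    S' / eAt ε η (m + x) d ≤ S / (2 * eAt ε η m d) * qp η d p := by
  have hd0 : (0 : ℝ) < d := by linarith
  have he := eAt_pos (ε := ε) (η := η) hd0 m
  rw [eAt_shift hd0, div_le_iff₀ (mul_pos he (qp_pos hd0 _))]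
  refine hS'.trans ?_
  have h1 : qp η d (-1) * qp η d (-c) ≤ qp η d p * qp η d (-x) := by
    rw [qp_add hd0, qp_add hd0]
    exact qp_le hd hη (by linarith)
  have h2 := (mul_le_mul_of_nonneg_right hC (qp_nonneg (-c))).trans h1
  have h3 : S / (2 * eAt ε η m d) * qp η d p * (eAt ε η m d * qp η d (-x))
      = S * (qp η d p * qp η d (-x)) / 2 := by
    field_simp
  rw [h3, le_div_iff₀ two_pos]
  nlinarith [mul_le_mul_of_nonneg_left h2 hS]

/-- Finer samples, weaker bounds. -/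
theorem smp_shrink {σ : Type} [Fintype σ] [DecidableEq σ] (hd : 1 ≤ (d : ℝ)) (hη : 0 ≤ η)
    {q q' : ℕ} {b b' L L' : σ → ℝ} {β β' ρ ρ' : ℝ}
    {val : (Pt d → ℝ) → Inp d σ → E d} (h : Smp q b L β ρ val)
    (hcard : (Fintype.card σ : ℝ) ≤ qp η d (-1)) (hb : ∀ o, 0 ≤ b' o ∧ b' o ≤ b o * qp η d 1)
    (hL : ∀ o, 0 ≤ L o ∧ L o ≤ L' o) (hρ : 0 ≤ ρ) (hρ' : ρ * (1 + Fintype.card σ) ≤ ρ')
    (hβ : 0 ≤ β) (hβ' : β ≤ β') (hq : q ≤ q') : Smp q' b' L' β' ρ' val := by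
  refine (smp_finer (h.noise (pow_le_pow_left₀ hβ hβ' 2)) (fun o => (hL o).1) hρ fun o => ?_).mono hq
    (fun o => (hL o).2) hρ'
  have hd0 : (0 : ℝ) < d := by linarith
  calc (Fintype.card σ : ℝ) * b' o ^ 2 ≤ qp η d (-1) ^ 2 * (b o * qp η d 1) ^ 2 :=
        mul_le_mul (hcard.trans (le_self_pow₀ (one_le_qp hd hη (by norm_num)) two_ne_zero))
          (pow_le_pow_left₀ (hb o).1 (hb o).2 2) (sq_nonneg _) (sq_nonneg _)
    _ = b o ^ 2 * (qp η d (-1) * qp η d 1) ^ 2 := by ring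
    _ = b o ^ 2 := by rw [qp_add hd0, neg_add_cancel, qp_zero, one_pow, mul_one]

end

end Vale.Agent.P347.Zero
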