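import Vale.Agent.P347.Zero.BinderPieces

/-!
# P347, exponent 0: the three samplers of the binder data

`θe`, `p`, `Le` are the exponents of the precision, of the scale in units of the noise and of the
common constant `Λ = q ^ (-Le)`.
-/

namespace Vale.Agent.P347.Zero

open MeasureTheory Real Finset
open Vale.Agent.P347.Quarter (E γ)
open Vale.Agent.P347.Colour (Pt)

noncomputable section

variable {d : ℕ} {ε η A : ℝ} {σ : Type} [Fintype σ] [DecidableEq σ]

/-- The mean, one order lower. -/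
theorem smp_hm {α κin s κn κm m mm p θe Le cn cm Cs CB Cn a β Γ : ℝ} {D : ℕ}
    {G : Prog (Option σ)} {b : σ → ℝ} (hd : 1 ≤ (d : ℝ)) (hη : 0 ≤ η)
    (hB : BinderAt ε A D α κin s κm mm κn cm η Cs CB d)
    (hn : NodeAt ε A α κn (mm + 1 / 2) cn η Cn d) (hκn : 0 ≤ κn) (hp : 0 ≤ p)
    (hmm : m + p + 1 ≤ mm) (hθe : κm + κn + 1 ≤ θe) (hLe : s + 1 ≤ Le) (hs : 0 ≤ s)
    (hCB : 1 ≤ CB) (hCs : 1 ≤ Cs) (h2 : 2 ≤ qp η d (-1))
    (hcard : (Fintype.card (Option σ) : ℝ) ≤ qp η d (-1))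
    (hbig : CB * (2 * max Cn 1 + 1) * Cs * (D + 3) ≤ qp η d (-1))
    (hσ : Fintype.card σ ≤ D) (ha : 0 < a) (ha1 : a ≤ 1) (hb : ∀ j, 0 ≤ b j)
    (hlin : ∀ o, G.lin o = 0) (hdep : G.depth ≤ D) (hsize : (G.size : ℝ) ≤ Cs * qp η d (-s))
    (hΓ : 1 ≤ Γ) (hΓ' : Γ ≤ Cs * qp η d (-s)) (hgr : G.Grow d Γ)
    (hG : G.Adm ((d : ℝ) ^ (-ε)) ((d : ℝ) ^ (-α * η)) (eAt ε η m d)
      (fun o => o.elim (a * qp η d κin) b) β) :
    ∃ q : ℕ, (q : ℝ) ≤ CB * Cs * max Cn 1 * qp η d (-(s + cn)) + CB * qp η d (-cm) ∧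
      Smp (d := d) (σ := Option σ) q (fun o => o.elim (a * qp η d θe) fun j => b j * qp η d θe)
        (fun o => qp η d (-Le) * topG (eAt ε η m d) G o)
        (topS G / (2 * eAt ε η m d) * qp η d p) (qp η d (-Le) * topS G * (d : ℝ) ^ (-A))
        (fun V x => ∫ ξ, G.val V (upd a x ξ) ∂γ d) := by
  have hd0 : (0 : ℝ) < d := by linarith
  have he := eAt_pos (ε := ε) (η := η) hd0 m
  have hS := topS_nonneg G
  have hm1 : eAt ε η m d ≤ eAt ε η mm d := eAt_mono hd hη (by linarith)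
  have hscale : topS G / eAt ε η mm d ≤ topS G / (2 * eAt ε η m d) * qp η d p := by
    have := scale_fit (ε := ε) (S' := topS G) (C := 1) (c := 0) (x := mm - m) (p := p) (m := m) hd hη
      hS (by simp [qp_zero]) (by linarith) (by linarith)
    rwa [add_sub_cancel] at this
  obtain ⟨q, hq, hsm⟩ := smp_mean hB hn (zero_le_one.trans hCB) hσ ha ha1 hb hlin hdep hsize hΓ hΓ'
    hgr (adm_retop he hm1 hlin hG hscale)
  have hCn : (0 : ℝ) ≤ max Cn 1 := zero_le_one.trans (le_max_right _ _)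
  have hCB0 : (0 : ℝ) ≤ CB := zero_le_one.trans hCB
  have hq0 : 0 ≤ qp η d (-s) := qp_nonneg _
  have hCs0 : (0 : ℝ) ≤ Cs := zero_le_one.trans hCs
  refine ⟨q, hq.trans (le_of_le_of_eq (add_le_add (mul_le_mul_of_nonneg_left (mul_le_mul_of_nonneg_left
    (mul_le_mul_of_nonneg_right (max_le_max le_rfl zero_le_one) (Real.rpow_nonneg hd0.le _))
    (mul_nonneg (zero_le_one.trans hCs) (qp_nonneg _))) hCB0) le_rfl) ?_),
    smp_shrink hd hη hsm hcard (fun o => ?_) (fun o => ?_)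
      (mul_nonneg (mul_nonneg (mul_nonneg (by positivity) (zero_le_one.trans hΓ)) hS)
        (Real.rpow_nonneg hd0.le _)) ?_ ?_ le_rfl le_rfl⟩
  · rw [← qp_neg, ← qp_neg, neg_add, ← qp_add hd0]
    ring
  · rcases o with _ | j
    · simp only [Option.elim_none]
      refine ⟨mul_nonneg ha.le (qp_nonneg _), ?_⟩
      rw [mul_assoc, qp_add hd0]
      exact mul_le_mul_of_nonneg_left (qp_le hd hη (by linarith)) ha.le
    · simp only [Option.elim_some]
      refine ⟨mul_nonneg (hb j) (qp_nonneg _), ?_⟩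
      rw [mul_assoc, qp_add hd0]
      exact mul_le_mul_of_nonneg_left (qp_le hd hη (by linarith)) (hb j)
  · refine ⟨mul_nonneg (by positivity) (topG_nonneg (eAt_pos hd0 _).le G o),
      mul_le_mul ?_ (topG_anti he hm1 G o) (topG_nonneg (eAt_pos hd0 _).le G o) (qp_nonneg _)⟩
    have h1 : CB * (max Cn 1 + 1) ≤ CB * (2 * max Cn 1 + 1) * Cs * (D + 3) := by
      have : CB * (max Cn 1 + 1) ≤ CB * (2 * max Cn 1 + 1) :=
        mul_le_mul_of_nonneg_left (by linarith) hCB0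
      exact this.trans ((le_mul_of_one_le_right (by positivity) hCs).trans
        (le_mul_of_one_le_right (by positivity) (by linarith [(Nat.cast_nonneg D : (0 : ℝ) ≤ D)])))
    exact (h1.trans hbig).trans (qp_le hd hη (by linarith))
  · have hc : 1 + (Fintype.card (Option σ) : ℝ) ≤ D + 3 := by
      rw [Fintype.card_option, Nat.cast_add, Nat.cast_one]
      have : (Fintype.card σ : ℝ) ≤ D := Nat.cast_le.2 hσ
      linarith
    calc CB * (2 * max Cn 1 + 1) * Γ * topS G * (d : ℝ) ^ (-A) * (1 + Fintype.card (Option σ))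
        ≤ CB * (2 * max Cn 1 + 1) * (Cs * qp η d (-s)) * topS G * (d : ℝ) ^ (-A) * (D + 3) := by
          gcongr
      _ = CB * (2 * max Cn 1 + 1) * Cs * (D + 3) * qp η d (-s) * (topS G * (d : ℝ) ^ (-A)) := by ring
      _ ≤ qp η d (-Le) * (topS G * (d : ℝ) ^ (-A)) := by
          refine mul_le_mul_of_nonneg_right ?_ (mul_nonneg hS (Real.rpow_nonneg hd0.le _))
          refine (mul_le_mul_of_nonneg_right hbig (qp_nonneg _)).trans ?_
          rw [qp_add hd0]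
          exact qp_le hd hη (by linarith)
      _ = _ := by ring
  · exact mul_nonneg (div_nonneg hS (by positivity)) (qp_nonneg _)

/-- The mean of the adjoint programme at one quadrature radius `ρ`. -/
theorem smp_hPhi {α₂ c₁ κn κB m mΦ ue θe Le cn cB CA CB Cn a ρ S : ℝ} {D₂ : ℕ}
    {g : Option σ → ℝ} {PA : Prog (Option (σ ⊕ Bool))} {b : σ → ℝ}
    (hd : 1 ≤ (d : ℝ)) (hη : 0 ≤ η)
    (hB : BinderAt ε A D₂ α₂ c₁ c₁ κB mΦ κn cB η CA CB d)
    (hn : NodeAt ε A α₂ κn (mΦ + 1 / 2) cn η Cn d) (hκn : 0 ≤ κn) (hκB : 0 ≤ κB) (hc₁ : 0 ≤ c₁)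
    (hmΦ : m + c₁ + ue + 1 ≤ mΦ) (hθe : κB + κn + c₁ + 1 ≤ θe) (hLe : 2 * c₁ + 1 ≤ Le)
    (hCB : 1 ≤ CB) (hCA : 1 ≤ CA) (hS : 0 ≤ S)
    (h2CA : 2 * CA ≤ qp η d (-1))
    (hcard : (Fintype.card (Option (σ ⊕ Bool)) : ℝ) ≤ qp η d (-1))
    (hbig : CB * (2 * max Cn 1 + 1) * CA * CA * (D₂ + 3) ≤ qp η d (-1))
    (hσ : Fintype.card (σ ⊕ Bool) ≤ D₂) (ha : 0 < a) (ha1 : a ≤ 1) (hρ : 0 < ρ) (hρ1 : ρ ≤ 1)
    (hb : ∀ j, 0 ≤ b j) (hlin : ∀ o, PA.lin o = 0) (hdep : PA.depth ≤ D₂)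
    (hsize : (PA.size : ℝ) ≤ CA * qp η d (-c₁)) (hgr : PA.Grow d (CA * qp η d (-c₁)))
    (hPS : topS PA ≤ CA * qp η d (-c₁) * S)
    (hP : PA.Adm ((d : ℝ) ^ (-ε)) ((d : ℝ) ^ (-α₂ * η)) (eAt ε η mΦ d) (bAdj a (qp η d c₁) b)
      (topS PA / eAt ε η mΦ d))
    (hg : ∀ o, 0 ≤ g o)
    (hPg : ∀ o : Option σ, topG (eAt ε η mΦ d) PA (o.elim none fun j => some (.inl j))
      ≤ CA * qp η d (-c₁) * g o)
    (hPk : ∀ k : Bool, topG (eAt ε η mΦ d) PA (some (.inr k)) ≤ CA * qp η d (-c₁) * S) :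
    ∃ q : ℕ, (q : ℝ) ≤ CB * CA * max Cn 1 * qp η d (-(c₁ + cn)) + CB * qp η d (-cB) ∧
      Smp (d := d) (σ := Option (σ ⊕ Bool)) q
        (fun o => o.elim (a * ρ * qp η d θe) fun p => p.elim (fun j => b j * qp η d θe)
          fun _ => qp η d θe)
        (fun o => o.elim (qp η d (-Le) * g none) fun p => p.elim (fun j => qp η d (-Le) * g (some j))
          fun _ => qp η d (-Le) * S)
        (S / (2 * eAt ε η m d) * qp η d ue) (qp η d (-Le) * S * (d : ℝ) ^ (-A))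
        (fun V z => ∫ ξ, PA.val V
          (fun o => o.elim (z none + (a * ρ) • ξ) fun p => z (some p)) ∂γ d) := by
  have hd0 : (0 : ℝ) < d := by linarith
  have he₂ := eAt_pos (ε := ε) (η := η) hd0 mΦ
  have hS' := topS_nonneg PA
  have hscale : topS PA / eAt ε η mΦ d ≤ S / (2 * eAt ε η m d) * qp η d ue := by
    have := scale_fit (ε := ε) (S' := topS PA) (C := CA) (c := c₁) (x := mΦ - m) (p := ue) (m := m)
      hd hη hS hPS h2CA (by linarith)
    rwa [add_sub_cancel] at this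
  set b₂ : σ ⊕ Bool → ℝ := Sum.elim (fun j => b j * qp η d c₁) fun _ => qp η d c₁
  have hb₂ : ∀ p, 0 ≤ b₂ p := fun p => by
    cases p <;> simp [b₂, hb, mul_nonneg, qp_nonneg]
  have hA : PA.Adm ((d : ℝ) ^ (-ε)) ((d : ℝ) ^ (-α₂ * η)) (eAt ε η mΦ d)
      (fun o => o.elim (a * ρ * qp η d c₁) b₂) (S / (2 * eAt ε η m d) * qp η d ue) := by
    refine adm_retop he₂ le_rfl hlin (Prog.Adm.mono_blur (fun o => ?_) le_rfl le_rfl hP) hscale
    rcases o with _ | j | k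
    · exact mul_le_mul_of_nonneg_right (mul_le_of_le_one_right ha.le hρ1) (qp_nonneg _)
    · exact le_rfl
    · exact le_rfl
  have hCA0 : (0 : ℝ) ≤ CA := zero_le_one.trans hCA
  have hCB0 : (0 : ℝ) ≤ CB := zero_le_one.trans hCB
  have hq0 : 0 ≤ qp η d (-c₁) := qp_nonneg _
  obtain ⟨q, hq, hsm⟩ := smp_mean hB hn hCB0 hσ (mul_pos ha hρ)
    ((mul_le_of_le_one_right ha.le hρ1).trans ha1) hb₂ hlin hdep hsize
    (one_le_mul_of_one_le_of_one_le hCA (one_le_qp hd hη (by linarith))) le_rfl hgr hA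
  have hCn : (0 : ℝ) ≤ max Cn 1 := zero_le_one.trans (le_max_right _ _)
  have hconst : CB * (max Cn 1 + 1) * (CA * qp η d (-c₁)) ≤ qp η d (-Le) := by
    have h1 : CB * (max Cn 1 + 1) * CA ≤ CB * (2 * max Cn 1 + 1) * CA * CA * (D₂ + 3) := by
      have : CB * (max Cn 1 + 1) * CA ≤ CB * (2 * max Cn 1 + 1) * CA :=
        mul_le_mul_of_nonneg_right (mul_le_mul_of_nonneg_left (by linarith) hCB0) hCA0
      exact this.trans ((le_mul_of_one_le_right (by positivity) hCA).trans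
        (le_mul_of_one_le_right (by positivity) (by linarith [(Nat.cast_nonneg D₂ : (0 : ℝ) ≤ D₂)])))
    rw [← mul_assoc]
    refine (mul_le_mul_of_nonneg_right (h1.trans hbig) hq0).trans ?_
    rw [qp_add hd0]
    exact qp_le hd hη (by linarith)
  refine ⟨q, hq.trans (le_of_le_of_eq (add_le_add (mul_le_mul_of_nonneg_left (mul_le_mul_of_nonneg_left
    (mul_le_mul_of_nonneg_right (max_le_max le_rfl zero_le_one) (Real.rpow_nonneg hd0.le _))
    (mul_nonneg hCA0 hq0)) hCB0) le_rfl) ?_),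
    smp_shrink hd hη hsm hcard (fun o => ?_) (fun o => ?_)
      (mul_nonneg (mul_nonneg (mul_nonneg (by positivity) (mul_nonneg hCA0 hq0)) hS')
        (Real.rpow_nonneg hd0.le _)) ?_ ?_ le_rfl le_rfl⟩
  · rw [← qp_neg, ← qp_neg, neg_add, ← qp_add hd0]
    ring
  · rcases o with _ | j | k
    · simp only [Option.elim_none]
      refine ⟨mul_nonneg (mul_nonneg ha.le hρ.le) (qp_nonneg _), ?_⟩
      rw [mul_assoc (a * ρ) (qp η d κB), qp_add hd0]
      exact mul_le_mul_of_nonneg_left (qp_le hd hη (by linarith)) (mul_nonneg ha.le hρ.le)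
    · simp only [Option.elim_some, Sum.elim_inl, b₂]
      refine ⟨mul_nonneg (hb j) (qp_nonneg _), ?_⟩
      rw [mul_assoc, mul_assoc, qp_add hd0, qp_add hd0]
      exact mul_le_mul_of_nonneg_left (qp_le hd hη (by linarith)) (hb j)
    · simp only [Option.elim_some, Sum.elim_inr, b₂]
      refine ⟨qp_nonneg _, ?_⟩
      rw [qp_add hd0, qp_add hd0]
      exact qp_le hd hη (by linarith)
  · have h0 := topG_nonneg he₂.le PA
    refine ⟨mul_nonneg (by positivity) (h0 o), ?_⟩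
    have hmain : ∀ (o' : Option (σ ⊕ Bool)) (G₀ : ℝ), 0 ≤ G₀ →
        topG (eAt ε η mΦ d) PA o' ≤ CA * qp η d (-c₁) * G₀ →
        CB * (max Cn 1 + 1) * topG (eAt ε η mΦ d) PA o' ≤ qp η d (-Le) * G₀ := by
      intro o' G₀ h1 h2
      refine (mul_le_mul_of_nonneg_left h2 (by positivity)).trans ?_
      rw [← mul_assoc]
      exact mul_le_mul_of_nonneg_right hconst h1
    rcases o with _ | j | k
    · exact hmain _ _ (hg none) (hPg none)
    · exact hmain _ _ (hg _) (hPg (some j))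
    · exact hmain _ _ hS (hPk k)
  · have hc : 1 + (Fintype.card (Option (σ ⊕ Bool)) : ℝ) ≤ D₂ + 3 := by
      rw [Fintype.card_option, Nat.cast_add, Nat.cast_one]
      have : (Fintype.card (σ ⊕ Bool) : ℝ) ≤ D₂ := Nat.cast_le.2 hσ
      linarith
    have hn0 := Real.rpow_nonneg hd0.le (-A)
    calc CB * (2 * max Cn 1 + 1) * (CA * qp η d (-c₁)) * topS PA * (d : ℝ) ^ (-A)
          * (1 + Fintype.card (Option (σ ⊕ Bool)))
        ≤ CB * (2 * max Cn 1 + 1) * (CA * qp η d (-c₁)) * (CA * qp η d (-c₁) * S)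
            * (d : ℝ) ^ (-A) * (D₂ + 3) := by gcongr
      _ = CB * (2 * max Cn 1 + 1) * CA * CA * (D₂ + 3) * (qp η d (-c₁) * qp η d (-c₁))
            * (S * (d : ℝ) ^ (-A)) := by ring
      _ ≤ qp η d (-Le) * (S * (d : ℝ) ^ (-A)) := by
          refine mul_le_mul_of_nonneg_right ?_ (mul_nonneg hS hn0)
          refine (mul_le_mul_of_nonneg_right hbig (mul_nonneg hq0 hq0)).trans ?_
          rw [qp_add hd0, qp_add hd0]
          exact qp_le hd hη (by linarith)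
      _ = _ := by ring
  · have := eAt_pos (ε := ε) (η := η) hd0 m
    exact mul_nonneg (div_nonneg hS (by positivity)) (qp_nonneg _)

/-- The programme itself, all nodes one order lower. -/
theorem smp_hf {α κin s κn m mf p θ Le cn Cs Cn a β Γ : ℝ} {D : ℕ} {G : Prog (Option σ)} {b : σ → ℝ}
    (hd : 1 ≤ (d : ℝ)) (hη : 0 ≤ η) (hn : NodeAt ε A α κn mf cn η Cn d) (hκn : 0 ≤ κn)
    (hκin : 0 ≤ κin) (hmf : m + κn + κn + p + 1 ≤ mf) (hLe : s + 1 ≤ Le) (hs : 0 ≤ s) (hp : 0 ≤ p)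
    (he1 : eAt ε η m d ≤ 1) (hθ0 : 0 ≤ θ) (hθ : θ ≤ qp η d (κin + κn + κn + s + 2))
    (hCs : 1 ≤ Cs) (hCs' : Cs ≤ qp η d (-1)) (h2 : 2 ≤ qp η d (-1))
    (hcard : (Fintype.card (Option σ) : ℝ) ≤ qp η d (-1))
    (hbig : (2 * max Cn 1 + 2 * max Cn 1 * max Cn 1 * (1 + max Cn 1) ^ D) * Cs * (D + 3)
      ≤ qp η d (-1))
    (hσ : Fintype.card σ ≤ D) (ha : 0 ≤ a) (hb : ∀ j, 0 ≤ b j) (hlin : ∀ o, G.lin o = 0)
    (hdep : G.depth ≤ D) (hsize : (G.size : ℝ) ≤ Cs * qp η d (-s)) (hΓ : 1 ≤ Γ)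
    (hΓ' : Γ ≤ Cs * qp η d (-s)) (hgr : G.Grow d Γ)
    (hG : G.Adm ((d : ℝ) ^ (-ε)) ((d : ℝ) ^ (-α * η)) (eAt ε η m d)
      (fun o => o.elim (a * qp η d κin) b) β) :
    ∃ q : ℕ, (q : ℝ) ≤ 2 * Cs * Cs * max Cn 1 * qp η d (-(2 * s + cn)) ∧
      Smp (d := d) (σ := Option σ) q (fun o => o.elim (a * θ) fun j => b j * θ)
        (fun o => qp η d (-Le) * topG (eAt ε η m d) G o)
        (topS G / (2 * eAt ε η m d) * qp η d p) (qp η d (-Le) * topS G * (d : ℝ) ^ (-A))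
        (fun V x => G.val V x) := by
  have hd0 : (0 : ℝ) < d := by linarith
  have he := eAt_pos (ε := ε) (η := η) hd0 m
  have hS := topS_nonneg G
  have hscale : topS G / eAt ε η mf d ≤ topS G / (2 * eAt ε η m d) * qp η d p := by
    have := scale_fit (ε := ε) (S' := topS G) (C := 1) (c := 0) (x := mf - m) (p := p) (m := m) hd hη
      hS (by simp [qp_zero]) (by linarith) (by linarith)
    rwa [add_sub_cancel] at this
  set c := max Cn 1 with hc_def
  have hc1 : 1 ≤ c := le_max_right _ _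
  have hc0 : (0 : ℝ) ≤ c := zero_le_one.trans hc1
  have hCs0 : (0 : ℝ) ≤ Cs := zero_le_one.trans hCs
  have hP := (Prog.adm_def _ _ _ _ _ _).1 hG
  obtain ⟨q, hq, hsm⟩ := smp_val (Lt := c) (mt := mf) (ρt := fun i => c * √(G.node i).v * (d : ℝ) ^ (-A))
    (qt := fun _ => ⌊Cn * (d : ℝ) ^ (cn * η)⌋₊) (κtop := κn) hd hη hn hc0 hκn hκn (by linarith) he1 ha
    hb hlin hdep hsize hCs' hΓ hgr hG (fun i => ⟨by positivity, hn.unif _ (hP.2 i).1⟩) hscale hθ0 hκin
    hθ hcard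
  refine ⟨q, hq.trans ?_, hsm.mono le_rfl (fun o => mul_le_mul_of_nonneg_right ?_
    (topG_nonneg he.le G o)) ?_⟩
  · have hf : (⌊Cn * qp η d (-cn)⌋₊ : ℝ) ≤ c * qp η d (-cn) := by
      rw [qp_neg]
      exact (floor_le' (by positivity)).trans
        (mul_le_mul_of_nonneg_right (max_le_max le_rfl zero_le_one) (by positivity))
    have hN : (G.num : ℝ) ≤ Cs * qp η d (-s) := by
      refine le_trans ?_ hsize
      cases G with
      | mk N l cf nd ch =>
        exact Nat.cast_le.2 (show N ≤ 1 + ∑ i, (1 + (ch i).size) by simp [sum_add_distrib]; omega)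
    have hX : 1 ≤ Cs * qp η d (-s) := one_le_mul_of_one_le_of_one_le hCs (one_le_qp hd hη (by linarith))
    rw [sum_const, card_univ, Fintype.card_fin, nsmul_eq_mul, show -(2 * s + cn) = -s + -s + -cn by ring,
      ← qp_add hd0, ← qp_add hd0, ← qp_neg]
    have h1 : (G.num : ℝ) * ⌊Cn * qp η d (-cn)⌋₊ ≤ (Cs * qp η d (-s)) ^ 2 * (c * qp η d (-cn)) := by
      exact mul_le_mul (hN.trans (le_self_pow₀ hX two_ne_zero)) hf (Nat.cast_nonneg _) (sq_nonneg _)
    have h2 : (Cs * qp η d (-s)) ^ 2 * (max Cn 0 * qp η d (-cn))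
        ≤ (Cs * qp η d (-s)) ^ 2 * (c * qp η d (-cn)) :=
      mul_le_mul_of_nonneg_left (mul_le_mul_of_nonneg_right (max_le_max le_rfl zero_le_one)
        (qp_nonneg _)) (sq_nonneg _)
    nlinarith [h1, h2]
  · refine le_trans ?_ (le_trans hbig (qp_le hd hη (by linarith)))
    have : c ^ D ≤ (1 + c) ^ D := pow_le_pow_left₀ hc0 (by linarith) _
    calc c * c ^ D ≤ c * c * (1 + c) ^ D := by
          refine mul_le_mul ?_ this (by positivity) (by positivity)
          exact le_mul_of_one_le_left hc0 hc1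
      _ ≤ (2 * c + 2 * c * c * (1 + c) ^ D) * 1 * 1 := by
          have : 0 ≤ c * c * (1 + c) ^ D := by positivity
          linarith
      _ ≤ _ := by
          have := (Nat.cast_nonneg D : (0 : ℝ) ≤ D)
          gcongr
          linarith
  · have hc : 1 + (Fintype.card (Option σ) : ℝ) ≤ D + 3 := by
      rw [Fintype.card_option, Nat.cast_add, Nat.cast_one]
      have : (Fintype.card σ : ℝ) ≤ D := Nat.cast_le.2 hσ
      linarith
    set δ := (d : ℝ) ^ (-A)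
    have hδ : 0 ≤ δ := Real.rpow_nonneg hd0.le _
    have hsum : ∑ i, |G.coef i| * (c * √(G.node i).v * δ) = c * topS G * δ := by
      simp only [topS, mul_sum, sum_mul]
      exact sum_congr rfl fun i _ => by ring
    have hq0 : 0 ≤ qp η d (-s) := qp_nonneg _
    calc (2 * Γ * (∑ i, |G.coef i| * (c * √(G.node i).v * δ))
          + 2 * Γ * (c * c * (1 + c) ^ D) * eAt ε η m d * topS G * δ) * (1 + Fintype.card (Option σ))
        ≤ (2 * Γ * (c * topS G * δ) + 2 * Γ * (c * c * (1 + c) ^ D) * 1 * topS G * δ) * (D + 3) := by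
          rw [hsum]; gcongr
      _ = (2 * c + 2 * c * c * (1 + c) ^ D) * (D + 3) * Γ * (topS G * δ) := by ring
      _ ≤ (2 * c + 2 * c * c * (1 + c) ^ D) * (D + 3) * (Cs * qp η d (-s)) * (topS G * δ) := by gcongr
      _ = (2 * c + 2 * c * c * (1 + c) ^ D) * Cs * (D + 3) * qp η d (-s) * (topS G * δ) := by ring
      _ ≤ qp η d (-Le) * (topS G * δ) := by
          refine mul_le_mul_of_nonneg_right ((mul_le_mul_of_nonneg_right hbig hq0).trans ?_)
            (mul_nonneg hS hδ)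
          rw [qp_add hd0]
          exact qp_le hd hη (by linarith)
      _ = _ := by ring

end

end Vale.Agent.P347.Zero
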