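import Vale.Agent.P347.Zero.BinderDefs
import Vale.Agent.P347.Zero.SampleOps2

/-!
# P347, exponent 0: sampling the ideal binder

Every Picard step splits the single sample of each slot; the frozen point and seeds are exact.
-/

namespace Vale.Agent.P347.Zero

open MeasureTheory Real Finset
open Vale.Agent.P347.Quarter (E γ)
open Vale.Agent.P347.Colour (Pt)

noncomputable section

variable {d : ℕ} {σ : Type} [Fintype σ] [DecidableEq σ]

/-- The blurs of the binder slots. -/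
def bB (θ : ℝ) (b : σ → ℝ) : σ ⊕ Fin 4 → ℝ :=
  Sum.elim (fun j => b j * θ) ![0, θ, 0, 0]

/-- A bound on the sensitivity of an iterate: only the frozen point and the other slots matter. -/
def SensLE (L : σ ⊕ Fin 4 → ℝ) (Γ : ℝ) (g : Option σ → ℝ) : Prop :=
  (∀ s, 0 ≤ L s) ∧ L (.inr 0) ≤ Γ * g none ∧ ∀ j, L (.inl j) ≤ Γ * g (some j)

/-- A single slot at a coarser output scale. -/
theorem smp_slotB {b : σ → ℝ} (s : σ) {β : ℝ} (h : b s ^ 2 ≤ β ^ 2) :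
    Smp (d := d) 0 b (Pi.single s 1) β 0 fun _ x => x s :=
  (Smp.slot (b := b) s).noise h

variable (n : ℕ) {R : ℕ} (rs ws : Fin R → ℝ) (G : Prog (Option σ))
  (PA : Prog (Option (σ ⊕ Bool))) (a b₀ : ℝ)

/-- The samplers and the numerical conditions used by the recursion. `g` is the sensitivity of the
programme to its slots and `S` its size. -/
structure BinderData (d : ℕ) (b bs : σ → ℝ) (g : Option σ → ℝ) (S : ℝ) (qm qf qΦ : ℕ)
    (θ θf θ₀ θu θy μ W Λ δ : ℝ) : Prop where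
  a_pos : 0 < a
  a_one : a ≤ 1
  b₀_pos : 0 < b₀
  bs_nn : ∀ j, 0 ≤ bs j
  bs_le : ∀ j, bs j ≤ b j
  g_nn : ∀ o, 0 ≤ g o
  S_nn : 0 ≤ S
  one_le_Λ : 1 ≤ Λ
  one_le_W : 1 ≤ W
  δ_nn : 0 ≤ δ
  θ₀_nn : 0 ≤ θ₀
  θu_nn : 0 ≤ θu
  θy_nn : 0 ≤ θy
  μ_one : μ ≤ 1
  mu_le : ∀ r, 0 ≤ rs r ∧ rs r ≤ 1 ∧ μ ≤ √(1 - rs r ^ 2)
  ws_le : ∑ r, |ws r| ≤ W
  wc_le : ∀ i, ∑ j, |wCol n i j| ≤ W ∧ (∑ j, |wCol n i j|) * ∑ r, |ws r| ≤ W
  prec_x : θ₀ + W * θu ≤ μ * θ
  prec_y : 3 * W * θy ≤ θ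
  prec_f : θ₀ + W * θu ≤ θf
  gain_none : a * g none ≤ Λ * S
  gain : Λ * (Λ * S) ≤ b₀
  hm : Smp (d := d) (σ := Option σ) qm (fun o => o.elim (a * θ) fun j => b j * θ)
    (fun o => Λ * g o) (b₀ * θy) (Λ * b₀ * δ)
    (fun V x => ∫ ξ, G.val V (upd a x ξ) ∂γ d)
  hf : Smp (d := d) (σ := Option σ) qf (fun o => o.elim (a * θf) fun j => b j * θf)
    (fun o => Λ * g o) (b₀ * θy) (Λ * b₀ * δ) (fun V x => G.val V x)
  hΦ : ∀ r, Smp (d := d) (σ := Option (σ ⊕ Bool)) qΦ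
    (fun o => o.elim (a * √(1 - rs r ^ 2) * θ) fun p => p.elim (fun j => b j * θ) fun _ => θ)
    (fun o => o.elim (Λ * g none) fun p => p.elim (fun j => Λ * g (some j)) fun _ => Λ * S)
    (b₀ * θu) (Λ * b₀ * δ)
    (fun V z => ∫ ξ, PA.val V
      (fun o => o.elim (z none + (a * √(1 - rs r ^ 2)) • ξ) fun p => z (some p)) ∂γ d)

/-- The field evaluated along an iterate. -/
def fldB (V : Pt d → ℝ) (y : Inp d (σ ⊕ Fin 4)) (k : ℕ) (r : Fin R) (j : Fin (n + 1)) : E d :=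
  ∫ ξ, phiB V PA a b₀ (xB a y)
    (rs r • (itB n rs ws V G PA a b₀ y k j).1 + √(1 - rs r ^ 2) • ξ)
    (itB n rs ws V G PA a b₀ y k j).2 (y (.inr 3)) ∂γ d

omit [DecidableEq σ] in
theorem itB_succ_fst (V : Pt d → ℝ) (y : Inp d (σ ⊕ Fin 4)) (k : ℕ) (i : Fin (n + 1)) :
    y (.inr 1) - (itB n rs ws V G PA a b₀ y (k + 1) i).1
      = ∑ p : Fin (n + 1) × Fin R, (wCol n i p.1 * ws p.2) • fldB n rs ws G PA a b₀ V y k p.2 p.1 := by
  simp only [itB, iterS, fieldS, fldB, sub_sub_cancel, Finset.smul_sum, smul_smul]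
  rw [Fintype.sum_prod_type]

omit [DecidableEq σ] in
theorem itB_succ_snd (V : Pt d → ℝ) (y : Inp d (σ ⊕ Fin 4)) (k : ℕ) (i : Fin (n + 1)) :
    (itB n rs ws V G PA a b₀ y (k + 1) i).2
      = (1 : ℝ) • y (.inr 2) + ∑ p : Fin (n + 1) × Bool, (bif p.2 then wCol n i p.1 else -wCol n i p.1) •
          (b₀⁻¹ • bif p.2 then G.val V (upd a (xB a y) (itB n rs ws V G PA a b₀ y k p.1).1)
            else ∫ ξ, G.val V (upd a (xB a y) ξ) ∂γ d) := by
  simp only [itB, iterS, fB, one_smul, Fintype.sum_prod_type, Fintype.sum_bool, cond_true, cond_false,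
    neg_smul, smul_sub, ← sub_eq_add_neg, integral_smul]

variable {n rs ws G PA a b₀}
variable {b bs : σ → ℝ} {g : Option σ → ℝ} {S : ℝ} {qm qf qΦ : ℕ} {θ θf θ₀ θu θy μ W Λ δ Cg : ℝ}

theorem BinderData.θ_nn (h : BinderData n rs ws G PA a b₀ d b bs g S qm qf qΦ θ θf θ₀ θu θy μ W Λ δ) :
    0 ≤ θ := by
  nlinarith [h.prec_y, mul_nonneg (zero_le_one.trans h.one_le_W) h.θy_nn]

theorem BinderData.μθ_le (h : BinderData n rs ws G PA a b₀ d b bs g S qm qf qΦ θ θf θ₀ θu θy μ W Λ δ) :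
    θ₀ + W * θu ≤ θ :=
  h.prec_x.trans (mul_le_of_le_one_left h.θ_nn h.μ_one)

theorem BinderData.θ₀_le (h : BinderData n rs ws G PA a b₀ d b bs g S qm qf qΦ θ θf θ₀ θu θy μ W Λ δ) :
    θ₀ ≤ θ :=
  (le_add_of_nonneg_right (mul_nonneg (zero_le_one.trans h.one_le_W) h.θu_nn)).trans h.μθ_le

omit [DecidableEq σ] in
theorem bB_nonneg (hb : ∀ j, 0 ≤ b j) {τ : ℝ} (hτ : 0 ≤ τ) (s : σ ⊕ Fin 4) : 0 ≤ bB τ b s := by
  rcases s with j | l
  · exact mul_nonneg (hb j) hτ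
  · fin_cases l <;> simp [bB, hτ]

omit [DecidableEq σ] in
theorem bB_smul (τ c : ℝ) (s : σ ⊕ Fin 4) : bB (τ * c) b s = bB τ b s * c := by
  rcases s with j | l
  · simp [bB, mul_assoc]
  · fin_cases l <;> simp [bB]

omit [DecidableEq σ] in
/-- The equal split condition from one constant. -/
theorem bB_split {τ : Type} [Fintype τ] {Q B : ℝ} (hQ : 0 < Q)
    (hτ : (Fintype.card τ : ℝ) ≤ Q ^ 2) (s : σ ⊕ Fin 4) :
    (Fintype.card τ : ℝ) * bB (B / Q) b s ^ 2 ≤ bB B b s ^ 2 := by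
  rw [div_eq_mul_inv, bB_smul, mul_pow, ← mul_assoc, mul_comm (Fintype.card τ : ℝ), mul_assoc]
  refine mul_le_of_le_one_right (sq_nonneg _) ?_
  rw [inv_pow]
  exact mul_inv_le_one_of_le₀ hτ (sq_nonneg _)

theorem SensLE.comb {τ : Type} [Fintype τ] {L : τ → σ ⊕ Fin 4 → ℝ} {Γ Γ' : ℝ} {g' : Option σ → ℝ}
    (hg : ∀ o, 0 ≤ g' o) (hL : ∀ t, SensLE (L t) Γ g') (c : τ → ℝ) (hc : ∀ t, 0 ≤ c t)
    (hle : (∑ t, c t) * Γ ≤ Γ') : SensLE (fun s => ∑ t, c t * L t s) Γ' g' := by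
  refine ⟨fun s => sum_nonneg fun t _ => mul_nonneg (hc t) ((hL t).1 s), ?_, fun j => ?_⟩
  · calc ∑ t, c t * L t (.inr 0) ≤ ∑ t, c t * (Γ * g' none) :=
          sum_le_sum fun t _ => mul_le_mul_of_nonneg_left (hL t).2.1 (hc t)
      _ = (∑ t, c t) * Γ * g' none := by rw [sum_mul, sum_mul]; exact sum_congr rfl fun t _ => by ring
      _ ≤ Γ' * g' none := mul_le_mul_of_nonneg_right hle (hg _)
  · calc ∑ t, c t * L t (.inl j) ≤ ∑ t, c t * (Γ * g' (some j)) :=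
          sum_le_sum fun t _ => mul_le_mul_of_nonneg_left ((hL t).2.2 j) (hc t)
      _ = (∑ t, c t) * Γ * g' (some j) := by
          rw [sum_mul, sum_mul]; exact sum_congr rfl fun t _ => by ring
      _ ≤ Γ' * g' (some j) := mul_le_mul_of_nonneg_right hle (hg _)

theorem sensLE_const {L : σ ⊕ Fin 4 → ℝ} {Γ : ℝ} {g' : Option σ → ℝ} (hL : ∀ s, 0 ≤ L s)
    (hΓ : 0 ≤ Γ) (hg : ∀ o, 0 ≤ g' o) (h0 : L (.inr 0) = 0) (h1 : ∀ j, L (.inl j) = 0) :
    SensLE L Γ g' :=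
  ⟨hL, h0.le.trans (mul_nonneg hΓ (hg _)), fun j => (h1 j).le.trans (mul_nonneg hΓ (hg _))⟩

/-- What is known of one level of iterates; `Γ` is in units of `b₀`. -/
def LevB (n : ℕ) (rs ws : Fin R → ℝ) (G : Prog (Option σ)) (PA : Prog (Option (σ ⊕ Bool)))
    (a b₀ : ℝ) (d : ℕ) (b : σ → ℝ) (g : Option σ → ℝ) (θu θy W δ : ℝ) (k q : ℕ) (B Γ : ℝ) : Prop :=
  ∀ i : Fin (n + 1),
    (∃ L, SensLE L (Γ / b₀) g ∧ Smp (d := d) (σ := σ ⊕ Fin 4) q (bB B b) L (W * θu) (Γ * δ)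
      (fun V y => y (.inr 1) - (itB n rs ws V G PA a b₀ y k i).1)) ∧
    ∃ L, SensLE L (Γ / b₀) g ∧ Smp (d := d) (σ := σ ⊕ Fin 4) q (bB B b) L (3 * W * θy) (Γ * δ)
      (fun V y => (itB n rs ws V G PA a b₀ y k i).2)

theorem levB_zero (h : BinderData n rs ws G PA a b₀ d b bs g S qm qf qΦ θ θf θ₀ θu θy μ W Λ δ) :
    LevB n rs ws G PA a b₀ d bs g θu θy W δ 0 0 θ₀ 1 := by
  intro i
  have hW := zero_le_one.trans h.one_le_W
  have hb : (0 : ℝ) ≤ 1 / b₀ := div_nonneg zero_le_one h.b₀_pos.le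
  refine ⟨⟨fun _ => |(0 : ℝ)|, sensLE_const (fun _ => abs_nonneg _) hb h.g_nn abs_zero fun _ => abs_zero,
    (((Smp.affine (b := bB θ₀ bs) (fun _ => (0 : ℝ)) (β := W * θu) (by simpa using sq_nonneg _))).mono
      le_rfl (fun _ => le_rfl) (mul_nonneg zero_le_one h.δ_nn)).congr fun V _ y => by
        simp [itB, iterS]⟩,
    ⟨Pi.single (.inr 2) 1, sensLE_const (fun s => by
        rcases eq_or_ne s (.inr 2) with rfl | hs <;> simp [*]) hb h.g_nn (by simp) (fun j => by simp),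
      ((smp_slotB (b := bB θ₀ bs) (.inr 2) (β := 3 * W * θy) (by simpa [bB] using sq_nonneg _)).mono
        le_rfl (fun _ => le_rfl) (mul_nonneg zero_le_one h.δ_nn)).congr fun V _ y => by
          simp [itB, iterS]⟩⟩

/-- The centre of the field at one iterate. -/
theorem smp_centre (h : BinderData n rs ws G PA a b₀ d b bs g S qm qf qΦ θ θf θ₀ θu θy μ W Λ δ)
    {k q : ℕ} {B Q Γ : ℝ} (hB : 0 ≤ B) (hBθ : B ≤ θ₀) (hQ : 2 ≤ Q ^ 2) (hQ0 : 0 < Q)
    (hΓ : 0 ≤ Γ) (hl : LevB n rs ws G PA a b₀ d bs g θu θy W δ k q B Γ) {ρ β : ℝ} (hρ0 : 0 ≤ ρ)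
    (hρ1 : ρ ≤ 1) (hβ : a * ((1 - ρ) * θ₀ + W * θu) ≤ β) (j : Fin (n + 1)) :
    ∃ L, (∀ s, 0 ≤ L s) ∧ L (.inr 0) ≤ 1 + Γ / b₀ * (a * g none) ∧
      (∀ l, L (.inl l) ≤ Γ / b₀ * (a * g (some l))) ∧
      Smp (d := d) (σ := σ ⊕ Fin 4) q (bB (B / Q) bs) L β (a * (Γ * δ))
        (fun V y => xB a y none + a • (ρ • (itB n rs ws V G PA a b₀ y k j).1)) := by
  obtain ⟨L, hL, hS⟩ := (hl j).1
  have ha := h.a_pos.le
  set c : σ ⊕ Fin 4 → ℝ := Sum.elim 0 ![1, -(a * (1 - ρ)), 0, 0] with hcdef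
  have h1 := Smp.affine (d := d) (b := bB B bs) c (β := a * ((1 - ρ) * B)) (by
    simp only [Fintype.sum_sum_type, Fin.sum_univ_four, hcdef, bB]
    simp
    refine pow_le_pow_left₀ ?_ ?_ 2 |> (le_trans (le_of_eq (sq_abs _).symm) ·)
    · exact abs_nonneg _
    · rw [abs_mul, abs_mul, abs_of_nonneg ha, abs_of_nonneg hB, abs_of_nonneg (sub_nonneg.2 hρ1),
        mul_assoc])
  have hsd : (a * ((1 - ρ) * B)) ^ 2 + ((-(a * ρ)) * (W * θu)) ^ 2 ≤ β ^ 2 := by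
    have hu := mul_nonneg (zero_le_one.trans h.one_le_W) h.θu_nn
    have e1 : ((-(a * ρ)) * (W * θu)) ^ 2 ≤ (a * (W * θu)) ^ 2 := by
      rw [mul_pow, neg_sq, ← mul_pow]
      exact pow_le_pow_left₀ (by positivity)
        (mul_le_mul_of_nonneg_right (mul_le_of_le_one_right ha hρ1) hu) 2
    have hB1 : 0 ≤ (1 - ρ) * B := mul_nonneg (sub_nonneg.2 hρ1) hB
    have e2 : (a * ((1 - ρ) * B)) ^ 2 + (a * (W * θu)) ^ 2
        ≤ (a * ((1 - ρ) * B) + a * (W * θu)) ^ 2 := by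
      nlinarith [mul_nonneg (mul_nonneg ha hB1) (mul_nonneg ha hu)]
    have e3 : (a * ((1 - ρ) * B) + a * (W * θu)) ^ 2 ≤ β ^ 2 :=
      pow_le_pow_left₀ (by positivity) (le_trans (by
        rw [← mul_add]
        exact mul_le_mul_of_nonneg_left
          (add_le_add (mul_le_mul_of_nonneg_left hBθ (sub_nonneg.2 hρ1)) le_rfl) ha) hβ) 2
    linarith
  have hcard : ((Fintype.card Bool : ℕ) : ℝ) ≤ Q ^ 2 := by simpa using hQ
  have h3 := h1.add (hS.smul (-(a * ρ))) (b := bB (B / Q) bs) (β'' := β)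
    (fun s => by simpa using bB_split (b := bs) (B := B) hQ0 hcard s)
    (fun s => by simpa using bB_split (b := bs) (B := B) hQ0 hcard s) hsd
  refine ⟨fun s => |c s| + |(-(a * ρ))| * L s,
    fun s => add_nonneg (abs_nonneg _) (mul_nonneg (abs_nonneg _) (hL.1 s)), ?_, fun l => ?_,
    ((Smp.mono (ρ' := a * (Γ * δ)) h3 (by simp) (fun _ => le_rfl) ?_).congr fun V _ y => ?_)⟩
  · simp only [hcdef, Sum.elim_inr, Matrix.cons_val_zero, abs_one, abs_neg]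
    rw [abs_of_nonneg (mul_nonneg ha hρ0)]
    refine add_le_add le_rfl ((mul_le_mul (mul_le_of_le_one_right ha hρ1) hL.2.1 (hL.1 _) ha).trans
      (le_of_eq (by ring)))
  · simp only [hcdef, Sum.elim_inl, Pi.zero_apply, abs_zero, zero_add, abs_neg]
    rw [abs_of_nonneg (mul_nonneg ha hρ0)]
    exact (mul_le_mul (mul_le_of_le_one_right ha hρ1) (hL.2.2 l) (hL.1 _) ha).trans
      (le_of_eq (by ring))
  · rw [zero_add, abs_neg, abs_of_nonneg (mul_nonneg ha hρ0)]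
    exact mul_le_mul_of_nonneg_right (mul_le_of_le_one_right ha hρ1) (mul_nonneg hΓ h.δ_nn)
  · simp only [Fintype.sum_sum_type, Fin.sum_univ_four, hcdef, Sum.elim_inl, Sum.elim_inr,
      Pi.zero_apply, zero_smul, Finset.sum_const_zero, xB, Option.elim_none]
    simp only [Matrix.cons_val_zero, Matrix.cons_val_one, Matrix.cons_val_two, Matrix.cons_val_three,
      Matrix.head_cons, Matrix.tail_cons, one_smul, zero_smul, zero_add, add_zero, smul_sub,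
      neg_smul, mul_sub, mul_one, sub_smul, smul_smul]
    abel

/-- The value of `fldB` in the coordinates of the field sampler. -/
theorem fldB_eq (V : Pt d → ℝ) (y : Inp d (σ ⊕ Fin 4)) (k : ℕ) (r : Fin R) (j : Fin (n + 1)) :
    fldB n rs ws G PA a b₀ V y k r j
      = b₀⁻¹ • ∫ ξ, PA.val V (fun o => o.elim
          ((xB a y none + a • (rs r • (itB n rs ws V G PA a b₀ y k j).1))
            + (a * √(1 - rs r ^ 2)) • ξ)
          fun p => p.elim (fun l => y (.inl l))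
            fun t => bif t then (itB n rs ws V G PA a b₀ y k j).2 else y (.inr 3)) ∂γ d := by
  simp only [fldB, phiB, ← integral_smul]
  congr 1
  funext ξ
  congr 2
  funext o
  rcases o with _ | p
  · simp [inpAdj, upd, smul_add, smul_smul, add_assoc]
  · rcases p with l | t
    · simp [inpAdj, upd, xB]
    · cases t <;> simp [inpAdj]

omit [DecidableEq σ] in
theorem bB_split' {τ : Type} [Fintype τ] {Q B B' : ℝ} (hb : ∀ j, 0 ≤ bs j) (hB' : 0 ≤ B')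
    (hQ : 0 < Q) (h : B' ≤ B / Q) (hτ : (Fintype.card τ : ℝ) ≤ Q ^ 2) (s : σ ⊕ Fin 4) :
    (Fintype.card τ : ℝ) * bB B' bs s ^ 2 ≤ bB B bs s ^ 2 := by
  refine le_trans (mul_le_mul_of_nonneg_left (pow_le_pow_left₀ (bB_nonneg hb hB' s) ?_ 2)
    (Nat.cast_nonneg _)) (bB_split hQ hτ s)
  rcases s with j | l
  · exact mul_le_mul_of_nonneg_left h (hb j)
  · fin_cases l <;> simp [bB, h]

omit [DecidableEq σ] in
theorem wt_xB_le (ha : 0 ≤ a) (ha1 : a ≤ 1) (y : Inp d (σ ⊕ Fin 4)) {u : E d} {ρ : ℝ} (hρ0 : 0 ≤ ρ)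
    (hρ1 : ρ ≤ 1) :
    ‖xB a y none + a • (ρ • u)‖ + ∑ l, ‖y (.inl l)‖
      ≤ ‖y (.inr 0)‖ + ‖y (.inr 1)‖ + ‖u‖ + ∑ l, ‖y (.inl l)‖ := by
  refine add_le_add ((norm_add_le _ _).trans (add_le_add ((norm_sub_le _ _).trans ?_) ?_)) le_rfl
  · rw [norm_smul, norm_eq_abs, abs_of_nonneg ha]
    exact add_le_add le_rfl (mul_le_of_le_one_left (norm_nonneg _) ha1)
  · rw [norm_smul, norm_smul, norm_eq_abs, norm_eq_abs, abs_of_nonneg ha, abs_of_nonneg hρ0]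
    exact (mul_le_of_le_one_left (by positivity) ha1).trans
      (mul_le_of_le_one_left (norm_nonneg _) hρ1)

omit [DecidableEq σ] in
theorem sum_norm_bB (y : Inp d (σ ⊕ Fin 4)) :
    wt y = √d + ∑ l, ‖y (.inl l)‖ +
      (‖y (.inr 0)‖ + ‖y (.inr 1)‖ + ‖y (.inr 2)‖ + ‖y (.inr 3)‖) := by
  simp [wt, Fintype.sum_sum_type, Fin.sum_univ_four, add_assoc]

/-- A programme sampler applied to a moved point and the other slots. -/
theorem smp_point (h : BinderData n rs ws G PA a b₀ d b bs g S qm qf qΦ θ θf θ₀ θu θy μ W Λ δ)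
    {k q q₁ : ℕ} {B B' Γ θ₁ Λ₁ β₁ ρ₁ ρ : ℝ} {Q : ℕ} (hB : 0 ≤ B) (hBθ : B ≤ θ₀) (hB' : 0 ≤ B')
    (hQ : 3 ≤ Q) (hσ : Fintype.card σ + 3 ≤ Q) (hB'Q : B' ≤ B / Q / Q) (hΓ : 0 ≤ Γ)
    (hθ₁ : (1 - ρ) * θ₀ + W * θu ≤ θ₁) (hτ₁ : ∀ l, bs l * θ₀ ≤ b l * θ₁) (hΛ₁ : 0 ≤ Λ₁) (hρ₁ : 0 ≤ ρ₁) (hCg : 0 ≤ Cg)
    {val : (Pt d → ℝ) → Inp d (Option σ) → E d}
    (hv : Smp (d := d) (σ := Option σ) q₁ (fun o => o.elim (a * θ₁) fun l => b l * θ₁)
      (fun o => Λ₁ * g o) β₁ ρ₁ val)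
    (hl : LevB n rs ws G PA a b₀ d bs g θu θy W δ k q B Γ)
    (hgrow : ∀ V, Mem (d := d) V → ∀ (y : Inp d (σ ⊕ Fin 4)) (i : Fin (n + 1)),
      ‖(itB n rs ws V G PA a b₀ y k i).1‖ + ‖(itB n rs ws V G PA a b₀ y k i).2‖ ≤ Cg * wt y)
    (hρ0 : 0 ≤ ρ) (hρ1 : ρ ≤ 1) (j : Fin (n + 1)) :
    ∃ L, SensLE L (Λ₁ * (1 + Γ / b₀ * (Λ * S))) g ∧
      Smp (d := d) (σ := σ ⊕ Fin 4) (q₁ + q) (bB B' bs) L β₁
        (ρ₁ * (1 + Cg) + Λ₁ * (Λ * S) * (Γ * δ))
        (fun V y => val V fun o => o.elim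
          (xB a y none + a • (ρ • (itB n rs ws V G PA a b₀ y k j).1)) fun l => y (.inl l)) := by
  have ha := h.a_pos.le
  have hb₀ : 0 ≤ Γ / b₀ := div_nonneg hΓ h.b₀_pos.le
  have hQ1 : (1 : ℝ) ≤ Q := by exact_mod_cast (show 1 ≤ Q by omega)
  have hQ2 : (2 : ℝ) ≤ (Q : ℝ) ^ 2 := by
    have : (3 : ℝ) ≤ Q := by exact_mod_cast hQ
    nlinarith
  obtain ⟨Lc, hLc, hLc0, hLc1, hc⟩ := smp_centre (h := h) (β := a * θ₁) hB hBθ hQ2 (by linarith) hΓ hl
    hρ0 hρ1 (mul_le_mul_of_nonneg_left hθ₁ ha) j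
  have hBQ : B / Q ≤ θ₀ := (div_le_self hB hQ1).trans hBθ
  have hcard : (Fintype.card (Option σ) : ℝ) ≤ (Q : ℝ) ^ 2 := by
    rw [Fintype.card_option]
    have : ((Fintype.card σ + 1 : ℕ) : ℝ) ≤ Q := by exact_mod_cast (by omega)
    nlinarith
  have hs := hv.subst (b := bB B' bs)
    (qi := fun t : Option σ => t.elim q fun _ => 0) (B := fun _ => bB (B / Q) bs)
    (L := fun t => t.elim Lc fun l => Pi.single (.inl l) 1)
    (ρi := fun t => t.elim (a * (Γ * δ)) fun _ => 0) (Γ := ρ₁ * (1 + Cg))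
    (g := fun t V y => t.elim (xB a y none + a • (ρ • (itB n rs ws V G PA a b₀ y k j).1))
      fun l => y (.inl l))
    (fun t => by
      cases t with
      | none => exact hc
      | some l =>
        exact smp_slotB _ (pow_le_pow_left₀ (bB_nonneg h.bs_nn (by positivity) _)
          (by simpa [bB] using (mul_le_mul_of_nonneg_left hBQ (h.bs_nn l)).trans (hτ₁ l)) 2))
    (fun _ s => bB_split' h.bs_nn hB' (by linarith) hB'Q hcard s)
    (fun o => mul_nonneg hΛ₁ (h.g_nn o)) (fun V hV y => by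
      rw [mul_assoc]
      refine mul_le_mul_of_nonneg_left ?_ hρ₁
      have h0 := hgrow V hV y j
      have h1 := wt_xB_le ha h.a_one y (u := (itB n rs ws V G PA a b₀ y k j).1) hρ0 hρ1
      have h2 := sum_norm_bB y
      simp only [wt, Fintype.sum_option, Option.elim_none, Option.elim_some] at h0 h2 ⊢
      nlinarith [norm_nonneg (itB n rs ws V G PA a b₀ y k j).2, norm_nonneg (y (.inr 2)),
        norm_nonneg (y (.inr 3))])
  have hL1 : ∀ t : σ ⊕ Fin 4, ∀ l, (0 : ℝ) ≤ (Pi.single (M := fun _ : σ ⊕ Fin 4 => ℝ) (.inl l) 1) t :=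
    fun t l => by rcases eq_or_ne t (.inl l) with rfl | ht <;> simp [*]
  refine ⟨_, ⟨fun s => ?_, ?_, fun l => ?_⟩,
    Smp.mono (ρ' := ρ₁ * (1 + Cg) + Λ₁ * (Λ * S) * (Γ * δ)) hs (by simp [Fintype.sum_option])
      (fun _ => le_rfl) ?_⟩
  · refine sum_nonneg fun t _ => mul_nonneg (mul_nonneg hΛ₁ (h.g_nn t)) ?_
    cases t with
    | none => exact hLc s
    | some l => exact hL1 s l
  · simp only [Fintype.sum_option, Option.elim_none, Option.elim_some]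
    simp only [Pi.single_apply, reduceCtorEq, if_false, mul_zero, Finset.sum_const_zero, add_zero]
    refine (mul_le_mul_of_nonneg_left hLc0 (mul_nonneg hΛ₁ (h.g_nn _))).trans ?_
    have := mul_le_mul_of_nonneg_left h.gain_none hb₀
    nlinarith [mul_le_mul_of_nonneg_left this (mul_nonneg hΛ₁ (h.g_nn none))]
  · simp only [Fintype.sum_option, Option.elim_none, Option.elim_some, Pi.single_apply, Sum.inl.injEq,
      mul_ite, mul_one, mul_zero, Finset.sum_ite_eq, mem_univ, if_true]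
    refine (add_le_add (mul_le_mul_of_nonneg_left (hLc1 l) (mul_nonneg hΛ₁ (h.g_nn _))) le_rfl).trans ?_
    have := mul_le_mul_of_nonneg_left h.gain_none (mul_nonneg hb₀ (h.g_nn (some l)))
    nlinarith [mul_le_mul_of_nonneg_left this hΛ₁]
  · simp only [Fintype.sum_option, Option.elim_none, Option.elim_some, mul_zero, sum_const_zero,
      add_zero]
    refine add_le_add le_rfl ?_
    nlinarith [mul_le_mul_of_nonneg_left h.gain_none
      (mul_nonneg hΛ₁ (mul_nonneg hΓ h.δ_nn))]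

/-- A unit of the noise. -/
theorem smp_unit (hb₀ : 0 < b₀) {q : ℕ} {B β ρ Γ : ℝ} {L : σ ⊕ Fin 4 → ℝ}
    {val : (Pt d → ℝ) → Inp d (σ ⊕ Fin 4) → E d} {g' : Option σ → ℝ} (hL : SensLE L Γ g')
    (h : Smp (d := d) (σ := σ ⊕ Fin 4) q (bB B bs) L β ρ val) :
    ∃ L', SensLE L' (Γ / b₀) g' ∧ Smp (d := d) (σ := σ ⊕ Fin 4) q (bB B bs) L' (β / b₀) (ρ / b₀)
      (fun V y => b₀⁻¹ • val V y) := by
  have hi : (0 : ℝ) ≤ b₀⁻¹ := (inv_pos.2 hb₀).le
  refine ⟨fun s => b₀⁻¹ * L s, ⟨fun s => mul_nonneg hi (hL.1 s), ?_, fun l => ?_⟩, ?_⟩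
  · exact (mul_le_mul_of_nonneg_left hL.2.1 hi).trans (le_of_eq (by ring))
  · exact (mul_le_mul_of_nonneg_left (hL.2.2 l) hi).trans (le_of_eq (by ring))
  · have := h.smul b₀⁻¹
    simpa [abs_of_pos hb₀, div_eq_inv_mul] using this

/-- The field at one iterate. -/
theorem smp_field (h : BinderData n rs ws G PA a b₀ d b bs g S qm qf qΦ θ θf θ₀ θu θy μ W Λ δ)
    {k q : ℕ} {B B' Γ : ℝ} {Q : ℕ} (hB : 0 ≤ B) (hBθ : B ≤ θ₀) (hB' : 0 ≤ B')
    (hQ : 3 ≤ Q) (hσ : Fintype.card σ + 3 ≤ Q) (hB'Q : B' ≤ B / Q / Q) (hΓ : 0 ≤ Γ) (hCg : 0 ≤ Cg)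
    (hl : LevB n rs ws G PA a b₀ d bs g θu θy W δ k q B Γ)
    (hgrow : ∀ V, Mem (d := d) V → ∀ (y : Inp d (σ ⊕ Fin 4)) (i : Fin (n + 1)),
      ‖(itB n rs ws V G PA a b₀ y k i).1‖ + ‖(itB n rs ws V G PA a b₀ y k i).2‖ ≤ Cg * wt y)
    (r : Fin R) (j : Fin (n + 1)) :
    ∃ L, SensLE L ((Λ * (1 + Cg) + 2 * Γ) / b₀) g ∧
      Smp (d := d) (σ := σ ⊕ Fin 4) (qΦ + (q + q)) (bB B' bs) L θu ((Λ * (1 + Cg) + 2 * Γ) * δ)
        (fun V y => fldB n rs ws G PA a b₀ V y k r j) := by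
  obtain ⟨hr0, hr1, hμ⟩ := h.mu_le r
  have ha := h.a_pos.le
  have hb₀ := h.b₀_pos
  have hΛ : 0 ≤ Λ := zero_le_one.trans h.one_le_Λ
  have hQ1 : (1 : ℝ) ≤ Q := by exact_mod_cast (show 1 ≤ Q by omega)
  have hQ2 : (2 : ℝ) ≤ (Q : ℝ) ^ 2 := by
    have : (3 : ℝ) ≤ Q := by exact_mod_cast hQ
    nlinarith
  have hθ := h.θ_nn
  obtain ⟨Lc, hLc, hLc0, hLc1, hc⟩ := smp_centre (h := h) (β := a * √(1 - rs r ^ 2) * θ) hB hBθ hQ2
    (by linarith) hΓ hl hr0 hr1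
    (by
      rw [mul_assoc]
      exact mul_le_mul_of_nonneg_left ((add_le_add (mul_le_of_le_one_left h.θ₀_nn (by linarith))
        le_rfl).trans (h.prec_x.trans (mul_le_mul_of_nonneg_right hμ hθ))) ha) j
  obtain ⟨LK, hLK, hK⟩ := (hl j).2
  have hBQ : B / Q ≤ θ := (div_le_self hB hQ1).trans (hBθ.trans h.θ₀_le)
  have hcard : (Fintype.card (Option (σ ⊕ Bool)) : ℝ) ≤ (Q : ℝ) ^ 2 := by
    rw [Fintype.card_option, Fintype.card_sum, Fintype.card_bool]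
    have : ((Fintype.card σ + 2 + 1 : ℕ) : ℝ) ≤ Q := by exact_mod_cast (by omega)
    nlinarith
  have hs := (h.hΦ r).subst (b := bB B' bs)
    (qi := fun t => t.elim q fun p => p.elim (fun _ => 0) fun c => bif c then q else 0)
    (B := fun t => t.elim (bB (B / Q) bs) fun p => p.elim (fun _ => bB (B / Q) bs)
      fun c => bif c then bB B bs else bB (B / Q) bs)
    (L := fun t => t.elim Lc fun p => p.elim (fun l => Pi.single (.inl l) 1)
      fun c => bif c then LK else Pi.single (.inr 3) 1)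
    (ρi := fun t => t.elim (a * (Γ * δ)) fun p => p.elim (fun _ => 0) fun c => bif c then Γ * δ else 0)
    (Γ := Λ * b₀ * δ * (1 + Cg))
    (g := fun t V y => t.elim (xB a y none + a • (rs r • (itB n rs ws V G PA a b₀ y k j).1))
      fun p => p.elim (fun l => y (.inl l))
        fun c => bif c then (itB n rs ws V G PA a b₀ y k j).2 else y (.inr 3))
    (fun t => by
      rcases t with _ | l | c
      · exact hc
      · exact smp_slotB (b := bB (B / Q) bs) (.inl l) (β := b l * θ)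
          (pow_le_pow_left₀ (bB_nonneg h.bs_nn (by positivity) _)
            (by simpa [bB] using le_trans (mul_le_mul_of_nonneg_left hBQ (h.bs_nn l)) (mul_le_mul_of_nonneg_right (h.bs_le l) hθ)) 2)
      · cases c
        · exact smp_slotB (b := bB (B / Q) bs) (.inr 3) (β := θ) (by simpa [bB] using sq_nonneg θ)
        · exact hK.noise (pow_le_pow_left₀
            (mul_nonneg (mul_nonneg (by norm_num) (zero_le_one.trans h.one_le_W)) h.θy_nn) h.prec_y 2))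
    (fun t s => by
      rcases t with _ | l | c
      · exact bB_split' h.bs_nn hB' (by linarith) hB'Q hcard s
      · exact bB_split' h.bs_nn hB' (by linarith) hB'Q hcard s
      · cases c
        · exact bB_split' h.bs_nn hB' (by linarith) hB'Q hcard s
        · exact bB_split' h.bs_nn hB' (by linarith)
            (hB'Q.trans (div_le_self (by positivity) hQ1)) hcard s)
    (fun o => by
      rcases o with _ | l | c
      exacts [mul_nonneg hΛ (h.g_nn _), mul_nonneg hΛ (h.g_nn _), mul_nonneg hΛ h.S_nn])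
    (fun V hV y => by
      rw [mul_assoc (Λ * b₀ * δ)]
      refine mul_le_mul_of_nonneg_left ?_ (mul_nonneg (mul_nonneg hΛ hb₀.le) h.δ_nn)
      have h0 := hgrow V hV y j
      have h1 := wt_xB_le ha h.a_one y (u := (itB n rs ws V G PA a b₀ y k j).1) hr0 hr1
      have h2 := sum_norm_bB y
      simp only [wt, Fintype.sum_option, Fintype.sum_sum_type, Fintype.sum_bool, Option.elim_none,
        Option.elim_some, Sum.elim_inl, Sum.elim_inr, cond_true, cond_false] at h0 h2 ⊢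
      nlinarith [norm_nonneg (y (.inr 2))])
  set Γ₀ := Λ * (1 + Cg) + 2 * Γ with hΓ₀
  have hg0 := mul_le_mul_of_nonneg_left h.gain (div_nonneg hΓ hb₀.le)
  rw [div_mul_cancel₀ _ hb₀.ne'] at hg0
  have hgn : Λ * (Γ / b₀) * (a * g none) ≤ Γ := by
    refine le_trans ?_ hg0
    nlinarith [mul_le_mul_of_nonneg_left h.gain_none (mul_nonneg hΛ (div_nonneg hΓ hb₀.le))]
  have hgS : Λ * S * (Γ / b₀) ≤ Γ := by
    refine le_trans ?_ hg0
    nlinarith [mul_le_mul_of_nonneg_left (le_mul_of_one_le_left (mul_nonneg hΛ h.S_nn) h.one_le_Λ)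
      (div_nonneg hΓ hb₀.le)]
  have hΛC : Λ ≤ Λ * (1 + Cg) := le_mul_of_one_le_right hΛ (by linarith)
  have hL1 : ∀ t u : σ ⊕ Fin 4, (0 : ℝ) ≤ (Pi.single (M := fun _ : σ ⊕ Fin 4 => ℝ) u 1) t :=
    fun t u => by rcases eq_or_ne t u with rfl | ht <;> simp [*]
  refine exists_imp.2 ?_ (smp_unit (g' := g) (Γ := Γ₀) hb₀ (L := _) ⟨fun s => ?_, ?_, fun l => ?_⟩
    (Smp.mono (ρ' := b₀ * (Γ₀ * δ)) hs (q' := qΦ + (q + q)) (by simp [Fintype.sum_option])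
      (fun _ => le_rfl) ?_))
  · rintro L' ⟨hL', hS'⟩
    refine ⟨L', hL', ?_⟩
    rw [mul_div_cancel_left₀ _ hb₀.ne', mul_div_cancel_left₀ _ hb₀.ne'] at hS'
    exact hS'.congr fun V _ y => (fldB_eq V y k r j).symm
  · refine sum_nonneg fun t _ => mul_nonneg ?_ ?_
    · rcases t with _ | l | c
      exacts [mul_nonneg hΛ (h.g_nn _), mul_nonneg hΛ (h.g_nn _), mul_nonneg hΛ h.S_nn]
    · rcases t with _ | l | c
      · exact hLc s
      · exact hL1 _ _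
      · cases c
        · exact hL1 _ _
        · exact hLK.1 s
  · simp only [Fintype.sum_option, Fintype.sum_sum_type, Fintype.sum_bool, Option.elim_none,
      Option.elim_some, Sum.elim_inl, Sum.elim_inr, cond_true, cond_false, Pi.single_apply,
      reduceCtorEq, if_false, mul_zero, Finset.sum_const_zero, zero_add, Sum.inr.injEq,
      show (0 : Fin 4) ≠ 3 by decide, add_zero]
    calc Λ * g none * Lc (.inr 0) + Λ * S * LK (.inr 0)
        ≤ Λ * g none * (1 + Γ / b₀ * (a * g none)) + Λ * S * (Γ / b₀ * g none) :=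
          add_le_add (mul_le_mul_of_nonneg_left hLc0 (mul_nonneg hΛ (h.g_nn _)))
            (mul_le_mul_of_nonneg_left hLK.2.1 (mul_nonneg hΛ h.S_nn))
      _ = (Λ + Λ * (Γ / b₀) * (a * g none) + Λ * S * (Γ / b₀)) * g none := by ring
      _ ≤ Γ₀ * g none := mul_le_mul_of_nonneg_right (by linarith) (h.g_nn _)
  · simp only [Fintype.sum_option, Fintype.sum_sum_type, Fintype.sum_bool, Option.elim_none,
      Option.elim_some, Sum.elim_inl, Sum.elim_inr, cond_true, cond_false, Pi.single_apply,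
      reduceCtorEq, if_false, Sum.inl.injEq, mul_ite, mul_one, mul_zero, Finset.sum_ite_eq, mem_univ,
      if_true, add_zero]
    calc Λ * g none * Lc (.inl l) + (Λ * g (some l) + Λ * S * LK (.inl l))
        ≤ Λ * g none * (Γ / b₀ * (a * g (some l))) + (Λ * g (some l) + Λ * S * (Γ / b₀ * g (some l))) :=
          add_le_add (mul_le_mul_of_nonneg_left (hLc1 l) (mul_nonneg hΛ (h.g_nn _))) (add_le_add le_rfl
            (mul_le_mul_of_nonneg_left (hLK.2.2 l) (mul_nonneg hΛ h.S_nn)))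
      _ = (Λ + Λ * (Γ / b₀) * (a * g none) + Λ * S * (Γ / b₀)) * g (some l) := by ring
      _ ≤ Γ₀ * g (some l) := mul_le_mul_of_nonneg_right (by linarith) (h.g_nn _)
  · simp only [Fintype.sum_option, Fintype.sum_sum_type, Fintype.sum_bool, Option.elim_none,
      Option.elim_some, Sum.elim_inl, Sum.elim_inr, cond_true, cond_false, mul_zero, sum_const_zero,
      zero_add, add_zero]
    calc Λ * b₀ * δ * (1 + Cg) + (Λ * g none * (a * (Γ * δ)) + Λ * S * (Γ * δ))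
        = (Λ * (1 + Cg) + Λ * (Γ / b₀) * (a * g none) + Λ * S * (Γ / b₀)) * (b₀ * δ) := by
          field_simp; ring
      _ ≤ Γ₀ * (b₀ * δ) := mul_le_mul_of_nonneg_right (by linarith)
          (mul_nonneg hb₀.le h.δ_nn)
      _ = b₀ * (Γ₀ * δ) := by ring


/-- One Picard step. -/
theorem levB_succ (h : BinderData n rs ws G PA a b₀ d b bs g S qm qf qΦ θ θf θ₀ θu θy μ W Λ δ)
    {k q : ℕ} {B Γ : ℝ} {Q : ℕ} (hB : 0 ≤ B) (hBθ : B ≤ θ₀) (hQ : 4 ≤ Q)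
    (hσ : Fintype.card σ + 3 ≤ Q) (hR : (n + 1) * R + 2 * (n + 1) ≤ Q) (hΓ : 1 ≤ Γ) (hCg : 0 ≤ Cg)
    (hl : LevB n rs ws G PA a b₀ d bs g θu θy W δ k q B Γ)
    (hgrow : ∀ V, Mem (d := d) V → ∀ (y : Inp d (σ ⊕ Fin 4)) (i : Fin (n + 1)),
      ‖(itB n rs ws V G PA a b₀ y k i).1‖ + ‖(itB n rs ws V G PA a b₀ y k i).2‖ ≤ Cg * wt y) :
    LevB n rs ws G PA a b₀ d bs g θu θy W δ (k + 1) (Q * (qm + qf + qΦ + (q + q)))
      (B / Q / Q / Q / Q) (2 * W * (Λ * (1 + Cg) + 2 * Γ) + 1) := by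
  intro i
  have hQ1 : (1 : ℝ) ≤ Q := by exact_mod_cast (show 1 ≤ Q by omega)
  have hQ0 : (0 : ℝ) < Q := by linarith
  have hW := zero_le_one.trans h.one_le_W
  have hΛ := zero_le_one.trans h.one_le_Λ
  have hb₀ := h.b₀_pos
  have hδ := h.δ_nn
  have hΓ0 : 0 ≤ Γ := zero_le_one.trans hΓ
  set Γ₀ := Λ * (1 + Cg) + 2 * Γ with hΓ₀
  have hΓ₀0 : 0 ≤ Γ₀ := by positivity
  set B₂ := B / Q / Q
  have hB₂ : 0 ≤ B₂ := by positivity
  have hsplit : ∀ (τ : Type) [Fintype τ] {B₁ B' : ℝ}, Fintype.card τ ≤ Q → 0 ≤ B' → B' ≤ B₁ / Q →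
      ∀ s : σ ⊕ Fin 4, (Fintype.card τ : ℝ) * bB B' bs s ^ 2 ≤ bB B₁ bs s ^ 2 :=
    fun τ _ B₁ B' hτ h0 h1 => bB_split' h.bs_nn h0 hQ0 h1
      (le_trans (show (Fintype.card τ : ℝ) ≤ (Q : ℝ) by exact_mod_cast hτ) (by nlinarith))
  constructor
  · -- the displacement
    choose L hL hS using fun p : Fin (n + 1) × Fin R =>
      smp_field (h := h) (Q := Q) hB hBθ hB₂ (by omega) hσ le_rfl hΓ0 hCg hl hgrow p.2 p.1
    set c := fun p : Fin (n + 1) × Fin R => wCol n i p.1 * ws p.2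
    have hc : ∑ p, |c p| ≤ W := by
      refine le_trans (le_of_eq ?_) (h.wc_le i).2
      rw [Fintype.sum_prod_type, sum_mul]
      exact sum_congr rfl fun j _ => by rw [mul_sum]; exact sum_congr rfl fun r _ => abs_mul _ _
    have hsum := Smp.sum (b := bB (B / Q / Q / Q / Q) bs) (β := W * θu) hS
      (fun _ => hsplit _ (by simp; omega) (by positivity) (div_le_div_of_nonneg_right
        (div_le_self hB₂ hQ1) hQ0.le)) c (by
        calc ∑ p, (c p * θu) ^ 2 = (∑ p, |c p| ^ 2) * θu ^ 2 := by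
              rw [sum_mul]; exact sum_congr rfl fun p _ => by rw [sq_abs]; ring
          _ ≤ (∑ p, |c p|) ^ 2 * θu ^ 2 :=
              mul_le_mul_of_nonneg_right (sum_sq_le_sq_sum_of_nonneg fun p _ => abs_nonneg _) (sq_nonneg _)
          _ ≤ W ^ 2 * θu ^ 2 := mul_le_mul_of_nonneg_right
              (pow_le_pow_left₀ (sum_nonneg fun p _ => abs_nonneg _) hc 2) (sq_nonneg _)
          _ = _ := by ring)
    refine ⟨fun s => ∑ p, |c p| * L p s, SensLE.comb (Γ := Γ₀ / b₀) h.g_nn hL _ (fun p => abs_nonneg _)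
      ?_, (Smp.mono hsum ?_ (fun _ => le_rfl) ?_).congr fun V _ y =>
        (itB_succ_fst n rs ws G PA a b₀ V y k i).symm⟩
    · rw [mul_div_assoc']
      refine div_le_div_of_nonneg_right ?_ hb₀.le
      nlinarith [mul_le_mul_of_nonneg_right hc hΓ₀0, mul_nonneg hW hΓ₀0]
    · calc ∑ _p : Fin (n + 1) × Fin R, (qΦ + (q + q)) = (n + 1) * R * (qΦ + (q + q)) := by simp
        _ ≤ Q * (qm + qf + qΦ + (q + q)) := Nat.mul_le_mul (by omega) (by omega)
    · calc ∑ p, |c p| * (Γ₀ * δ) = (∑ p, |c p|) * (Γ₀ * δ) := by rw [sum_mul]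
        _ ≤ W * (Γ₀ * δ) := mul_le_mul_of_nonneg_right hc (by positivity)
        _ ≤ _ := by nlinarith [mul_nonneg (mul_nonneg hW hΓ₀0) hδ]
  · -- the momentum
    have hθ₁ : (1 - 0) * θ₀ + W * θu ≤ θ := by rw [sub_zero, one_mul]; exact h.μθ_le
    have hθf : (1 - 1) * θ₀ + W * θu ≤ θf := by
      rw [sub_self, zero_mul, zero_add]
      linarith [h.prec_f, h.θ₀_nn]
    have hτ : ∀ l, bs l * θ₀ ≤ b l * θ := fun l =>
      mul_le_mul (h.bs_le l) h.θ₀_le h.θ₀_nn ((h.bs_nn l).trans (h.bs_le l))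
    have hτf : ∀ l, bs l * θ₀ ≤ b l * θf := fun l =>
      mul_le_mul (h.bs_le l) (by linarith [h.prec_f, mul_nonneg hW h.θu_nn]) h.θ₀_nn
        ((h.bs_nn l).trans (h.bs_le l))
    have hΓb : 0 ≤ Γ / b₀ := div_nonneg hΓ0 hb₀.le
    have hkey : Λ * (1 + Γ / b₀ * (Λ * S)) ≤ Γ₀ := by
      have h1 := mul_le_mul_of_nonneg_left h.gain hΓb
      rw [div_mul_cancel₀ _ hb₀.ne'] at h1
      nlinarith [mul_nonneg hΛ hCg]
    have hterm : ∀ p : Fin (n + 1) × Bool, ∃ L, SensLE L (Γ₀ / b₀) g ∧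
        Smp (d := d) (σ := σ ⊕ Fin 4) (qm + qf + q) (bB B₂ bs) L θy (Γ₀ * δ) (fun V y => b₀⁻¹ •
          bif p.2 then G.val V (upd a (xB a y) (itB n rs ws V G PA a b₀ y k p.1).1)
            else ∫ ξ, G.val V (upd a (xB a y) ξ) ∂γ d) := by
      intro p
      have fin : ∀ {q₁ : ℕ} {L₁ : σ ⊕ Fin 4 → ℝ} {v : (Pt d → ℝ) → Inp d (σ ⊕ Fin 4) → E d},
          SensLE L₁ (Λ * (1 + Γ / b₀ * (Λ * S))) g → q₁ ≤ qm + qf + q →
          Smp (d := d) (σ := σ ⊕ Fin 4) q₁ (bB B₂ bs) L₁ (b₀ * θy)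
            (Λ * b₀ * δ * (1 + Cg) + Λ * (Λ * S) * (Γ * δ)) v →
          ∃ L, SensLE L (Γ₀ / b₀) g ∧ Smp (d := d) (σ := σ ⊕ Fin 4) (qm + qf + q) (bB B₂ bs) L θy
            (Γ₀ * δ) (fun V y => b₀⁻¹ • v V y) := by
        intro q₁ L₁ v hL₁ hq hv
        obtain ⟨L', hL', hS'⟩ := smp_unit hb₀ (Γ := Γ₀) (ρ := b₀ * (Γ₀ * δ))
          ⟨hL₁.1, hL₁.2.1.trans (mul_le_mul_of_nonneg_right hkey (h.g_nn _)),
            fun l => (hL₁.2.2 l).trans (mul_le_mul_of_nonneg_right hkey (h.g_nn _))⟩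
          (Smp.mono hv hq (fun _ => le_rfl) (by
            have h1 := mul_le_mul_of_nonneg_right h.gain (mul_nonneg hΓ0 hδ)
            nlinarith [mul_nonneg (mul_nonneg hb₀.le hΓ0) hδ]))
        rw [mul_div_cancel_left₀ _ hb₀.ne', mul_div_cancel_left₀ _ hb₀.ne'] at hS'
        exact ⟨L', hL', hS'⟩
      obtain ⟨j, c⟩ := p
      cases c
      · obtain ⟨L₁, hL₁, hS₁⟩ := smp_point (h := h) (Cg := Cg) (ρ := 0) (B' := B₂) (Q := Q) hB hBθ
          hB₂ (by omega) hσ le_rfl hΓ0 hθ₁ hτ hΛ (by positivity) hCg h.hm hl hgrow le_rfl zero_le_one j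
        refine fin hL₁ (by omega) (hS₁.congr fun V _ y => ?_)
        simp only [cond_false]
        congr 1
        funext ξ
        congr 1
        funext o
        cases o <;> simp [upd, xB]
      · obtain ⟨L₁, hL₁, hS₁⟩ := smp_point (h := h) (Cg := Cg) (ρ := 1) (B' := B₂) (Q := Q) hB hBθ
          hB₂ (by omega) hσ le_rfl hΓ0 hθf hτf hΛ (by positivity) hCg h.hf hl hgrow zero_le_one le_rfl j
        refine fin hL₁ (by omega) (hS₁.congr fun V _ y => ?_)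
        simp only [cond_true]
        congr 1
        funext o
        cases o <;> simp [upd, xB]
    choose L hL hS using hterm
    set c := fun p : Fin (n + 1) × Bool => bif p.2 then wCol n i p.1 else -wCol n i p.1
    have hc : ∑ p, |c p| ≤ 2 * W := by
      have e : ∑ p, |c p| = 2 * ∑ j, |wCol n i j| := by
        simp [c, Fintype.sum_prod_type, Finset.mul_sum, two_mul]
      rw [e]; linarith [(h.wc_le i).1]
    have hsum := Smp.sum (b := bB (B / Q / Q / Q) bs) (β := 2 * W * θy) hS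
      (fun _ => hsplit _ (by simp; omega) (by positivity) le_rfl) c (by
        calc ∑ p, (c p * θy) ^ 2 = (∑ p, |c p| ^ 2) * θy ^ 2 := by
              rw [sum_mul]; exact sum_congr rfl fun p _ => by rw [sq_abs]; ring
          _ ≤ (∑ p, |c p|) ^ 2 * θy ^ 2 :=
              mul_le_mul_of_nonneg_right (sum_sq_le_sq_sum_of_nonneg fun p _ => abs_nonneg _) (sq_nonneg _)
          _ ≤ (2 * W) ^ 2 * θy ^ 2 := mul_le_mul_of_nonneg_right
              (pow_le_pow_left₀ (sum_nonneg fun p _ => abs_nonneg _) hc 2) (sq_nonneg _)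
          _ = _ := by ring)
    have hY := smp_slotB (d := d) (b := bB (B / Q / Q / Q) bs) (.inr 2) (β := 0) (by simp [bB])
    have hadd := hY.add hsum (b := bB (B / Q / Q / Q / Q) bs) (β'' := 3 * W * θy)
      (fun s => by simpa using hsplit Bool (by simp; omega) (by positivity) le_rfl s)
      (fun s => by simpa using hsplit Bool (by simp; omega) (by positivity) le_rfl s)
      (by nlinarith [mul_nonneg hW h.θy_nn, sq_nonneg (W * θy)])
    refine ⟨fun s => Pi.single (M := fun _ : σ ⊕ Fin 4 => ℝ) (.inr 2) 1 s + ∑ p, |c p| * L p s,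
      ⟨fun s => ?_, ?_, fun l => ?_⟩, (Smp.mono hadd ?_ (fun _ => le_rfl) ?_).congr fun V _ y => ?_⟩
    · refine add_nonneg ?_ (sum_nonneg fun p _ => mul_nonneg (abs_nonneg _) ((hL p).1 s))
      rcases eq_or_ne s (.inr 2) with rfl | hs <;> simp [*]
    · simp only [Pi.single_apply, Sum.inr.injEq, show (0 : Fin 4) ≠ 2 by decide, if_false, zero_add]
      refine (SensLE.comb (Γ' := (2 * W * Γ₀ + 1) / b₀) h.g_nn hL (fun p => |c p|) (fun p => abs_nonneg _)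
        ?_).2.1
      rw [mul_div_assoc']
      exact div_le_div_of_nonneg_right (by nlinarith) hb₀.le
    · simp only [Pi.single_apply, reduceCtorEq, if_false, zero_add]
      refine (SensLE.comb (Γ' := (2 * W * Γ₀ + 1) / b₀) h.g_nn hL (fun p => |c p|) (fun p => abs_nonneg _)
        ?_).2.2 l
      rw [mul_div_assoc']
      exact div_le_div_of_nonneg_right (by nlinarith) hb₀.le
    · calc 0 + ∑ _p : Fin (n + 1) × Bool, (qm + qf + q) = (n + 1) * 2 * (qm + qf + q) := by simp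
        _ ≤ Q * (qm + qf + qΦ + (q + q)) := Nat.mul_le_mul (by omega) (by omega)
    · calc 0 + ∑ p, |c p| * (Γ₀ * δ) = (∑ p, |c p|) * (Γ₀ * δ) := by rw [sum_mul, zero_add]
        _ ≤ 2 * W * (Γ₀ * δ) := mul_le_mul_of_nonneg_right hc (by positivity)
        _ ≤ _ := by nlinarith
    · rw [itB_succ_snd, one_smul]

/-- All levels, with one budget. -/
theorem levB_all (h : BinderData n rs ws G PA a b₀ d b bs g S qm qf qΦ θ θf θ₀ θu θy μ W Λ δ) {K : ℕ}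
    {Q : ℕ} (hQ : 4 ≤ Q) (hσ : Fintype.card σ + 3 ≤ Q) (hR : (n + 1) * R + 2 * (n + 1) ≤ Q)
    (hCg : 0 ≤ Cg)
    (hgrow : ∀ V, Mem (d := d) V → ∀ k < K, ∀ (y : Inp d (σ ⊕ Fin 4)) (i : Fin (n + 1)),
      ‖(itB n rs ws V G PA a b₀ y k i).1‖ + ‖(itB n rs ws V G PA a b₀ y k i).2‖ ≤ Cg * wt y) :
    ∀ k ≤ K, LevB n rs ws G PA a b₀ d bs g θu θy W δ k ((Q ^ (3 * k)) * (qm + qf + qΦ))
      (θ₀ / ((Q : ℝ) ^ (4 * k))) ((8 * W * Λ * (1 + Cg)) ^ k) := by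
  have hW := h.one_le_W
  have hΛ := h.one_le_Λ
  have hF : 1 ≤ 8 * W * Λ * (1 + Cg) := by
    have : 1 ≤ W * Λ := one_le_mul_of_one_le_of_one_le hW hΛ
    nlinarith [mul_nonneg (zero_le_one.trans this) hCg]
  intro k
  induction k with
  | zero =>
    intro _ i
    obtain ⟨⟨L, hL, hS⟩, L', hL', hS'⟩ := levB_zero h i
    simp only [mul_zero, pow_zero, one_mul, div_one]
    exact ⟨⟨L, hL, hS.mono (Nat.zero_le _) (fun _ => le_rfl) (by simp)⟩,
      L', hL', hS'.mono (Nat.zero_le _) (fun _ => le_rfl) (by simp)⟩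
  | succ k ih =>
    intro hk i
    have hQ1 : (1 : ℝ) ≤ Q := by exact_mod_cast (show 1 ≤ Q by omega)
    have hΓ : 1 ≤ (8 * W * Λ * (1 + Cg)) ^ k := one_le_pow₀ hF
    have hB : θ₀ / (Q : ℝ) ^ (4 * k) ≤ θ₀ := div_le_self h.θ₀_nn (one_le_pow₀ hQ1)
    have e : θ₀ / (Q : ℝ) ^ (4 * k) / Q / Q / Q / Q = θ₀ / (Q : ℝ) ^ (4 * (k + 1)) := by
      rw [div_div, div_div, div_div, div_div, show 4 * (k + 1) = 4 * k + 4 by ring, pow_add]
      ring
    obtain ⟨⟨L, hL, hS⟩, L', hL', hS'⟩ := levB_succ (h := h)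
      (div_nonneg h.θ₀_nn (pow_nonneg (Nat.cast_nonneg Q) _)) hB hQ hσ hR hΓ hCg (ih (by omega))
      (fun V hV => hgrow V hV k (by omega)) i
    rw [e] at hS hS'
    set q₀ := qm + qf + qΦ
    have hq : Q * (q₀ + (Q ^ (3 * k) * q₀ + Q ^ (3 * k) * q₀)) ≤ Q ^ (3 * (k + 1)) * q₀ := by
      have h1 : 1 ≤ Q ^ (3 * k) := Nat.one_le_pow _ _ (by omega)
      have h3 : 3 ≤ Q * Q := le_trans (by omega) (Nat.le_mul_self Q)
      calc Q * (q₀ + (Q ^ (3 * k) * q₀ + Q ^ (3 * k) * q₀))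
          ≤ Q * (3 * (Q ^ (3 * k) * q₀)) := Nat.mul_le_mul le_rfl (by nlinarith)
        _ ≤ Q * (Q * Q * (Q ^ (3 * k) * q₀)) := Nat.mul_le_mul le_rfl (Nat.mul_le_mul h3 le_rfl)
        _ = _ := by ring
    have hΓ' : 2 * W * (Λ * (1 + Cg) + 2 * (8 * W * Λ * (1 + Cg)) ^ k) + 1
        ≤ (8 * W * Λ * (1 + Cg)) ^ (k + 1) := by
      rw [pow_succ']
      set P := (8 * W * Λ * (1 + Cg)) ^ k
      have hWL : 1 ≤ W * (Λ * (1 + Cg)) := one_le_mul_of_one_le_of_one_le hW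
        (one_le_mul_of_one_le_of_one_le hΛ (by linarith))
      have h1 : W ≤ W * (Λ * (1 + Cg)) := le_mul_of_one_le_right (zero_le_one.trans hW)
        (one_le_mul_of_one_le_of_one_le hΛ (by linarith))
      nlinarith [mul_le_mul_of_nonneg_left hΓ (zero_le_one.trans hWL),
        mul_le_mul_of_nonneg_right h1 (zero_le_one.trans hΓ)]
    refine ⟨⟨L, ⟨hL.1, hL.2.1.trans ?_, fun l => (hL.2.2 l).trans ?_⟩,
        hS.mono hq (fun _ => le_rfl) (mul_le_mul_of_nonneg_right hΓ' h.δ_nn)⟩,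
      L', ⟨hL'.1, hL'.2.1.trans ?_, fun l => (hL'.2.2 l).trans ?_⟩,
        hS'.mono hq (fun _ => le_rfl) (mul_le_mul_of_nonneg_right hΓ' h.δ_nn)⟩
    all_goals
      exact mul_le_mul_of_nonneg_right (div_le_div_of_nonneg_right hΓ' h.b₀_pos.le) (h.g_nn _)

/-- The output of the binder. -/
theorem smp_outB (h : BinderData n rs ws G PA a b₀ d b bs g S qm qf qΦ θ θf θ₀ θu θy μ W Λ δ) {k q qo : ℕ}
    {B Γ θt Λt βo βt ρo : ℝ} {Q : ℕ} (hB : 0 ≤ B) (hBθ : B ≤ θ₀) (hQ : 4 ≤ Q)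
    (hσ : Fintype.card σ + 3 ≤ Q) (hn : n + 2 ≤ Q) (hΓ : 0 ≤ Γ) (hΓg : Γ * (Λ * S) ≤ b₀)
    (hθt : W * θu ≤ θt) (hτt : ∀ l, bs l * θ₀ ≤ b l * θt) (hΛt : 0 ≤ Λt) (hρo : 0 ≤ ρo) (hCg : 0 ≤ Cg)
    (hli : ∑ j, |li (eqNode n 0 1) 0 1 j| ≤ W) (hβ : (W * βo) ^ 2 ≤ βt ^ 2)
    (hl : LevB n rs ws G PA a b₀ d bs g θu θy W δ k q B Γ)
    (hgrow : ∀ V, Mem (d := d) V → ∀ (y : Inp d (σ ⊕ Fin 4)) (i : Fin (n + 1)),
      ‖(itB n rs ws V G PA a b₀ y k i).1‖ + ‖(itB n rs ws V G PA a b₀ y k i).2‖ ≤ Cg * wt y)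
    (ho : Smp (d := d) (σ := Option σ) qo (fun o => o.elim (a * θt) fun l => b l * θt)
      (fun o => Λt * g o) βo ρo (fun V x => G.val V x)) :
    ∃ L, SensLE L (2 * W * Λt) g ∧
      Smp (d := d) (σ := σ ⊕ Fin 4) ((n + 1) * (qo + q)) (bB (B / Q / Q / Q / Q) bs) L βt
        (W * (ρo * (1 + Cg) + Λt * (Λ * S) * (Γ * δ))) (fun V y => outB n rs ws V G PA a b₀ y k) := by
  have hQ1 : (1 : ℝ) ≤ Q := by exact_mod_cast (show 1 ≤ Q by omega)
  have hQ0 : (0 : ℝ) < Q := by linarith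
  have hW := zero_le_one.trans h.one_le_W
  have hb₀ := h.b₀_pos
  have hδ := h.δ_nn
  have hΛ := zero_le_one.trans h.one_le_Λ
  set B₂ := B / Q / Q
  have hB₂ : 0 ≤ B₂ := by positivity
  have hS0 : 0 ≤ Λt * (Λ * S) * (Γ * δ) :=
    mul_nonneg (mul_nonneg hΛt (mul_nonneg hΛ h.S_nn)) (mul_nonneg hΓ hδ)
  choose L hL hS using fun j : Fin (n + 1) =>
    smp_point (h := h) (Cg := Cg) (ρ := 1) (B' := B₂) (Q := Q) hB hBθ hB₂ (by omega) hσ le_rfl hΓ
      (by rw [sub_self, zero_mul, zero_add]; exact hθt) hτt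
      hΛt hρo hCg ho hl hgrow zero_le_one le_rfl j
  set c := fun j : Fin (n + 1) => li (eqNode n 0 1) 0 1 j
  have hsplit : ∀ (τ : Type) [Fintype τ] {B₁ B' : ℝ}, Fintype.card τ ≤ Q → 0 ≤ B' → B' ≤ B₁ / Q →
      ∀ s : σ ⊕ Fin 4, (Fintype.card τ : ℝ) * bB B' bs s ^ 2 ≤ bB B₁ bs s ^ 2 :=
    fun τ _ B₁ B' hτ h0 h1 => bB_split' h.bs_nn h0 hQ0 h1
      (le_trans (show (Fintype.card τ : ℝ) ≤ (Q : ℝ) by exact_mod_cast hτ) (by nlinarith))
  have hsum := Smp.sum (b := bB (B / Q / Q / Q) bs) (β := W * βo) hS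
    (fun _ => hsplit _ (by simp; omega) (by positivity) le_rfl) c (by
      calc ∑ p, (c p * βo) ^ 2 = (∑ p, |c p| ^ 2) * βo ^ 2 := by
            rw [sum_mul]; exact sum_congr rfl fun p _ => by rw [sq_abs]; ring
        _ ≤ (∑ p, |c p|) ^ 2 * βo ^ 2 :=
            mul_le_mul_of_nonneg_right (sum_sq_le_sq_sum_of_nonneg fun p _ => abs_nonneg _) (sq_nonneg _)
        _ ≤ W ^ 2 * βo ^ 2 := mul_le_mul_of_nonneg_right
            (pow_le_pow_left₀ (sum_nonneg fun p _ => abs_nonneg _) hli 2) (sq_nonneg _)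
        _ = _ := by ring)
  have hY := (smp_slotB (d := d) (b := bB (B / Q / Q / Q) bs) (.inr 2) (β := 0) (by simp [bB])).smul b₀
  have hadd := hY.add hsum (b := bB (B / Q / Q / Q / Q) bs) (β'' := βt)
    (fun s => by simpa using hsplit Bool (by simp; omega) (by positivity) le_rfl s)
    (fun s => by simpa using hsplit Bool (by simp; omega) (by positivity) le_rfl s)
    (by simpa using hβ)
  have hfac : Λt * (1 + Γ / b₀ * (Λ * S)) ≤ 2 * Λt := by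
    have : Γ / b₀ * (Λ * S) ≤ 1 := by rw [div_mul_eq_mul_div, div_le_one hb₀]; exact hΓg
    nlinarith
  have hcomb := SensLE.comb (Γ' := 2 * W * Λt) h.g_nn hL (fun j => |c j|) (fun j => abs_nonneg _) (by
    calc (∑ j, |c j|) * (Λt * (1 + Γ / b₀ * (Λ * S))) ≤ W * (2 * Λt) := by
          have : 0 ≤ Γ / b₀ * (Λ * S) :=
            mul_nonneg (div_nonneg hΓ hb₀.le) (mul_nonneg hΛ h.S_nn)
          exact mul_le_mul hli hfac (by positivity) hW
      _ = _ := by ring)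
  refine ⟨fun s => |b₀| * Pi.single (M := fun _ : σ ⊕ Fin 4 => ℝ) (.inr 2) 1 s + ∑ j, |c j| * L j s,
    ⟨fun s => ?_, ?_, fun l => ?_⟩, (Smp.mono hadd (by simp) (fun _ => le_rfl) ?_).congr fun V _ y => ?_⟩
  · refine add_nonneg (mul_nonneg (abs_nonneg _) ?_) (hcomb.1 s)
    rcases eq_or_ne s (.inr 2) with rfl | hs <;> simp [*]
  · simpa [show (0 : Fin 4) ≠ 2 by decide] using hcomb.2.1
  · simpa using hcomb.2.2 l
  · rw [mul_zero, zero_add, ← sum_mul]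
    exact mul_le_mul_of_nonneg_right hli (add_nonneg (mul_nonneg hρo (by linarith)) hS0)
  · simp only [outB, outS, smul_add, Finset.smul_sum, fB]
    congr 1
    refine sum_congr rfl fun j _ => ?_
    rw [smul_comm b₀ (c j), smul_smul b₀ b₀⁻¹, mul_inv_cancel₀ hb₀.ne']
    simp only [one_smul]
    congr 2


end

end Vale.Agent.P347.Zero
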