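import Vale.Agent.P347.Zero.BinderSamplers
import Vale.Agent.P347.Zero.BinderPar

/-!
# P347, exponent 0: the binder data of one dimension
-/

namespace Vale.Agent.P347.Zero

open MeasureTheory Real Finset
open Vale.Agent.P347.Quarter (E γ)
open Vale.Agent.P347.Colour (Pt)

noncomputable section

variable {d : ℕ} {σ : Type} [Fintype σ] [DecidableEq σ]

/-- A lower bound for the radius of the field. -/
theorem mu_le_sqrt {η : ℝ} (hd : 1 ≤ (d : ℝ)) {C : ℝ} {N : ℕ} {cN r : ℝ} (hC : 1 ≤ C) (hN : 1 ≤ N)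
    (hN' : (N : ℝ) ≤ 2 * qp η d (-cN)) (hCd : 2 * C ≤ qp η d (-1)) (hr0 : 0 ≤ r)
    (hr : r ≤ 1 - 1 / (C * N)) :
    r ≤ 1 ∧ qp η d (cN + 1) ≤ √(1 - r ^ 2) := by
  have hd0 : (0 : ℝ) < d := by linarith
  have hN0 : (1 : ℝ) ≤ N := by exact_mod_cast hN
  have hCN : 0 < C * N := by positivity
  have h1 : 0 ≤ 1 / (C * N) := div_nonneg zero_le_one hCN.le
  have hr1 : r ≤ 1 := by linarith
  refine ⟨hr1, le_trans ?_ (le_trans (show 1 - r ^ 2 ≤ √(1 - r ^ 2) from ?_) le_rfl)⟩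
  · refine le_trans ?_ (show 1 / (C * N) ≤ 1 - r ^ 2 by nlinarith)
    rw [le_div_iff₀ hCN]
    have h2 : C * N ≤ qp η d (-1) * qp η d (-cN) := by
      have := mul_le_mul_of_nonneg_left hN' (zero_le_one.trans hC)
      have h3 := mul_le_mul_of_nonneg_right hCd (qp_nonneg (η := η) (d := d) (-cN))
      nlinarith
    refine (mul_le_mul_of_nonneg_left h2 (qp_nonneg _)).trans (le_of_eq ?_)
    rw [qp_add hd0, qp_add hd0, show cN + 1 + (-1 + -cN) = 0 by ring, qp_zero]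
  · refine Real.le_sqrt_of_sq_le ?_
    have : 0 ≤ 1 - r ^ 2 := by nlinarith
    nlinarith

/-- The pair `gain_none`, `gain` of the binder data. -/
theorem step_gain {ε η A α a β Z : ℝ} {M D : ℕ} {P : SE} (hP : P.Pos) (hη : 0 < η)
    (hbig : P.Big ε η A M Z d) {G : Prog (Option σ)} {b : σ → ℝ} (ha : 0 < a) (hb : ∀ j, 0 ≤ b j)
    (hdep : G.depth ≤ D)
    (hG : G.Adm ((d : ℝ) ^ (-ε)) ((d : ℝ) ^ (-α * η)) (eAt ε η P.m d)
      (fun o => o.elim (a * qp η d P.κin) b) β) (hS : 0 < topS G)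
    (z6 : (5 : ℝ) ^ D ≤ Z) (z2 : 2 ≤ Z) :
    a * topG (eAt ε η P.m d) G none ≤ qp η d (-P.Le) * topS G ∧
      qp η d (-P.Le) * (qp η d (-P.Le) * topS G) ≤ topS G / (2 * eAt ε η P.m d) := by
  have hd := hbig.d_one
  have hd0 : (0 : ℝ) < d := by linarith
  have hZ := hbig.Z_le
  have he := eAt_pos (ε := ε) (η := η) hd0 P.m
  constructor
  · have h5 : topG (eAt ε η P.m d) G none * (a * qp η d P.κin) ≤ qp η d (-1) * topS G := by
      have := Prog.grs_blur_top he (b := fun o => o.elim (a * qp η d P.κin) b)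
        (fun o => by cases o <;> simp [hb, mul_nonneg ha.le (qp_nonneg _)]) hG none
      simp only [Option.elim_none, ← sum_mul] at this
      exact this.trans (mul_le_mul_of_nonneg_right
        (((pow_le_pow_right₀ (by norm_num) hdep).trans z6).trans hZ) hS.le)
    calc a * topG (eAt ε η P.m d) G none
        = topG (eAt ε η P.m d) G none * (a * qp η d P.κin) * qp η d (-P.κin) := by
          rw [mul_assoc, mul_assoc a, qp_add hd0, add_neg_cancel, qp_zero]; ring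
      _ ≤ qp η d (-1) * topS G * qp η d (-P.κin) := mul_le_mul_of_nonneg_right h5 (qp_nonneg _)
      _ ≤ qp η d (-P.Le) * topS G := by
          rw [mul_right_comm, qp_add hd0]
          exact mul_le_mul_of_nonneg_right (qp_le hd hη.le (by
            unfold SE.Le; linarith [hP.s, hP.c₁])) hS.le
  · have h1 : 2 * eAt ε η P.m d * (qp η d (-P.Le) * qp η d (-P.Le)) ≤ 1 := by
      rw [qp_add hd0, show -P.Le + -P.Le = -(2 * P.Le) by ring]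
      exact le_trans (mul_le_mul_of_nonneg_right (mul_le_mul_of_nonneg_right
        (z2) he.le) (qp_nonneg _)) (hbig.lam.trans hbig.third_one)
    rw [le_div_iff₀ (by positivity)]
    nlinarith [mul_le_mul_of_nonneg_left h1 hS.le]

/-- The field sampler at one radius, with one number of queries. -/
theorem step_field {ε η A α a S Z CA CB₂ Cn₂ cB cn₂ ρ : ℝ} {M D₂ : ℕ} {P : SE} (hP : P.Pos)
    (hη : 0 < η) (hbig : P.Big ε η A M Z d) {g : Option σ → ℝ}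
    {PA : Prog (Option (σ ⊕ Bool))} {b : σ → ℝ}
    (hBΦ : BinderAt ε A D₂ (α + P.c₁) P.c₁ P.c₁ P.κB P.mΦ P.κn₂ cB η CA CB₂ d)
    (hn₂ : NodeAt ε A (α + P.c₁) P.κn₂ (P.mΦ + 1 / 2) cn₂ η Cn₂ d)
    (hCA : 1 ≤ CA) (hCB₂ : 1 ≤ CB₂) (z2 : CB₂ * (2 * max Cn₂ 1 + 1) * CA * CA * (D₂ + 3) ≤ Z)
    (z4 : 2 * CA ≤ Z) (hcard : (Fintype.card (Option (σ ⊕ Bool)) : ℝ) ≤ qp η d (-1))
    (hσB : Fintype.card (σ ⊕ Bool) ≤ D₂) (ha : 0 < a) (ha1 : a ≤ 1) (hρ : 0 < ρ) (hρ1 : ρ ≤ 1)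
    (hb : ∀ j, 0 ≤ b j) (hS : 0 ≤ S) (hg : ∀ o, 0 ≤ g o)
    (hPlin : ∀ o, PA.lin o = 0) (hPdep : PA.depth ≤ D₂)
    (hPsize : (PA.size : ℝ) ≤ CA * qp η d (-P.c₁)) (hPgr : PA.Grow d (CA * qp η d (-P.c₁)))
    (hPS : topS PA ≤ CA * qp η d (-P.c₁) * S)
    (hPadm : PA.Adm ((d : ℝ) ^ (-ε)) ((d : ℝ) ^ (-(α + P.c₁) * η)) (eAt ε η P.mΦ d)
      (bAdj a (qp η d P.c₁) b) (topS PA / eAt ε η P.mΦ d))
    (hPg : ∀ o : Option σ, topG (eAt ε η P.mΦ d) PA (o.elim none fun j => some (.inl j))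
      ≤ CA * qp η d (-P.c₁) * g o)
    (hPk : ∀ k : Bool, topG (eAt ε η P.mΦ d) PA (some (.inr k)) ≤ CA * qp η d (-P.c₁) * S) :
    Smp (d := d) (σ := Option (σ ⊕ Bool))
      ⌊CB₂ * CA * max Cn₂ 1 * qp η d (-(P.c₁ + cn₂)) + CB₂ * qp η d (-cB)⌋₊
      (fun o => o.elim (a * ρ * qp η d P.θe) fun q => q.elim (fun j => b j * qp η d P.θe)
        fun _ => qp η d P.θe)
      (fun o => o.elim (qp η d (-P.Le) * g none) fun q => q.elim
        (fun j => qp η d (-P.Le) * g (some j)) fun _ => qp η d (-P.Le) * S)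
      (S / (2 * eAt ε η P.m d) * qp η d P.ue) (qp η d (-P.Le) * S * (d : ℝ) ^ (-A))
      (fun V z => ∫ ξ, PA.val V
        (fun o => o.elim (z none + (a * ρ) • ξ) fun q => z (some q)) ∂γ d) := by
  have hZ := hbig.Z_le
  obtain ⟨q, hq, hs⟩ := smp_hPhi (g := g) (ue := P.ue) (θe := P.θe)
    (Le := P.Le) (m := P.m) (ρ := ρ) hbig.d_one hη.le hBΦ hn₂ hP.κn₂ hP.κB hP.c₁ le_rfl
    (by unfold SE.θe; linarith [hP.κm, hP.κn]) (by unfold SE.Le; linarith [hP.κin, hP.s])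
    hCB₂ hCA hS (z4.trans hZ) hcard (z2.trans hZ) hσB ha ha1 hρ hρ1 hb hPlin hPdep hPsize hPgr hPS
    hPadm hg hPg hPk
  exact hs.mono (Nat.le_floor hq) (fun _ => le_rfl) le_rfl

/-- The number of queries of the inner samplers. -/
def stepQ (CB₁ CB₂ CA Cs Cn₁ Cn₂ Cn₃ : ℝ) : ℝ :=
  CB₁ * Cs * max Cn₁ 1 + CB₁ + 2 * Cs * Cs * max Cn₃ 1 + CB₂ * CA * max Cn₂ 1 + CB₂

theorem step_data {ε η A α a β Γ Z W Cid Cs CA CB₁ CB₂ Cn₁ Cn₂ Cn₃ cm cB cn₁ cn₂ cn₃ : ℝ}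
    {M N D D₂ R : ℕ} {P : SE} (hP : P.Pos) (hη : 0 < η) (hbig : P.Big ε η A M Z d)
    {rs ws : Fin R → ℝ} {G : Prog (Option σ)} {PA : Prog (Option (σ ⊕ Bool))} {b : σ → ℝ}
    (hBm : BinderAt ε A D α P.κin P.s P.κm P.mm P.κn cm η Cs CB₁ d)
    (hn₁ : NodeAt ε A α P.κn (P.mm + 1 / 2) cn₁ η Cn₁ d)
    (hn₃ : NodeAt ε A α P.κn P.mf cn₃ η Cn₃ d)
    (hBΦ : BinderAt ε A D₂ (α + P.c₁) P.c₁ P.c₁ P.κB P.mΦ P.κn₂ cB η CA CB₂ d)
    (hn₂ : NodeAt ε A (α + P.c₁) P.κn₂ (P.mΦ + 1 / 2) cn₂ η Cn₂ d)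
    (hcm : 0 ≤ cm) (hcB : 0 ≤ cB) (hcn₁ : 0 ≤ cn₁) (hcn₂ : 0 ≤ cn₂) (hcn₃ : 0 ≤ cn₃)
    (hσ : Fintype.card σ ≤ D) (hD₂ : D + 2 ≤ D₂) (ha : 0 < a) (ha1 : a ≤ 1) (hb : ∀ j, 0 ≤ b j)
    (hlin : ∀ o, G.lin o = 0) (hdep : G.depth ≤ D) (hsize : (G.size : ℝ) ≤ Cs * qp η d (-P.s))
    (hΓ : 1 ≤ Γ) (hΓ' : Γ ≤ Cs * qp η d (-P.s)) (hgr : G.Grow d Γ)
    (hG : G.Adm ((d : ℝ) ^ (-ε)) ((d : ℝ) ^ (-α * η)) (eAt ε η P.m d)
      (fun o => o.elim (a * qp η d P.κin) b) β)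
    (hS : 0 < topS G)
    (hPlin : ∀ o, PA.lin o = 0) (hPdep : PA.depth ≤ D₂)
    (hPsize : (PA.size : ℝ) ≤ CA * qp η d (-P.c₁)) (hPgr : PA.Grow d (CA * qp η d (-P.c₁)))
    (hPS : topS PA ≤ CA * qp η d (-P.c₁) * topS G)
    (hPadm : PA.Adm ((d : ℝ) ^ (-ε)) ((d : ℝ) ^ (-(α + P.c₁) * η)) (eAt ε η P.mΦ d)
      (bAdj a (qp η d P.c₁) b) (topS PA / eAt ε η P.mΦ d))
    (hPg : ∀ o : Option σ, topG (eAt ε η P.mΦ d) PA (o.elim none fun j => some (.inl j))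
      ≤ CA * qp η d (-P.c₁) * topG (eAt ε η P.m d) G o)
    (hPk : ∀ k : Bool, topG (eAt ε η P.mΦ d) PA (some (.inr k)) ≤ CA * qp η d (-P.c₁) * topS G)
    (hN : 1 ≤ N) (hN' : (N : ℝ) ≤ 2 * qp η d (-P.cN))
    (hrs : ∀ r, 0 ≤ rs r ∧ rs r ≤ 1 - 1 / (Cid * N)) (hws : ∑ r, |ws r| ≤ W)
    (hwc : ∀ i, ∑ j, |wCol P.n i j| ≤ W ∧ (∑ j, |wCol P.n i j|) * ∑ r, |ws r| ≤ W)
    (hCid : 1 ≤ Cid) (hW : 1 ≤ W) (hCs : 1 ≤ Cs) (hCA : 1 ≤ CA) (hCB₁ : 1 ≤ CB₁) (hCB₂ : 1 ≤ CB₂)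
    (z1 : CB₁ * (2 * max Cn₁ 1 + 1) * Cs * (D + 3) ≤ Z)
    (z2 : CB₂ * (2 * max Cn₂ 1 + 1) * CA * CA * (D₂ + 3) ≤ Z)
    (z3 : (2 * max Cn₃ 1 + 2 * max Cn₃ 1 * max Cn₃ 1 * (1 + max Cn₃ 1) ^ D) * Cs * (D + 3) ≤ Z)
    (z4 : 2 * CA ≤ Z) (z5 : (D₂ : ℝ) + 1 ≤ Z) (z6 : (5 : ℝ) ^ D ≤ Z) (z7 : 2 * Cid ≤ Z)
    (z8 : 3 * W + 1 ≤ Z) (z9 : Cs ≤ Z) :
    ∃ qm qf qΦ : ℕ, (qm : ℝ) + qf + qΦ ≤ stepQ CB₁ CB₂ CA Cs Cn₁ Cn₂ Cn₃
        * qp η d (-(2 * P.s + P.c₁ + cn₁ + cn₂ + cn₃ + cm + cB)) ∧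
      BinderData P.n rs ws G PA a (topS G / (2 * eAt ε η P.m d)) d b
        (fun j => b j * qp η d P.κtop) (fun o => topG (eAt ε η P.m d) G o) (topS G) qm qf qΦ
        (qp η d P.θe) (qp η d P.fe) (qp η d P.e0) (qp η d P.ue) (qp η d P.p) (qp η d (P.cN + 1)) W
        (qp η d (-P.Le)) (2 * eAt ε η P.m d * (d : ℝ) ^ (-A)) := by
  have hd := hbig.d_one
  have hd0 : (0 : ℝ) < d := by linarith
  have hZ := hbig.Z_le
  have he := eAt_pos (ε := ε) (η := η) hd0 P.m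
  obtain ⟨hθe, hfe, hcN, he0, hp, hue, hmΦ, hLe, -, -⟩ := hP.derived
  have hLes : P.s + 1 ≤ P.Le := by unfold SE.Le; linarith [hP.κin, hP.c₁]
  have hLec : 2 * P.c₁ + 1 ≤ P.Le := by unfold SE.Le; linarith [hP.κin, hP.s]
  have h2 : 2 ≤ qp η d (-1) := by linarith
  have hD2 : (D : ℝ) + 2 ≤ D₂ := by exact_mod_cast hD₂
  have hσ' : (Fintype.card σ : ℝ) ≤ D := Nat.cast_le.2 hσ
  have hcard : (Fintype.card (Option σ) : ℝ) ≤ qp η d (-1) := by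
    rw [Fintype.card_option, Nat.cast_add, Nat.cast_one]
    linarith
  have hσB : Fintype.card (σ ⊕ Bool) ≤ D₂ := by
    simp only [Fintype.card_sum, Fintype.card_bool]; omega
  have hcard₂ : (Fintype.card (Option (σ ⊕ Bool)) : ℝ) ≤ qp η d (-1) := by
    rw [Fintype.card_option, Nat.cast_add, Nat.cast_one]
    have : (Fintype.card (σ ⊕ Bool) : ℝ) ≤ D₂ := Nat.cast_le.2 hσB
    linarith
  have he1 : eAt ε η P.m d ≤ 1 := (eAt_mono hd hη.le hmΦ).trans hbig.eΦ_one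
  have hmf : P.m + P.κn + P.κn + P.p + 1 ≤ P.mf := le_rfl
  obtain ⟨qm, hqm, hm⟩ := smp_hm (p := P.p) (θe := P.θe) (Le := P.Le) (m := P.m) hd hη.le hBm hn₁
    hP.κn hp le_rfl (by unfold SE.θe; linarith [hP.κB, hP.κn₂, hP.c₁]) hLes hP.s hCB₁ hCs h2 hcard
    (z1.trans hZ) hσ ha ha1 hb hlin hdep hsize hΓ hΓ' hgr hG
  obtain ⟨qf, hqf, hf⟩ := smp_hf (θ := qp η d P.fe) (p := P.p) (Le := P.Le) (m := P.m) hd hη.le hn₃
    hP.κn hP.κin hmf hLes hP.s hp he1 (qp_nonneg _) le_rfl hCs (z9.trans hZ) h2 hcard (z3.trans hZ) hσ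
    ha.le hb hlin hdep hsize hΓ hΓ' hgr hG
  have hρ : ∀ r, 0 ≤ rs r ∧ rs r ≤ 1 ∧ qp η d (P.cN + 1) ≤ √(1 - rs r ^ 2) := fun r =>
    ⟨(hrs r).1, mu_le_sqrt hd hCid hN hN' (z7.trans hZ) (hrs r).1 (hrs r).2⟩
  set qΦ := ⌊CB₂ * CA * max Cn₂ 1 * qp η d (-(P.c₁ + cn₂)) + CB₂ * qp η d (-cB)⌋₊
  have hg := fun o => topG_nonneg he.le G o
  have hΦ : ∀ r, Smp (d := d) (σ := Option (σ ⊕ Bool)) qΦ
      (fun o => o.elim (a * √(1 - rs r ^ 2) * qp η d P.θe) fun q => q.elim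
        (fun j => b j * qp η d P.θe) fun _ => qp η d P.θe)
      (fun o => o.elim (qp η d (-P.Le) * topG (eAt ε η P.m d) G none) fun q => q.elim
        (fun j => qp η d (-P.Le) * topG (eAt ε η P.m d) G (some j))
        fun _ => qp η d (-P.Le) * topS G)
      (topS G / (2 * eAt ε η P.m d) * qp η d P.ue) (qp η d (-P.Le) * topS G * (d : ℝ) ^ (-A))
      (fun V z => ∫ ξ, PA.val V
        (fun o => o.elim (z none + (a * √(1 - rs r ^ 2)) • ξ) fun q => z (some q)) ∂γ d) :=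
    fun r => step_field hP hη hbig hBΦ hn₂ hCA hCB₂ z2 z4 hcard₂ hσB ha ha1
      ((qp_pos hd0 _).trans_le (hρ r).2.2)
      (Real.sqrt_le_one.2 (sub_le_self _ (sq_nonneg _))) hb hS.le hg hPlin hPdep hPsize hPgr hPS
      hPadm hPg hPk
  have hδ : qp η d (-P.Le) * (topS G / (2 * eAt ε η P.m d)) * (2 * eAt ε η P.m d * (d : ℝ) ^ (-A))
      = qp η d (-P.Le) * topS G * (d : ℝ) ^ (-A) := by field_simp
  have hone : qp η d 1 * qp η d (-1) = 1 := by rw [qp_add hd0, add_neg_cancel, qp_zero]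
  have hstep : ∀ {x y : ℝ}, y + 1 ≤ x → (3 * W + 1) * qp η d x ≤ qp η d y := fun {x y} hxy => by
    refine (mul_le_mul_of_nonneg_right (z8.trans hZ) (qp_nonneg _)).trans ?_
    rw [qp_add hd0]
    exact qp_le hd hη.le (by linarith)
  have hprec : ∀ {y : ℝ}, y + 1 ≤ P.e0 → qp η d P.e0 + W * qp η d P.ue ≤ qp η d y := fun {y} hy => by
    have h1 : qp η d P.ue ≤ qp η d P.e0 := qp_le hd hη.le (by
      unfold SE.ue; linarith [hP.κin, hP.κn, hP.κtop, hP.s])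
    have := hstep hy
    rw [add_mul, one_mul, mul_assoc] at this
    linarith [mul_le_mul_of_nonneg_left h1 (zero_le_one.trans hW),
      mul_nonneg (zero_le_one.trans hW) (qp_nonneg (η := η) (d := d) P.e0)]
  refine ⟨qm, qf, qΦ, ?_, ⟨ha, ha1, by positivity, fun j => mul_nonneg (hb j) (qp_nonneg _),
    fun j => mul_le_of_le_one_right (hb j) (qp_le_one hd hη.le hP.κtop), hg, hS.le,
    one_le_qp hd hη.le (by linarith), hW, by positivity, qp_nonneg _, qp_nonneg _, qp_nonneg _,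
    qp_le_one hd hη.le (by linarith), hρ, hws, hwc, ?_, ?_, hprec ?_, ?_, ?_, ?_, ?_, ?_⟩⟩
  · set c := 2 * P.s + P.c₁ + cn₁ + cn₂ + cn₃ + cm + cB
    have hle : ∀ x, x ≤ c → qp η d (-x) ≤ qp η d (-c) := fun x hx => qp_le hd hη.le (by linarith)
    have hs0 := hP.s
    have hc0 := hP.c₁
    have hn0 : ∀ x : ℝ, (0 : ℝ) ≤ max x 1 := fun x => zero_le_one.trans (le_max_right _ _)
    have e1 : (qΦ : ℝ) ≤ CB₂ * CA * max Cn₂ 1 * qp η d (-(P.c₁ + cn₂)) + CB₂ * qp η d (-cB) :=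
      Nat.floor_le (add_nonneg (mul_nonneg (mul_nonneg (by positivity) (hn0 _)) (qp_nonneg _))
        (mul_nonneg (by positivity) (qp_nonneg _)))
    refine (add_le_add (add_le_add hqm hqf) e1).trans ?_
    unfold stepQ
    simp only [add_mul, ← add_assoc]
    have a1 := mul_le_mul_of_nonneg_left (hle (P.s + cn₁) (by linarith))
      (mul_nonneg (mul_nonneg (zero_le_one.trans hCB₁) (zero_le_one.trans hCs)) (hn0 Cn₁))
    have a2 := mul_le_mul_of_nonneg_left (hle cm (by linarith)) (zero_le_one.trans hCB₁)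
    have a3 := mul_le_mul_of_nonneg_left (hle (2 * P.s + cn₃) (by linarith))
      (mul_nonneg (mul_nonneg (mul_nonneg two_pos.le (zero_le_one.trans hCs)) (zero_le_one.trans hCs))
        (hn0 Cn₃))
    have a4 := mul_le_mul_of_nonneg_left (hle (P.c₁ + cn₂) (by linarith))
      (mul_nonneg (mul_nonneg (zero_le_one.trans hCB₂) (zero_le_one.trans hCA)) (hn0 Cn₂))
    have a5 := mul_le_mul_of_nonneg_left (hle cB (by linarith)) (zero_le_one.trans hCB₂)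
    linarith
  · refine le_trans ?_ (le_of_eq (qp_add hd0 _ _).symm)
    exact hprec (by unfold SE.e0; linarith)
  · refine le_trans ?_ ((hstep (x := P.p) (y := P.θe) le_rfl))
    rw [add_mul, one_mul]
    exact le_add_of_nonneg_right (qp_nonneg _)
  · unfold SE.e0; linarith
  · exact (step_gain hP hη hbig ha hb hdep hG hS z6 (by linarith)).1
  · exact (step_gain hP hη hbig ha hb hdep hG hS z6 (by linarith)).2
  · rw [hδ]; exact hm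
  · rw [hδ]; exact hf
  · intro r; rw [hδ]; exact hΦ r

end

end Vale.Agent.P347.Zero
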