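import Vale.Agent.P347.Zero.Realise
import Vale.Agent.P347.Zero.BinderSmp
import Vale.Agent.P347.Zero.ProgOps

/-!
# P347, exponent 0: tools of the binder step
-/

namespace Vale.Agent.P347.Zero

open MeasureTheory Real Finset
open Vale.Agent.P347.Quarter (E γ)
open Vale.Agent.P347.Colour (Pt)

noncomputable section

variable {d : ℕ} {σ : Type} [Fintype σ] [DecidableEq σ]

/-- Finer samples of all slots may be used. -/
theorem smp_finer {q : ℕ} {b b' L : σ → ℝ} {β ρ : ℝ} {val : (Pt d → ℝ) → Inp d σ → E d}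
    (h : Smp q b L β ρ val) (hL : ∀ s, 0 ≤ L s) (hρ : 0 ≤ ρ)
    (hb : ∀ s, (Fintype.card σ : ℝ) * b' s ^ 2 ≤ b s ^ 2) :
    Smp q b' L β (ρ * (1 + Fintype.card σ)) val := by
  simpa [id, Finset.sum_ite_eq'] using h.merge (b := b') id hL hρ hb

/-- Powers of the dimension dominate constants. -/
theorem exists_dom (C : ℝ) {x y : ℝ} (hxy : x < y) :
    ∃ D : ℝ, 1 ≤ D ∧ ∀ d : ℕ, D ≤ d → C * (d : ℝ) ^ x ≤ (d : ℝ) ^ y := by
  refine ⟨max 1 ((max C 1) ^ (y - x)⁻¹), le_max_left _ _, fun d hd => ?_⟩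
  have hd1 : (1 : ℝ) ≤ d := (le_max_left _ _).trans hd
  have h1 : C ≤ (d : ℝ) ^ (y - x) := by
    have h0 : (0 : ℝ) ≤ max C 1 := le_trans zero_le_one (le_max_right _ _)
    have := Real.rpow_le_rpow (Real.rpow_nonneg h0 _) ((le_max_right _ _).trans hd) (sub_nonneg.2 hxy.le)
    rw [← Real.rpow_mul h0, inv_mul_cancel₀ (sub_pos.2 hxy).ne', Real.rpow_one] at this
    exact (le_max_left _ _).trans this
  calc C * (d : ℝ) ^ x ≤ (d : ℝ) ^ (y - x) * (d : ℝ) ^ x :=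
        mul_le_mul_of_nonneg_right h1 (Real.rpow_nonneg (by linarith) _)
    _ = (d : ℝ) ^ y := by rw [← Real.rpow_add (by linarith)]; ring_nf

omit [DecidableEq σ] in
theorem topS_nonneg (G : Prog σ) : 0 ≤ topS G := sum_nonneg fun i _ => by positivity

omit [DecidableEq σ] in
theorem topG_nonneg {e : ℝ} (he : 0 ≤ e) (G : Prog σ) (o : σ) : 0 ≤ topG e G o :=
  sum_nonneg fun i _ => mul_nonneg (abs_nonneg _) (Prog.grs_nonneg he _ _)

omit [DecidableEq σ] in
theorem topG_anti {e e' : ℝ} (he : 0 < e) (h : e ≤ e') (G : Prog σ) (o : σ) :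
    topG e' G o ≤ topG e G o :=
  sum_le_sum fun i _ => mul_le_mul_of_nonneg_left (Prog.grs_anti he h _ o) (abs_nonneg _)

/-- A programme whose top nodes and inner nodes have their own samplers. The sensitivity carries no
factor `1 / e`. -/
theorem smp_prog_top {h r e e₁ e₂ θ₁ θ₂ C₀ L₀ δ Γ β Lt : ℝ} {q₀ D : ℕ} {b : σ → ℝ} (G : Prog σ)
    {qt : Fin G.num → ℕ} {ρt : Fin G.num → ℝ} (he : 0 < e) (he1 : e ≤ 1) (hθ₁ : 0 < θ₁)
    (hθ₁' : θ₁ ≤ 1) (hθ₂ : 0 < θ₂) (hθ₂' : θ₂ ≤ 1) (he₁ : 0 < e₁) (hb : ∀ s, 0 ≤ b s) (hL : 1 ≤ L₀)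
    (hC : 0 ≤ C₀) (hδ : 0 ≤ δ) (hΓ : 1 ≤ Γ) (hLt : 0 ≤ Lt) (hee : e ≤ e₂ * min θ₁ θ₂)
    (hn : ∀ nd : Nd, nd.Ok h r → Smp (d := d) (σ := Unit) q₀ (fun _ => nd.scale * θ₂) (fun _ => L₀)
      (√nd.v / e₂) (C₀ * √nd.v * δ) (fun V x => nd.val V (x ())))
    (ht : ∀ i, 0 ≤ ρt i ∧ Smp (d := d) (σ := Unit) (qt i) (fun _ => (G.node i).scale * θ₁)
      (fun _ => Lt) (√(G.node i).v / e₁) (ρt i) (fun V x => (G.node i).val V (x ())))
    (hlin : ∀ s, G.lin s = 0) (hdep : G.depth ≤ D) (hP : G.Adm h r e b β) (hG : G.Grow d Γ) :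
    Smp (d := d) (σ := σ) (∑ i, qt i + G.size * G.size * q₀)
      (fun s => b s * min θ₁ θ₂ / (G.size : ℝ)) (fun o => Lt * L₀ ^ D * topG e G o) (topS G / e₁)
      (2 * Γ * (∑ i, |G.coef i| * ρt i)
        + 2 * Γ * (Lt * C₀ * (1 + L₀) ^ D) * e * topS G * δ)
      (fun V x => G.val V x) := by
  cases G with
  | mk N l c nd ch =>
  obtain ⟨-, hP2⟩ := hP
  set m := min θ₁ θ₂
  have hm : 0 ≤ m := (lt_min hθ₁ hθ₂).le
  set S : ℕ := (Prog.mk N l c nd ch).size with hSdef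
  have hS : S = 1 + ∑ i, (1 + (ch i).size) := rfl
  have hsz : ∀ i, 1 + (ch i).size ≤ S := fun i => by
    rw [hS]
    exact le_trans (single_le_sum (f := fun i => 1 + (ch i).size) (fun _ _ => Nat.zero_le _) (mem_univ i))
      (Nat.le_add_left _ _)
  have hN : N + 1 ≤ S := by
    rw [hS, sum_add_distrib]; simp; omega
  have hS0 : (0 : ℝ) < S := by exact_mod_cast (by omega : 0 < S)
  have hch : ∀ i, Smp (d := d) (σ := σ) (qt i + (ch i).size * q₀)
      (fun s => b s * m / √((ch i).size : ℝ))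
      (fun o => Lt * (L₀ ^ (ch i).depth * (ch i).grs e o)) (√(nd i).v / e₁)
      (2 * ρt i * Γ + Lt * (2 * C₀ * (1 + L₀) ^ (ch i).depth * Γ * topS (ch i) * δ))
      (fun V x => (nd i).val V ((ch i).val V x)) := fun i =>
    Smp.node_comp (ht i).2 ((Prog.smp (ch i) he he1 hθ₂ hθ₂' hθ₁ hθ₁' hb hL hC hδ hΓ hee hn
      (hP2 i).2 (hG i).2).congr (fun V _ x => rfl) |> fun h' => by
        rwa [mul_comm θ₁] at h') hLt (ht i).1 hΓ (fun V hV x => (hG i).1 V hV x)
  have hdi : ∀ i, (ch i).depth ≤ D := fun i =>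
    le_trans (le_trans (Nat.le_succ _)
      (Finset.le_sup (f := fun i => (ch i).depth + 1) (mem_univ i))) hdep
  have hsum := Smp.sum (b := fun s => b s * m / (S : ℝ)) (β := topS (Prog.mk N l c nd ch) / e₁) hch
    (fun i s => by
      rcases Nat.eq_zero_or_pos (ch i).size with h0 | h0
      · have : 1 ≤ (ch i).size := Prog.one_le_size _
        omega
      have h1 : (0 : ℝ) < (ch i).size := by exact_mod_cast h0
      rw [Fintype.card_fin, div_pow, div_pow, Real.sq_sqrt h1.le, ← mul_div_assoc,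
        div_le_div_iff₀ (pow_pos hS0 2) h1]
      have : ((N * (ch i).size : ℕ) : ℝ) ≤ ((S * S : ℕ) : ℝ) := by
        exact_mod_cast Nat.mul_le_mul (by omega) (by have := hsz i; omega)
      push_cast at this
      rw [show (Prog.mk N l c nd ch).num = N from rfl]
      nlinarith [mul_le_mul_of_nonneg_right this (sq_nonneg (b s * m))]) c (by
      calc ∑ i, (c i * (√(nd i).v / e₁)) ^ 2 = ∑ i, (|c i| * √(nd i).v / e₁) ^ 2 := by
            refine sum_congr rfl fun i _ => ?_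
            rw [div_pow, mul_pow, mul_pow, div_pow, sq_abs]; ring
        _ ≤ (∑ i, |c i| * √(nd i).v / e₁) ^ 2 :=
            sum_sq_le_sq_sum_of_nonneg fun i _ => by positivity
        _ = _ := by rw [← sum_div]; rfl)
  refine (Smp.mono hsum ?_ (fun o => ?_) ?_).congr fun V _ x => ?_
  · rw [sum_add_distrib, ← sum_mul]
    refine Nat.add_le_add le_rfl (Nat.mul_le_mul_right q₀ ?_)
    calc ∑ i, (ch i).size ≤ ∑ _i : Fin N, S := sum_le_sum fun i _ => by have := hsz i; omega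
      _ = N * S := by simp
      _ ≤ S * S := Nat.mul_le_mul_right S (by omega)
  · show ∑ i, |c i| * (Lt * (L₀ ^ (ch i).depth * (ch i).grs e o))
      ≤ Lt * L₀ ^ D * ∑ i, |c i| * (ch i).grs e o
    rw [mul_sum]
    refine sum_le_sum fun i _ => ?_
    have := mul_le_mul_of_nonneg_right (pow_le_pow_right₀ hL (hdi i))
      (Prog.grs_nonneg he.le (ch i) o)
    calc |c i| * (Lt * (L₀ ^ (ch i).depth * (ch i).grs e o))
        ≤ |c i| * (Lt * (L₀ ^ D * (ch i).grs e o)) := by gcongr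
      _ = _ := by ring
  · show ∑ i, |c i| * (2 * ρt i * Γ + Lt * (2 * C₀ * (1 + L₀) ^ (ch i).depth * Γ * topS (ch i) * δ))
      ≤ 2 * Γ * (∑ i, |c i| * ρt i)
        + 2 * Γ * (Lt * C₀ * (1 + L₀) ^ D) * e * (∑ i, |c i| * √(nd i).v) * δ
    simp only [mul_add, sum_add_distrib, mul_sum, sum_mul]
    refine add_le_add (le_of_eq (sum_congr rfl fun i _ => by ring)) (sum_le_sum fun i _ => ?_)
    have hv : topS (ch i) ≤ e * √(nd i).v := by
      have h1 := ((Prog.adm_def _ _ _ _ _ _).1 (hP2 i).2).1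
      have h2 : (∑ j, |(ch i).coef j| * √((ch i).node j).v) / e ≤ (nd i).scale :=
        le_trans (le_add_of_nonneg_left (sum_nonneg fun s _ => mul_nonneg (abs_nonneg _) (hb s))) h1
      rw [div_le_iff₀ he] at h2
      exact h2.trans (by rw [mul_comm]; exact mul_le_mul_of_nonneg_left (hP2 i).1.scale_le he.le)
    have h3 : (1 + L₀) ^ (ch i).depth ≤ (1 + L₀) ^ D := pow_le_pow_right₀ (by linarith) (hdi i)
    have h4 : 0 ≤ topS (ch i) := topS_nonneg _
    calc |c i| * (Lt * (2 * C₀ * (1 + L₀) ^ (ch i).depth * Γ * topS (ch i) * δ))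
        ≤ |c i| * (Lt * (2 * C₀ * (1 + L₀) ^ D * Γ * (e * √(nd i).v) * δ)) := by gcongr
      _ = _ := by ring
  · show ∑ i, c i • (nd i).val V ((ch i).val V x) = Prog.val V (Prog.mk N l c nd ch) x
    have hl : ∀ s, l s = 0 := hlin
    simp [Prog.val, hl]

end

end Vale.Agent.P347.Zero
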