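import Vale.Agent.P347.Zero.SkewOf
import Vale.Agent.P347.Zero.Lift
import Vale.Agent.P347.Zero.Gram
import Vale.Agent.P347.Quarter.Moments

/-!
# P347, exponent 0: seeds and outputs as two blocks of coordinates

A field `f` on `E d` becomes the split field `liftM f` on `2 d` coordinates. The flow of
`vel (skewOf (liftM f))` reads, in the blocks, `u' = -∫₀¹ dfT f 0 r u y`, `y' = f u - E f`.
-/

namespace Vale.Agent.P347.Zero

open MeasureTheory ProbabilityTheory Real Finset
open scoped RealInnerProductSpace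
open Vale.Agent.P347.Quarter (E γ)

noncomputable section

set_option linter.unusedSectionVars false

variable {ι α : Type} [Fintype ι] [DecidableEq ι] [Fintype α] [DecidableEq α]

/-! ## A change of coordinates for each index -/

/-- The index `l` is read after the permutation `s l`. -/
def twist (s : ι → α ≃ α) (X : TF ι α) : TF ι α := fun z i => X z fun l => s l (i l)

theorem BN.twist {T : Ten ι α} {c : ℝ} (h : BN T c) (s : ι → α ≃ α) :
    BN (fun i : ι → α => T fun l => s l (i l)) c := by
  intro κ κ' _ _ _ _ hk hk' e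
  have h1 := (h κ κ' hk hk' e).reindex (Equiv.piCongrRight fun k => s (e (Sum.inl k)))
    (Equiv.piCongrRight fun k => s (e (Sum.inr k)))
  intro a b
  refine le_trans (le_of_eq ?_) (h1 a b)
  refine sum_congr rfl fun p _ => sum_congr rfl fun q _ => ?_
  congr 2
  simp only [flat, Equiv.piCongrRight, Equiv.coe_fn_mk]
  congr 1
  funext l
  obtain ⟨x, rfl⟩ := e.surjective l
  rcases x with x | x <;> simp

theorem Temp.twist {X : TF ι α} (h : Temp X) (s : ι → α ≃ α) : Temp (Zero.twist s X) :=
  fun _ => h _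

theorem gradT_twist (s : ι → α ≃ α) (X : TF ι α) :
    gradT (twist s X) = twist (fun o => o.elim (Equiv.refl α) s) (gradT X) := rfl

theorem RB.twist {n : ℕ} {X : TF ι α} {K : ℝ} (h : RB n X K) (s : ι → α ≃ α) :
    RB n (Zero.twist s X) K := by
  induction n generalizing ι with
  | zero => exact ⟨h.1.twist s, fun z => (h.2 z).twist s⟩
  | succ n ih =>
    refine ⟨h.1.twist s, fun z => (h.2.1 z).twist s, ?_⟩
    rw [gradT_twist]
    exact ih h.2.2 _

/-! ## Two blocks -/

/-- Two blocks of `d` coordinates. -/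
abbrev DD (d : ℕ) := Fin d ⊕ Fin d

/-- The two blocks of a point. -/
def pullP (d : ℕ) : Sp (DD d) →L[ℝ] E d × E d := (pull Sum.inl).prod (pull Sum.inr)

variable {d : ℕ}

theorem pullP_apply (z : Sp (DD d)) : pullP d z = (pull Sum.inl z, pull Sum.inr z) := rfl

theorem norm_pull_le {β : Type} [Fintype β] [DecidableEq β] {e : β → α} (he : Function.Injective e)
    (z : Sp α) : ‖pull e z‖ ≤ ‖z‖ := by
  rw [EuclideanSpace.norm_eq, EuclideanSpace.norm_eq]
  refine Real.sqrt_le_sqrt ?_
  simp only [pull_apply]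
  rw [← sum_image (g := e) (f := fun a => ‖z a‖ ^ 2) fun p _ q _ h => he h]
  exact sum_le_sum_of_subset_of_nonneg (subset_univ _) fun _ _ _ => sq_nonneg _

theorem norm_pullP_le (z : Sp (DD d)) : ‖pullP d z‖ ≤ ‖z‖ := by
  rw [pullP_apply, Prod.norm_def]
  exact max_le (norm_pull_le Sum.inl_injective z) (norm_pull_le Sum.inr_injective z)

/-- The blocks of a standard Gaussian are two independent ones. -/
theorem map_pullP : (stdGaussian (Sp (DD d))).map (pullP d) = (γ d).prod (γ d) := by
  rw [γ, ← map_pi_eq_stdGaussian, ← map_pi_eq_stdGaussian, Measure.map_map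
    (pullP d).continuous.measurable (by fun_prop), Measure.map_prod_map _ _ (by fun_prop) (by fun_prop)]
  have h := (measurePreserving_sumPiEquivProdPi_symm (X := fun _ : DD d => ℝ)
    fun _ : DD d => gaussianReal 0 1).map_eq
  rw [← h, Measure.map_map (by fun_prop)
    (MeasurableEquiv.sumPiEquivProdPi fun _ : DD d => ℝ).symm.measurable]
  congr 1
  funext p
  refine Prod.ext ?_ ?_ <;> ext b <;>
    simp [pullP_apply, pull_apply, MeasurableEquiv.sumPiEquivProdPi, Equiv.sumPiEquivProdPi]

theorem integral_pullP {g : E d × E d → ℝ} (hg : Continuous g) :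
    ∫ z, g (pullP d z) ∂stdGaussian (Sp (DD d)) = ∫ p, g p ∂(γ d).prod (γ d) := by
  rw [← integral_map (pullP d).continuous.measurable.aemeasurable hg.aestronglyMeasurable,
    map_pullP]

theorem integrable_pullP {g : E d × E d → ℝ} (hg : Continuous g)
    (hi : Integrable g ((γ d).prod (γ d))) :
    Integrable (fun z => g (pullP d z)) (stdGaussian (Sp (DD d))) := by
  rw [← map_pullP, integrable_map_measure hg.aestronglyMeasurable
    (pullP d).continuous.measurable.aemeasurable] at hi
  exact hi

theorem integral_pull_inl {g : E d → ℝ} (hg : Continuous g) :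
    ∫ z, g (pull Sum.inl z) ∂stdGaussian (Sp (DD d)) = ∫ u, g u ∂γ d := by
  refine (integral_pullP (g := fun p => g p.1) (hg.comp continuous_fst)).trans ?_
  rw [integral_fun_fst]
  simp

/-! ## The lifted field -/

/-- `f` of the seeds on the output block. -/
def liftM (f : E d → E d) (z : Sp (DD d)) : Sp (DD d) := push Sum.inr (f (pull Sum.inl z))

theorem push_apply {β : Type} [Fintype β] [DecidableEq β] {e : β → α} (he : Function.Injective e)
    (v : Sp β) (b : β) : push e v (e b) = v b := by
  simp [push, unitV, Finset.sum_apply, he.eq_iff, Pi.single_apply]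

theorem push_apply_of_not {β : Type} [Fintype β] [DecidableEq β] {e : β → α} (v : Sp β) {j : α}
    (h : ∀ b, e b ≠ j) : push e v j = 0 := by
  simp [push, unitV, Finset.sum_apply, fun b => (h b).symm]

theorem vecT_liftM (f : E d → E d) :
    vecT (liftM f) = twist (fun _ => Equiv.sumComm (Fin d) (Fin d)) (liftT Sum.inl (vecT f)) := by
  funext z i
  show push Sum.inr (f (pull Sum.inl z)) (i ()) = liftN Sum.inl (vecT f (pull Sum.inl z)) _
  rcases h : i () with a | b
  · rw [push_apply_of_not _ (fun b => Sum.inr_ne_inl), liftN_eq_zero _ (l := ()) (by simp [h])]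
  · rw [push_apply Sum.inr_injective,
      show (fun l : Unit => Equiv.sumComm (Fin d) (Fin d) (i l)) = Sum.inl ∘ fun _ => b from
        funext fun _ => by simp [h], liftN_apply Sum.inl_injective]
    rfl

theorem temp_liftM {f : E d → E d} (hf : Temp (vecT f)) : Temp (vecT (liftM f)) := by
  rw [vecT_liftM]
  exact hf.liftT.twist _

theorem gradT_liftM {f : E d → E d} (hf : Temp (vecT f)) :
    gradT (vecT (liftM f)) = twist (fun o => o.elim (Equiv.refl _) fun _ => Equiv.sumComm _ _)
      (liftT Sum.inl (gradT (vecT f))) := by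
  rw [vecT_liftM, gradT_twist, gradT_liftT Sum.inl_injective hf]

theorem rb_liftM {f : E d → E d} (hf : Temp (vecT f)) {n : ℕ} {K : ℝ}
    (h : RB n (gradT (vecT f)) K) (hK : 0 ≤ K) : RB n (gradT (vecT (liftM f))) K := by
  rw [gradT_liftM hf]
  exact (h.liftT Sum.inl_injective hK).twist _

/-- The outputs. -/
def isOut (j : DD d) : Prop := ∃ b, j = Sum.inr b

theorem split_liftM {f : E d → E d} (hf : Temp (vecT f)) : Split isOut (liftM f) where
  zero z i hi := push_apply_of_not _ fun b hb => hi ⟨b, hb.symm⟩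
  indep z i j hj := by
    obtain ⟨b, rfl⟩ := hj
    show gradT (vecT (liftM f)) z (ext (Sum.inr b) fun _ => i) = 0
    rw [gradT_liftM hf]
    exact liftN_eq_zero _ (l := none) (by simp [ext])

/-- The integrand of `Wᵀ y` and its derivatives in `r`. -/
def dfT (f : E d → E d) (n : ℕ) (r : ℝ) (u y : E d) : E d :=
  WithLp.toLp 2 fun a => ∑ b, y b * Hn n (gradT (vecT f)) r u (ext a fun _ => b)

theorem OUT_liftM {f : E d → E d} (hf : Temp (vecT f)) (r : ℝ) (z : Sp (DD d)) (a b : Fin d) :
    OUT r (gradT (vecT (liftM f))) z (ext (Sum.inl a) fun _ => Sum.inr b)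
      = OUT r (gradT (vecT f)) (pull Sum.inl z) (ext a fun _ => b) := by
  have e : ∀ w, gradT (vecT (liftM f)) w (ext (Sum.inl a) fun _ => Sum.inr b)
      = gradT (vecT f) (pull Sum.inl w) (ext a fun _ => b) := by
    intro w
    rw [gradT_liftM hf]
    show liftN Sum.inl _ _ = _
    rw [show (fun l : Option Unit => (l.elim (Equiv.refl (DD d)) fun _ => Equiv.sumComm _ _)
      ((ext (Sum.inl a) fun _ => Sum.inr b) l)) = Sum.inl ∘ ext a fun _ => b from
        funext fun l => by rcases l with _ | ⟨⟩ <;> rfl, liftN_apply Sum.inl_injective]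
  simp only [OUT_apply, e, map_add, map_smul]
  exact integral_pull_inl
    (g := fun v => gradT (vecT f) (r • pull Sum.inl z + √(1 - r ^ 2) • v) (ext a fun _ => b))
    ((hf.gradT _).1.continuous.comp (by fun_prop))

theorem dfT_deriv {f : E d → E d} (hf : Temp (vecT f)) (n : ℕ) (u y : E d) {r : ℝ}
    (hr : r ∈ Set.Icc (-1 : ℝ) 1) :
    HasDerivWithinAt (fun r => dfT f n r u y) (dfT f (n + 1) r u y) (Set.Icc (-1) 1) r := by
  have h := HasDerivWithinAt.fun_sum (u := univ) fun a _ =>
    (HasDerivWithinAt.fun_sum (u := univ) fun b _ =>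
      (Hn_deriv hf.gradT n u (ext a fun _ => b) hr).const_mul (y b)).smul_const (unitV a)
  exact (h.congr (fun x _ => (sum_coord (dfT f n x u y)).symm)
    (sum_coord (dfT f n r u y)).symm).congr_deriv (sum_coord (dfT f (n + 1) r u y))

theorem dfT_continuousOn {f : E d → E d} (hf : Temp (vecT f)) (n : ℕ) (u y : E d) :
    ContinuousOn (fun r => dfT f n r u y) (Set.Icc (-1) 1) := fun _ hr =>
  (dfT_deriv hf n u y hr).continuousWithinAt

/-- The velocity of the skew flow in the two blocks. -/
theorem vel_liftM {f : E d → E d} (hf : Temp (vecT f)) (hi : Integrable f (γ d)) (z : Sp (DD d)) :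
    pullP d (vel (skewOf (liftM f)) z)
      = (-∫ r in (0 : ℝ)..1, dfT f 0 r (pull Sum.inl z) (pull Sum.inr z),
        f (pull Sum.inl z) - ∫ u, f u ∂γ d) := by
  have hM := temp_liftM hf
  have hS := split_liftM hf
  rw [pullP_apply]
  refine Prod.ext ?_ ?_
  · ext a
    have hint : IntervalIntegrable (fun r => dfT f 0 r (pull Sum.inl z) (pull Sum.inr z)) volume 0 1 :=
      ((dfT_continuousOn hf 0 _ _).mono (Set.Icc_subset_Icc_left (by norm_num))).intervalIntegrable_of_Icc
        zero_le_one
    rw [pull_apply, hS.vel_seed hM z (fun ⟨b, hb⟩ => Sum.inl_ne_inr hb), Wm_sum_eq hM,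
      PiLp.neg_apply]
    show -_ = -(EuclideanSpace.proj (𝕜 := ℝ) a
      (∫ r in (0 : ℝ)..1, dfT f 0 r (pull Sum.inl z) (pull Sum.inr z)))
    rw [← ContinuousLinearMap.intervalIntegral_comp_comm _ hint]
    refine congrArg Neg.neg (intervalIntegral.integral_congr fun r _ => ?_)
    show ∑ j, z j * OUT r (gradT (vecT (liftM f))) z (ext (Sum.inl a) fun _ => j) = _
    rw [Fintype.sum_sum_type]
    have h0 : ∀ c : Fin d, OUT r (gradT (vecT (liftM f))) z (ext (Sum.inl a) fun _ => Sum.inl c) = 0 :=
      fun c => by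
        simp [OUT_apply, hS.grad_zero _ (Sum.inl a) (Sum.inl c)
          (Or.inl fun ⟨b, hb⟩ => Sum.inl_ne_inr hb)]
    simp only [h0, mul_zero, sum_const_zero, zero_add, OUT_liftM hf]
    simp [dfT, Hn, pull_apply]
  · ext b
    rw [pull_apply, hS.vel_out hM z ⟨b, rfl⟩, PiLp.sub_apply]
    simp only [liftM, push_apply Sum.inr_injective]
    rw [integral_pull_inl (g := fun u => f u b) ((hf fun _ => b).1.continuous)]
    show _ - _ = _ - EuclideanSpace.proj (𝕜 := ℝ) b (∫ u, f u ∂γ d)
    rw [← ContinuousLinearMap.integral_comp_comm _ hi]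
    rfl

/-- The mean square of `dfT` over a Gaussian `y`. -/
theorem integral_dfT_sq (f : E d → E d) (n : ℕ) (r : ℝ) (u : E d) :
    ∫ y, ‖dfT f n r u y‖ ^ 2 ∂γ d = sqT (Hn n (gradT (vecT f)) r u) := by
  set h : Fin d → E d := fun a =>
    WithLp.toLp 2 fun b => Hn n (gradT (vecT f)) r u (ext a fun _ => b) with hh
  have e : ∀ y, ‖dfT f n r u y‖ ^ 2 = ∑ a, ⟪h a, y⟫ ^ 2 := fun y => by
    rw [EuclideanSpace.real_norm_sq_eq]
    simp [dfT, hh, PiLp.inner_apply]
  simp only [e]
  rw [integral_finsetSum _ fun a _ => ?_]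
  · simp only [Quarter.γ_inner_sq, EuclideanSpace.real_norm_sq_eq, sqT]
    rw [sum_option fun i => Hn n (gradT (vecT f)) r u i ^ 2]
    refine sum_congr rfl fun a _ => ?_
    rw [← (Equiv.funUnique Unit (Fin d)).symm.sum_comp]
    rfl
  · refine (Quarter.γ_sq_integrable.const_mul (‖h a‖ ^ 2)).mono' (by fun_prop)
      (ae_of_all _ fun y => ?_)
    rw [Real.norm_eq_abs, abs_pow, ← mul_pow]
    exact pow_le_pow_left₀ (abs_nonneg _) (abs_real_inner_le_norm _ _) 2

/-! ## Derivatives in `r` with a budget linear in the order -/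

/-- The constant of `Hn_L2'`. -/
def cH : ℕ → ℝ
  | 0 => 1
  | n + 1 => 3 * cH n + 2 * (n : ℝ) ^ 2 * cH (n - 1)

theorem cH_nonneg (n : ℕ) : 0 ≤ cH n := by
  induction n using Nat.strong_induction_on with
  | _ n ih =>
    rcases n with _ | n
    · simp [cH]
    · have := ih n (by omega)
      have := ih (n - 1) (by omega)
      rw [cH]
      positivity

/-- The mean square of the `n`-th derivative, from `2 n` derivatives of the field. -/
theorem Hn_L2' [Nonempty ι] {n : ℕ} {Y : TF (Option ι) α} {K : ℝ} (hK : 0 ≤ K)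
    (h : RB (2 * n) Y K) {r : ℝ} (hr : |r| ≤ 1) :
    EP (gPot α) (fun z => sqT (Hn n Y r z)) ≤ cH n * (Fintype.card α * K ^ 2) := by
  induction n using Nat.strong_induction_on generalizing ι with
  | _ n ih =>
    rcases n with _ | n
    · rw [cH, one_mul]
      refine (pot_gPot.EP_mono (h.temp.hn hr 0).sqT (Function.HasTemperateGrowth.const
        ((Fintype.card α : ℝ) * K ^ 2)) fun z => ?_).trans (le_of_eq (pot_gPot.EP_const _))
      rw [mul_comm]
      exact ((h.out hr).bn z).sq_sum_le hK none ⟨some (Classical.arbitrary ι), by simp⟩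
    · have hY := h.temp
      set B := (Fintype.card α : ℝ) * K ^ 2
      have hg : RB (2 * n + 1) (gradT Y) K := h.2.2
      have b1 := ih n (by omega) (Y := gradT Y) (hg.of_le (by omega) le_rfl)
      have b2 := ih n (by omega) (Y := gradT (gradT Y)) hg.2.2
      have b3 := ih (n - 1) (by omega) (Y := gradT (gradT Y)) (hg.2.2.of_le (by omega) le_rfl)
      set P := Hn n (gradT (gradT Y)) r
      set Q := Hn (n - 1) (gradT (gradT Y)) r
      have tP : Temp P := hY.gradT.gradT.hn hr n
      have tQ : Temp Q := hY.gradT.gradT.hn hr (n - 1)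
      have hd := pot_gPot.integral_dlt_sq_le (hess_opLE (rb_gHess (α := α) 0)) (hY.gradT.hn hr n)
      rw [gradT_Hn hY.gradT hr n, one_mul] at hd
      refine hd.trans ?_
      have t1 : (fun z => 2 * r ^ 2 * sqT (P z)).HasTemperateGrowth :=
        temp_mul (Function.HasTemperateGrowth.const _) tP.sqT
      have t2 : (fun z => 2 * (n : ℝ) ^ 2 * sqT (Q z)).HasTemperateGrowth :=
        temp_mul (Function.HasTemperateGrowth.const _) tQ.sqT
      have hadd : EP (gPot α) (fun z => sqT (((fun z i => r * P z i)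
          + fun z i => (n : ℝ) * Q z i) z)) ≤ 2 * EP (gPot α) (fun z => sqT (P z))
            + 2 * (n : ℝ) ^ 2 * EP (gPot α) (fun z => sqT (Q z)) := by
        refine (pot_gPot.EP_mono ((tP.smul r).add (tQ.smul _)).sqT (t1.add t2)
          fun z => ?_).trans ?_
        · refine (sqT_add_le _ _).trans (le_of_eq ?_)
          simp only [sqT, mul_pow, ← mul_sum, Pi.add_apply]
          ring
        · refine le_trans (le_of_eq ((pot_gPot.EP_add t1 t2).trans
            (congrArg₂ (· + ·) (EP_smul _ (2 * r ^ 2) _) (EP_smul _ (2 * (n : ℝ) ^ 2) _)))) ?_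
          have hr2 : r ^ 2 ≤ 1 := by
            rw [← sq_abs]; exact pow_le_one₀ (abs_nonneg r) hr
          have hp : 0 ≤ EP (gPot α) (fun z => sqT (P z)) :=
            integral_nonneg fun z => mul_nonneg (exp_pos _).le (sum_nonneg fun _ _ => sq_nonneg _)
          nlinarith
      rw [cH]
      linarith [mul_le_mul_of_nonneg_left b3 (mul_nonneg zero_le_two (sq_nonneg (n : ℝ)))]

end

end Vale.Agent.P347.Zero
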