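import Vale.Agent.P347.Zero.Cre

/-!
# P347, exponent 0: bounded derivatives are closed under composition

The chain rule is a contraction over one index in which both factors keep an index.
-/

namespace Vale.Agent.P347.Zero

open Finset Real MeasureTheory

noncomputable section

set_option linter.unusedSectionVars false

variable {ι α : Type} [Fintype ι] [DecidableEq ι] [Fintype α] [DecidableEq α]

theorem Temp.vec {M : Sp α → Sp α} (h : Temp (vecT M)) : M.HasTemperateGrowth := by
  have e : M = fun z => ∑ j, M z j • unitV j := by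
    funext z
    ext i
    simp [unitV, Finset.sum_apply, Pi.single_apply]
  rw [e]
  exact Function.HasTemperateGrowth.sum fun j _ =>
    (h fun _ => j).smul (Function.HasTemperateGrowth.const _)

/-- Composition with a map of the coordinates' space. -/
def cmp (Y : TF ι α) (P : Sp α → Sp α) : TF ι α := fun z => Y (P z)

theorem Temp.cmp {Y : TF ι α} {P : Sp α → Sp α} (hY : Temp Y) (hP : Temp (vecT P)) :
    Temp (Zero.cmp Y P) := fun i => (hY i).comp hP.vec

/-- The chain rule. -/
theorem gradT_cmp {Y : TF ι α} {P : Sp α → Sp α} (hY : Temp Y) (hP : Temp (vecT P)) :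
    gradT (cmp Y P) = ren ((Equiv.sumComm ι Unit).trans (optU ι).symm)
      (conF (ren ((optU ι).trans (Equiv.sumComm Unit ι)) (cmp (gradT Y) P))
        (ren ((optU Unit).trans (Equiv.sumComm Unit Unit)) (gradT (vecT P)))) := by
  funext z i
  set v := fderiv ℝ P z (unitV (i none))
  show fderiv ℝ ((fun w => Y w (i ∘ some)) ∘ P) z (unitV (i none)) = _
  rw [fderiv_comp z (temp_diff (hY _) _) (hP.vec.1.differentiable (by simp) z)]
  rw [ContinuousLinearMap.comp_apply]
  have hv : fderiv ℝ P z (unitV (i none)) = ∑ j, v j • unitV j := by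
    ext k
    simp [v, unitV, Finset.sum_apply, Pi.single_apply]
  rw [hv, map_sum]
  simp only [map_smul, smul_eq_mul, ren, conF, con, cmp]
  rw [← (Equiv.funUnique Unit α).symm.sum_comp]
  refine sum_congr rfl fun j _ => ?_
  rw [mul_comm]
  congr 1
  · show v j = fderiv ℝ (fun w => P w j) z (unitV (i none))
    have h2 : HasFDerivAt (fun w => P w j) ((EuclideanSpace.proj j).comp (fderiv ℝ P z)) z :=
      (EuclideanSpace.proj (𝕜 := ℝ) j).hasFDerivAt.comp z
        (hP.vec.1.differentiable (by simp) z).hasFDerivAt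
    rw [h2.fderiv]
    rfl

/-- The constant of a composition. -/
def cmpC : ℕ → ℝ → ℝ
  | 0, _ => 1
  | n + 1, L => 1 + 2 ^ n * cmpC n L * L

theorem cmpC_nonneg {L : ℝ} (hL : 0 ≤ L) : ∀ n, 0 ≤ cmpC n L
  | 0 => zero_le_one
  | n + 1 => by
    have := cmpC_nonneg hL n
    rw [cmpC]
    positivity

/-- Bounded derivatives of a composition. -/
theorem RB.cmp [Nonempty ι] {n : ℕ} {Y : TF ι α} {P : Sp α → Sp α} {K L : ℝ} (hY : RB n Y K)
    (hP : Temp (vecT P)) (hP' : ∀ m < n, RB m (gradT (vecT P)) L) (hK : 0 ≤ K) (hL : 0 ≤ L) :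
    RB n (Zero.cmp Y P) (cmpC n L * K) := by
  induction n generalizing ι with
  | zero => exact ⟨hY.temp.cmp hP, fun z => (hY.bn (P z)).mono (by simp [cmpC])⟩
  | succ n ih =>
    have h1 := ih hY.2.2 (fun m hm => hP' m (by omega))
    have hc := cmpC_nonneg hL n
    refine ⟨hY.temp.cmp hP, fun z => (hY.bn (P z)).mono ?_, ?_⟩
    · rw [cmpC]
      nlinarith [mul_nonneg (mul_nonneg (pow_nonneg (zero_le_two (α := ℝ)) n) (mul_nonneg hc hL)) hK]
    · rw [gradT_cmp hY.temp hP]
      refine (((h1.ren _).conF ((hP' n (by omega)).ren _) (mul_nonneg hc hK) hL).ren _).of_le le_rfl ?_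
      rw [cmpC]
      nlinarith [mul_nonneg (zero_le_one (α := ℝ)) hK]

end

end Vale.Agent.P347.Zero
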