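import Vale.Agent.P347.Zero.Creation

/-!
# P347, exponent 0: the class generated by creation operators from bounded tensor fields

`Cre Φ j n X K`: `X` is a sum of at most `j`-fold creations of tensor fields whose derivatives up to
order `n` have flattenings bounded by `K` in total. The class is closed under derivatives and under
contractions in which both factors keep an index, and it is bounded in `L²` by `K * sqrt (card α)`.
-/

namespace Vale.Agent.P347.Zero

open Finset Real MeasureTheory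

noncomputable section

set_option linter.unusedSectionVars false

variable {ι ι' α A B R : Type} [Fintype ι] [DecidableEq ι] [Fintype ι'] [DecidableEq ι']
  [Fintype α] [DecidableEq α] [Fintype A] [DecidableEq A] [Fintype B] [DecidableEq B]
  [Fintype R] [DecidableEq R]

/-- Renaming the indices of a field. -/
def ren (f : ι ≃ ι') (X : TF ι α) : TF ι' α := fun z i => X z (i ∘ f)

/-- Contraction of two fields, point by point. -/
def conF (T : TF (A ⊕ R) α) (S : TF (R ⊕ B) α) : TF (A ⊕ B) α := fun z => con (T z) (S z)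

/-- An extra index joins the left summand. -/
def optA (X Y : Type) : Option (X ⊕ Y) ≃ Option X ⊕ Y where
  toFun o := o.elim (Sum.inl none) (Sum.elim (fun x => Sum.inl (some x)) Sum.inr)
  invFun s := Sum.elim (fun o => o.map Sum.inl) (fun y => some (Sum.inr y)) s
  left_inv o := by rcases o with _ | (x | y) <;> rfl
  right_inv s := by rcases s with (_ | x) | y <;> rfl

/-- An extra index joins the right summand. -/
def optB (X Y : Type) : Option (X ⊕ Y) ≃ X ⊕ Option Y where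
  toFun o := o.elim (Sum.inr none) (Sum.elim Sum.inl fun y => Sum.inr (some y))
  invFun s := Sum.elim (fun x => some (Sum.inl x)) (fun o => o.map Sum.inr) s
  left_inv o := by rcases o with _ | (x | y) <;> rfl
  right_inv s := by rcases s with x | (_ | y) <;> rfl

/-- An extra index as a summand. -/
def optU (X : Type) : Option X ≃ Unit ⊕ X where
  toFun o := o.elim (Sum.inl ()) Sum.inr
  invFun s := Sum.elim (fun _ => none) some s
  left_inv o := by cases o <;> rfl
  right_inv s := by rcases s with _ | x <;> rfl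

/-- The two outer indices are exchanged. -/
def optSwap (X : Type) : Option (Option X) ≃ Option (Option X) where
  toFun o := o.elim (some none) fun o => o.elim none fun x => some (some x)
  invFun o := o.elim (some none) fun o => o.elim none fun x => some (some x)
  left_inv o := by rcases o with _ | (_ | x) <;> rfl
  right_inv o := by rcases o with _ | (_ | x) <;> rfl

/-- The Hessian of the potential as a tensor field. -/
def hessT (Φ : Sp α → ℝ) : TF (Unit ⊕ Unit) α := fun z i =>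
  pd (i (Sum.inl ())) (pd (i (Sum.inr ())) Φ) z

theorem ren_zero (f : ι ≃ ι') : ren f (0 : TF ι α) = 0 := rfl

theorem ren_add (f : ι ≃ ι') (X Y : TF ι α) : ren f (X + Y) = ren f X + ren f Y := rfl

theorem conF_zero_left (S : TF (R ⊕ B) α) : conF (0 : TF (A ⊕ R) α) S = 0 := by
  funext z i
  simp [conF, con]

theorem conF_zero_right (T : TF (A ⊕ R) α) : conF T (0 : TF (R ⊕ B) α) = 0 := by
  funext z i
  simp [conF, con]

theorem conF_add_right (T : TF (A ⊕ R) α) (S S' : TF (R ⊕ B) α) :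
    conF T (S + S') = conF T S + conF T S' := by
  funext z i
  simp [conF, con, mul_add, sum_add_distrib]

theorem conF_symm (T : TF (A ⊕ R) α) (S : TF (R ⊕ B) α) :
    conF T S = ren (Equiv.sumComm B A)
      (conF (ren (Equiv.sumComm R B) S) (ren (Equiv.sumComm A R) T)) := by
  funext z i
  simp only [conF, con, ren]
  refine sum_congr rfl fun r _ => ?_
  rw [mul_comm]
  congr 1
  · congr 1
    funext x
    rcases x with x | x <;> rfl
  · congr 1
    funext x
    rcases x with x | x <;> rfl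

theorem gradT_ren (f : ι ≃ ι') (X : TF ι α) :
    gradT (ren f X) = ren (Equiv.optionCongr f) (gradT X) := rfl

theorem dlt_ren (Φ : Sp α → ℝ) (f : ι ≃ ι') (X : TF (Option ι) α) :
    dlt (scP Φ) (ren (Equiv.optionCongr f) X) = ren f (dlt (scP Φ) X) := by
  funext z i
  simp only [dlt_eq, ren]
  refine sum_congr rfl fun j _ => ?_
  have : ext j i ∘ (Equiv.optionCongr f) = ext j (i ∘ f) := by
    funext o
    cases o <;> rfl
  rw [this]

theorem Temp.ren {X : TF ι α} (h : Temp X) (f : ι ≃ ι') : Temp (ren f X) := fun _ => h _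

theorem Temp.zero : Temp (0 : TF ι α) := fun _ => Function.HasTemperateGrowth.zero

theorem Temp.add {X Y : TF ι α} (h : Temp X) (h' : Temp Y) : Temp (X + Y) := fun i =>
  (h i).add (h' i)

theorem Temp.conF {T : TF (A ⊕ R) α} {S : TF (R ⊕ B) α} (hT : Temp T) (hS : Temp S) :
    Temp (conF T S) := fun _ =>
  Function.HasTemperateGrowth.sum fun _ _ => temp_mul (hT _) (hS _)

theorem Temp.smul {X : TF ι α} (h : Temp X) (r : ℝ) : Temp (fun z i => r * X z i) := fun i =>
  temp_mul (Function.HasTemperateGrowth.const r) (h i)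

theorem temp_diff {f : Sp α → ℝ} (hf : f.HasTemperateGrowth) : Differentiable ℝ f :=
  hf.1.differentiable (by simp)

theorem gradT_zero : gradT (0 : TF ι α) = 0 := by
  funext z i
  simp [gradT]

theorem gradT_add {X Y : TF ι α} (h : Temp X) (h' : Temp Y) :
    gradT (X + Y) = gradT X + gradT Y := by
  funext z i
  show fderiv ℝ (fun z => X z (i ∘ some) + Y z (i ∘ some)) z (unitV (i none)) = _
  rw [fderiv_fun_add (temp_diff (h _) z) (temp_diff (h' _) z)]
  rfl

theorem gradT_smul {X : TF ι α} (h : Temp X) (r : ℝ) :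
    gradT (fun z i => r * X z i) = fun z i => r * gradT X z i := by
  funext z i
  show fderiv ℝ (fun z => r * X z (i ∘ some)) z (unitV (i none)) = _
  rw [fderiv_const_mul (temp_diff (h _) z)]
  rfl

theorem gradT_conF {T : TF (A ⊕ R) α} {S : TF (R ⊕ B) α} (hT : Temp T) (hS : Temp S) :
    gradT (conF T S) = ren (optA A B).symm (conF (ren (optA A R) (gradT T)) S)
      + ren (optB A B).symm (conF T (ren (optB R B) (gradT S))) := by
  funext z i
  show fderiv ℝ (fun z => ∑ r : R → α, T z (Sum.elim ((i ∘ some) ∘ Sum.inl) r)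
      * S z (Sum.elim r ((i ∘ some) ∘ Sum.inr))) z (unitV (i none)) = _
  rw [fderiv_fun_sum (fun r _ => temp_diff (temp_mul (hT _) (hS _)) z),
    ContinuousLinearMap.sum_apply]
  simp only [Pi.add_apply, ren, conF, con, ← sum_add_distrib]
  refine sum_congr rfl fun r _ => ?_
  rw [fderiv_fun_mul (temp_diff (hT _) z) (temp_diff (hS _) z)]
  simp only [add_apply, smul_apply, smul_eq_mul]
  rw [add_comm, mul_comm (S z _)]
  have e1 : (Sum.elim ((i ∘ ⇑(optA A B).symm) ∘ Sum.inl) r ∘ ⇑(optA A R)) ∘ some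
      = Sum.elim ((i ∘ some) ∘ Sum.inl) r := by
    funext o
    rcases o with x | y <;> rfl
  have e2 : (Sum.elim r ((i ∘ ⇑(optB A B).symm) ∘ Sum.inr) ∘ ⇑(optB R B)) ∘ some
      = Sum.elim r ((i ∘ some) ∘ Sum.inr) := by
    funext o
    rcases o with x | y <;> rfl
  show _ = fderiv ℝ (fun z => T z ((Sum.elim ((i ∘ ⇑(optA A B).symm) ∘ Sum.inl) r
        ∘ ⇑(optA A R)) ∘ some)) z (unitV (i none)) * _
      + _ * fderiv ℝ (fun z => S z ((Sum.elim r ((i ∘ ⇑(optB A B).symm) ∘ Sum.inr)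
        ∘ ⇑(optB R B)) ∘ some)) z (unitV (i none))
  rw [e1, e2]
  rfl

theorem dlt_zero (Φ : Sp α → ℝ) : dlt (scP Φ) (0 : TF (Option ι) α) = 0 := by
  funext z i
  simp [dlt]

theorem dlt_add (Φ : Sp α → ℝ) {X Y : TF (Option ι) α} (h : Temp X) (h' : Temp Y) :
    dlt (scP Φ) (X + Y) = dlt (scP Φ) X + dlt (scP Φ) Y := by
  funext z i
  simp only [Pi.add_apply, dlt, ← sum_add_distrib]
  refine sum_congr rfl fun j _ => ?_
  rw [fderiv_fun_add (temp_diff (h _) z) (temp_diff (h' _) z)]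
  simp only [add_apply]
  ring

theorem dlt_smul (Φ : Sp α → ℝ) {X : TF (Option ι) α} (h : Temp X) (r : ℝ) :
    dlt (scP Φ) (fun z i => r * X z i) = fun z i => r * dlt (scP Φ) X z i := by
  funext z i
  simp only [dlt, mul_sum]
  refine sum_congr rfl fun j _ => ?_
  rw [fderiv_const_mul (temp_diff (h _) z)]
  simp only [smul_apply, smul_eq_mul]
  ring

/-- The gradient passes through a creation operator up to one Hessian contraction. -/
theorem gradT_dlt {Φ : Sp α → ℝ} (hΦ : Φ.HasTemperateGrowth) {X : TF (Option ι) α} (h : Temp X) :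
    gradT (dlt (scP Φ) X) = dlt (scP Φ) (ren (optSwap ι) (gradT X))
      + ren (optU ι).symm (conF (hessT Φ) (ren (optU ι) X)) := by
  funext z i
  show fderiv ℝ (fun z => ∑ j, dd Φ j (fun z => X z (ext j (i ∘ some))) z) z (unitV (i none)) = _
  rw [fderiv_fun_sum (fun j _ => temp_diff (temp_dd hΦ (h _) j) z),
    ContinuousLinearMap.sum_apply]
  simp only [Pi.add_apply, dlt_eq, ren, conF, con]
  rw [← (Equiv.funUnique Unit α).symm.sum_comp, ← sum_add_distrib]
  refine sum_congr rfl fun j _ => ?_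
  refine (pd_dd hΦ (h _) (i none) j z).trans ?_
  have e1 : (fun z => gradT X z (ext j i ∘ ⇑(optSwap ι)))
      = pd (i none) (fun z => X z (ext j (i ∘ some))) := by
    funext w
    show fderiv ℝ (fun z => X z ((ext j i ∘ ⇑(optSwap ι)) ∘ some)) w (unitV (i none)) = _
    have : (ext j i ∘ ⇑(optSwap ι)) ∘ some = ext j (i ∘ some) := by
      funext o
      cases o <;> rfl
    rw [this]
    rfl
  rw [e1]
  congr 1
  show pd (i none) (pd j Φ) z * X z (ext j (i ∘ some)) = _
  congr 2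
  funext o
  cases o <;> rfl

/-- A contraction against a creation, moved inside. -/
theorem conF_dlt (Φ : Sp α → ℝ) {T : TF (A ⊕ R) α} {S : TF (Option (R ⊕ B)) α} (hT : Temp T)
    (hS : Temp S) :
    conF T (dlt (scP Φ) S) = dlt (scP Φ) (ren (optB A B).symm (conF T (ren (optB R B) S)))
      + conF (ren (optB A R) (gradT T)) (ren (optA R B) S) := by
  funext z i
  have hl : ∀ j (r : R → α), Sum.elim ((ext j i ∘ ⇑(optB A B).symm) ∘ Sum.inl) r
      = Sum.elim (i ∘ Sum.inl) r := fun j r => rfl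
  have hr : ∀ j (r : R → α),
      Sum.elim r ((ext j i ∘ ⇑(optB A B).symm) ∘ Sum.inr) ∘ ⇑(optB R B)
        = ext j (Sum.elim r (i ∘ Sum.inr)) := by
    intro j r
    funext o
    rcases o with _ | (x | y) <;> rfl
  simp only [conF, con, Pi.add_apply, dlt_eq, ren, hl, hr]
  rw [sum_option (fun r : Option R → α => gradT T z (Sum.elim (i ∘ Sum.inl) r ∘ ⇑(optB A R))
    * S z (Sum.elim r (i ∘ Sum.inr) ∘ ⇑(optA R B))), ← sum_add_distrib]
  simp only [mul_sum]
  rw [sum_comm]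
  refine sum_congr rfl fun j _ => ?_
  have hd : dd Φ j (fun z => ∑ r : R → α,
      T z (Sum.elim (i ∘ Sum.inl) r) * S z (ext j (Sum.elim r (i ∘ Sum.inr)))) z
      = ∑ r : R → α, (T z (Sum.elim (i ∘ Sum.inl) r)
          * dd Φ j (fun z => S z (ext j (Sum.elim r (i ∘ Sum.inr)))) z
        - pd j (fun z => T z (Sum.elim (i ∘ Sum.inl) r)) z
          * S z (ext j (Sum.elim r (i ∘ Sum.inr)))) := by
    simp only [dd, pd]
    rw [fderiv_fun_sum (fun r _ => temp_diff (temp_mul (hT _) (hS _)) z),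
      ContinuousLinearMap.sum_apply, mul_sum, ← sum_sub_distrib]
    refine sum_congr rfl fun r _ => ?_
    rw [fderiv_fun_mul (temp_diff (hT _) z) (temp_diff (hS _) z)]
    simp only [add_apply, smul_apply, smul_eq_mul]
    ring
  have e1 : ∀ r : R → α, gradT T z (Sum.elim (i ∘ Sum.inl) (ext j r) ∘ ⇑(optB A R))
      = pd j (fun z => T z (Sum.elim (i ∘ Sum.inl) r)) z := by
    intro r
    show fderiv ℝ (fun z => T z ((Sum.elim (i ∘ Sum.inl) (ext j r) ∘ ⇑(optB A R)) ∘ some)) z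
      (unitV j) = _
    have : (Sum.elim (i ∘ Sum.inl) (ext j r) ∘ ⇑(optB A R)) ∘ some
        = Sum.elim (i ∘ Sum.inl) r := by
      funext o
      rcases o with x | y <;> rfl
    rw [this]
    rfl
  have e2 : ∀ r : R → α, Sum.elim (ext j r) (i ∘ Sum.inr) ∘ ⇑(optA R B)
      = ext j (Sum.elim r (i ∘ Sum.inr)) := by
    intro r
    funext o
    rcases o with _ | (x | y) <;> rfl
  simp only [e1, e2, hd, ← sum_add_distrib, sub_add_cancel]

theorem BN.zero (K : ℝ) (hK : 0 ≤ K) : BN (0 : Ten ι α) K := fun κ κ' _ _ _ _ _ _ e a b => by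
  simp only [flat, Pi.zero_apply, zero_mul, sum_const_zero]
  exact mul_nonneg (mul_nonneg hK (nrm_nonneg _)) (nrm_nonneg _)

/-- Derivatives up to order `n` have all flattenings bounded by `K`. -/
def RB : ℕ → ∀ {ι : Type} [Fintype ι] [DecidableEq ι], TF ι α → ℝ → Prop
  | 0, _, _, _, X, K => Temp X ∧ ∀ z, BN (X z) K
  | n + 1, _, _, _, X, K => Temp X ∧ (∀ z, BN (X z) K) ∧ RB n (gradT X) K

theorem RB.temp {n : ℕ} {X : TF ι α} {K : ℝ} (h : RB n X K) : Temp X := by
  cases n <;> exact h.1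

theorem RB.bn {n : ℕ} {X : TF ι α} {K : ℝ} (h : RB n X K) (z : Sp α) : BN (X z) K := by
  cases n
  · exact h.2 z
  · exact h.2.1 z

theorem RB.of_le {n m : ℕ} {X : TF ι α} {K K' : ℝ} (h : RB n X K) (hm : m ≤ n) (hK : K ≤ K') :
    RB m X K' := by
  induction m generalizing n ι with
  | zero => exact ⟨h.temp, fun z => (h.bn z).mono hK⟩
  | succ m ih =>
    obtain ⟨n, rfl⟩ := Nat.exists_eq_succ_of_ne_zero (n := n) (by omega)
    exact ⟨h.1, fun z => (h.2.1 z).mono hK, ih h.2.2 (by omega)⟩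

theorem RB.zero (n : ℕ) (K : ℝ) (hK : 0 ≤ K) : RB n (0 : TF ι α) K := by
  induction n generalizing ι with
  | zero => exact ⟨Temp.zero, fun _ => BN.zero K hK⟩
  | succ n ih => exact ⟨Temp.zero, fun _ => BN.zero K hK, by rw [gradT_zero]; exact ih⟩

theorem RB.add {n : ℕ} {X Y : TF ι α} {K K' : ℝ} (h : RB n X K) (h' : RB n Y K') :
    RB n (X + Y) (K + K') := by
  induction n generalizing ι with
  | zero => exact ⟨h.1.add h'.1, fun z => (h.2 z).add (h'.2 z)⟩
  | succ n ih =>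
    refine ⟨h.1.add h'.1, fun z => (h.2.1 z).add (h'.2.1 z), ?_⟩
    rw [gradT_add h.1 h'.1]
    exact ih h.2.2 h'.2.2

theorem RB.smul {n : ℕ} {X : TF ι α} {K : ℝ} (h : RB n X K) (r : ℝ) :
    RB n (fun z i => r * X z i) (|r| * K) := by
  induction n generalizing ι with
  | zero => exact ⟨h.1.smul r, fun z => (h.2 z).smul r⟩
  | succ n ih =>
    refine ⟨h.1.smul r, fun z => (h.2.1 z).smul r, ?_⟩
    rw [gradT_smul h.1]
    exact ih h.2.2

theorem RB.ren {n : ℕ} {X : TF ι α} {K : ℝ} (h : RB n X K) (f : ι ≃ ι') :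
    RB n (Zero.ren f X) K := by
  induction n generalizing ι ι' with
  | zero => exact ⟨h.1.ren f, fun z => (h.2 z).rename f⟩
  | succ n ih => exact ⟨h.1.ren f, fun z => (h.2.1 z).rename f, ih h.2.2 (Equiv.optionCongr f)⟩

theorem RB.conF [Nonempty A] [Nonempty B] [Nonempty R] {n : ℕ} {T : TF (A ⊕ R) α}
    {S : TF (R ⊕ B) α} {K K' : ℝ} (hT : RB n T K) (hS : RB n S K') (hK : 0 ≤ K) (hK' : 0 ≤ K') :
    RB n (Zero.conF T S) (2 ^ n * (K * K')) := by
  induction n generalizing A B with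
  | zero => exact ⟨hT.1.conF hS.1, fun z => ((hT.2 z).con (hS.2 z) hK hK').mono (by simp)⟩
  | succ n ih =>
    refine ⟨hT.1.conF hS.1, fun z => ((hT.2.1 z).con (hS.2.1 z) hK hK').mono
      (le_mul_of_one_le_left (mul_nonneg hK hK') (one_le_pow₀ (by norm_num))), ?_⟩
    rw [gradT_conF hT.1 hS.1, pow_succ, mul_two, add_mul]
    refine RB.add ?_ ?_
    · exact (ih (hT.2.2.ren _) (hS.of_le (Nat.le_succ n) le_rfl)).ren _
    · exact (ih (hT.of_le (Nat.le_succ n) le_rfl) (hS.2.2.ren _)).ren _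

/-- Sums of at most `j`-fold creations of bounded fields with total bound `K`. -/
def Cre (Φ : Sp α → ℝ) : ℕ → ℕ → ∀ {ι : Type} [Fintype ι] [DecidableEq ι], TF ι α → ℝ → Prop
  | 0, n, ι, _, _, X, K => 0 ≤ K ∧ (X = 0 ∨ ((∃ i i' : ι, i ≠ i') ∧ RB n X K))
  | j + 1, n, _, _, _, X, K => ∃ Y₀ Y₁, ∃ K₀ K₁ : ℝ, Cre Φ j n Y₀ K₀ ∧ Cre Φ j n Y₁ K₁ ∧
      X = Y₀ + dlt (scP Φ) Y₁ ∧ K₀ + K₁ ≤ K

variable {Φ : Sp α → ℝ}

theorem Cre.nonneg {j n : ℕ} {X : TF ι α} {K : ℝ} (h : Cre Φ j n X K) : 0 ≤ K := by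
  induction j generalizing ι K with
  | zero => exact h.1
  | succ j ih =>
    obtain ⟨Y₀, Y₁, K₀, K₁, h₀, h₁, -, hK⟩ := h
    linarith [ih h₀, ih h₁]

theorem Cre.temp (hΦ : Φ.HasTemperateGrowth) {j n : ℕ} {X : TF ι α} {K : ℝ}
    (h : Cre Φ j n X K) : Temp X := by
  induction j generalizing ι K with
  | zero =>
    rcases h.2 with e | ⟨-, e⟩
    · exact e ▸ Temp.zero
    · exact e.temp
  | succ j ih =>
    obtain ⟨Y₀, Y₁, K₀, K₁, h₀, h₁, rfl, -⟩ := h
    exact (ih h₀).add ((ih h₁).dlt hΦ)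

theorem Cre.zero (j n : ℕ) {K : ℝ} (hK : 0 ≤ K) : Cre Φ j n (0 : TF ι α) K := by
  induction j generalizing ι K with
  | zero => exact ⟨hK, Or.inl rfl⟩
  | succ j ih =>
    exact ⟨0, 0, K, 0, ih hK, ih le_rfl, by rw [dlt_zero, add_zero], by simp⟩

theorem Cre.of_le {j n m : ℕ} {X : TF ι α} {K K' : ℝ} (h : Cre Φ j n X K) (hm : m ≤ n)
    (hK : K ≤ K') : Cre Φ j m X K' := by
  induction j generalizing ι K K' with
  | zero => exact ⟨h.1.trans hK, h.2.imp id fun e => ⟨e.1, e.2.of_le hm hK⟩⟩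
  | succ j ih =>
    obtain ⟨Y₀, Y₁, K₀, K₁, h₀, h₁, e, hKK⟩ := h
    exact ⟨Y₀, Y₁, K₀, K₁, ih h₀ le_rfl, ih h₁ le_rfl, e, hKK.trans hK⟩

theorem Cre.succ {j n : ℕ} {X : TF ι α} {K : ℝ} (h : Cre Φ j n X K) : Cre Φ (j + 1) n X K :=
  ⟨X, 0, K, 0, h, Cre.zero j n le_rfl, by rw [dlt_zero, add_zero], by simp⟩

theorem Cre.base {n : ℕ} {X : TF ι α} {K : ℝ} (h : RB n X K) (hK : 0 ≤ K) {i i' : ι}
    (hi : i ≠ i') : Cre Φ 0 n X K :=
  ⟨hK, Or.inr ⟨⟨i, i', hi⟩, h⟩⟩

theorem Cre.dlt {j n : ℕ} {X : TF (Option ι) α} {K : ℝ} (h : Cre Φ j n X K) :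
    Cre Φ (j + 1) n (dlt (scP Φ) X) K :=
  ⟨0, X, 0, K, Cre.zero j n le_rfl, h, (zero_add _).symm, by simp⟩

theorem Cre.add (hΦ : Φ.HasTemperateGrowth) {j n : ℕ} {X Y : TF ι α} {K K' : ℝ}
    (h : Cre Φ j n X K) (h' : Cre Φ j n Y K') : Cre Φ j n (X + Y) (K + K') := by
  induction j generalizing ι K K' with
  | zero =>
    refine ⟨add_nonneg h.1 h'.1, ?_⟩
    rcases h.2 with e | e
    · rw [e, zero_add]
      exact h'.2.imp id fun e' => ⟨e'.1, e'.2.of_le le_rfl (le_add_of_nonneg_left h.1)⟩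
    rcases h'.2 with e' | e'
    · rw [e', add_zero]
      exact Or.inr ⟨e.1, e.2.of_le le_rfl (le_add_of_nonneg_right h'.1)⟩
    exact Or.inr ⟨e.1, e.2.add e'.2⟩
  | succ j ih =>
    obtain ⟨Y₀, Y₁, K₀, K₁, h₀, h₁, rfl, hK⟩ := h
    obtain ⟨Z₀, Z₁, L₀, L₁, g₀, g₁, rfl, hL⟩ := h'
    exact ⟨Y₀ + Z₀, Y₁ + Z₁, K₀ + L₀, K₁ + L₁, ih h₀ g₀, ih h₁ g₁,
      by rw [dlt_add Φ (h₁.temp hΦ) (g₁.temp hΦ)]; abel, by linarith⟩

theorem Cre.smul (hΦ : Φ.HasTemperateGrowth) {j n : ℕ} {X : TF ι α} {K : ℝ}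
    (h : Cre Φ j n X K) (r : ℝ) : Cre Φ j n (fun z i => r * X z i) (|r| * K) := by
  induction j generalizing ι K with
  | zero =>
    refine ⟨mul_nonneg (abs_nonneg r) h.1, h.2.imp (fun e => ?_) fun e => ⟨e.1, e.2.smul r⟩⟩
    funext z i
    simp [e]
  | succ j ih =>
    obtain ⟨Y₀, Y₁, K₀, K₁, h₀, h₁, rfl, hK⟩ := h
    refine ⟨_, _, _, _, ih h₀, ih h₁, ?_,
      (mul_add |r| K₀ K₁).ge.trans (mul_le_mul_of_nonneg_left hK (abs_nonneg r))⟩
    rw [dlt_smul Φ (h₁.temp hΦ)]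
    funext z i
    simp [mul_add]

theorem Cre.ren {j n : ℕ} {X : TF ι α} {K : ℝ} (h : Cre Φ j n X K) (f : ι ≃ ι') :
    Cre Φ j n (Zero.ren f X) K := by
  induction j generalizing ι ι' K with
  | zero =>
    refine ⟨h.1, h.2.imp (fun e => by rw [e, ren_zero]) fun e => ?_⟩
    obtain ⟨⟨i, i', hi⟩, e⟩ := e
    exact ⟨⟨f i, f i', fun e' => hi (f.injective e')⟩, e.ren f⟩
  | succ j ih =>
    obtain ⟨Y₀, Y₁, K₀, K₁, h₀, h₁, rfl, hK⟩ := h
    exact ⟨_, _, K₀, K₁, ih h₀ f, ih h₁ (Equiv.optionCongr f), by rw [ren_add, dlt_ren], hK⟩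

/-- A bounded field against a member. -/
theorem Cre.conF_left (hΦ : Φ.HasTemperateGrowth) [Nonempty A] [Nonempty B] [Nonempty R]
    {j n : ℕ} {T : TF (A ⊕ R) α} {S : TF (R ⊕ B) α} {K K' : ℝ} (hT : RB (n + j) T K)
    (hS : Cre Φ j (n + j) S K') (hK : 0 ≤ K) :
    Cre Φ j n (Zero.conF T S) (3 ^ j * 2 ^ n * (K * K')) := by
  induction j generalizing A B R K' n with
  | zero =>
    simp only [Nat.add_zero] at hT hS
    rw [pow_zero, one_mul]
    refine ⟨by have := hS.1; positivity, ?_⟩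
    rcases hS.2 with e | ⟨-, e⟩
    · exact Or.inl (by rw [e, conF_zero_right])
    · exact Or.inr ⟨⟨Sum.inl (Classical.arbitrary A), Sum.inr (Classical.arbitrary B),
        Sum.inl_ne_inr⟩, hT.conF e hK hS.1⟩
  | succ j ih =>
    obtain ⟨S₀, S₁, K₀, K₁, h₀, h₁, rfl, hKK⟩ := hS
    have h0 := h₀.nonneg
    have h1 := h₁.nonneg
    have a₀ := (ih (hT.of_le (by omega) le_rfl) (h₀.of_le (by omega) le_rfl)).succ (n := n)
    have a₁ := ((ih (hT.of_le (by omega) le_rfl)
      ((h₁.of_le (by omega) le_rfl).ren (optB R B))).ren (optB A B).symm).dlt (n := n)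
    have hT' : RB (n + j) (Zero.ren (optB A R) (gradT T)) K := by
      rw [show n + (j + 1) = n + j + 1 from rfl] at hT
      exact hT.2.2.ren _
    have a₂ := (ih hT' ((h₁.of_le (by omega) le_rfl).ren (optA R B))).succ (n := n)
    have hs := a₀.add hΦ (a₁.add hΦ a₂)
    rw [conF_add_right, conF_dlt Φ hT.temp (h₁.temp hΦ)]
    refine hs.of_le le_rfl ?_
    have hp : 0 ≤ (3 : ℝ) ^ j * 2 ^ n * K := by positivity
    rw [pow_succ]
    nlinarith [mul_le_mul_of_nonneg_left hKK hp, mul_nonneg hp h0, mul_nonneg hp h1]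

/-- The constant of `Cre.gradT`. -/
def gC (j n : ℕ) (L : ℝ) : ℝ := (1 + L) * 6 ^ (j + n)

theorem Cre.gradT (hΦ : Φ.HasTemperateGrowth) {L : ℝ} (hL : 0 ≤ L) [Nonempty ι] {j n : ℕ}
    {X : TF ι α} {K : ℝ} (hH : RB (n + j) (hessT Φ) L) (h : Cre Φ j (n + j + 1) X K) :
    Cre Φ j n (Zero.gradT X) (gC j n L * K) := by
  induction j generalizing ι K n with
  | zero =>
    have h1 : 1 ≤ gC 0 n L := one_le_mul_of_one_le_of_one_le (by linarith) (one_le_pow₀ (by norm_num))
    refine ⟨mul_nonneg (zero_le_one.trans h1) h.1, ?_⟩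
    rcases h.2 with e | ⟨⟨i, i', hi⟩, e⟩
    · exact Or.inl (by rw [e, gradT_zero])
    · exact Or.inr ⟨⟨some i, some i', fun e' => hi (Option.some_injective _ e')⟩,
        RB.of_le e.2.2 le_rfl (le_mul_of_one_le_left h.1 h1)⟩
  | succ j ih =>
    obtain ⟨Y₀, Y₁, K₀, K₁, h₀, h₁, rfl, hKK⟩ := h
    have h0 := h₀.nonneg
    have h1 := h₁.nonneg
    have a₀ := (ih (hH.of_le (by omega) le_rfl) (h₀.of_le (by omega) le_rfl)).succ (n := n)
    have a₁ := ((ih (hH.of_le (by omega) le_rfl) (h₁.of_le (by omega) le_rfl)).ren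
      (optSwap ι)).dlt (n := n)
    have a₂ := ((Cre.conF_left hΦ (hH.of_le (by omega) le_rfl)
      ((h₁.of_le (by omega) le_rfl).ren (optU ι)) hL).ren (optU ι).symm).succ (n := n) (j := j)
    have hs := a₀.add hΦ (a₁.add hΦ a₂)
    rw [gradT_add (h₀.temp hΦ) ((h₁.temp hΦ).dlt hΦ), gradT_dlt hΦ (h₁.temp hΦ)]
    refine hs.of_le le_rfl ?_
    have e36 : (3 : ℝ) ^ j * 2 ^ n ≤ 6 ^ (j + n) := by
      rw [pow_add]
      gcongr <;> norm_num
    have hg : (0 : ℝ) ≤ gC j n L := by unfold gC; positivity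
    have e6 : gC (j + 1) n L = 6 * gC j n L := by unfold gC; ring
    have e3 : 3 ^ j * 2 ^ n * L ≤ gC j n L := by
      unfold gC
      nlinarith [mul_le_mul_of_nonneg_right e36 hL, (by positivity : (0 : ℝ) ≤ 6 ^ (j + n))]
    rw [e6]
    nlinarith [mul_le_mul_of_nonneg_left hKK hg, mul_le_mul_of_nonneg_right e3 h1,
      mul_nonneg hg h0, mul_nonneg hg h1]

/-- The constant of `Cre.conF`. -/
def cC (a n : ℕ) (L : ℝ) : ℕ → ℝ
  | 0 => 3 ^ a * 2 ^ n
  | b + 1 => cC a n L b * (2 + gC a (n + a + b * (a + 1)) L)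

theorem cC_nonneg (a n : ℕ) {L : ℝ} (hL : 0 ≤ L) : ∀ b, 0 ≤ cC a n L b
  | 0 => by unfold cC; positivity
  | b + 1 => by
    have := cC_nonneg a n hL b
    unfold cC gC
    positivity

/-- Two members contracted, each keeping an index. -/
theorem Cre.conF (hΦ : Φ.HasTemperateGrowth) {L : ℝ} (hL : 0 ≤ L) [Nonempty A] [Nonempty B]
    [Nonempty R] {a b n : ℕ} {T : TF (A ⊕ R) α} {S : TF (R ⊕ B) α} {K K' : ℝ}
    (hH : RB (n + a + b * (a + 1)) (hessT Φ) L) (hT : Cre Φ a (n + a + b * (a + 1)) T K)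
    (hS : Cre Φ b (n + a + b * (a + 1)) S K') :
    Cre Φ (a + b) n (Zero.conF T S) (cC a n L b * (K * K')) := by
  induction b generalizing A B R K K' with
  | zero =>
    simp only [zero_mul, Nat.add_zero] at hT hS ⊢
    rcases hS.2 with e | ⟨-, e⟩
    · rw [e, conF_zero_right]
      exact Cre.zero a n (mul_nonneg (cC_nonneg a n hL 0) (mul_nonneg hT.nonneg hS.1))
    · rw [conF_symm]
      exact ((Cre.conF_left hΦ (e.ren (Equiv.sumComm R B)) (hT.ren (Equiv.sumComm A R)) hS.1).ren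
        (Equiv.sumComm B A)).of_le le_rfl (by rw [cC]; exact le_of_eq (by ring))
  | succ b ih =>
    obtain ⟨S₀, S₁, K₀, K₁, h₀, h₁, rfl, hKK⟩ := hS
    have h0 := h₀.nonneg
    have h1 := h₁.nonneg
    have hK := hT.nonneg
    have hN : (b + 1) * (a + 1) = b * (a + 1) + (a + 1) := Nat.succ_mul b (a + 1)
    have hH' := hH.of_le (m := n + a + b * (a + 1)) (by omega) le_rfl
    have hT' := hT.of_le (m := n + a + b * (a + 1)) (by omega) le_rfl
    have a₀ := (ih hH' hT' (h₀.of_le (by omega) le_rfl)).succ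
    have a₁ := ((ih hH' hT' ((h₁.of_le (by omega) le_rfl).ren (optB R B))).ren
      (optB A B).symm).dlt
    have hgT := (hT.of_le (m := n + a + b * (a + 1) + a + 1) (by omega) le_rfl).gradT hΦ hL
      (hH.of_le (by omega) le_rfl)
    have a₂ := (ih hH' (hgT.ren (optB A R)) ((h₁.of_le (by omega) le_rfl).ren (optA R B))).succ
    have hs := a₀.add hΦ (a₁.add hΦ a₂)
    rw [conF_add_right, conF_dlt Φ (hT.temp hΦ) (h₁.temp hΦ)]
    refine hs.of_le le_rfl ?_
    show _ ≤ cC a n L b * (2 + gC a (n + a + b * (a + 1)) L) * (K * K')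
    have hc := cC_nonneg a n hL b
    have hg : 0 ≤ gC a (n + a + b * (a + 1)) L := by unfold gC; positivity
    nlinarith [mul_le_mul_of_nonneg_left hKK (mul_nonneg (mul_nonneg hc hK) hg),
      mul_le_mul_of_nonneg_left hKK (mul_nonneg hc hK), mul_nonneg (mul_nonneg hc hK) h0,
      mul_nonneg (mul_nonneg hc hK) h1, mul_nonneg (mul_nonneg (mul_nonneg hc hK) hg) h0]

/-- The derivative budget of the `L²` bound. -/
def nL2 : ℕ → ℕ
  | 0 => 0
  | j + 1 => nL2 j + j + 1

/-- The constant of the `L²` bound. -/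
def bL2 (L : ℝ) : ℕ → ℝ
  | 0 => 1
  | j + 1 => 2 * bL2 L j * (1 + L + gC j (nL2 j) L ^ 2)

theorem hess_opLE {L : ℝ} {n : ℕ} (hH : RB n (hessT Φ) L) (z : Sp α) :
    OpLE (fun j k => pd j (pd k Φ) z) L :=
  (hH.bn z Unit Unit inferInstance inferInstance (Equiv.refl _)).reindex
    (Equiv.funUnique Unit α).symm (Equiv.funUnique Unit α).symm

theorem sqT_add_le (X Y : Ten ι α) : sqT (X + Y) ≤ 2 * sqT X + 2 * sqT Y := by
  simp only [sqT, mul_sum, ← sum_add_distrib]
  exact sum_le_sum fun i _ => by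
    simp only [Pi.add_apply]
    nlinarith [sq_nonneg (X i - Y i)]

theorem bL2_nonneg {L : ℝ} (hL : 0 ≤ L) : ∀ j, 0 ≤ bL2 L j
  | 0 => zero_le_one
  | j + 1 => by
    have := bL2_nonneg hL j
    unfold bL2
    positivity

/-- Every member is bounded in `L²` by its constant times `sqrt (card α)`. -/
theorem Cre.integral_sqT_le (h : Pot Φ) {L : ℝ} (hL : 0 ≤ L) [Nonempty ι] {j : ℕ} {X : TF ι α}
    {K : ℝ} (hH : RB (nL2 j) (hessT Φ) L) (hX : Cre Φ j (nL2 j) X K) :
    EP Φ (fun z => sqT (X z)) ≤ bL2 L j * (Fintype.card α * K ^ 2) := by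
  induction j generalizing ι K with
  | zero =>
    rw [bL2, one_mul]
    refine (h.EP_mono ((hX.temp h.temp).sqT) (Function.HasTemperateGrowth.const
      ((Fintype.card α : ℝ) * K ^ 2)) fun z => ?_).trans (le_of_eq (h.EP_const _))
    rcases hX.2 with e | ⟨⟨i, i', hi⟩, e⟩
    · subst e
      simp only [sqT, Pi.zero_apply]
      simp
      positivity
    · rw [mul_comm]
      exact (e.bn z).sq_sum_le hX.1 i ⟨i', hi.symm⟩
  | succ j ih =>
    obtain ⟨Y₀, Y₁, K₀, K₁, h₀, h₁, rfl, hKK⟩ := hX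
    have h0 := h₀.nonneg
    have h1 := h₁.nonneg
    have t₀ := h₀.temp h.temp
    have t₁ := h₁.temp h.temp
    have hH' : RB (nL2 j) (hessT Φ) L := hH.of_le (by simp only [nL2]; omega) le_rfl
    have b₀ := ih hH' (h₀.of_le (by simp only [nL2]; omega) le_rfl)
    have b₁ := ih hH' (h₁.of_le (by simp only [nL2]; omega) le_rfl)
    have b₂ := ih hH' (h₁.gradT h.temp hL (n := nL2 j) (hH.of_le (by simp only [nL2]; omega) le_rfl))
    have hd := h.integral_dlt_sq_le (hess_opLE hH) t₁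
    have hs : EP Φ (fun z => sqT ((Y₀ + Zero.dlt (scP Φ) Y₁) z))
        ≤ 2 * EP Φ (fun z => sqT (Y₀ z))
          + 2 * EP Φ (fun z => sqT (Zero.dlt (scP Φ) Y₁ z)) := by
      refine (h.EP_mono ((t₀.add (t₁.dlt h.temp)).sqT)
        ((temp_mul (Function.HasTemperateGrowth.const (2 : ℝ)) t₀.sqT).add
          (temp_mul (Function.HasTemperateGrowth.const (2 : ℝ)) (t₁.dlt h.temp).sqT))
        fun z => sqT_add_le _ _).trans (le_of_eq ?_)
      rw [← EP_smul, ← EP_smul]
      exact h.EP_add (temp_mul (Function.HasTemperateGrowth.const (2 : ℝ)) t₀.sqT)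
        (temp_mul (Function.HasTemperateGrowth.const (2 : ℝ)) (t₁.dlt h.temp).sqT)
    have hb := bL2_nonneg hL j
    have hcard : (0 : ℝ) ≤ Fintype.card α := Nat.cast_nonneg _
    have hK : K₀ ^ 2 + K₁ ^ 2 ≤ K ^ 2 := by
      nlinarith [mul_nonneg h0 h1, pow_le_pow_left₀ (add_nonneg h0 h1) hKK 2]
    have hmain : EP Φ (fun z => sqT ((Y₀ + Zero.dlt (scP Φ) Y₁) z))
        ≤ 2 * (bL2 L j * Fintype.card α)
          * (K₀ ^ 2 + L * K₁ ^ 2 + gC j (nL2 j) L ^ 2 * K₁ ^ 2) := by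
      nlinarith [mul_le_mul_of_nonneg_left b₁ hL]
    refine hmain.trans ?_
    have hbc := mul_nonneg hb hcard
    have hfin : K₀ ^ 2 + L * K₁ ^ 2 + gC j (nL2 j) L ^ 2 * K₁ ^ 2
        ≤ (1 + L + gC j (nL2 j) L ^ 2) * K ^ 2 := by
      nlinarith [mul_le_mul_of_nonneg_left hK (add_nonneg hL (sq_nonneg (gC j (nL2 j) L))),
        mul_nonneg (add_nonneg hL (sq_nonneg (gC j (nL2 j) L))) (sq_nonneg K₀)]
    rw [bL2]
    nlinarith [mul_le_mul_of_nonneg_left hfin hbc]

/-- An extra index on the right, read as an outer one. -/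
def optFin (ι : Type) (k : ℕ) : Option ι ⊕ Fin k ≃ ι ⊕ Fin (k + 1) where
  toFun := Sum.elim (fun o => o.elim (Sum.inr (Fin.last k)) Sum.inl) fun l => Sum.inr l.castSucc
  invFun := Sum.elim (fun i => Sum.inl (some i))
    (Fin.lastCases (Sum.inl none) fun l => Sum.inr l)
  left_inv x := by rcases x with (_ | i) | l <;> simp
  right_inv x := by
    rcases x with i | l
    · rfl
    · refine Fin.lastCases ?_ (fun l => ?_) l <;> simp

theorem gradK_gradT {X : TF ι α} (hX : SmoothTF X) (k : ℕ) (z : Sp α)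
    (i : Option ι ⊕ Fin k → α) :
    gradK k (gradT X) z i = gradK (k + 1) X z (i ∘ (optFin ι k).symm) := by
  have e0 : (i ∘ (optFin ι k).symm) ∘ Sum.inl = (i ∘ Sum.inl) ∘ some := rfl
  simp only [gradK, e0, iteratedFDeriv_succ_apply_right]
  have hl : unitV ((i ∘ (optFin ι k).symm) (Sum.inr (Fin.last k)))
      = unitV ((i ∘ Sum.inl) none) := by simp [optFin]
  have hi : (Fin.init fun l => unitV ((i ∘ (optFin ι k).symm) (Sum.inr l)))
      = fun l : Fin k => unitV (i (Sum.inr l)) := by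
    funext l
    simp [Fin.init, optFin]
  rw [hl, hi]
  set v := unitV ((i ∘ Sum.inl) none)
  set f := fun z => X z ((i ∘ Sum.inl) ∘ some)
  have hf : ContDiff ℝ (k : ℕ∞) (fderiv ℝ f) :=
    (hX ((i ∘ Sum.inl) ∘ some)).fderiv_right (WithTop.coe_le_coe.2 le_top)
  show iteratedFDeriv ℝ k (⇑(ContinuousLinearMap.apply ℝ ℝ v) ∘ fderiv ℝ f) z _ = _
  rw [(ContinuousLinearMap.apply ℝ ℝ v).iteratedFDeriv_comp_left hf.contDiffAt le_rfl]
  rfl

/-- `Reg` gives the recursive bounds. -/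
theorem RB.of_reg {n : ℕ} {X : TF ι α} {c : ℕ → ℝ} {K : ℝ} (h : Reg n c X) (ht : Temp X)
    (hc : ∀ k ≤ n, c k ≤ K) : RB n X K := by
  have base : ∀ z, BN (X z) K := by
    intro z
    have h0 := ((h.2 0 (Nat.zero_le n) z).rename (Equiv.sumEmpty ι (Fin 0))).mono
      (hc 0 (Nat.zero_le n))
    refine (funext fun i => ?_ : (fun i : ι → α => gradK 0 X z (i ∘ Equiv.sumEmpty ι (Fin 0)))
      = X z) ▸ h0
    simp only [gradK, iteratedFDeriv_zero_apply]
    rfl
  induction n generalizing ι c with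
  | zero => exact ⟨ht, base⟩
  | succ n ih =>
    refine ⟨ht, base, ?_⟩
    have h' : Reg n (fun k => c (k + 1)) (gradT X) := by
      refine ⟨fun i => (Temp.gradT ht i).1, fun k hk z => ?_⟩
      have := (h.2 (k + 1) (by omega) z).rename (optFin ι k).symm
      refine (funext fun i => ?_ : (fun i : Option ι ⊕ Fin k → α =>
        gradK (k + 1) X z (i ∘ (optFin ι k).symm)) = gradK k (gradT X) z) ▸ this
      exact (gradK_gradT h.1 k z i).symm
    have base' : ∀ z, BN (gradT X z) K := by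
      intro z
      have h0 := ((h'.2 0 (Nat.zero_le n) z).rename (Equiv.sumEmpty (Option ι) (Fin 0))).mono
        (hc 1 (by omega))
      refine (funext fun i => ?_ : (fun i : Option ι → α => gradK 0 (gradT X) z
        (i ∘ Equiv.sumEmpty (Option ι) (Fin 0))) = gradT X z) ▸ h0
      simp only [gradK, iteratedFDeriv_zero_apply]
      rfl
    exact ih h' ht.gradT (fun k hk => hc (k + 1) (by omega)) base'

end

end Vale.Agent.P347.Zero
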