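import Vale.Agent.P347.Zero.Levels
import Vale.Agent.P347.Zero.Posterior
import Vale.Agent.P347.Zero.SampleOps
import Vale.Agent.P347.Quarter.AlgImpl

/-!
# P347, exponent 0: one query samples a node up to `√v`
-/

namespace Vale.Agent.P347.Zero

open MeasureTheory ProbabilityTheory Real Finset
open Vale.Agent.P347.Quarter (E γ gOf)
open Vale.Agent.P347.Colour (Pt Resp Uses oracle)
open scoped NNReal

noncomputable section

variable {d : ℕ} {V : Pt d → ℝ}

theorem rpow_neg_le_one {d : ℕ} (hd : 1 ≤ d) {t : ℝ} (ht : 0 ≤ t) : (d : ℝ) ^ (-t) ≤ 1 :=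
  Real.rpow_le_one_of_one_le_of_nonpos (by exact_mod_cast hd) (by linarith)

theorem norm_grad_le (hV : Mem V) (x : E d) : ‖gOf (oracle V) x‖ ≤ 2 * ‖x‖ :=
  Quarter.Tgt.pot_lin (Quarter.pot_gOf hV) x

theorem lip_grad (hV : Mem V) : LipschitzWith 2 (gOf (oracle V)) :=
  lipschitzWith_of_nnnorm_fderiv_le ((Quarter.pot_gOf hV).smooth.differentiable one_ne_zero)
    fun x => by
      have := Quarter.Tgt.pot_norm (Quarter.pot_gOf hV) x
      rw [← NNReal.coe_le_coe]
      simpa using this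

/-- The field of a node is close to the gradient. -/
theorem Nd.val_sub_grad_le (hV : Mem V) {nd : Nd} {h r : ℝ} (hn : nd.Ok h r) (hh : h ≤ 1 / 4)
    (x : E d) : ‖nd.val V x - gOf (oracle V) x‖ ≤ 8 * √nd.v * (√d + ‖x‖) := by
  have hv4 : nd.v ≤ 1 / 4 := hn.v_le.trans hh
  have hs : √nd.v ≤ 1 / 2 :=
    (Real.sqrt_le_sqrt hv4).trans (le_of_eq (by rw [show (1 / 4 : ℝ) = (1 / 2) ^ 2 by norm_num,
      sqrt_sq (by norm_num)]))
  have hvs : nd.v ≤ √nd.v / 2 := by
    nlinarith [Real.mul_self_sqrt hn.v_pos.le, Real.sqrt_nonneg nd.v]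
  have ha : 0 ≤ nd.a := hn.a_ge.elim (fun h0 => h0.symm.le) fun h0 => h0.1.le
  have h1 : ‖Nv V nd.v x - gOf (oracle V) x‖ ≤ 4 * √(nd.v * d) + 4 * nd.v * ‖gOf (oracle V) x‖ :=
    Nv_sub_g_le hV hn.v_pos hv4 x
  rw [Real.sqrt_mul hn.v_pos.le] at h1
  have hlip : ∀ a c, ‖Nv V nd.v a - Nv V nd.v c‖ ≤ 2 * ‖a - c‖ := Nv_lip hV hn.v_pos
  have hc : Continuous fun w : E d => Nv V nd.v (x + √(nd.a ^ 2) • w) :=
    (LipschitzWith.of_dist_le_mul (K := 2) (f := Nv V nd.v) fun a c => by
      simpa [dist_eq_norm] using hlip a c).continuous.comp (by fun_prop)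
  have hi : Integrable (fun w : E d => Nv V nd.v (x + √(nd.a ^ 2) • w) - Nv V nd.v x) (γ d) :=
    Integrable.mono' (((IsGaussian.integrable_id (μ := γ d)).norm.const_mul (2 * nd.a)))
      (hc.sub continuous_const).aestronglyMeasurable (ae_of_all _ fun w => by
        have := hlip (x + √(nd.a ^ 2) • w) x
        rw [add_sub_cancel_left, norm_smul, norm_eq_abs, sqrt_sq ha, abs_of_nonneg ha] at this
        simpa [mul_assoc, sqrt_sq ha] using this)
  have h2 : ‖nd.val V x - Nv V nd.v x‖ ≤ 2 * nd.a * √d := by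
    have e : nd.val V x - Nv V nd.v x
        = ∫ w, (Nv V nd.v (x + √(nd.a ^ 2) • w) - Nv V nd.v x) ∂γ d := by
      have hj : Integrable (fun w : E d => Nv V nd.v (x + √(nd.a ^ 2) • w)) (γ d) := by
        refine (hi.add (integrable_const (Nv V nd.v x))).congr (ae_of_all _ fun w => ?_)
        simp
      rw [integral_sub hj (integrable_const _)]
      simp [Nd.val, Quarter.G]
    rw [e]
    refine (norm_integral_le_integral_norm _).trans ((integral_mono hi.norm
      ((IsGaussian.integrable_id (μ := γ d)).norm.const_mul (2 * nd.a)) fun w => ?_).trans ?_)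
    · have := hlip (x + √(nd.a ^ 2) • w) x
      rw [add_sub_cancel_left, norm_smul, norm_eq_abs, sqrt_sq ha, abs_of_nonneg ha] at this
      simpa [mul_assoc, sqrt_sq ha] using this
    · rw [integral_const_mul]
      exact mul_le_mul_of_nonneg_left Quarter.Tgt.γ_norm_le (by linarith)
  have hg := norm_grad_le hV x
  refine (norm_sub_le_norm_sub_add_norm_sub _ (Nv V nd.v x) _).trans ?_
  have hsv := Real.sqrt_nonneg nd.v
  have hsd := Real.sqrt_nonneg (d : ℝ)
  nlinarith [norm_nonneg x, mul_le_mul_of_nonneg_right hn.a_le hsd,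
    mul_le_mul_of_nonneg_left hg (show 0 ≤ 4 * nd.v by linarith [hn.v_pos]),
    mul_le_mul_of_nonneg_right hvs (norm_nonneg x)]

/-- One query at the sample, plus noise. -/
theorem smp_node_query {nd : Nd} {h r b β : ℝ} (hn : nd.Ok h r) (hh : h ≤ 1 / 4) (hb : 0 ≤ b)
    (hbv : b ≤ √nd.v) :
    Smp (d := d) (σ := Unit) 1 (fun _ => b) (fun _ => 2) β (10 * √nd.v)
      (fun V x => nd.val V (x ())) := by
  refine ⟨E d, inferInstance, γ d, inferInstance,
    fun O p => gOf O (p.1 ()) + β • p.2,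
    ((Quarter.uses_gquery (α := Inp d Unit × E d) (P := fun p => p.1 ()) (by fun_prop)).map
      (h := fun p => p) measurable_id
      (g := fun z : (Inp d Unit × E d) × E d => z.2 + β • z.1.2) (by fun_prop)), fun V hV => ?_⟩
  have hgc : Continuous (gOf (oracle V)) := (lip_grad hV).continuous
  refine ⟨by fun_prop, fun y => integrable_noise (d := d) (gOf (oracle V) (y ())) β, fun ω y y' => ?_, fun x φ hφ => ?_⟩
  · simpa [dist_eq_norm] using (lip_grad hV).dist_le_mul (y ()) (y' ())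
  set c := x ()
  have hI : Integrable (fun p : Inp d Unit × E d =>
      gOf (oracle V) (blur (fun _ => b) x p.1 ()) + β • p.2) ((γs d Unit).prod (γ d)) := by
    refine Integrable.add ?_ (((IsGaussian.integrable_id (μ := γ d)).smul β).comp_snd _)
    refine ((integrable_blur (fun _ => b) x ()).comp_fst _).norm.const_mul 2 |>.mono' ?_ ?_
    · exact (hgc.measurable.comp (by fun_prop)).aestronglyMeasurable
    · exact ae_of_all _ fun p => norm_grad_le hV _
  have hI' : Integrable (fun p : Inp d Unit × E d => nd.val V c + β • p.2)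
      ((γs d Unit).prod (γ d)) := (integrable_noise _ β).comp_snd _
  have e : ∫ w, φ (nd.val V c + β • w) ∂γ d
      = ∫ p : Inp d Unit × E d, φ (nd.val V c + β • p.2) ∂((γs d Unit).prod (γ d)) := by
    rw [integral_fun_snd (f := fun w => φ (nd.val V c + β • w))]; simp
  rw [e, ← integral_sub (integrable_lip hI hφ) (integrable_lip hI' hφ)]
  have hbd : Integrable (fun p : Inp d Unit × E d => 2 * b * ‖p.1 ()‖
      + 8 * √nd.v * (√d + ‖c‖)) ((γs d Unit).prod (γ d)) :=
    (((((measurePreserving_coord (d := d) (κ := Unit) ()).integrable_comp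
      aestronglyMeasurable_id).2 IsGaussian.integrable_id).norm.const_mul (2 * b)).comp_fst _).add
      (integrable_const _)
  refine (abs_integral_le_integral_abs).trans ((integral_mono
    ((integrable_lip hI hφ).sub (integrable_lip hI' hφ)).abs hbd fun p => ?_).trans ?_)
  · have h1 := hφ.dist_le_mul (gOf (oracle V) (blur (fun _ => b) x p.1 ()) + β • p.2)
      (nd.val V c + β • p.2)
    rw [NNReal.coe_one, one_mul, Real.dist_eq, dist_eq_norm, add_sub_add_right_eq_sub] at h1
    refine h1.trans ((norm_sub_le_norm_sub_add_norm_sub _ (gOf (oracle V) c) _).trans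
      (add_le_add ?_ (by rw [norm_sub_rev]; exact nd.val_sub_grad_le hV hn hh c)))
    refine ((lip_grad hV).norm_sub_le _ _).trans (le_of_eq ?_)
    simp [blur, c, norm_smul, abs_of_nonneg hb, mul_assoc]
  · rw [integral_fun_fst (f := fun z : Inp d Unit => 2 * b * ‖z ()‖ + 8 * √nd.v * (√d + ‖c‖))]
    have hI2 : Integrable (fun z : Inp d Unit => 2 * b * ‖z ()‖) (γs d Unit) :=
      ((((measurePreserving_coord (d := d) (κ := Unit) ()).integrable_comp
        aestronglyMeasurable_id).2 IsGaussian.integrable_id).norm.const_mul (2 * b))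
    rw [probReal_univ, one_smul, integral_add hI2 (integrable_const _),
      integral_const_mul, integral_coord () (f := fun w : E d => ‖w‖) (by fun_prop)]
    have h1 := Quarter.Tgt.γ_norm_le (d := d)
    have hw : wt x = √d + ‖c‖ := by simp [wt, c]
    rw [hw]
    simp only [integral_const, probReal_univ, one_smul]
    have hsd := Real.sqrt_nonneg (d : ℝ)
    have hsv := Real.sqrt_nonneg nd.v
    nlinarith [norm_nonneg c, mul_le_mul_of_nonneg_left h1 (show 0 ≤ 2 * b by linarith),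
      mul_le_mul_of_nonneg_right hbv hsd]

/-- Lower accuracy is weaker. -/
theorem NodeOK.anti {ε A A' : ℝ} (h : NodeOK ε A) (hA : A' ≤ A) : NodeOK ε A' := by
  intro α hα
  obtain ⟨κ, hκ, h⟩ := h α hα
  refine ⟨κ, hκ, fun m hm => ?_⟩
  obtain ⟨c, η₀, hc, hη₀, h⟩ := h m hm
  refine ⟨c, η₀, hc, hη₀, fun η hη hη' => ?_⟩
  obtain ⟨C, h⟩ := h η hη hη'
  refine ⟨max C 1, fun d hd nd hnd => ?_⟩
  have hd1 : (1 : ℝ) ≤ d := (le_max_right _ _).trans hd
  have hC : C ≤ max C 1 := le_max_left _ _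
  obtain ⟨q, hq, hS⟩ := h d (hC.trans hd) nd hnd
  refine ⟨q, hq.trans (mul_le_mul_of_nonneg_right hC (Real.rpow_nonneg (by linarith) _)),
    hS.mono le_rfl (fun _ => hC) ?_⟩
  refine mul_le_mul (mul_le_mul_of_nonneg_right hC (Real.sqrt_nonneg _))
    (Real.rpow_le_rpow_of_exponent_le hd1 (neg_le_neg hA)) (Real.rpow_nonneg (by linarith) _) ?_
  exact mul_nonneg (le_trans zero_le_one (le_max_right _ _)) (Real.sqrt_nonneg _)

/-- Small variances for large dimensions. -/
theorem exists_dim_h {ε : ℝ} (hε : 0 < ε) {δ : ℝ} (hδ : 0 < δ) :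
    ∃ C : ℝ, 1 ≤ C ∧ ∀ d : ℕ, C ≤ d → (d : ℝ) ^ (-ε) ≤ δ := by
  refine ⟨max 1 (δ⁻¹ ^ ε⁻¹), le_max_left _ _, fun d hd => ?_⟩
  have h0 : (0 : ℝ) ≤ δ⁻¹ ^ ε⁻¹ := by positivity
  have h1 : δ⁻¹ ≤ (d : ℝ) ^ ε := by
    have := Real.rpow_le_rpow h0 ((le_max_right _ _).trans hd) hε.le
    rwa [← Real.rpow_mul (by positivity), inv_mul_cancel₀ hε.ne', Real.rpow_one] at this
  rw [Real.rpow_neg (Nat.cast_nonneg d)]
  exact inv_le_of_inv_le₀ hδ h1

/-- Accuracy zero: one query. -/
theorem node_base {ε : ℝ} (hε : 0 < ε) : NodeOK ε 0 := by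
  intro α hα
  refine ⟨0, le_rfl, fun m _ => ⟨0, 1, le_rfl, one_pos, fun η _ _ => ?_⟩⟩
  obtain ⟨C, hC1, hC⟩ := exists_dim_h hε (δ := 1 / 4) (by norm_num)
  refine ⟨max C 10, fun d hd nd hnd => ⟨1, ?_, ?_⟩⟩
  · simp only [zero_mul, Real.rpow_zero, mul_one, Nat.cast_one]
    exact le_trans hC1 (le_max_left _ _)
  · have h := smp_node_query (d := d) (β := √nd.v / eAt ε η m d) (b := nd.scale) hnd
      (hC d ((le_max_left _ _).trans hd)) hnd.scale_pos.le hnd.scale_le
    simp only [neg_zero, zero_mul, Real.rpow_zero, mul_one] at *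
    exact h.mono le_rfl (fun _ => le_trans (by norm_num) (le_max_right C 10))
      (mul_le_mul_of_nonneg_right (le_max_right C 10) (Real.sqrt_nonneg _))

end

end Vale.Agent.P347.Zero
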