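import Vale.Agent.P347.Zero.CurFamily
import Vale.Agent.P347.Zero.NodeBase
import Vale.Agent.P347.Zero.ProgOps

/-!
# P347, exponent 0: the Picard programme as the argument of a node
-/

namespace Vale.Agent.P347.Zero

open MeasureTheory Real Finset
open Vale.Agent.P347.Quarter (E γ gOf)
open Vale.Agent.P347.Colour (Pt oracle)

noncomputable section

variable {d m : ℕ}

theorem shiftP_node_all {τ : ℝ} {P : Prog (Option Unit)} {p : Nd → Prop}
    (h : ∀ i, p (P.node i)) : ∀ i, p ((shiftP τ P).node i) := by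
  cases P
  exact h

theorem Nd.val_plain (V : Pt d → ℝ) (w : ℝ) : (Nd.mk w 0).val V = Nv V w := by
  funext y
  simp [Nd.val, Quarter.G]

namespace CurData

variable {v T c : ℝ} {τ : Fin m → ℝ} {w : ℝ → Fin m → ℝ}

theorem shift_adm (hd : CurData v T c τ w) {h e b₀ b₁ β κ : ℝ} (hh : v ≤ h) (he : 0 < e)
    (hb : 0 ≤ b₀) (hsmall : T * b₀ + b₁ + c * T ^ 2 * √v / e ≤ √(v - T ^ 2)) (k : ℕ) {t : ℝ}
    (ht : t ∈ Set.Icc 0 T) (hκ : 0 ≤ κ) (hκT : κ ≤ T)
    (hβ : T * b₀ + b₁ + c * T ^ 2 * √v / e ≤ β) :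
    (shiftP κ (pcur v τ w k t)).Adm h 1 e (bs b₀ b₁) β := by
  refine shiftP_adm hκ (pcur_lin v τ w k t).1 (pcur_lin v τ w k t).2
    (hd.children_adm hh he hb hsmall k ht) (le_trans ?_ hβ)
  have h1 : κ * (∑ j, |(pcur v τ w k t).coef j| * √((pcur v τ w k t).node j).v) / e
      ≤ c * T ^ 2 * √v / e := by
    refine div_le_div_of_nonneg_right ?_ he.le
    exact le_trans (mul_le_mul hκT (hd.coef_sqrt k ht) (sum_nonneg fun j _ => by positivity)
      hd.T_nonneg) (le_of_eq (by ring))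
  linarith [mul_le_mul_of_nonneg_right hκT hb]

theorem child_grs (hd : CurData v T c τ w) {e : ℝ} (he : 0 < e)
    (hs : 8 * c * T * √v / e ≤ 1) (k : ℕ) (t : ℝ) :
    ∀ i, ((pcur v τ w k t).child i).grs e none ≤ 2 * T ∧
      ((pcur v τ w k t).child i).grs e (some ()) ≤ 2 := by
  cases k with
  | zero => exact fun i => i.elim0
  | succ k => exact fun i => hd.shiftP_grs_le he hs k (hd.mem i)

end CurData

/-- Weights with sum zero see nodes only up to their smoothing radius. -/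
theorem val_zero_sum_le {n : ℕ} {V : Pt d → ℝ} (hV : Mem V) {h r v : ℝ} (hh : h ≤ 1 / 4)
    {c : Fin n → ℝ} {nd : Fin n → Nd} {ch : Fin n → Prog (Option Unit)} (hc : ∑ i, c i = 0)
    (hnd : ∀ i, (nd i).Ok h r ∧ (nd i).v ≤ v) (y : Inp d (Option Unit))
    (h3 : ∀ i, ‖(ch i).val V y‖ ≤ 3 * wt y)
    (h2 : ∀ i, ‖(ch i).val V y - y (some ())‖ ≤ 2 * √v * wt y) :
    ‖(Prog.mk n (fun _ => 0) c nd ch).val V y‖ ≤ 40 * (√v * ∑ i, |c i|) * wt y := by
  simp only [Prog.val, zero_smul, sum_const_zero, zero_add]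
  have e : ∑ i, c i • (nd i).val V ((ch i).val V y)
      = ∑ i, c i • ((nd i).val V ((ch i).val V y) - gOf (oracle V) (y (some ()))) := by
    simp only [smul_sub, sum_sub_distrib, ← sum_smul, hc, zero_smul, sub_zero]
  rw [e]
  refine (norm_sum_le _ _).trans (le_trans (sum_le_sum fun i _ => ?_)
    (le_of_eq (by rw [← mul_sum] : ∑ i, 40 * √v * wt y * |c i| = 40 * √v * wt y * ∑ i, |c i|)
      |>.trans (le_of_eq (by ring))))
  rw [norm_smul, Real.norm_eq_abs, mul_comm |c i|]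
  refine mul_le_mul_of_nonneg_right ?_ (abs_nonneg _)
  have hw : √(d : ℝ) ≤ wt y := by
    rw [wt_opt]
    linarith [norm_nonneg (y none), norm_nonneg (y (some ()))]
  refine (norm_sub_le_norm_sub_add_norm_sub _ (gOf (oracle V) ((ch i).val V y)) _).trans ?_
  have a1 := (nd i).val_sub_grad_le hV (hnd i).1 hh ((ch i).val V y)
  have a2 : ‖gOf (oracle V) ((ch i).val V y) - gOf (oracle V) (y (some ()))‖
      ≤ 2 * ‖(ch i).val V y - y (some ())‖ := by
    simpa using (lip_grad hV).norm_sub_le ((ch i).val V y) (y (some ()))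
  have a3 : √(nd i).v * (√(d : ℝ) + ‖(ch i).val V y‖) ≤ √v * (4 * wt y) :=
    mul_le_mul (Real.sqrt_le_sqrt (hnd i).2) (by linarith [h3 i]) (by positivity) (Real.sqrt_nonneg _)
  linarith [h2 i, mul_nonneg (Real.sqrt_nonneg v) (wt_nonneg y)]

end

end Vale.Agent.P347.Zero
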