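import Mathlib

/-!
# P347, exponent 0: flows of fields of linear growth, Lipschitz on every ball
-/

namespace Vale.Agent.P347.Zero

open Set Metric Filter Topology
open scoped NNReal

noncomputable section

set_option linter.unusedSectionVars false

variable {E : Type*} [NormedAddCommGroup E] [NormedSpace ℝ E]

/-- A continuous field of linear growth, Lipschitz on every ball. -/
structure Fld (b : ℝ → E → E) (T C : ℝ) : Prop where
  nonneg : 0 ≤ C
  cont : ContinuousOn (Function.uncurry b) (Icc 0 T ×ˢ univ)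
  grow : ∀ t ∈ Icc 0 T, ∀ x, ‖b t x‖ ≤ C * (1 + ‖x‖)
  lip : ∀ R : ℝ, ∃ K : ℝ≥0, ∀ t ∈ Icc 0 T, LipschitzOnWith K (b t) (closedBall 0 R)

/-- A solution on `[0, T]` starting at `x`. -/
def IsSol (b : ℝ → E → E) (T : ℝ) (x : E) (y : ℝ → E) : Prop :=
  y 0 = x ∧ ∀ t ∈ Icc 0 T, HasDerivWithinAt y (b t (y t)) (Icc 0 T) t

open Classical in
/-- The solution, where there is one. -/
def flow (b : ℝ → E → E) (T : ℝ) (x : E) : ℝ → E :=
  if h : ∃ y, IsSol b T x y then h.choose else fun _ => x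

/-- The bound on a solution. -/
def reach (C T : ℝ) (x : E) : ℝ := (1 + ‖x‖) * Real.exp (C * T)

theorem right_of_icc {y : ℝ → E} {y' : E} {T t : ℝ}
    (h : HasDerivWithinAt y y' (Icc 0 T) t) (ht : t ∈ Ico 0 T) :
    HasDerivWithinAt y y' (Ici t) t :=
  h.mono_of_mem_nhdsWithin (Icc_mem_nhdsGE_of_mem ht)

theorem IsSol.continuousOn {b : ℝ → E → E} {T : ℝ} {x : E} {y : ℝ → E} (h : IsSol b T x y) :
    ContinuousOn y (Icc 0 T) := fun t ht => (h.2 t ht).continuousWithinAt

theorem norm_sol_le {b : ℝ → E → E} {T C : ℝ} {x : E} {y : ℝ → E} (hC : 0 ≤ C)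
    (hb : ∀ t ∈ Icc 0 T, ∀ x, ‖b t x‖ ≤ C * (1 + ‖x‖)) (h : IsSol b T x y) {t : ℝ}
    (ht : t ∈ Icc 0 T) : 1 + ‖y t‖ ≤ reach C t x := by
  have key := norm_le_gronwallBound_of_norm_deriv_right_le (f := y)
    (f' := fun t => b t (y t)) (δ := ‖x‖) (K := C) (ε := C) h.continuousOn
    (fun t ht => right_of_icc (h.2 t (Ico_subset_Icc_self ht)) ht) (by rw [h.1])
    (fun t ht => (hb t (Ico_subset_Icc_self ht) _).trans (le_of_eq (by ring))) t ht
  rw [sub_zero] at key
  unfold reach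
  rcases eq_or_ne C 0 with rfl | hC'
  · simp [gronwallBound_K0] at key ⊢
    linarith
  · rw [gronwallBound_of_K_ne_0 hC'] at key
    simp only [div_self hC'] at key
    nlinarith [Real.exp_pos (C * t)]

theorem reach_mono {C t T : ℝ} (hC : 0 ≤ C) (ht : t ≤ T) (x : E) : reach C t x ≤ reach C T x := by
  unfold reach
  gcongr

theorem Fld.sol_mem {b : ℝ → E → E} {T C : ℝ} (hb : Fld b T C) {x : E} {y : ℝ → E}
    (h : IsSol b T x y) {t : ℝ} (ht : t ∈ Icc 0 T) : y t ∈ closedBall (0 : E) (reach C T x) := by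
  rw [mem_closedBall_zero_iff]
  linarith [norm_sol_le hb.nonneg hb.grow h ht, reach_mono hb.nonneg ht.2 x]

theorem Fld.sol_unique {b : ℝ → E → E} {T C : ℝ} (hb : Fld b T C) {x : E} {y z : ℝ → E}
    (hy : IsSol b T x y) (hz : IsSol b T x z) : EqOn y z (Icc 0 T) := by
  obtain ⟨K, hK⟩ := hb.lip (reach C T x)
  exact ODE_solution_unique_of_mem_Icc_right (v := b)
    (s := fun _ => closedBall (0 : E) (reach C T x))
    (fun t ht => hK t (Ico_subset_Icc_self ht)) hy.continuousOn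
    (fun t ht => right_of_icc (hy.2 t (Ico_subset_Icc_self ht)) ht)
    (fun t ht => hb.sol_mem hy (Ico_subset_Icc_self ht)) hz.continuousOn
    (fun t ht => right_of_icc (hz.2 t (Ico_subset_Icc_self ht)) ht)
    (fun t ht => hb.sol_mem hz (Ico_subset_Icc_self ht)) (hy.1.trans hz.1.symm)

/-- The radial retraction on a ball. -/
def retract (R : ℝ) (x : E) : E := (R / max R ‖x‖) • x

theorem retract_eq {R : ℝ} (hR : 0 < R) {x : E} (hx : ‖x‖ ≤ R) : retract R x = x := by
  rw [retract, max_eq_left hx, div_self hR.ne', one_smul]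

theorem norm_retract_le {R : ℝ} (hR : 0 < R) (x : E) : ‖retract R x‖ ≤ ‖x‖ ∧ ‖retract R x‖ ≤ R := by
  have hm : 0 < max R ‖x‖ := lt_max_of_lt_left hR
  rw [retract, norm_smul, Real.norm_of_nonneg (div_nonneg hR.le hm.le)]
  constructor
  · exact mul_le_of_le_one_left (norm_nonneg x) ((div_le_one hm).2 (le_max_left _ _))
  · rw [div_mul_eq_mul_div, div_le_iff₀ hm]
    exact mul_le_mul_of_nonneg_left (le_max_right _ _) hR.le

theorem lipschitz_retract {R : ℝ} (hR : 0 < R) : LipschitzWith 2 (retract R : E → E) := by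
  refine LipschitzWith.of_dist_le_mul fun x y => ?_
  simp only [dist_eq_norm, NNReal.coe_ofNat]
  set a := max R ‖x‖
  set c := max R ‖y‖
  have ha : 0 < a := lt_max_of_lt_left hR
  have hc : 0 < c := lt_max_of_lt_left hR
  have e : retract R x - retract R y = (R / a) • (x - y) + (R / a - R / c) • y := by
    simp only [retract, a, c]
    module
  rw [e]
  refine (norm_add_le _ _).trans ?_
  rw [norm_smul, norm_smul, Real.norm_eq_abs, Real.norm_eq_abs, abs_of_nonneg (div_nonneg hR.le ha.le)]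
  have h1 : |c - a| ≤ ‖x - y‖ := by
    refine (abs_max_sub_max_le_max _ _ _ _).trans (max_le (by simp) ?_)
    rw [norm_sub_rev]
    exact abs_norm_sub_norm_le y x
  have h2 : |R / a - R / c| * ‖y‖ ≤ ‖x - y‖ := by
    rw [div_sub_div _ _ ha.ne' hc.ne', abs_div, abs_of_pos (mul_pos ha hc), div_mul_eq_mul_div,
      div_le_iff₀ (mul_pos ha hc), show R * c - a * R = R * (c - a) by ring, abs_mul,
      abs_of_pos hR]
    have := mul_le_mul (mul_le_mul (le_max_left R ‖x‖) h1 (abs_nonneg _) ha.le)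
      (le_max_right R ‖y‖) (norm_nonneg y) (mul_nonneg ha.le (norm_nonneg _))
    linarith
  have h3 : R / a * ‖x - y‖ ≤ ‖x - y‖ :=
    mul_le_of_le_one_left (norm_nonneg _) ((div_le_one ha).2 (le_max_left _ _))
  linarith

theorem Fld.exists_sol [CompleteSpace E] {b : ℝ → E → E} {T C : ℝ} (hb : Fld b T C) (x : E) :
    ∃ y, IsSol b T x y := by
  rcases lt_or_ge T 0 with hT | hT
  · exact ⟨fun _ => x, rfl, fun t ht => absurd (ht.1.trans ht.2) (not_le.2 hT)⟩
  set R := reach C T x with hRdef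
  have hR : 0 < R := by rw [hRdef, reach]; positivity
  obtain ⟨K, hK⟩ := hb.lip R
  have hmem : ∀ y : E, retract R y ∈ closedBall (0 : E) R := fun y =>
    mem_closedBall_zero_iff.2 (norm_retract_le hR y).2
  let f : ℝ → E → E := fun t y => b t (retract R y)
  have hlip : ∀ t ∈ Icc 0 T, LipschitzWith (K * 2) (f t) := fun t ht =>
    lipschitzOnWith_univ.1 ((hK t ht).comp (lipschitz_retract hR).lipschitzOnWith fun y _ => hmem y)
  have hbd : ∀ t ∈ Icc 0 T, ∀ y, ‖f t y‖ ≤ C * (1 + R) := fun t ht y =>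
    (hb.grow t ht _).trans (mul_le_mul_of_nonneg_left (by linarith [(norm_retract_le hR y).2])
      hb.nonneg)
  set B : ℝ≥0 := ⟨C * (1 + R), mul_nonneg hb.nonneg (by linarith)⟩
  have hP : IsPicardLindelof f (⟨0, le_rfl, hT⟩ : Icc (0 : ℝ) T) x (B * T.toNNReal) 0 B (K * 2) :=
    { lipschitzOnWith := fun t ht => (hlip t ht).lipschitzOnWith
      continuousOn := fun y _ => by
        exact hb.cont.comp (f := fun t : ℝ => (t, retract R y))
          (continuousOn_id.prodMk continuousOn_const) fun t ht => ⟨ht, mem_univ _⟩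
      norm_le := fun t ht y _ => hbd t ht y
      mul_max_le := by
        simp [Real.coe_toNNReal _ hT, hT] }
  obtain ⟨y, hy0, hy⟩ := hP.exists_eq_forall_mem_Icc_hasDerivWithinAt₀
  refine ⟨y, hy0, fun t ht => ?_⟩
  have hs : IsSol f T x y := ⟨hy0, hy⟩
  have hle := norm_sol_le hb.nonneg (b := f) (fun t ht y => (hb.grow t ht _).trans
    (mul_le_mul_of_nonneg_left (by linarith [(norm_retract_le hR y).1]) hb.nonneg)) hs ht
  have := hy t ht
  simp only [f] at this
  rwa [retract_eq hR (by linarith [reach_mono hb.nonneg ht.2 x, hle, hRdef])] at this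

variable [CompleteSpace E] {b : ℝ → E → E} {T C : ℝ}

theorem Fld.flow_sol (hb : Fld b T C) (x : E) : IsSol b T x (flow b T x) := by
  rw [flow, dif_pos (hb.exists_sol x)]
  exact (hb.exists_sol x).choose_spec

theorem Fld.flow_zero (hb : Fld b T C) (x : E) : flow b T x 0 = x := (hb.flow_sol x).1

theorem Fld.flow_deriv (hb : Fld b T C) (x : E) {t : ℝ} (ht : t ∈ Icc 0 T) :
    HasDerivWithinAt (flow b T x) (b t (flow b T x t)) (Icc 0 T) t := (hb.flow_sol x).2 t ht

theorem Fld.flow_unique (hb : Fld b T C) {x : E} {y : ℝ → E} (h : IsSol b T x y) {t : ℝ}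
    (ht : t ∈ Icc 0 T) : flow b T x t = y t := hb.sol_unique (hb.flow_sol x) h ht

theorem Fld.flow_bound (hb : Fld b T C) (x : E) {t : ℝ} (ht : t ∈ Icc 0 T) :
    1 + ‖flow b T x t‖ ≤ reach C t x := norm_sol_le hb.nonneg hb.grow (hb.flow_sol x) ht

/-- A shorter interval. -/
theorem Fld.restrict (hb : Fld b T C) {s : ℝ} (hs : s ≤ T) : Fld b s C where
  nonneg := hb.nonneg
  cont := hb.cont.mono (prod_mono (Icc_subset_Icc_right hs) le_rfl)
  grow t ht := hb.grow t ⟨ht.1, ht.2.trans hs⟩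
  lip R := (hb.lip R).imp fun _ h t ht => h t ⟨ht.1, ht.2.trans hs⟩

theorem Fld.flow_restrict (hb : Fld b T C) {s : ℝ} (hs : s ≤ T) (x : E) {t : ℝ}
    (ht : t ∈ Icc 0 s) : flow b s x t = flow b T x t :=
  (hb.restrict hs).flow_unique ⟨hb.flow_zero x, fun u hu =>
    (hb.flow_deriv x ⟨hu.1, hu.2.trans hs⟩).mono (Icc_subset_Icc_right hs)⟩ ht

/-- The flow is Lipschitz on balls in the starting point. -/
theorem Fld.flow_lip (hb : Fld b T C) (R : ℝ) : ∃ K : ℝ≥0, ∀ x y : E, ‖x‖ ≤ R → ‖y‖ ≤ R →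
    ∀ t ∈ Icc 0 T, ‖flow b T x t - flow b T y t‖ ≤ K * ‖x - y‖ := by
  set B := (1 + R) * Real.exp (C * T) with hB
  obtain ⟨K, hK⟩ := hb.lip B
  refine ⟨Real.toNNReal (Real.exp (K * T)), fun x y hx hy t ht => ?_⟩
  have hsub : ∀ z : E, ‖z‖ ≤ R → ∀ u ∈ Icc 0 T, flow b T z u ∈ closedBall (0 : E) B := by
    intro z hz u hu
    rw [mem_closedBall_zero_iff, hB]
    have h1 := hb.flow_bound z hu
    have h2 := reach_mono hb.nonneg hu.2 z
    have h3 : reach C T z ≤ (1 + R) * Real.exp (C * T) := by unfold reach; gcongr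
    linarith
  have := dist_le_of_trajectories_ODE_of_mem (s := fun _ => closedBall (0 : E) B)
    (fun u hu => hK u (Ico_subset_Icc_self hu)) (hb.flow_sol x).continuousOn
    (fun u hu => right_of_icc (hb.flow_deriv x (Ico_subset_Icc_self hu)) hu)
    (fun u hu => hsub x hx u (Ico_subset_Icc_self hu)) (hb.flow_sol y).continuousOn
    (fun u hu => right_of_icc (hb.flow_deriv y (Ico_subset_Icc_self hu)) hu)
    (fun u hu => hsub y hy u (Ico_subset_Icc_self hu))
    (le_of_eq (by rw [hb.flow_zero, hb.flow_zero, dist_eq_norm])) t ht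
  rw [← dist_eq_norm, sub_zero] at *
  refine this.trans ?_
  rw [Real.coe_toNNReal _ (Real.exp_pos _).le, mul_comm, dist_eq_norm]
  gcongr
  exact ht.2

theorem Fld.flow_continuousOn_prod (hb : Fld b T C) :
    ContinuousOn (fun p : E × ℝ => flow b T p.1 p.2) (univ ×ˢ Icc 0 T) := by
  rintro ⟨x, t⟩ ⟨-, ht⟩
  obtain ⟨K, hK⟩ := hb.flow_lip (‖x‖ + 1)
  have h1 : ∀ᶠ p in 𝓝[univ ×ˢ Icc 0 T] (x, t),
      dist (flow b T p.1 p.2) (flow b T x t)
        ≤ K * ‖p.1 - x‖ + dist (flow b T x p.2) (flow b T x t) := by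
    have hn : ∀ᶠ p : E × ℝ in 𝓝 (x, t), ‖p.1‖ ≤ ‖x‖ + 1 :=
      (continuous_fst.norm.tendsto (x, t)).eventually
        (eventually_le_nhds (show ‖(x, t).1‖ < ‖x‖ + 1 by simp))
    filter_upwards [self_mem_nhdsWithin, nhdsWithin_le_nhds hn] with p hp hp'
    refine (dist_triangle _ (flow b T x p.2) _).trans (add_le_add ?_ le_rfl)
    rw [dist_eq_norm]
    exact hK _ _ hp' (by simp) _ hp.2
  refine tendsto_iff_dist_tendsto_zero.2 (squeeze_zero' (Eventually.of_forall fun _ => dist_nonneg)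
    h1 ?_)
  have hA : Tendsto (fun p : E × ℝ => (K : ℝ) * ‖p.1 - x‖) (𝓝[univ ×ˢ Icc 0 T] (x, t)) (𝓝 0) := by
    have : Continuous fun p : E × ℝ => (K : ℝ) * ‖p.1 - x‖ := by fun_prop
    simpa using (this.tendsto (x, t)).mono_left nhdsWithin_le_nhds
  have hB : Tendsto (fun p : E × ℝ => dist (flow b T x p.2) (flow b T x t))
      (𝓝[univ ×ˢ Icc 0 T] (x, t)) (𝓝 0) := by
    refine tendsto_iff_dist_tendsto_zero.1 (((hb.flow_sol x).continuousOn t ht).tendsto.comp ?_)
    exact (continuous_snd.continuousWithinAt.tendsto_nhdsWithin fun p hp => hp.2)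
  simpa using hA.add hB

theorem Fld.continuous_flow_at (hb : Fld b T C) {t : ℝ} (ht : t ∈ Icc 0 T) :
    Continuous fun x => flow b T x t :=
  hb.flow_continuousOn_prod.comp_continuous (f := fun x => (x, t)) (by fun_prop)
    fun x => ⟨mem_univ _, ht⟩

/-- The field started at time `t₀`. -/
theorem Fld.shift (hb : Fld b T C) {t₀ : ℝ} (h0 : 0 ≤ t₀) :
    Fld (fun s => b (t₀ + s)) (T - t₀) C where
  nonneg := hb.nonneg
  cont := hb.cont.comp (f := fun p : ℝ × E => (t₀ + p.1, p.2))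
    (s := Icc 0 (T - t₀) ×ˢ univ) (by fun_prop)
    fun p hp => ⟨⟨by linarith [hp.1.1], by linarith [hp.1.2]⟩, mem_univ _⟩
  grow t ht := hb.grow _ ⟨by linarith [ht.1], by linarith [ht.2]⟩
  lip R := (hb.lip R).imp fun _ h t ht => h _ ⟨by linarith [ht.1], by linarith [ht.2]⟩

/-- Two pieces of a trajectory. -/
theorem Fld.flow_shift (hb : Fld b T C) {t₀ : ℝ} (h0 : t₀ ∈ Icc 0 T) (x : E) {s : ℝ}
    (hs : s ∈ Icc 0 (T - t₀)) :
    flow (fun u => b (t₀ + u)) (T - t₀) (flow b T x t₀) s = flow b T x (t₀ + s) := by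
  refine (hb.shift h0.1).flow_unique (y := fun u => flow b T x (t₀ + u))
    ⟨by simp, fun u hu => ?_⟩ hs
  have h := hb.flow_deriv x (t := t₀ + u) ⟨by linarith [h0.1, hu.1], by linarith [hu.2]⟩
  have hd : HasDerivWithinAt (fun u : ℝ => t₀ + u) 1 (Icc 0 (T - t₀)) u :=
    ((hasDerivAt_id u).const_add t₀).hasDerivWithinAt
  have := h.scomp u hd fun v hv => ⟨by linarith [h0.1, hv.1], by linarith [hv.2]⟩
  simpa [Function.comp_def] using this

end

end Vale.Agent.P347.Zero
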