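import Mathlib

/-!
# P347, exponent 0: Lagrange interpolation of a curve, its derivative and its integral
-/

namespace Vale.Agent.P347.Zero

open Finset Real MeasureTheory Polynomial intervalIntegral
open scoped Nat

noncomputable section

set_option linter.unusedSectionVars false

variable {M : ℕ} {F : Type*} [NormedAddCommGroup F] [NormedSpace ℝ F] [CompleteSpace F]

/-- The weight of the node `v j` at `t`. -/
def lw (v : Fin (M + 1) → ℝ) (j : Fin (M + 1)) (t : ℝ) : ℝ :=
  (Lagrange.basis univ v j).eval t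

/-- The derivative of a weight. -/
def lw' (v : Fin (M + 1) → ℝ) (j : Fin (M + 1)) (t : ℝ) : ℝ :=
  (derivative (Lagrange.basis univ v j)).eval t

/-- The integral of a weight. -/
def li (v : Fin (M + 1) → ℝ) (a b : ℝ) (j : Fin (M + 1)) : ℝ := ∫ t in a..b, lw v j t

/-- Equispaced nodes. -/
def eqNode (M : ℕ) (a b : ℝ) (j : Fin (M + 1)) : ℝ := a + (b - a) * ((j : ℕ) / (M : ℝ))

theorem lw_hasDerivAt (v : Fin (M + 1) → ℝ) (j : Fin (M + 1)) (t : ℝ) :
    HasDerivAt (lw v j) (lw' v j t) t :=
  (Lagrange.basis univ v j).hasDerivAt t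

theorem lw_continuous (v : Fin (M + 1) → ℝ) (j : Fin (M + 1)) : Continuous (lw v j) :=
  (Lagrange.basis univ v j).continuous

theorem interp_eq {v : Fin (M + 1) → ℝ} (hv : Function.Injective v) {p : ℝ[X]}
    (hp : p.natDegree ≤ M) :
    p = ∑ j, Polynomial.C (p.eval (v j)) * Lagrange.basis univ v j := by
  have h := Lagrange.eq_interpolate (f := p) (s := univ) (v := v) hv.injOn
    (lt_of_le_of_lt degree_le_natDegree (by simp; exact_mod_cast Nat.lt_succ_of_le hp))
  conv_lhs => rw [h]
  simp [Lagrange.interpolate_apply]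

theorem sum_lw_pow {v : Fin (M + 1) → ℝ} (hv : Function.Injective v) {k : ℕ} (hk : k ≤ M)
    (a t : ℝ) : ∑ j, lw v j t * (v j - a) ^ k = (t - a) ^ k := by
  have h := congrArg (fun q : ℝ[X] => q.eval t) (interp_eq hv (p := (X - Polynomial.C a) ^ k)
    (by simpa using hk))
  simp only [eval_finset_sum, eval_mul, eval_C, eval_pow, eval_sub, eval_X] at h
  simp only [lw, mul_comm _ ((v _ - a) ^ k)]
  exact h.symm

theorem sum_lw'_pow {v : Fin (M + 1) → ℝ} (hv : Function.Injective v) {k : ℕ} (hk : k ≤ M)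
    (a t : ℝ) : ∑ j, lw' v j t * (v j - a) ^ k = k * (t - a) ^ (k - 1) := by
  have h := congrArg (fun q : ℝ[X] => (derivative q).eval t) (interp_eq hv
    (p := (X - Polynomial.C a) ^ k) (by simpa using hk))
  simp only [derivative_sum, derivative_X_sub_C_pow, derivative_C_mul, eval_finset_sum, eval_mul,
    eval_C, eval_pow, eval_sub, eval_X] at h
  simp only [lw', mul_comm _ ((v _ - a) ^ k)]
  exact h.symm

theorem sum_li_pow {v : Fin (M + 1) → ℝ} (hv : Function.Injective v) {k : ℕ} (hk : k ≤ M)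
    (a b : ℝ) : ∑ j, li v a b j * (v j - a) ^ k = ∫ t in a..b, (t - a) ^ k := by
  simp only [li, ← intervalIntegral.integral_mul_const]
  rw [← intervalIntegral.integral_finsetSum
    (fun j _ => ((lw_continuous v j).mul_const _).intervalIntegrable _ _)]
  simp only [sum_lw_pow hv hk]

/-- The Taylor sum at `a` with derivatives inside `[a, b]`. -/
def tay (n : ℕ) (f : ℝ → F) (a b t : ℝ) : F :=
  ∑ k ∈ range (n + 1), ((t - a) ^ k / k !) • iteratedDerivWithin k f (Set.Icc a b) a

/-- The integrated top derivative. -/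
def topI (n : ℕ) (f : ℝ → F) (a b : ℝ) : ℝ :=
  ∫ s in a..b, ‖iteratedDerivWithin (n + 1) f (Set.Icc a b) s‖

theorem topI_nonneg (n : ℕ) (f : ℝ → F) {a b : ℝ} (hab : a ≤ b) : 0 ≤ topI n f a b :=
  intervalIntegral.integral_nonneg hab fun _ _ => norm_nonneg _

theorem tay_hasDerivAt (n : ℕ) (f : ℝ → F) (a b t : ℝ) :
    HasDerivAt (tay (n + 1) f a b) (tay n (derivWithin f (Set.Icc a b)) a b t) t := by
  have h : ∀ k, HasDerivAt
      (fun t => ((t - a) ^ k / k !) • iteratedDerivWithin k f (Set.Icc a b) a)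
      ((k * (t - a) ^ (k - 1) / k !) • iteratedDerivWithin k f (Set.Icc a b) a) t := fun k => by
    have := ((((hasDerivAt_id t).sub_const a).pow k).div_const (k ! : ℝ)).smul_const
      (iteratedDerivWithin k f (Set.Icc a b) a)
    simpa using this
  refine (HasDerivAt.fun_sum fun k _ => h k).congr_deriv ?_
  rw [sum_range_succ', tay]
  simp only [Nat.cast_zero, zero_mul, zero_div, zero_smul, add_zero]
  refine Finset.sum_congr rfl fun k _ => ?_
  rw [iteratedDerivWithin_succ', Nat.factorial_succ]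
  congr 1
  push_cast
  field_simp

theorem remainder_bound {a b : ℝ} (hab : a < b) :
    ∀ (n : ℕ) (f : ℝ → F), ContDiffOn ℝ (n + 1 : ℕ) f (Set.Icc a b) →
      ∀ t ∈ Set.Icc a b, ‖f t - tay n f a b t‖ ≤ (t - a) ^ n / n ! * topI n f a b := by
  have hu : UniqueDiffOn ℝ (Set.Icc a b) := uniqueDiffOn_Icc hab
  have key : ∀ (f : ℝ → F), ContDiffOn ℝ 1 f (Set.Icc a b) → ∀ (p : ℝ → F) (p' : ℝ → F),
      (∀ s, HasDerivAt p (p' s) s) → Continuous p' → f a = p a → ∀ t ∈ Set.Icc a b,
      f t - p t = ∫ s in a..t, (derivWithin f (Set.Icc a b) s - p' s) := by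
    intro f hf p p' hp hp' ha t ht
    have hsub : Set.Icc a t ⊆ Set.Icc a b := Set.Icc_subset_Icc_right ht.2
    have hd : ContinuousOn (derivWithin f (Set.Icc a b)) (Set.Icc a b) :=
      hf.continuousOn_derivWithin hu le_rfl
    have hpd : Differentiable ℝ p := fun s => (hp s).differentiableAt
    rw [intervalIntegral.integral_eq_sub_of_hasDerivAt_of_le (f := fun s => f s - p s) ht.1
      ((hf.continuousOn.sub hpd.continuous.continuousOn).mono hsub) ?_ ?_, ha, sub_self, sub_zero]
    · intro s hs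
      have hs' : s ∈ Set.Ioo a b := ⟨hs.1, lt_of_lt_of_le hs.2 ht.2⟩
      exact ((hf.differentiableOn one_ne_zero s (Set.Ioo_subset_Icc_self hs')).hasDerivWithinAt.hasDerivAt
        (Icc_mem_nhds hs'.1 hs'.2)).sub (hp s)
    · exact ((hd.sub hp'.continuousOn).mono
        (Set.uIcc_subset_Icc ⟨le_rfl, hab.le⟩ ht)).intervalIntegrable
  intro n
  induction n with
  | zero =>
    intro f hf t ht
    have hf1 : ContDiffOn ℝ 1 f (Set.Icc a b) := by simpa using hf
    have e := key f hf1 (fun _ => f a) (fun _ => 0) (fun s => hasDerivAt_const _ _)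
      continuous_const rfl t ht
    simp only [sub_zero] at e
    simp only [tay, zero_add, range_one, sum_singleton, pow_zero, Nat.factorial_zero, Nat.cast_one,
      div_one, one_smul, iteratedDerivWithin_zero, one_mul]
    rw [e]
    have hi : IntervalIntegrable (fun s => ‖derivWithin f (Set.Icc a b) s‖) volume a b :=
      ((hf1.continuousOn_derivWithin hu le_rfl).norm).intervalIntegrable_of_Icc hab.le
    refine (intervalIntegral.norm_integral_le_integral_norm ht.1).trans ?_
    rw [topI]
    simp only [zero_add, iteratedDerivWithin_one]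
    exact intervalIntegral.integral_mono_interval le_rfl ht.1 ht.2
      (Filter.Eventually.of_forall fun s => norm_nonneg _) hi
  | succ n ih =>
    intro f hf t ht
    have hf' : ContDiffOn ℝ (n + 1 : ℕ) (derivWithin f (Set.Icc a b)) (Set.Icc a b) :=
      hf.derivWithin hu (by push_cast; exact le_rfl)
    have hc : Continuous (tay n (derivWithin f (Set.Icc a b)) a b) := by
      unfold tay
      fun_prop
    rw [key f (hf.of_le (by exact_mod_cast Nat.succ_pos _)) _ _
      (tay_hasDerivAt n f a b) hc ?_ t ht]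
    · have hI : topI n (derivWithin f (Set.Icc a b)) a b = topI (n + 1) f a b := by
        unfold topI
        simp only [← iteratedDerivWithin_succ']
      have hb : ∀ s ∈ Set.Icc a t,
          ‖derivWithin f (Set.Icc a b) s - tay n (derivWithin f (Set.Icc a b)) a b s‖
            ≤ (s - a) ^ n / n ! * topI (n + 1) f a b := fun s hs =>
        hI ▸ ih _ hf' s (Set.Icc_subset_Icc_right ht.2 hs)
      refine (intervalIntegral.norm_integral_le_of_norm_le
        (g := fun s => (s - a) ^ n / n ! * topI (n + 1) f a b) ht.1 ?_ ?_).trans (le_of_eq ?_)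
      · exact Filter.Eventually.of_forall fun s hs => hb s ⟨hs.1.le, hs.2⟩
      · exact (by fun_prop : Continuous fun s : ℝ =>
          (s - a) ^ n / n ! * topI (n + 1) f a b).intervalIntegrable _ _
      · rw [intervalIntegral.integral_mul_const, intervalIntegral.integral_div,
          intervalIntegral.integral_comp_sub_right (fun s => s ^ n) a, integral_pow,
          Nat.factorial_succ]
        push_cast
        field_simp
        simp
    · simp only [tay, sub_self]
      rw [sum_range_succ']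
      simp

theorem sum_smul_tay {ι : Type*} (s : Finset ι) (w x : ι → ℝ) (n : ℕ) (f : ℝ → F) (a b : ℝ) :
    ∑ j ∈ s, w j • tay n f a b (x j) = ∑ k ∈ range (n + 1),
      ((∑ j ∈ s, w j * (x j - a) ^ k) / k !) • iteratedDerivWithin k f (Set.Icc a b) a := by
  simp only [tay, smul_sum, smul_smul]
  rw [sum_comm]
  refine Finset.sum_congr rfl fun k _ => ?_
  rw [← sum_smul]
  congr 1
  rw [sum_div]
  simp only [mul_div_assoc]

variable {a b : ℝ} {f : ℝ → F} {v : Fin (M + 1) → ℝ}

theorem norm_sum_smul_sub_le {w : Fin (M + 1) → ℝ} (hab : a < b)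
    (hf : ContDiffOn ℝ (M + 1 : ℕ) f (Set.Icc a b)) (hmem : ∀ j, v j ∈ Set.Icc a b) :
    ‖∑ j, w j • f (v j) - ∑ j, w j • tay M f a b (v j)‖
      ≤ (∑ j, |w j|) * ((b - a) ^ M / M ! * topI M f a b) := by
  rw [← sum_sub_distrib, sum_mul]
  refine (norm_sum_le _ _).trans (sum_le_sum fun j _ => ?_)
  rw [← smul_sub, norm_smul, Real.norm_eq_abs]
  refine mul_le_mul_of_nonneg_left ((remainder_bound hab M f hf _ (hmem j)).trans ?_) (abs_nonneg _)
  have := (hmem j).1
  have := (hmem j).2
  have := topI_nonneg M f hab.le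
  gcongr

/-- Interpolation at a point. -/
theorem interp_bound (hab : a < b) (hv : Function.Injective v) (hmem : ∀ j, v j ∈ Set.Icc a b)
    (hf : ContDiffOn ℝ (M + 1 : ℕ) f (Set.Icc a b)) {t : ℝ} (ht : t ∈ Set.Icc a b) :
    ‖f t - ∑ j, lw v j t • f (v j)‖
      ≤ (1 + ∑ j, |lw v j t|) * ((b - a) ^ M / M ! * topI M f a b) := by
  have e : ∑ j, lw v j t • tay M f a b (v j) = tay M f a b t := by
    rw [sum_smul_tay, tay]
    refine Finset.sum_congr rfl fun k hk => ?_
    rw [sum_lw_pow hv (Nat.lt_succ_iff.1 (mem_range.1 hk))]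
  have h1 := norm_sum_smul_sub_le (w := fun j => lw v j t) hab hf hmem
  rw [e] at h1
  have h2 := (remainder_bound hab M f hf t ht).trans (mul_le_mul_of_nonneg_right
    (div_le_div_of_nonneg_right (pow_le_pow_left₀ (sub_nonneg.2 ht.1) (by linarith [ht.2] : t - a ≤ b - a) M)
      (Nat.cast_nonneg _)) (topI_nonneg M f hab.le))
  rw [show f t - ∑ j, lw v j t • f (v j) = (f t - tay M f a b t)
    - (∑ j, lw v j t • f (v j) - tay M f a b t) by abel]
  refine (norm_sub_le _ _).trans ?_
  rw [add_mul, one_mul]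
  exact add_le_add h2 h1

/-- Interpolation of the integral. -/
theorem interp_integral_bound (hab : a < b) (hv : Function.Injective v)
    (hmem : ∀ j, v j ∈ Set.Icc a b) (hf : ContDiffOn ℝ (M + 1 : ℕ) f (Set.Icc a b)) :
    ‖(∫ t in a..b, f t) - ∑ j, li v a b j • f (v j)‖
      ≤ ((b - a) + ∑ j, |li v a b j|) * ((b - a) ^ M / M ! * topI M f a b) := by
  have hc : Continuous (tay M f a b) := by
    unfold tay
    fun_prop
  have hfi : IntervalIntegrable f volume a b := hf.continuousOn.intervalIntegrable_of_Icc hab.le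
  have e : ∑ j, li v a b j • tay M f a b (v j) = ∫ t in a..b, tay M f a b t := by
    rw [sum_smul_tay]
    simp only [tay]
    rw [intervalIntegral.integral_finsetSum
      (fun k _ => (by fun_prop : Continuous fun t => ((t - a) ^ k / k ! : ℝ) •
        iteratedDerivWithin k f (Set.Icc a b) a).intervalIntegrable _ _)]
    refine Finset.sum_congr rfl fun k hk => ?_
    rw [intervalIntegral.integral_smul_const, intervalIntegral.integral_div,
      sum_li_pow hv (Nat.lt_succ_iff.1 (mem_range.1 hk))]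
  have h1 := norm_sum_smul_sub_le (w := fun j => li v a b j) hab hf hmem
  rw [e] at h1
  have h2 : ‖(∫ t in a..b, f t) - ∫ t in a..b, tay M f a b t‖
      ≤ (b - a) * ((b - a) ^ M / M ! * topI M f a b) := by
    rw [← intervalIntegral.integral_sub hfi (hc.intervalIntegrable _ _)]
    refine (intervalIntegral.norm_integral_le_of_norm_le_const (C := (b - a) ^ M / M ! * topI M f a b)
      fun t ht => ?_).trans (le_of_eq ?_)
    · rw [Set.uIoc_of_le hab.le] at ht
      exact (remainder_bound hab M f hf t ⟨ht.1.le, ht.2⟩).trans (mul_le_mul_of_nonneg_right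
        (div_le_div_of_nonneg_right (pow_le_pow_left₀ (sub_nonneg.2 ht.1.le)
          (by linarith [ht.2] : t - a ≤ b - a) M) (Nat.cast_nonneg _)) (topI_nonneg M f hab.le))
    · rw [abs_of_pos (sub_pos.2 hab), mul_comm]
  rw [show (∫ t in a..b, f t) - ∑ j, li v a b j • f (v j)
    = ((∫ t in a..b, f t) - ∫ t in a..b, tay M f a b t)
      - (∑ j, li v a b j • f (v j) - ∫ t in a..b, tay M f a b t) by abel]
  refine (norm_sub_le _ _).trans ?_
  rw [add_mul]
  exact add_le_add h2 h1

/-- Interpolation of the derivative (`M + 2` nodes). -/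
theorem interp_deriv_bound {v : Fin (M + 1 + 1) → ℝ} (hab : a < b) (hv : Function.Injective v)
    (hmem : ∀ j, v j ∈ Set.Icc a b) (hf : ContDiffOn ℝ (M + 1 + 1 : ℕ) f (Set.Icc a b)) {t : ℝ}
    (ht : t ∈ Set.Icc a b) :
    ‖derivWithin f (Set.Icc a b) t - ∑ j, lw' v j t • f (v j)‖
      ≤ ((b - a) ^ M / M ! + (∑ j, |lw' v j t|) * ((b - a) ^ (M + 1) / (M + 1)!))
        * topI (M + 1) f a b := by
  have hu : UniqueDiffOn ℝ (Set.Icc a b) := uniqueDiffOn_Icc hab
  have hf' : ContDiffOn ℝ (M + 1 : ℕ) (derivWithin f (Set.Icc a b)) (Set.Icc a b) :=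
    hf.derivWithin hu (by push_cast; exact le_rfl)
  have hI : topI M (derivWithin f (Set.Icc a b)) a b = topI (M + 1) f a b := by
    unfold topI
    simp only [← iteratedDerivWithin_succ']
  have e : ∑ j, lw' v j t • tay (M + 1) f a b (v j)
      = tay M (derivWithin f (Set.Icc a b)) a b t := by
    rw [sum_smul_tay, tay, sum_range_succ']
    rw [sum_lw'_pow hv (Nat.zero_le _)]
    simp only [Nat.cast_zero, zero_mul, zero_div, zero_smul, add_zero]
    refine Finset.sum_congr rfl fun k hk => ?_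
    rw [sum_lw'_pow hv (Nat.succ_le_of_lt (mem_range.1 hk)), iteratedDerivWithin_succ',
      Nat.factorial_succ]
    congr 1
    push_cast
    field_simp
  have h1 := norm_sum_smul_sub_le (w := fun j => lw' v j t) hab hf hmem
  rw [e] at h1
  have h2 := remainder_bound hab M _ hf' t ht
  rw [hI] at h2
  have h3 := h2.trans (mul_le_mul_of_nonneg_right (div_le_div_of_nonneg_right
    (pow_le_pow_left₀ (sub_nonneg.2 ht.1) (by linarith [ht.2] : t - a ≤ b - a) M)
      (Nat.cast_nonneg _)) (topI_nonneg (M + 1) f hab.le))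
  rw [show derivWithin f (Set.Icc a b) t - ∑ j, lw' v j t • f (v j)
    = (derivWithin f (Set.Icc a b) t - tay M (derivWithin f (Set.Icc a b)) a b t)
      - (∑ j, lw' v j t • f (v j) - tay M (derivWithin f (Set.Icc a b)) a b t) by abel]
  refine (norm_sub_le _ _).trans ?_
  rw [add_mul, mul_assoc]
  exact add_le_add h3 h1

theorem eqNode_mem (hab : a ≤ b) (j : Fin (M + 1)) : eqNode M a b j ∈ Set.Icc a b := by
  have h1 : ((j : ℕ) : ℝ) / (M : ℝ) ≤ 1 :=
    div_le_one_of_le₀ (by exact_mod_cast Nat.lt_succ_iff.1 j.2) (Nat.cast_nonneg _)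
  have h0 : 0 ≤ ((j : ℕ) : ℝ) / (M : ℝ) := by positivity
  constructor <;> simp only [eqNode] <;> nlinarith

theorem eqNode_injective (hab : a < b) : Function.Injective (eqNode M a b) := by
  intro i j h
  rcases Nat.eq_zero_or_pos M with rfl | hM
  · exact Fin.ext (by omega)
  simp only [eqNode, add_right_inj, mul_eq_mul_left_iff, sub_eq_zero] at h
  rcases h with h | h
  · rw [div_left_inj' (by positivity)] at h
    exact Fin.ext (by exact_mod_cast h)
  · exact absurd h hab.ne'

theorem lw_eqNode (hab : a < b) (j : Fin (M + 1)) (t : ℝ) :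
    lw (eqNode M a b) j t = lw (eqNode M 0 1) j ((t - a) / (b - a)) := by
  have hne : b - a ≠ 0 := (sub_pos.2 hab).ne'
  simp only [lw, Lagrange.basis, eval_prod, Lagrange.basisDivisor, eval_mul, eval_C, eval_sub,
    eval_X, eqNode]
  refine Finset.prod_congr rfl fun i hi => ?_
  have hij : ((j : ℕ) : ℝ) / M - (i : ℕ) / M ≠ 0 := by
    have hi' := (mem_erase.1 hi).1
    intro h
    rw [sub_eq_zero] at h
    exact hi' (eqNode_injective (M := M) (a := 0) (b := 1) one_pos (by simp [eqNode, h]))
  rw [show (a + (b - a) * ((j : ℕ) / M) - (a + (b - a) * ((i : ℕ) / M)))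
    = (b - a) * ((j : ℕ) / M - (i : ℕ) / M) by ring,
    show t - (a + (b - a) * ((i : ℕ) / M)) = (b - a) * ((t - a) / (b - a) - (i : ℕ) / M) by
      rw [mul_sub, mul_div_cancel₀ _ hne]; ring, mul_inv]
  simp only [zero_add, sub_zero, one_mul]
  rw [mul_mul_mul_comm, inv_mul_cancel₀ hne, one_mul]

/-- The three Lebesgue sums of equispaced nodes. -/
theorem exists_eqNode_bound (M : ℕ) : ∃ C : ℝ, 0 ≤ C ∧ ∀ a b t : ℝ, a < b → t ∈ Set.Icc a b →
    (∑ j, |lw (eqNode M a b) j t|) ≤ C ∧ (∑ j, |lw' (eqNode M a b) j t|) ≤ C / (b - a) ∧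
      (∑ j, |li (eqNode M a b) a b j|) ≤ C * (b - a) := by
  obtain ⟨C₁, h₁⟩ := isCompact_Icc.exists_bound_of_continuousOn
    (f := fun s => ∑ j, |lw (eqNode M 0 1) j s|) (s := Set.Icc (0 : ℝ) 1)
    (Continuous.continuousOn (continuous_finsetSum _ fun j _ => (lw_continuous _ j).abs))
  obtain ⟨C₂, h₂⟩ := isCompact_Icc.exists_bound_of_continuousOn
    (f := fun s => ∑ j, |lw' (eqNode M 0 1) j s|) (s := Set.Icc (0 : ℝ) 1)
    (Continuous.continuousOn (continuous_finsetSum _ fun j _ =>
      ((derivative (Lagrange.basis univ (eqNode M 0 1) j)).continuous).abs))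
  have n₁ : 0 ≤ C₁ := (norm_nonneg _).trans (h₁ 0 ⟨le_rfl, zero_le_one⟩)
  have n₂ : 0 ≤ C₂ := (norm_nonneg _).trans (h₂ 0 ⟨le_rfl, zero_le_one⟩)
  refine ⟨C₁ + C₂, add_nonneg n₁ n₂, fun a b t hab ht => ?_⟩
  have hd : 0 < b - a := sub_pos.2 hab
  have hs : ∀ t ∈ Set.Icc a b, (t - a) / (b - a) ∈ Set.Icc (0 : ℝ) 1 := fun t ht =>
    ⟨div_nonneg (sub_nonneg.2 ht.1) hd.le, (div_le_one hd).2 (by linarith [ht.2])⟩
  have hlw : ∀ t ∈ Set.Icc a b, ∑ j, |lw (eqNode M a b) j t| ≤ C₁ := fun t ht => by
    simp only [lw_eqNode hab]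
    exact (le_abs_self _).trans (h₁ _ (hs t ht))
  have hlw' : ∀ j, lw' (eqNode M a b) j t = lw' (eqNode M 0 1) j ((t - a) / (b - a)) / (b - a) := by
    intro j
    have e1 := (lw_hasDerivAt (eqNode M 0 1) j ((t - a) / (b - a))).comp t
      (((hasDerivAt_id t).sub_const a).div_const (b - a))
    have e2 : lw (eqNode M 0 1) j ∘ (fun x => (id x - a) / (b - a)) = lw (eqNode M a b) j :=
      funext fun x => (lw_eqNode hab j x).symm
    rw [e2] at e1
    rw [(lw_hasDerivAt (eqNode M a b) j t).unique e1, mul_one_div]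
  refine ⟨(hlw t ht).trans (by linarith), ?_, ?_⟩
  · simp only [hlw', abs_div, abs_of_pos hd, ← sum_div]
    exact div_le_div_of_nonneg_right (((le_abs_self _).trans (h₂ _ (hs t ht))).trans (by linarith))
      hd.le
  · have hc : ∀ j, Continuous fun s => |lw (eqNode M a b) j s| := fun j => (lw_continuous _ j).abs
    refine (sum_le_sum fun j _ => intervalIntegral.abs_integral_le_integral_abs hab.le).trans ?_
    rw [← intervalIntegral.integral_finsetSum (fun j _ => (hc j).intervalIntegrable _ _)]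
    refine (intervalIntegral.integral_mono_on hab.le
      ((continuous_finsetSum _ fun j _ => hc j).intervalIntegrable _ _)
      (intervalIntegrable_const (c := C₁ + C₂)) fun s hs' => (hlw s hs').trans (by linarith)).trans ?_
    rw [intervalIntegral.integral_const, smul_eq_mul, mul_comm]

end

end Vale.Agent.P347.Zero
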