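import Vale.Agent.P347.Zero.CurPicard
import Vale.Agent.P347.Zero.Interp
import Vale.Agent.P347.Quarter.Moments
import Vale.Agent.P347.Zero.FlowOde

/-!
# P347, exponent 0: the integrated top derivative along the posterior curve, in `L²`
-/

namespace Vale.Agent.P347.Zero

open MeasureTheory Real Set
open Vale.Agent.P347.Quarter (E γ)
open Vale.Agent.P347.Colour (Pt)
open scoped ContDiff

noncomputable section

variable {d : ℕ}

/-- The field along a curve. -/
def curF (V : Pt d → ℝ) (v : ℝ) (x : E d) (Z : ℝ → E d) (t : ℝ) : E d :=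
  Nv V (v - t ^ 2) (x + t • Z t)

theorem Nv_continuous {V : Pt d → ℝ} (hV : Mem V) {v : ℝ} (hv : 0 < v) :
    Continuous (Nv V v) :=
  (Nv_smooth hV hv).1.continuous

theorem cur_unique {V : Pt d → ℝ} (hV : Mem V) {v T : ℝ} (hTv : T ^ 2 < v) {x z : E d}
    {Z Z' : ℝ → E d} (h : IsCur V v x T z Z) (h' : IsCur V v x T z Z') :
    EqOn Z Z' (Icc 0 T) := by
  refine ODE_solution_unique_of_mem_Icc_right (v := bCur V v x) (s := fun _ => univ)
    (K := (2 * |T|).toNNReal) (fun t ht => LipschitzOnWith.of_dist_le_mul fun a _ b _ => ?_)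
    (fun t ht => (h.2 t ht).continuousWithinAt) (fun t ht => ?_) (fun _ _ => trivial)
    (fun t ht => (h'.2 t ht).continuousWithinAt) (fun t ht => ?_) (fun _ _ => trivial)
    (h.1.trans h'.1.symm)
  · have hs : 0 < v - t ^ 2 := by
      have := pow_le_pow_left₀ ht.1 ht.2.le 2
      linarith
    rw [dist_eq_norm, dist_eq_norm, Real.coe_toNNReal _ (by positivity), bCur, bCur,
      ← neg_sub', norm_neg]
    refine (Nv_lip hV hs _ _).trans ?_
    rw [add_sub_add_left_eq_sub, ← smul_sub, norm_smul, Real.norm_eq_abs, abs_of_nonneg ht.1,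
      mul_assoc]
    exact mul_le_mul_of_nonneg_left (mul_le_mul_of_nonneg_right
      (ht.2.le.trans (le_abs_self T)) (norm_nonneg _)) zero_le_two
  · exact right_of_icc (h.2 t ⟨ht.1, ht.2.le⟩) ht
  · exact right_of_icc (h'.2 t ⟨ht.1, ht.2.le⟩) ht

theorem curF_continuousOn {V : Pt d → ℝ} (hV : Mem V) {v T : ℝ} (hTv : T ^ 2 < v) {x z : E d}
    {Z : ℝ → E d} (h : IsCur V v x T z Z) : ContinuousOn (curF V v x Z) (Icc 0 T) := by
  have hZ : ContinuousOn Z (Icc 0 T) := fun t ht => (h.2 t ht).continuousWithinAt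
  have h1 : ContinuousOn (fun t => (v - t ^ 2, x + t • Z t)) (Icc 0 T) :=
    (by fun_prop : ContinuousOn (fun t : ℝ => v - t ^ 2) (Icc 0 T)).prodMk
      (continuousOn_const.add (continuousOn_id.smul hZ))
  show ContinuousOn ((fun p : ℝ × E d => Nv V p.1 p.2) ∘ fun t => (v - t ^ 2, x + t • Z t))
    (Icc 0 T)
  exact (Nv_contDiffOn hV).continuousOn.comp h1 fun t ht => by
    have := pow_le_pow_left₀ ht.1 ht.2 2
    exact ⟨show (0 : ℝ) < v - t ^ 2 by linarith, trivial⟩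

/-- The integral equation. -/
theorem cur_sub_eq {V : Pt d → ℝ} (hV : Mem V) {v T : ℝ} (hTv : T ^ 2 < v) {x z : E d}
    {Z : ℝ → E d} (h : IsCur V v x T z Z) {t : ℝ} (ht : t ∈ Icc 0 T) :
    Z t - z = -∫ s in (0 : ℝ)..t, curF V v x Z s := by
  have hsub : Icc 0 t ⊆ Icc 0 T := Icc_subset_Icc_right ht.2
  have hc := (curF_continuousOn hV hTv h).mono hsub
  rw [← intervalIntegral.integral_neg]
  rw [intervalIntegral.integral_eq_sub_of_hasDerivAt_of_le (f := Z)
    (f' := fun s => -curF V v x Z s) ht.1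
    (fun s hs => (h.2 s (hsub hs)).continuousWithinAt.mono hsub) ?_
    ((hc.neg : ContinuousOn (fun s => -curF V v x Z s) (Icc 0 t)).intervalIntegrable_of_Icc ht.1),
    h.1]
  intro s hs
  exact (h.2 s ⟨hs.1.le, hs.2.le.trans ht.2⟩).hasDerivAt (Icc_mem_nhds hs.1 (hs.2.trans_le ht.2))

/-- A crude bound on the curve. -/
theorem cur_dist_le {V : Pt d → ℝ} (hV : Mem V) {v T : ℝ} (hv' : v ≤ 1 / 16) (hT : 0 ≤ T)
    (hTv : T ^ 2 < v) {x z : E d} {Z : ℝ → E d} (h : IsCur V v x T z Z) {t : ℝ}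
    (ht : t ∈ Icc 0 T) : ‖Z t - z‖ ≤ 12 * (√d + ‖x‖ + ‖z‖) := by
  have hT2 : T ≤ 1 / 4 := by nlinarith
  have hZ : ContinuousOn Z (Icc 0 T) := fun t ht => (h.2 t ht).continuousWithinAt
  obtain ⟨t₀, ht₀, hmax⟩ := isCompact_Icc.exists_isMaxOn ⟨0, le_rfl, hT⟩ hZ.norm
  set M := ‖Z t₀‖
  have key : ∀ s ∈ Icc 0 T, ‖Z s - z‖ ≤ T * (4 * (√d + ‖x‖ + T * M)) := by
    intro s hs
    rw [cur_sub_eq hV hTv h hs, norm_neg]
    refine (intervalIntegral.norm_integral_le_of_norm_le_const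
      (C := 4 * (√d + ‖x‖ + T * M)) fun r hr => ?_).trans ?_
    · rw [uIoc_of_le hs.1] at hr
      have hr' : r ∈ Icc 0 T := ⟨hr.1.le, hr.2.trans hs.2⟩
      have hv0 : 0 < v - r ^ 2 := by
        have := pow_le_pow_left₀ hr'.1 hr'.2 2
        linarith
      refine (Nv_norm_le hV hv0 (by nlinarith) _).trans ?_
      have h1 : √((v - r ^ 2) * d) ≤ √d :=
        Real.sqrt_le_sqrt (mul_le_of_le_one_left (Nat.cast_nonneg d) (by nlinarith))
      have h2 : ‖x + r • Z r‖ ≤ ‖x‖ + T * M := by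
        refine (norm_add_le _ _).trans ?_
        rw [norm_smul, Real.norm_eq_abs, abs_of_nonneg hr'.1]
        exact add_le_add_right (mul_le_mul hr'.2 (hmax hr') (norm_nonneg _) hT) _
      linarith
    · rw [sub_zero, abs_of_nonneg hs.1, mul_comm]
      exact mul_le_mul_of_nonneg_right hs.2 (by positivity)
  have hM : M ≤ ‖z‖ + T * (4 * (√d + ‖x‖ + T * M)) := by
    have := norm_le_norm_add_norm_sub' (Z t₀) z
    linarith [key t₀ ht₀]
  refine (key t ht).trans ?_
  have hM0 : 0 ≤ M := norm_nonneg _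
  have hd := Real.sqrt_nonneg (d : ℝ)
  have hx := norm_nonneg x
  have hz := norm_nonneg z
  have hT16 : T * T ≤ 1 / 16 := by nlinarith
  have h1 : M ≤ 2 * (√d + ‖x‖ + ‖z‖) := by
    nlinarith [mul_le_mul_of_nonneg_right hT16 hM0, mul_le_mul_of_nonneg_right hT2
      (add_nonneg hd hx)]
  nlinarith [mul_le_mul_of_nonneg_right hT2 (add_nonneg hd hx),
    mul_le_mul_of_nonneg_right hT16 hM0]

theorem contDiffOn_Psi0 {V : Pt d → ℝ} (hV : Mem V) (v : ℝ) (x : E d) :
    ContDiffOn ℝ ∞ (fun p : ℝ × E d => Nv V (v - p.1 ^ 2) (x + p.1 • p.2))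
      {p | p.1 ^ 2 < v} := by
  have h1 : ContDiff ℝ ∞ (fun p : ℝ × E d => (v - p.1 ^ 2, x + p.1 • p.2)) := by fun_prop
  show ContDiffOn ℝ ∞ ((fun p : ℝ × E d => Nv V p.1 p.2) ∘
    fun p : ℝ × E d => (v - p.1 ^ 2, x + p.1 • p.2)) {p | p.1 ^ 2 < v}
  exact (Nv_contDiffOn hV).comp h1.contDiffOn fun p hp =>
    ⟨show (0 : ℝ) < v - p.1 ^ 2 from sub_pos.2 hp, trivial⟩

/-- All time derivatives of the field are functions of the time and the position. -/
theorem exists_jet {V : Pt d → ℝ} (hV : Mem V) (v : ℝ) (x : E d) (n : ℕ) :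
    ∃ Ψ : ℝ × E d → E d, ContDiffOn ℝ ∞ Ψ {p | p.1 ^ 2 < v} ∧
      ∀ T : ℝ, 0 < T → T ^ 2 < v → ∀ (z : E d) (Z : ℝ → E d), IsCur V v x T z Z →
        ∀ t ∈ Icc 0 T, iteratedDerivWithin n (curF V v x Z) (Icc 0 T) t = Ψ (t, Z t) := by
  have hU : IsOpen {p : ℝ × E d | p.1 ^ 2 < v} := isOpen_lt (by fun_prop) continuous_const
  induction n with
  | zero => exact ⟨_, contDiffOn_Psi0 hV v x, fun T _ _ z Z _ t _ => by rw [iteratedDerivWithin_zero]; rfl⟩
  | succ n ih =>
    obtain ⟨Ψ, hΨ, h⟩ := ih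
    refine ⟨fun p => fderiv ℝ Ψ p (1, -Nv V (v - p.1 ^ 2) (x + p.1 • p.2)), ?_,
      fun T hT hTv z Z hZ t ht => ?_⟩
    · exact (hΨ.fderiv_of_isOpen hU (by simp)).clm_apply
        (contDiffOn_const.prodMk (contDiffOn_Psi0 hV v x).neg)
    · have hmem : (t, Z t) ∈ {p : ℝ × E d | p.1 ^ 2 < v} := by
        have := pow_le_pow_left₀ ht.1 ht.2 2
        exact lt_of_le_of_lt this hTv
      have hd : HasDerivWithinAt (fun s => Ψ (s, Z s))
          (fderiv ℝ Ψ (t, Z t) (1, bCur V v x t (Z t))) (Icc 0 T) t :=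
        ((hΨ.contDiffAt (hU.mem_nhds hmem)).differentiableAt (by simp)).hasFDerivAt.comp_hasDerivWithinAt
          t ((hasDerivWithinAt_id t _).prodMk (hZ.2 t ht))
      rw [iteratedDerivWithin_succ, derivWithin_congr (fun s hs => h T hT hTv z Z hZ s hs)
        (h T hT hTv z Z hZ t ht), hd.derivWithin (uniqueDiffOn_Icc hT t ht)]
      rfl

/-- Cauchy–Schwarz on an interval. -/
theorem sq_integral_le {g : ℝ → ℝ} {T : ℝ} (hT : 0 ≤ T) (hg : Continuous g) :
    (∫ s in (0 : ℝ)..T, g s) ^ 2 ≤ T * ∫ s in (0 : ℝ)..T, g s ^ 2 := by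
  rcases hT.eq_or_lt with rfl | hT'
  · simp
  set I := ∫ s in (0 : ℝ)..T, g s
  have h0 : 0 ≤ ∫ s in (0 : ℝ)..T, (g s - I / T) ^ 2 :=
    intervalIntegral.integral_nonneg hT fun s _ => sq_nonneg _
  have e : ∫ s in (0 : ℝ)..T, (g s - I / T) ^ 2 = (∫ s in (0 : ℝ)..T, g s ^ 2) - I ^ 2 / T := by
    rw [show (fun s => (g s - I / T) ^ 2) = fun s => g s ^ 2 - (2 * (I / T) * g s - (I / T) ^ 2)
      from funext fun s => by ring,
      intervalIntegral.integral_sub (Continuous.intervalIntegrable (by fun_prop) _ _)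
        (Continuous.intervalIntegrable (by fun_prop) _ _),
      intervalIntegral.integral_sub (Continuous.intervalIntegrable (by fun_prop) _ _)
        intervalIntegrable_const, intervalIntegral.integral_const_mul,
      intervalIntegral.integral_const, smul_eq_mul]
    field_simp
    ring
  rw [e, sub_nonneg, div_le_iff₀ hT', mul_comm] at h0
  exact h0

/-- The integrated top derivative in `L²`. -/
theorem exists_topI_l2 (M : ℕ) : ∃ C : ℝ, 0 ≤ C ∧ ∀ (d : ℕ) (V : Pt d → ℝ), Mem V →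
    ∀ v T s₀ : ℝ, 0 < s₀ → v ≤ 1 → 0 < T → T ^ 2 + s₀ ≤ v →
      ∀ (x : E d) (Z : E d → ℝ → E d), (∀ z, IsCur V v x T z (Z z)) →
        (∀ z, ContDiffOn ℝ (M + 1 : ℕ) (curF V v x (Z z)) (Icc 0 T)) ∧
        Integrable (fun z => topI M (curF V v x (Z z)) 0 T ^ 2) (γ d) ∧
        ∫ z, topI M (curF V v x (Z z)) 0 T ^ 2 ∂γ d
          ≤ C * d * (T ^ 2 * ((√v / s₀) ^ M * (√v / √s₀)) ^ 2) := by
  obtain ⟨C, hC, H⟩ := exists_cur_deriv (M + 1) (Nat.succ_pos M)
  refine ⟨C, hC, fun d V hV v T s₀ hs₀ hv hT hTs x Z hZ => ?_⟩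
  obtain ⟨hcd, hder⟩ := H d V hV v T s₀ hs₀ hv hT.le hTs x Z hZ
  refine ⟨hcd, ?_⟩
  have hv0 : 0 < v := by nlinarith
  have hTv : T ^ 2 < v := by linarith
  obtain ⟨Z₀, hZ₀c, hZ₀, -⟩ := exists_cur hV hv0 hv hT.le hTv x
  obtain ⟨Ψ, hΨ, hjet⟩ := exists_jet hV v x (M + 1)
  let p : ℝ → Icc (0 : ℝ) T := projIcc 0 T hT.le
  let G : E d × ℝ → ℝ := fun q => ‖Ψ (p q.2, Z₀ q.1 (p q.2))‖ ^ 2
  have hG : Continuous G := by
    refine ((hΨ.continuousOn.comp_continuous ?_ fun q => ?_).norm).pow 2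
    · exact (continuous_subtype_val.comp ((continuous_projIcc (h := hT.le)).comp continuous_snd)).prodMk
        (hZ₀c.comp (continuous_fst.prodMk ((continuous_projIcc (h := hT.le)).comp continuous_snd)))
    · have := pow_le_pow_left₀ (p q.2).2.1 (p q.2).2.2 2
      exact lt_of_le_of_lt this hTv
  have hGeq : ∀ z, ∀ s ∈ Icc 0 T,
      G (z, s) = ‖iteratedDerivWithin (M + 1) (curF V v x (Z z)) (Icc 0 T) s‖ ^ 2 := by
    intro z s hs
    rw [hjet T hT hTv z (Z z) (hZ z) s hs, cur_unique hV hTv (hZ z) (hZ₀ z) hs]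
    simp only [G, p, projIcc_of_mem hT.le hs]
  set B := C * d * ((√v / s₀) ^ M * (√v / √s₀)) ^ 2 with hBdef
  have hB : ∀ s ∈ Icc 0 T, Integrable (fun z => G (z, s)) (γ d) ∧ ∫ z, G (z, s) ∂γ d ≤ B := by
    intro s hs
    simp only [fun z => hGeq z s hs]
    obtain ⟨h1, h2⟩ := hder s hs
    refine ⟨h1, ?_⟩
    show _ ≤ C * d * ((√v / s₀) ^ M * (√v / √s₀)) ^ 2
    exact h2.trans (le_of_eq (by rw [Nat.add_sub_cancel]))
  let ν := (volume : Measure ℝ).restrict (Ioc 0 T)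
  have : IsFiniteMeasure ν := ⟨by simp [ν]⟩
  have hprod : Integrable G ((γ d).prod ν) := by
    refine (integrable_prod_iff' hG.aestronglyMeasurable).2 ⟨?_, ?_⟩
    · exact (ae_restrict_iff' measurableSet_Ioc).2
        (Filter.Eventually.of_forall fun s hs => (hB s ⟨hs.1.le, hs.2⟩).1)
    · refine Integrable.of_bound
        (hG.norm.stronglyMeasurable.integral_prod_left').aestronglyMeasurable B ?_
      refine (ae_restrict_iff' measurableSet_Ioc).2 (Filter.Eventually.of_forall fun s hs => ?_)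
      simp only [G, norm_pow, norm_norm]
      rw [Real.norm_of_nonneg (integral_nonneg fun z => by positivity)]
      exact (hB s ⟨hs.1.le, hs.2⟩).2
  have hI : ∀ z, topI M (curF V v x (Z z)) 0 T ^ 2 ≤ T * ∫ s, G (z, s) ∂ν := by
    intro z
    have hg : Continuous fun s => √(G (z, s)) := by fun_prop
    have h1 : topI M (curF V v x (Z z)) 0 T = ∫ s in (0 : ℝ)..T, √(G (z, s)) := by
      refine intervalIntegral.integral_congr fun s hs => ?_
      rw [uIcc_of_le hT.le] at hs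
      simp only [hGeq z s hs, Real.sqrt_sq (norm_nonneg _)]
    rw [h1]
    refine (sq_integral_le hT.le hg).trans (le_of_eq ?_)
    rw [intervalIntegral.integral_of_le hT.le]
    congr 1
    exact integral_congr_ae (Filter.Eventually.of_forall fun s => Real.sq_sqrt (by positivity))
  have hmeas : AEStronglyMeasurable (fun z => topI M (curF V v x (Z z)) 0 T ^ 2) (γ d) := by
    have h2 : (fun z => topI M (curF V v x (Z z)) 0 T ^ 2)
        = fun z => (∫ s, √(G (z, s)) ∂ν) ^ 2 := by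
      funext z
      rw [topI, intervalIntegral.integral_of_le hT.le]
      congr 1
      refine setIntegral_congr_fun measurableSet_Ioc fun s hs => ?_
      simp only [hGeq z s ⟨hs.1.le, hs.2⟩, Real.sqrt_sq (norm_nonneg _)]
    rw [h2]
    exact ((hG.sqrt.stronglyMeasurable.integral_prod_right').pow 2).aestronglyMeasurable
  have hdom : Integrable (fun z => T * ∫ s, G (z, s) ∂ν) (γ d) :=
    hprod.integral_prod_left.const_mul T
  have hint : Integrable (fun z => topI M (curF V v x (Z z)) 0 T ^ 2) (γ d) :=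
    hdom.mono' hmeas (Filter.Eventually.of_forall fun z => by
      rw [Real.norm_of_nonneg (sq_nonneg _)]
      exact hI z)
  refine ⟨hint, (integral_mono hint hdom hI).trans ?_⟩
  rw [integral_const_mul, integral_integral_swap hprod]
  have h3 : ∫ s, ∫ z, G (z, s) ∂γ d ∂ν ≤ T * B := by
    refine (integral_mono_ae hprod.integral_prod_right (integrable_const B)
      ((ae_restrict_iff' measurableSet_Ioc).2
        (Filter.Eventually.of_forall fun s hs => (hB s ⟨hs.1.le, hs.2⟩).2))).trans (le_of_eq ?_)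
    simp [ν, integral_const, hT.le]
  exact (mul_le_mul_of_nonneg_left h3 hT.le).trans (le_of_eq (by rw [hBdef]; ring))

end

end Vale.Agent.P347.Zero
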