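import Vale.Agent.P347.Zero.CurRule
import Vale.Agent.P347.Zero.CurL2

/-!
# P347, exponent 0: a rule for which the Picard iterates approximate the posterior curve
-/

namespace Vale.Agent.P347.Zero

open MeasureTheory Real Finset Set
open Vale.Agent.P347.Quarter (E γ)
open Vale.Agent.P347.Colour (Pt)
open scoped Nat

noncomputable section

/-- Powers with positive exponent are eventually large. -/
theorem exists_rpow_ge {a : ℝ} (ha : 0 < a) (K : ℝ) :
    ∃ C : ℝ, 1 ≤ C ∧ ∀ x : ℝ, C ≤ x → K ≤ x ^ a := by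
  refine ⟨(max K 1) ^ (1 / a), one_le_rpow (le_max_right _ _) (by positivity), fun x hx => ?_⟩
  have h1 : 0 ≤ max K 1 := zero_le_one.trans (le_max_right _ _)
  have h := rpow_le_rpow (by positivity) hx ha.le
  rw [← rpow_mul h1, one_div_mul_cancel ha.ne', rpow_one] at h
  exact (le_max_left _ _).trans h

theorem sqrt_eq_rpow_half {x : ℝ} (hx : 0 ≤ x) (a : ℝ) : √(x ^ a) = x ^ (a / 2) := by
  rw [Real.sqrt_eq_rpow, ← rpow_mul hx]
  congr 1
  ring

variable {d m : ℕ}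

theorem pcur_continuous {V : Pt d → ℝ} (hV : Mem V) {v T c : ℝ} {τ : Fin m → ℝ}
    {w : ℝ → Fin m → ℝ} (hd : CurData v T c τ w) (x : E d) (k : ℕ) :
    ∀ t : ℝ, Continuous fun z => (pcur v τ w k t).val V (inp2 z x) := by
  induction k with
  | zero =>
    intro t
    simp only [pcur, Prog.val, sum_opt, Option.elim, one_smul, zero_smul, add_zero,
      Finset.univ_eq_empty, Finset.sum_empty, inp2]
    exact continuous_id
  | succ k ih =>
    intro t
    have e : ∀ i, (Nd.mk (v - τ i ^ 2) 0).val V = Nv V (v - τ i ^ 2) := by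
      intro i
      funext y
      simp [Nd.val, Quarter.G]
    simp only [pcur, Prog.val, sum_opt, Option.elim, one_smul, zero_smul, add_zero, shiftP_val, e]
    refine continuous_id.add (continuous_finsetSum _ fun i _ => ?_)
    exact ((Nv_continuous hV (hd.node_v i).2.2).comp
      (continuous_const.add ((ih (τ i)).const_smul (τ i)))).const_smul (-w t i)

theorem rate_picard {ε A' c T x : ℝ} {K : ℕ} (hε : 0 < ε) (hA : 0 ≤ A') (hd : 1 ≤ x) (hc : 0 ≤ c)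
    (hK : 2 * A' / ε ≤ K) (hT : T ^ 2 ≤ x ^ (-ε)) (hx : 2 * c ≤ x ^ (ε / 2)) :
    (2 * c * T ^ 2) ^ K ≤ x ^ (-A') := by
  have hx0 : 0 < x := zero_lt_one.trans_le hd
  have e : x ^ (-ε) = x ^ (-ε / 2) * (x ^ (ε / 2))⁻¹ := by
    rw [← rpow_neg hx0.le, ← rpow_add hx0]
    ring_nf
  have h1 : 2 * c * T ^ 2 ≤ x ^ (-ε / 2) := by
    refine (mul_le_mul_of_nonneg_left hT (by positivity)).trans ?_
    rw [e, mul_left_comm]
    refine mul_le_of_le_one_right (rpow_nonneg hx0.le _) ?_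
    rw [← div_eq_mul_inv, div_le_one (rpow_pos_of_pos hx0 _)]
    exact hx
  refine (pow_le_pow_left₀ (by positivity) h1 K).trans ?_
  rw [← rpow_natCast, ← rpow_mul hx0.le]
  refine rpow_le_rpow_of_exponent_le hd ?_
  rw [div_le_iff₀ hε] at hK
  linarith

theorem rate_rule {η A' v T x : ℝ} {N M : ℕ} (hη : 0 < η) (hA : 0 ≤ A') (hd : 1 ≤ x) (hv : 0 < v)
    (hv1 : v ≤ 1) (hT : 0 < T) (hTv : T ^ 2 ≤ v) (hN : x ^ (4 * η) ≤ N)
    (hM : A' / η ≤ M) :
    ((T / N) ^ (M + 1)) ^ 2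
        * (T ^ 2 * ((√v / (v * x ^ (-3 * η))) ^ M * (√v / √(v * x ^ (-3 * η)))) ^ 2)
      ≤ (x ^ (-A')) ^ 2 := by
  have hx0 : 0 < x := zero_lt_one.trans_le hd
  have hN1 : (1 : ℝ) ≤ N := (one_le_rpow hd (by positivity)).trans hN
  have hTsv : T ≤ √v := Real.le_sqrt_of_sq_le hTv
  have hsv0 : √v ≠ 0 := (Real.sqrt_pos.2 hv).ne'
  have h1 : T / N ≤ √v * x ^ (-(4 * η)) := by
    rw [rpow_neg hx0.le]
    exact div_le_div₀ (Real.sqrt_nonneg _) hTsv (rpow_pos_of_pos hx0 _) hN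
  have hq : T / N * (√v / (v * x ^ (-3 * η))) ≤ x ^ (-η) := by
    refine (mul_le_mul_of_nonneg_right h1 (by positivity)).trans (le_of_eq ?_)
    rw [show -(4 * η) = -η + -3 * η by ring, rpow_add hx0]
    have : x ^ (-3 * η) ≠ 0 := (rpow_pos_of_pos hx0 _).ne'
    field_simp
    rw [Real.sq_sqrt hv.le]
  have hq1 : T / N * (T * (√v / √(v * x ^ (-3 * η)))) ≤ 1 := by
    refine (mul_le_mul h1 (mul_le_mul_of_nonneg_right hTsv (by positivity)) (by positivity)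
      (by positivity)).trans ?_
    rw [Real.sqrt_mul hv.le, sqrt_eq_rpow_half hx0.le]
    have : x ^ (-3 * η / 2) ≠ 0 := (rpow_pos_of_pos hx0 _).ne'
    rw [show √v * x ^ (-(4 * η)) * (√v * (√v / (√v * x ^ (-3 * η / 2))))
      = (√v * √v) * (x ^ (-(4 * η)) / x ^ (-3 * η / 2)) by field_simp,
      Real.mul_self_sqrt hv.le, ← rpow_sub hx0]
    exact mul_le_one₀ hv1 (rpow_nonneg hx0.le _)
      (rpow_le_one_of_one_le_of_nonpos hd (by linarith))
  rw [show ((T / N) ^ (M + 1)) ^ 2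
      * (T ^ 2 * ((√v / (v * x ^ (-3 * η))) ^ M * (√v / √(v * x ^ (-3 * η)))) ^ 2)
    = ((T / N * (√v / (v * x ^ (-3 * η)))) ^ M * (T / N * (T * (√v / √(v * x ^ (-3 * η)))))) ^ 2 by
      simp only [mul_pow, pow_succ]; ring]
  refine pow_le_pow_left₀ (by positivity) ?_ 2
  refine (mul_le_of_le_one_right (pow_nonneg (by positivity) _) hq1).trans ?_
  refine (pow_le_pow_left₀ (by positivity) hq _).trans ?_
  rw [← rpow_natCast, ← rpow_mul hx0.le]
  refine rpow_le_rpow_of_exponent_le hd ?_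
  rw [div_le_iff₀ hη] at hM
  linarith

theorem family_l2 {V : Pt d → ℝ} (hV : Mem V) {v T c B CT r : ℝ} {N M : ℕ}
    {e : Fin N × Fin (M + 1) ≃ Fin m}
    (hd : CurData v T c (fun i => pnode T N M (e.symm i)) (fun t i => pw T N M t (e.symm i)))
    (hv16 : v ≤ 1 / 16) {x : E d} {Z : E d → ℝ → E d} (hZ : ∀ z, IsCur V v x T z (Z z)) {t : ℝ}
    (ht : t ∈ Icc 0 T) (K : ℕ)
    (hrule : ∀ s ∈ Icc 0 T, ∀ z, ‖(∫ u in (0 : ℝ)..s, curF V v x (Z z) u)
        - ∑ p, pw T N M s p • curF V v x (Z z) (pnode T N M p)‖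
      ≤ (1 + c) * (T / N) ^ (M + 1) / M ! * topI M (curF V v x (Z z)) 0 T)
    (hint : Integrable (fun z => topI M (curF V v x (Z z)) 0 T ^ 2) (γ d))
    (hbd : ∫ z, topI M (curF V v x (Z z)) 0 T ^ 2 ∂γ d ≤ CT * d * B) (hB : 0 ≤ B)
    (hθ : (2 * c * T ^ 2) ^ K ≤ r)
    (hR : ((T / N) ^ (M + 1)) ^ 2 * B ≤ r ^ 2) :
    Integrable (fun z => ‖(pcur v (fun i => pnode T N M (e.symm i))
        (fun t i => pw T N M t (e.symm i)) K t).val V (inp2 z x) - Z z t‖ ^ 2) (γ d) ∧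
      ∫ z, ‖(pcur v (fun i => pnode T N M (e.symm i))
        (fun t i => pw T N M t (e.symm i)) K t).val V (inp2 z x) - Z z t‖ ^ 2 ∂γ d
      ≤ (8 * (((1 + c) / M !) ^ 2 * |CT|) + 3000) * r ^ 2 * (√d + ‖x‖) ^ 2 := by
  set P := pcur v (fun i => pnode T N M (e.symm i)) (fun t i => pw T N M t (e.symm i)) K t
  set θ := (2 * c * T ^ 2) ^ K
  set L := (1 + c) / M ! * (T / N) ^ (M + 1) with hL
  set I := fun z => topI M (curF V v x (Z z)) 0 T
  have hc := zero_le_one.trans hd.c_one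
  have hθ0 : 0 ≤ θ := by positivity
  have hpt : ∀ z, ‖P.val V (inp2 z x) - Z z t‖
      ≤ θ * (12 * (√d + ‖x‖ + ‖z‖)) + 2 * (L * I z) := by
    intro z
    refine hd.error hV z x (fun s hs => cur_dist_le hV hv16 hd.T_nonneg hd.T_sq (hZ z) hs)
      (fun s hs => ?_) K ht
    rw [cur_sub_eq hV hd.T_sq (hZ z) hs,
      e.symm.sum_comp (fun p => pw T N M s p • Nv V (v - pnode T N M p ^ 2)
        (x + pnode T N M p • Z z (pnode T N M p))), neg_add_eq_sub, norm_sub_rev]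
    exact (hrule s hs z).trans (le_of_eq (by simp only [hL, I]; ring))
  have hmeas : AEStronglyMeasurable (fun z => ‖P.val V (inp2 z x) - Z z t‖ ^ 2) (γ d) := by
    obtain ⟨Z₀, hc', hZ₀, -⟩ := exists_cur hV hd.v_pos (by linarith) hd.T_nonneg hd.T_sq x
    have heq : ∀ z, Z z t = Z₀ z t := fun z => cur_unique hV hd.T_sq (hZ z) (hZ₀ z) ht
    simp only [heq]
    exact (((pcur_continuous hV hd x K t).sub
      (hc'.comp (continuous_id.prodMk (continuous_const (y := (⟨t, ht⟩ : Icc (0 : ℝ) T)))))).norm.pow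
        2).aestronglyMeasurable
  have i1 : Integrable (fun z : E d => 864 * θ ^ 2 * ((√d + ‖x‖) ^ 2 + ‖z‖ ^ 2)) (γ d) :=
    ((integrable_const _).add Quarter.γ_sq_integrable).const_mul _
  have i2 : Integrable (fun z => 8 * L ^ 2 * I z ^ 2) (γ d) := hint.const_mul _
  have hle : ∀ z, ‖P.val V (inp2 z x) - Z z t‖ ^ 2
      ≤ 864 * θ ^ 2 * ((√d + ‖x‖) ^ 2 + ‖z‖ ^ 2) + 8 * L ^ 2 * I z ^ 2 := by
    intro z
    refine (pow_le_pow_left₀ (norm_nonneg _) (hpt z) 2).trans ?_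
    nlinarith [sq_nonneg (θ * (12 * (√d + ‖x‖ + ‖z‖)) - 2 * (L * I z)),
      mul_nonneg (sq_nonneg θ) (sq_nonneg (√d + ‖x‖ - ‖z‖)), sq_nonneg (θ * (√d + ‖x‖)),
      sq_nonneg (θ * ‖z‖)]
  have hi := (i1.add i2).mono' hmeas (Filter.Eventually.of_forall fun z => by
    rw [Real.norm_of_nonneg (sq_nonneg _)]
    exact hle z)
  refine ⟨hi, (integral_mono hi (i1.add i2) hle).trans ?_⟩
  simp only [Pi.add_apply]
  rw [integral_add i1 i2, integral_const_mul, integral_const_mul,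
    integral_add (integrable_const _) Quarter.γ_sq_integrable, integral_const, probReal_univ,
    one_smul, Quarter.γ_norm_sq]
  set S := (√d + ‖x‖) ^ 2
  have hS : (d : ℝ) ≤ S := by
    simp only [S]
    nlinarith [Real.sq_sqrt (Nat.cast_nonneg (α := ℝ) d), norm_nonneg x, Real.sqrt_nonneg (d : ℝ)]
  have hS0 : 0 ≤ S := sq_nonneg _
  have hθ2 : θ ^ 2 ≤ r ^ 2 := pow_le_pow_left₀ hθ0 hθ 2
  have h1 : 864 * θ ^ 2 * (S + d) ≤ 3000 * r ^ 2 * S := by
    refine (mul_le_mul (mul_le_mul_of_nonneg_left hθ2 (by norm_num)) (by linarith : S + d ≤ 2 * S)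
      (by positivity) (by positivity)).trans ?_
    nlinarith [mul_nonneg (sq_nonneg r) hS0]
  have h2 : 8 * L ^ 2 * ∫ z, I z ^ 2 ∂γ d ≤ 8 * (((1 + c) / M !) ^ 2 * |CT|) * r ^ 2 * S := by
    refine (mul_le_mul_of_nonneg_left hbd (by positivity)).trans ?_
    have h3 : CT * d * B ≤ |CT| * d * B := by
      gcongr
      exact le_abs_self CT
    refine (mul_le_mul_of_nonneg_left h3 (by positivity)).trans ?_
    rw [show 8 * L ^ 2 * (|CT| * d * B) = 8 * (((1 + c) / M !) ^ 2 * |CT|)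
      * (((T / N) ^ (M + 1)) ^ 2 * B) * d by rw [hL]; ring]
    exact mul_le_mul (mul_le_mul_of_nonneg_left hR (by positivity)) hS (Nat.cast_nonneg _)
      (by positivity)
  linarith

/-- The rule. -/
theorem exists_family {ε : ℝ} (hε : 0 < ε) (A : ℝ) :
    ∃ (K : ℕ) (s η₀ : ℝ), 0 ≤ s ∧ 0 < η₀ ∧ ∀ η : ℝ, 0 < η → η ≤ η₀ → ∃ C : ℝ, 1 ≤ C ∧
      ∀ d : ℕ, C ≤ d → ∀ v T : ℝ, 0 < v → v ≤ (d : ℝ) ^ (-ε) → 0 < T →
        T ^ 2 + v * (d : ℝ) ^ (-3 * η) ≤ v →
        ∃ (m : ℕ) (τ : Fin m → ℝ) (w : ℝ → Fin m → ℝ) (c : ℝ),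
          CurData v T c τ w ∧ c ≤ C ∧ (((2 * m + 2) ^ K : ℕ) : ℝ) ≤ C * (d : ℝ) ^ (s * η) ∧
          (∀ e : ℝ, eAt ε η 0 d ≤ e → 8 * c * T * √v / e ≤ 1 ∧
            T * (d : ℝ) ^ (-2 * η) + √v * (d : ℝ) ^ (-2 * η) + c * T ^ 2 * √v / e
              ≤ √(v - T ^ 2)) ∧
          ∀ V, Mem (d := d) V → ∀ (x : E d) (Z : E d → ℝ → E d), (∀ z, IsCur V v x T z (Z z)) →
            ∀ t ∈ Icc 0 T,
              Integrable (fun z => ‖(pcur v τ w K t).val V (inp2 z x) - Z z t‖ ^ 2) (γ d) ∧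
              ∫ z, ‖(pcur v τ w K t).val V (inp2 z x) - Z z t‖ ^ 2 ∂γ d
                ≤ (C * (d : ℝ) ^ (-A) * (√d + ‖x‖)) ^ 2 := by
  set A' := max A 0 + 1 with hA'
  have hA1 : 1 ≤ A' := by simp [hA']
  set K : ℕ := ⌈2 * A' / ε⌉₊ + 1 with hK
  refine ⟨K, 4 * K, ε / 6, by positivity, by positivity, fun η hη hη₀ => ?_⟩
  set M : ℕ := ⌈2 * A' / η⌉₊ + 1 with hMdef
  obtain ⟨C₀, hC₀, hleb⟩ := exists_eqNode_bound M
  obtain ⟨CT, hCT, hL2⟩ := exists_topI_l2 M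
  set c := C₀ + 1
  set Cr := (1 + c) / M ! with hCr
  have hc1 : 1 ≤ c := by simp [c, hC₀]
  obtain ⟨B₁, hB₁, g₁⟩ := exists_rpow_ge hε (64 * c + 16)
  obtain ⟨B₂, hB₂, g₂⟩ := exists_rpow_ge (half_pos hε) (32 * c + 8)
  obtain ⟨B₃, hB₃, g₃⟩ := exists_rpow_ge (half_pos hη) 4
  obtain ⟨B₄, hB₄, g₄⟩ := exists_rpow_ge (show 0 < ε / 4 by positivity) (2 * c)
  refine ⟨max (max (max B₁ B₂) (max B₃ B₄))
    (max c (max ((4 * (M + 1 : ℝ) + 2) ^ K) (√(8 * (Cr ^ 2 * |CT|) + 3000) + 1))),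
    le_max_of_le_left (le_max_of_le_left (le_max_of_le_left hB₁)), fun d hd v T hv hvh hT hTv => ?_⟩
  simp only [max_le_iff] at hd
  obtain ⟨⟨⟨hd1, hd2⟩, hd3, hd4⟩, -, -, -⟩ := hd
  have hd0 : (1 : ℝ) ≤ d := hB₁.trans hd1
  have hdp : (0 : ℝ) < d := zero_lt_one.trans_le hd0
  have G1 := g₁ _ hd1
  have G2 := g₂ _ hd2
  have G3 := g₃ _ hd3
  have G4 := g₄ _ hd4
  have hneg : ∀ a : ℝ, (d : ℝ) ^ (-a) = ((d : ℝ) ^ a)⁻¹ := fun a => rpow_neg hdp.le a
  have hv16 : v ≤ 1 / 16 := by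
    refine hvh.trans ?_
    rw [hneg, inv_le_comm₀ (rpow_pos_of_pos hdp _) (by norm_num)]
    linarith
  have hp3 : 0 < v * (d : ℝ) ^ (-3 * η) := mul_pos hv (rpow_pos_of_pos hdp _)
  have hTv' : T ^ 2 < v := by linarith
  have hTsv : T ≤ √v := Real.le_sqrt_of_sq_le hTv'.le
  have hsv : √v ≤ (d : ℝ) ^ (-ε / 2) := by
    have h := Real.sqrt_le_sqrt hvh
    rwa [sqrt_eq_rpow_half hdp.le] at h
  have hc32 : 32 * c * T ≤ 1 := by
    have h1 : 32 * c * T ≤ 32 * c * (d : ℝ) ^ (-ε / 2) :=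
      mul_le_mul_of_nonneg_left (hTsv.trans hsv) (by positivity)
    refine h1.trans ?_
    rw [show -ε / 2 = -(ε / 2) by ring, hneg, ← div_eq_mul_inv, div_le_one (rpow_pos_of_pos hdp _)]
    linarith
  set N : ℕ := ⌈(d : ℝ) ^ (4 * η)⌉₊
  have hp2 : 1 ≤ (d : ℝ) ^ (4 * η) := one_le_rpow hd0 (by positivity)
  have hN0 : 0 < N := Nat.ceil_pos.2 (zero_lt_one.trans_le hp2)
  have hN1 : (N : ℝ) ≤ 2 * (d : ℝ) ^ (4 * η) :=
    (Nat.ceil_lt_add_one (zero_le_one.trans hp2)).le.trans (by linarith)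
  have hN2 : (d : ℝ) ^ (4 * η) ≤ N := Nat.le_ceil _
  have hlw : ∀ a b s : ℝ, a < b → s ∈ Set.Icc a b → (∑ j, |lw (eqNode M a b) j s|) ≤ c :=
    fun a b s hab hs => ((hleb a b s hab hs).1).trans (by simp [c])
  let e : Fin N × Fin (M + 1) ≃ Fin (N * (M + 1)) := finProdFinEquiv
  have hdata : CurData v T c (fun i => pnode T N M (e.symm i))
      (fun t i => pw T N M t (e.symm i)) :=
    { v_pos := hv
      v_le := by linarith
      T_nonneg := hT.le
      T_sq := hTv'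
      c_one := hc1
      small := hc32
      mem := fun i => pnode_mem hT _
      weight := fun t ht => le_of_eq_of_le (e.symm.sum_comp fun p => |pw T N M t p|)
        (pw_abs_sum hlw hT hN0 ht) }
  refine ⟨_, _, _, c, hdata, le_max_of_le_right (le_max_left _ _), ?_, fun e' he => ?_, ?_⟩
  · have h1 : ((2 * (N * (M + 1)) + 2 : ℕ) : ℝ) ≤ (4 * (M + 1 : ℝ) + 2) * (d : ℝ) ^ (4 * η) := by
      push_cast
      nlinarith [mul_le_mul_of_nonneg_right hN1 (by positivity : (0 : ℝ) ≤ M + 1)]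
    rw [Nat.cast_pow]
    refine (pow_le_pow_left₀ (Nat.cast_nonneg _) h1 K).trans ?_
    rw [mul_pow]
    refine mul_le_mul (le_max_of_le_right (le_max_of_le_right (le_max_left _ _))) (le_of_eq ?_)
      (by positivity) (le_trans zero_le_one (le_max_of_le_left
        (le_max_of_le_left (le_max_of_le_left hB₁))))
    rw [← rpow_natCast, ← rpow_mul hdp.le]
    ring_nf
  · unfold eAt at he
    rw [zero_mul, add_zero] at he
    have he0 : 0 < (d : ℝ) ^ (-ε / 2) := rpow_pos_of_pos hdp _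
    have h4 : T * √v / e' ≤ (d : ℝ) ^ (-ε / 2) := by
      rw [div_le_iff₀ (he0.trans_le he)]
      calc T * √v ≤ √v * √v := mul_le_mul_of_nonneg_right hTsv (Real.sqrt_nonneg _)
        _ ≤ (d : ℝ) ^ (-ε / 2) * (d : ℝ) ^ (-ε / 2) :=
          mul_le_mul hsv hsv (Real.sqrt_nonneg _) he0.le
        _ ≤ (d : ℝ) ^ (-ε / 2) * e' := mul_le_mul_of_nonneg_left he he0.le
    have hc0 : (0 : ℝ) ≤ c := zero_le_one.trans hc1
    constructor
    · rw [show 8 * c * T * √v / e' = 8 * c * (T * √v / e') by ring]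
      refine (mul_le_mul_of_nonneg_left h4 (by positivity)).trans ?_
      rw [show -ε / 2 = -(ε / 2) by ring, hneg, ← div_eq_mul_inv,
        div_le_one (rpow_pos_of_pos hdp _)]
      linarith
    · have hp : 0 < (d : ℝ) ^ (-(3 / 2) * η) := rpow_pos_of_pos hdp _
      have hs1 : √v * (d : ℝ) ^ (-(3 / 2) * η) ≤ √(v - T ^ 2) := by
        have h : √(v * (d : ℝ) ^ (-3 * η)) ≤ √(v - T ^ 2) := Real.sqrt_le_sqrt (by linarith)
        rw [Real.sqrt_mul hv.le, sqrt_eq_rpow_half hdp.le] at h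
        rwa [show -(3 / 2) * η = -3 * η / 2 by ring]
      have hsplit : (d : ℝ) ^ (-2 * η) ≤ (d : ℝ) ^ (-(3 / 2) * η) / 4 := by
        rw [show -2 * η = -(3 / 2) * η + -(η / 2) by ring, rpow_add hdp, hneg, div_eq_mul_inv]
        exact mul_le_mul_of_nonneg_left (inv_anti₀ (by norm_num) G3) hp.le
      have hc4 : c * (d : ℝ) ^ (-ε / 2) ≤ (d : ℝ) ^ (-(3 / 2) * η) / 2 := by
        have h : (d : ℝ) ^ (-ε / 2) ≤ (d : ℝ) ^ (-(3 / 2) * η) * (d : ℝ) ^ (-(ε / 4)) := by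
          rw [← rpow_add hdp]
          exact rpow_le_rpow_of_exponent_le hd0 (by linarith)
        refine (mul_le_mul_of_nonneg_left h hc0).trans ?_
        rw [hneg, mul_left_comm, div_eq_mul_inv]
        refine mul_le_mul_of_nonneg_left ?_ hp.le
        rw [mul_inv_le_iff₀ (rpow_pos_of_pos hdp _)]
        linarith
      refine le_trans ?_ hs1
      rw [show c * T ^ 2 * √v / e' = c * T * (T * √v / e') by ring]
      have h5 : c * T * (T * √v / e') ≤ √v * (c * (d : ℝ) ^ (-ε / 2)) := by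
        refine (mul_le_mul (mul_le_mul_of_nonneg_left hTsv hc0) h4
          (div_nonneg (mul_nonneg hT.le (Real.sqrt_nonneg _)) (he0.trans_le he).le)
          (by positivity)).trans (le_of_eq (by ring))
      have h6 := mul_le_mul_of_nonneg_right hTsv (rpow_nonneg hdp.le (-2 * η))
      have h7 := mul_le_mul_of_nonneg_left hsplit (Real.sqrt_nonneg v)
      have h8 := mul_le_mul_of_nonneg_left hc4 (Real.sqrt_nonneg v)
      linarith
  · intro V hV x Z hZ t ht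
    obtain ⟨hcd, hint, hbd⟩ := hL2 d V hV v T (v * (d : ℝ) ^ (-3 * η)) hp3 (by linarith) hT hTv x Z hZ
    set θ := (2 * c * T ^ 2) ^ K
    set L := (T / N) ^ (M + 1)
    have hθ : (2 * c * T ^ 2) ^ K ≤ (d : ℝ) ^ (-A') := by
      refine rate_picard (A' := A') hε (by linarith) hd0 (zero_le_one.trans hc1) ?_ (hTv'.le.trans hvh) (by linarith)
      have h := Nat.le_ceil (2 * A' / ε)
      rw [hK]
      push_cast
      linarith
    have hR := rate_rule (A' := A') (M := M) hη (by linarith) hd0 hv (by linarith : v ≤ 1) hT hTv'.le hN2 ?_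
    swap
    · have h := Nat.le_ceil (2 * A' / η)
      have h' : A' / η ≤ 2 * A' / η := div_le_div_of_nonneg_right (by linarith) hη.le
      rw [hMdef]
      push_cast
      linarith
    obtain ⟨hi, hb⟩ := family_l2 hV hdata hv16 (hZ) ht K (e := e) (M := M) (N := N)
      (fun s hs z => rule_bound hlw hT hN0 (hcd z) hs) hint hbd (by positivity) hθ hR
    refine ⟨hi, hb.trans ?_⟩
    have hC : √(8 * (Cr ^ 2 * |CT|) + 3000) + 1 ≤ max (max (max B₁ B₂) (max B₃ B₄))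
        (max c (max ((4 * (M + 1 : ℝ) + 2) ^ K) (√(8 * (Cr ^ 2 * |CT|) + 3000) + 1))) :=
      le_max_of_le_right (le_max_of_le_right (le_max_right _ _))
    have hsq : 8 * (Cr ^ 2 * |CT|) + 3000 ≤ (max (max (max B₁ B₂) (max B₃ B₄))
        (max c (max ((4 * (M + 1 : ℝ) + 2) ^ K) (√(8 * (Cr ^ 2 * |CT|) + 3000) + 1)))) ^ 2 := by
      refine le_trans (le_of_eq (Real.sq_sqrt (by positivity : (0 : ℝ) ≤ 8 * (Cr ^ 2 * |CT|) + 3000)).symm) ?_
      exact pow_le_pow_left₀ (Real.sqrt_nonneg _) (le_trans (le_add_of_nonneg_right zero_le_one) hC) 2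
    have hA : ((d : ℝ) ^ (-A')) ^ 2 ≤ ((d : ℝ) ^ (-A)) ^ 2 := by
      refine pow_le_pow_left₀ (by positivity) (rpow_le_rpow_of_exponent_le hd0 ?_) 2
      have := le_max_left A 0
      simp only [hA']
      linarith
    rw [mul_pow, mul_pow]
    exact mul_le_mul_of_nonneg_right (mul_le_mul hsq hA (by positivity) (sq_nonneg _)) (sq_nonneg _)

end

end Vale.Agent.P347.Zero
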