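import Vale.Agent.P347.Zero.FlowOde
import Vale.Agent.P347.Zero.Creation

/-!
# P347, exponent 0: a flow solving the continuity equation transports the densities

No smoothness of the flow in the starting point is used: the test function carried back by the flow
is Lipschitz, hence differentiable almost everywhere, and may be integrated by parts.
-/

namespace Vale.Agent.P347.Zero

open Set Filter Topology MeasureTheory Metric Real Finset
open scoped NNReal ContDiff

noncomputable section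

set_option linter.unusedSectionVars false

variable {α : Type} [Fintype α] [DecidableEq α]

/-- The measure with density `exp (-Φ)`. -/
def dens (Φ : Sp α → ℝ) : Measure (Sp α) :=
  volume.withDensity fun z => ENNReal.ofReal (exp (-Φ z))

/-- The time derivative of the potential required by the continuity equation. -/
def pot' (b : Sp α → Sp α) (Φ : Sp α → ℝ) (z : Sp α) : ℝ :=
  ∑ j, (pd j (fun w => b w j) z - b z j * pd j Φ z)

/-- A Lipschitz field and potentials solving the continuity equation. -/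
structure Transp (b : ℝ → Sp α → Sp α) (Φ : ℝ → Sp α → ℝ) (T : ℝ) (L : ℝ≥0) (G : Sp α → ℝ) :
    Prop where
  cont : ContinuousOn (Function.uncurry b) (Set.Icc 0 T ×ˢ Set.univ)
  lip : ∀ t ∈ Set.Icc 0 T, LipschitzWith L (b t)
  c1 : ∀ t ∈ Set.Icc 0 T, ContDiff ℝ 1 (b t) ∧ ContDiff ℝ 1 (Φ t)
  eqn : ∀ z, ∀ t ∈ Set.Icc 0 T, HasDerivWithinAt (Φ · z) (pot' (b t) (Φ t) z) (Set.Icc 0 T) t
  dom : Integrable G ∧ ∀ t ∈ Set.Icc 0 T, ∀ z,
    exp (-Φ t z) * (1 + ‖z‖) * (1 + ∑ j, |pd j (Φ t) z|) ≤ G z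

theorem norm_unitV (j : α) : ‖unitV j‖ = 1 := by simp [unitV]

theorem abs_apply_le_norm (x : Sp α) (j : α) : |x j| ≤ ‖x‖ := by
  simpa [Real.norm_eq_abs] using PiLp.norm_apply_le x j

theorem sum_coord (x : Sp α) : ∑ j, x j • unitV j = x := by
  ext k
  simp [unitV, Finset.sum_apply, Pi.single_apply]

theorem pd_coord_bdd {f : Sp α → Sp α} {L : ℝ≥0} (hf : LipschitzWith L f) (hd : Differentiable ℝ f)
    (i j : α) (z : Sp α) : |pd j (fun w => f w i) z| ≤ L := by
  have h : HasFDerivAt (fun w => f w i)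
      ((EuclideanSpace.proj (𝕜 := ℝ) i).comp (fderiv ℝ f z)) z :=
    (EuclideanSpace.proj (𝕜 := ℝ) i).hasFDerivAt.comp z (hd z).hasFDerivAt
  rw [pd, h.fderiv]
  show |(fderiv ℝ f z (unitV j)) i| ≤ L
  refine (abs_apply_le_norm _ i).trans ?_
  refine (ContinuousLinearMap.le_opNorm _ _).trans ?_
  rw [norm_unitV, mul_one]
  exact norm_fderiv_le_of_lipschitz ℝ hf

variable {b : ℝ → Sp α → Sp α} {Φ : ℝ → Sp α → ℝ} {T : ℝ} {L : ℝ≥0} {G : Sp α → ℝ}

theorem Transp.exists_fld (h : Transp b Φ T L G) : ∃ C, Fld b T C := by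
  obtain ⟨M, hM⟩ := isCompact_Icc.exists_bound_of_continuousOn
    (h.cont.comp (f := fun t : ℝ => (t, (0 : Sp α))) (continuousOn_id.prodMk continuousOn_const)
      fun t ht => ⟨ht, Set.mem_univ _⟩)
  refine ⟨max M 0 + L, by positivity, h.cont, fun t ht x => ?_,
    fun R => ⟨L, fun t ht => (h.lip t ht).lipschitzOnWith⟩⟩
  have h1 := (h.lip t ht).dist_le_mul x 0
  rw [dist_eq_norm, dist_eq_norm, sub_zero] at h1
  have h2 : ‖b t x‖ ≤ ‖b t x - b t 0‖ + ‖b t 0‖ := norm_le_norm_sub_add _ _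
  have h3 : ‖b t 0‖ ≤ M := hM t ht
  nlinarith [le_max_left M 0, le_max_right M 0, norm_nonneg x, L.coe_nonneg]

/-- The dominator bounds every term that occurs. -/
theorem Transp.bounds (h : Transp b Φ T L G) {C : ℝ} (hb : Fld b T C) {t : ℝ}
    (ht : t ∈ Set.Icc 0 T) (z : Sp α) :
    exp (-Φ t z) ≤ G z ∧ exp (-Φ t z) * (1 + ‖z‖) ≤ G z ∧
      exp (-Φ t z) * |pot' (b t) (Φ t) z| ≤ (Fintype.card α * L + C) * G z ∧
      ∀ j, |exp (-Φ t z) * b t z j| ≤ C * G z ∧
        |exp (-Φ t z) * (pd j (fun w => b t w j) z - b t z j * pd j (Φ t) z)| ≤ (L + C) * G z := by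
  have hG := h.dom.2 t ht z
  set p := exp (-Φ t z)
  set S := ∑ j, |pd j (Φ t) z|
  have hp : 0 < p := exp_pos _
  have hz := norm_nonneg z
  have hS : 0 ≤ S := sum_nonneg fun _ _ => abs_nonneg _
  have hC := hb.nonneg
  have hL := L.coe_nonneg
  have q1 : p * (1 + ‖z‖) ≤ G z :=
    le_trans (le_mul_of_one_le_right (by positivity) (by linarith)) hG
  have q0 : p ≤ G z := le_trans (le_mul_of_one_le_right hp.le (by linarith)) q1
  have q2 : p * (1 + ‖z‖) * S ≤ G z :=
    le_trans (mul_le_mul_of_nonneg_left (by linarith) (by positivity)) hG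
  have hbj : ∀ j, |b t z j| ≤ C * (1 + ‖z‖) := fun j =>
    (abs_apply_le_norm _ j).trans (hb.grow t ht z)
  have hdj : ∀ j, |pd j (fun w => b t w j) z| ≤ L :=
    fun j => pd_coord_bdd (h.lip t ht) ((h.c1 t ht).1.differentiable one_ne_zero) j j z
  have hterm : ∀ j, |pd j (fun w => b t w j) z - b t z j * pd j (Φ t) z|
      ≤ L + C * (1 + ‖z‖) * |pd j (Φ t) z| := fun j =>
    (abs_sub _ _).trans (add_le_add (hdj j) (by
      rw [abs_mul]; exact mul_le_mul_of_nonneg_right (hbj j) (abs_nonneg _)))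
  refine ⟨q0, q1, ?_, fun j => ⟨?_, ?_⟩⟩
  · have hD : |pot' (b t) (Φ t) z| ≤ Fintype.card α * L + C * (1 + ‖z‖) * S := by
      refine (abs_sum_le_sum_abs _ _).trans ((sum_le_sum fun j _ => hterm j).trans (le_of_eq ?_))
      rw [sum_add_distrib, ← mul_sum]
      simp [S]
    calc p * |pot' (b t) (Φ t) z| ≤ p * (Fintype.card α * L + C * (1 + ‖z‖) * S) :=
          mul_le_mul_of_nonneg_left hD hp.le
      _ = Fintype.card α * L * p + C * (p * (1 + ‖z‖) * S) := by ring
      _ ≤ Fintype.card α * L * G z + C * G z :=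
          add_le_add (mul_le_mul_of_nonneg_left q0 (by positivity))
            (mul_le_mul_of_nonneg_left q2 hC)
      _ = _ := by ring
  · rw [abs_mul, abs_of_pos hp]
    calc p * |b t z j| ≤ p * (C * (1 + ‖z‖)) := mul_le_mul_of_nonneg_left (hbj j) hp.le
      _ = C * (p * (1 + ‖z‖)) := by ring
      _ ≤ C * G z := mul_le_mul_of_nonneg_left q1 hC
  · rw [abs_mul, abs_of_pos hp]
    have hj : |pd j (Φ t) z| ≤ S :=
      single_le_sum (f := fun j => |pd j (Φ t) z|) (fun k _ => abs_nonneg _) (mem_univ j)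
    calc p * |pd j (fun w => b t w j) z - b t z j * pd j (Φ t) z|
        ≤ p * (L + C * (1 + ‖z‖) * S) := mul_le_mul_of_nonneg_left
          ((hterm j).trans (add_le_add le_rfl (mul_le_mul_of_nonneg_left hj (by positivity)))) hp.le
      _ = L * p + C * (p * (1 + ‖z‖) * S) := by ring
      _ ≤ L * G z + C * G z :=
          add_le_add (mul_le_mul_of_nonneg_left q0 hL) (mul_le_mul_of_nonneg_left q2 hC)
      _ = _ := by ring

/-- The scaled cutoff. -/
def chi (n : ℕ) (z : Sp α) : ℝ :=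
  (⟨1, 2, one_pos, one_lt_two⟩ : ContDiffBump (0 : Sp α)) (((n : ℝ) + 1)⁻¹ • z)

theorem chi_props : (∀ n, ContDiff ℝ ∞ (chi (α := α) n) ∧ HasCompactSupport (chi (α := α) n)) ∧
    (∀ n z, |chi (α := α) n z| ≤ 1) ∧
    (∃ B, ∀ n j z, |pd j (chi (α := α) n) z| ≤ B) ∧
    ∀ z : Sp α, ∀ᶠ n : ℕ in atTop, ∀ᶠ w in 𝓝 z, chi n w = 1 := by
  set f : ContDiffBump (0 : Sp α) := ⟨1, 2, one_pos, one_lt_two⟩
  have hc : ∀ n : ℕ, ((n : ℝ) + 1)⁻¹ ≠ 0 := fun n => inv_ne_zero (by positivity)
  refine ⟨fun n => ⟨f.contDiff.comp (contDiff_const_smul _), ?_⟩, fun n z => ?_, ?_, fun z => ?_⟩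
  · exact f.hasCompactSupport.comp_smul (hc n)
  · exact abs_le.2 ⟨(by linarith [f.nonneg (x := ((n : ℝ) + 1)⁻¹ • z)] : (-1 : ℝ) ≤ f _), f.le_one⟩
  · obtain ⟨B, hB⟩ := (f.hasCompactSupport.fderiv ℝ).exists_bound_of_continuous
      ((f.contDiff (n := 1)).continuous_fderiv one_ne_zero)
    refine ⟨B, fun n j z => ?_⟩
    have hd : HasFDerivAt (chi n) ((fderiv ℝ f (((n : ℝ) + 1)⁻¹ • z)).comp
        (((n : ℝ) + 1)⁻¹ • ContinuousLinearMap.id ℝ (Sp α))) z :=
      ((f.contDiff (n := 1)).differentiable one_ne_zero _).hasFDerivAt.comp z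
        ((hasFDerivAt_id z).const_smul (((n : ℝ) + 1)⁻¹))
    rw [pd, hd.fderiv, ← Real.norm_eq_abs]
    refine (ContinuousLinearMap.le_opNorm _ _).trans ?_
    rw [norm_unitV, mul_one]
    refine (ContinuousLinearMap.opNorm_comp_le _ _).trans ?_
    refine (mul_le_of_le_one_right (norm_nonneg _) ?_).trans (hB _)
    refine ContinuousLinearMap.opNorm_le_bound _ zero_le_one fun x => ?_
    simp only [smul_apply, ContinuousLinearMap.id_apply, norm_smul, one_mul]
    refine mul_le_of_le_one_left (norm_nonneg _) ?_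
    rw [norm_inv, Real.norm_of_nonneg (by positivity)]
    exact inv_le_one_of_one_le₀ (by linarith [(n.cast_nonneg : (0 : ℝ) ≤ n)])
  · filter_upwards [eventually_ge_atTop ⌈‖z‖ + 1⌉₊] with n hn
    filter_upwards [ball_mem_nhds z one_pos] with w hw
    refine f.one_of_mem_closedBall ?_
    rw [mem_closedBall_zero_iff, norm_smul, norm_inv, Real.norm_of_nonneg (by positivity),
      inv_mul_le_iff₀ (by positivity)]
    show ‖w‖ ≤ ((n : ℝ) + 1) * 1
    rw [mem_ball, dist_eq_norm] at hw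
    linarith [norm_le_norm_add_norm_sub' w z, norm_sub_rev w z, Nat.ceil_le.1 hn]

/-- Integration by parts of a bounded Lipschitz function against the flux. -/
theorem Transp.parts (h : Transp b Φ T L G) {C : ℝ} (hb : Fld b T C) {t : ℝ}
    (ht : t ∈ Set.Icc 0 T) {u : Sp α → ℝ} {K : ℝ≥0} (hu : LipschitzWith K u) {M : ℝ}
    (hM : ∀ z, |u z| ≤ M) (j : α) :
    ∫ z, lineDeriv ℝ u z (unitV j) * (exp (-Φ t z) * b t z j)
      = ∫ z, -(exp (-Φ t z) * (pd j (fun w => b t w j) z - b t z j * pd j (Φ t) z)) * u z := by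
  obtain ⟨hchi, hle, ⟨B, hB⟩, hone⟩ := chi_props (α := α)
  set g : Sp α → ℝ := fun z => exp (-Φ t z) * b t z j
  have hg1 : ContDiff ℝ 1 g :=
    (h.c1 t ht).2.neg.exp.mul (contDiff_euclidean.1 (h.c1 t ht).1 j)
  have hgd : Differentiable ℝ g := hg1.differentiable one_ne_zero
  have hpdg : ∀ z, pd j g z = exp (-Φ t z) * (pd j (fun w => b t w j) z - b t z j * pd j (Φ t) z) := by
    intro z
    have h1 : DifferentiableAt ℝ (Φ t) z := (h.c1 t ht).2.differentiable one_ne_zero z
    have h2 : DifferentiableAt ℝ (fun w => b t w j) z :=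
      (contDiff_euclidean.1 (h.c1 t ht).1 j).differentiable one_ne_zero z
    have := (h1.hasFDerivAt.neg.exp.mul h2.hasFDerivAt).fderiv
    rw [pd, show g = (fun x => exp ((-Φ t) x)) * (fun w => b t w j) from rfl, this]
    simp only [pd, add_apply, smul_apply, neg_apply, Pi.neg_apply, smul_eq_mul]
    ring
  have hgle : ∀ z, |g z| ≤ C * G z := fun z => ((h.bounds hb ht z).2.2.2 j).1
  have hdgle : ∀ z, |pd j g z| ≤ (L + C) * G z := fun z => by
    rw [hpdg]; exact ((h.bounds hb ht z).2.2.2 j).2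
  let gn : ℕ → Sp α → ℝ := fun n z => chi n z * g z
  have hgn : ∀ n, ContDiff ℝ 1 (gn n) ∧ HasCompactSupport (gn n) := fun n =>
    ⟨((hchi n).1.of_le (by simp)).mul hg1, (hchi n).2.mul_right⟩
  have eq : ∀ n, ∫ z, lineDeriv ℝ u z (unitV j) * gn n z = ∫ z, -(pd j (gn n) z) * u z := by
    intro n
    obtain ⟨D, hD⟩ := (hgn n).1.lipschitzWith_of_hasCompactSupport (hgn n).2 one_ne_zero
    rw [LipschitzWith.integral_lineDeriv_mul_eq hu hD (hgn n).2 (unitV j)]
    refine integral_congr_ae (ae_of_all _ fun z => ?_)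
    simp only
    rw [((hgn n).1.differentiable one_ne_zero z).lineDeriv_eq_fderiv, map_neg]
    rfl
  have hline : ∀ z, |lineDeriv ℝ u z (unitV j)| ≤ K := fun z => by
    simpa [norm_unitV, Real.norm_eq_abs] using
      norm_lineDeriv_le_of_lipschitz ℝ hu (x₀ := z) (v := unitV j)
  have mline : Measurable fun z => lineDeriv ℝ u z (unitV j) := measurable_lineDeriv hu.continuous
  have hd : ∀ n z, pd j (gn n) z = pd j (chi n) z * g z + chi n z * pd j g z := by
    intro n z
    have := ((((hchi n).1.differentiable (by simp)) z).hasFDerivAt.mul (hgd z).hasFDerivAt).fderiv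
    rw [pd, show gn n = chi n * g from rfl, this]
    simp only [pd, add_apply, smul_apply, smul_eq_mul]
    ring
  have l1 : Tendsto (fun n => ∫ z, lineDeriv ℝ u z (unitV j) * gn n z) atTop
      (𝓝 (∫ z, lineDeriv ℝ u z (unitV j) * g z)) := by
    refine tendsto_integral_of_dominated_convergence (fun z => K * (C * G z))
      (fun n => (mline.mul (hgn n).1.continuous.measurable).aestronglyMeasurable)
      ((h.dom.1.const_mul C).const_mul _) (fun n => ae_of_all _ fun z => ?_) (ae_of_all _ fun z => ?_)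
    · rw [Real.norm_eq_abs, abs_mul]
      refine mul_le_mul (hline z) ?_ (abs_nonneg _) K.coe_nonneg
      rw [abs_mul]
      exact (mul_le_of_le_one_left (abs_nonneg _) (hle n z)).trans (hgle z)
    · refine tendsto_const_nhds.mul (tendsto_nhds_of_eventually_eq ?_)
      filter_upwards [hone z] with n hn
      simp [gn, hn.self_of_nhds]
  have l2 : Tendsto (fun n => ∫ z, -(pd j (gn n) z) * u z) atTop
      (𝓝 (∫ z, -(pd j g z) * u z)) := by
    have hB0 : 0 ≤ B := (abs_nonneg _).trans (hB 0 j 0)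
    refine tendsto_integral_of_dominated_convergence
      (fun z => (B * (C * G z) + (L + C) * G z) * M) (fun n => ?_)
      ((((h.dom.1.const_mul C).const_mul B).add (h.dom.1.const_mul _)).mul_const M)
      (fun n => ae_of_all _ fun z => ?_) (ae_of_all _ fun z => ?_)
    · exact (((hgn n).1.continuous_fderiv one_ne_zero).clm_apply continuous_const).neg.mul
        hu.continuous |>.aestronglyMeasurable
    · rw [Real.norm_eq_abs, abs_mul, abs_neg, hd]
      have q1 : |pd j (chi n) z * g z| ≤ B * (C * G z) := by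
        rw [abs_mul]; exact mul_le_mul (hB n j z) (hgle z) (abs_nonneg _) hB0
      have q2 : |chi n z * pd j g z| ≤ (L + C) * G z := by
        rw [abs_mul]; exact (mul_le_of_le_one_left (abs_nonneg _) (hle n z)).trans (hdgle z)
      exact mul_le_mul ((abs_add_le _ _).trans (add_le_add q1 q2)) (hM z) (abs_nonneg _)
        (add_nonneg ((abs_nonneg _).trans q1) ((abs_nonneg _).trans q2))
    · refine Tendsto.mul_const _ (Tendsto.neg (tendsto_nhds_of_eventually_eq ?_))
      filter_upwards [hone z] with n hn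
      have e0 : pd j (chi n) z = 0 := by
        rw [pd, Filter.EventuallyEq.fderiv_eq (hn : chi n =ᶠ[𝓝 z] fun _ => 1)]
        simp
      rw [hd, e0, hn.self_of_nhds]
      ring
  simp only [eq] at l1
  rw [show (∫ z, lineDeriv ℝ u z (unitV j) * g z) = _ from tendsto_nhds_unique l1 l2]
  simp only [hpdg]

/-- The weak form of the continuity equation against bounded Lipschitz functions. -/
theorem Transp.weak (h : Transp b Φ T L G) {C : ℝ} (hb : Fld b T C) {t : ℝ} (ht : t ∈ Set.Icc 0 T)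
    {u : Sp α → ℝ} {K : ℝ≥0} (hu : LipschitzWith K u) {M : ℝ} (hM : ∀ z, |u z| ≤ M) :
    ∫ z, exp (-Φ t z) * (fderiv ℝ u z (b t z) + u z * pot' (b t) (Φ t) z) = 0 := by
  set p : Sp α → ℝ := fun z => exp (-Φ t z)
  have hpc : Continuous p := (h.c1 t ht).2.continuous.neg.rexp
  have hbc : ∀ j, Continuous fun z => b t z j := fun j =>
    (contDiff_euclidean.1 (h.c1 t ht).1 j).continuous
  have hdc : ∀ j, Continuous fun z => pd j (fun w => b t w j) z - b t z j * pd j (Φ t) z := fun j =>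
    ((((contDiff_euclidean.1 (h.c1 t ht).1 j).continuous_fderiv one_ne_zero).clm_apply
      continuous_const)).sub
      ((hbc j).mul (((h.c1 t ht).2.continuous_fderiv one_ne_zero).clm_apply continuous_const))
  have i1 : ∀ j, Integrable fun z => lineDeriv ℝ u z (unitV j) * (p z * b t z j) := fun j =>
    ((h.dom.1.const_mul C).const_mul (K : ℝ)).mono'
      ((measurable_lineDeriv hu.continuous).mul (hpc.mul (hbc j)).measurable).aestronglyMeasurable
      (ae_of_all _ fun z => by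
        rw [Real.norm_eq_abs, abs_mul]
        exact mul_le_mul (by simpa [norm_unitV, Real.norm_eq_abs] using
          norm_lineDeriv_le_of_lipschitz ℝ hu (x₀ := z) (v := unitV j))
          ((h.bounds hb ht z).2.2.2 j).1 (abs_nonneg _) K.coe_nonneg)
  have i2 : ∀ j, Integrable fun z =>
      (p z * (pd j (fun w => b t w j) z - b t z j * pd j (Φ t) z)) * u z := fun j =>
    ((h.dom.1.const_mul (L + C)).mul_const M).mono'
      (((hpc.mul (hdc j)).mul hu.continuous).aestronglyMeasurable)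
      (ae_of_all _ fun z => by
        rw [Real.norm_eq_abs, abs_mul]
        exact mul_le_mul ((h.bounds hb ht z).2.2.2 j).2 (hM z) (abs_nonneg _)
          ((abs_nonneg _).trans ((h.bounds hb ht z).2.2.2 j).2))
  have e : (fun z => p z * (fderiv ℝ u z (b t z) + u z * pot' (b t) (Φ t) z))
      =ᵐ[volume] fun z => ∑ j, (lineDeriv ℝ u z (unitV j) * (p z * b t z j)
        + (p z * (pd j (fun w => b t w j) z - b t z j * pd j (Φ t) z)) * u z) := by
    filter_upwards [hu.ae_differentiableAt] with z hz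
    simp only [pot', mul_sum, mul_add, hz.lineDeriv_eq_fderiv]
    nth_rw 1 [← sum_coord (b t z)]
    rw [map_sum, mul_sum, sum_add_distrib]
    congr 1
    · exact sum_congr rfl fun j _ => by rw [map_smul, smul_eq_mul]; ring
    · exact sum_congr rfl fun j _ => by ring
  rw [integral_congr_ae e, integral_finsetSum _ fun j _ => (i1 j).fun_add (i2 j)]
  refine Finset.sum_eq_zero fun j _ => ?_
  rw [integral_add (i1 j) (i2 j), h.parts hb ht hu hM j,
    ← integral_add (((i2 j).neg).congr (ae_of_all _ fun z => (neg_mul _ _).symm)) (i2 j)]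
  simp [p]

/-- The test function at time `T`, carried back to time `t`. -/
def trPull (b : ℝ → Sp α → Sp α) (T : ℝ) (φ : Sp α → ℝ) (t : ℝ) (z : Sp α) : ℝ :=
  φ (flow (fun s => b (t + s)) (T - t) z (T - t))

theorem Transp.trPull_lip (h : Transp b Φ T L G) {C : ℝ} (hb : Fld b T C) {φ : Sp α → ℝ} {K : ℝ≥0}
    (hφ : LipschitzWith K φ) {t : ℝ} (ht : t ∈ Set.Icc 0 T) :
    LipschitzWith (K * Real.toNNReal (exp (L * T))) (trPull b T φ t) := by
  refine LipschitzWith.of_dist_le_mul fun x y => ?_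
  have hs := hb.shift ht.1
  have hmem : T - t ∈ Set.Icc 0 (T - t) := ⟨by linarith [ht.2], le_rfl⟩
  have := dist_le_of_trajectories_ODE_of_mem (s := fun _ => Set.univ) (K := L)
    (fun r hr => (h.lip (t + r) ⟨by linarith [ht.1, hr.1], by linarith [hr.2]⟩).lipschitzOnWith)
    (hs.flow_sol x).continuousOn
    (fun r hr => right_of_icc (hs.flow_deriv x (Ico_subset_Icc_self hr)) hr)
    (fun _ _ => Set.mem_univ _) (hs.flow_sol y).continuousOn
    (fun r hr => right_of_icc (hs.flow_deriv y (Ico_subset_Icc_self hr)) hr)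
    (fun _ _ => Set.mem_univ _) (δ := dist x y) (le_of_eq (by rw [hs.flow_zero, hs.flow_zero]))
    (T - t) hmem
  refine (hφ.dist_le_mul _ _).trans ?_
  rw [NNReal.coe_mul, Real.coe_toNNReal _ (exp_pos _).le, mul_assoc]
  refine mul_le_mul_of_nonneg_left (this.trans ?_) K.coe_nonneg
  rw [mul_comm]
  gcongr
  linarith [ht.1]

theorem trPull_eq {C : ℝ} (hb : Fld b T C) (φ : Sp α → ℝ) (z : Sp α) {t t' : ℝ}
    (ht : t ∈ Set.Icc 0 T) (ht' : t' ∈ Set.Icc 0 t) :
    trPull b T φ t' z = trPull b T φ t (flow (fun s => b (t' + s)) (T - t') z (t - t')) := by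
  have hs := hb.shift ht'.1
  have e := hs.flow_shift (t₀ := t - t') ⟨by linarith [ht'.2], by linarith [ht.2]⟩ z
    (s := T - t) ⟨by linarith [ht.2], by linarith [ht'.2]⟩
  have e1 : (fun r => b (t' + (t - t' + r))) = fun r => b (t + r) :=
    funext fun r => by rw [show t' + (t - t' + r) = t + r by ring]
  rw [e1, show T - t' - (t - t') = T - t by ring, show t - t' + (T - t) = T - t' by ring] at e
  simp only [trPull]
  rw [e]

theorem Fld.moved {C : ℝ} (hb : Fld b T C) (z : Sp α) {t : ℝ} (ht : t ∈ Set.Icc 0 T) {r : ℝ}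
    (hr : r ∈ Set.Icc 0 (T - t)) :
    ‖flow (fun s => b (t + s)) (T - t) z r - z‖ ≤ C * reach C T z * r := by
  have hs := hb.shift ht.1
  have := norm_image_sub_le_of_norm_deriv_le_segment' (a := (0 : ℝ)) (b := T - t)
    (C := C * reach C T z) (fun x hx => hs.flow_deriv z hx) (fun x hx => by
      refine (hs.grow x (Ico_subset_Icc_self hx) _).trans
        (mul_le_mul_of_nonneg_left ?_ hb.nonneg)
      exact (hs.flow_bound z (Ico_subset_Icc_self hx)).trans
        (reach_mono hb.nonneg (by linarith [hx.2, ht.1]) z)) r hr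
  rwa [hs.flow_zero, sub_zero] at this

theorem trPull_time {C : ℝ} (hb : Fld b T C) {φ : Sp α → ℝ} {Ku : ℝ≥0} (z : Sp α) {t t' : ℝ}
    (ht : t ∈ Set.Icc 0 T) (hu : LipschitzWith Ku (trPull b T φ t)) (ht' : t' ∈ Set.Icc 0 t) :
    |trPull b T φ t' z - trPull b T φ t z| ≤ Ku * (C * reach C T z) * (t - t') := by
  rw [trPull_eq hb φ z ht ht']
  have := hu.dist_le_mul (flow (fun s => b (t' + s)) (T - t') z (t - t')) z
  rw [Real.dist_eq, dist_eq_norm] at this
  refine this.trans ?_
  rw [mul_assoc (Ku : ℝ)]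
  exact mul_le_mul_of_nonneg_left (hb.moved z ⟨ht'.1, ht'.2.trans ht.2⟩
    ⟨by linarith [ht'.2], by linarith [ht.2]⟩) Ku.coe_nonneg

theorem eventually_trPull {t : ℝ} (ht : 0 < t) :
    ∀ᶠ r in 𝓝[>] (0 : ℝ), 0 < r ∧ t - r ∈ Set.Icc 0 t := by
  filter_upwards [self_mem_nhdsWithin, Ioo_mem_nhdsGT ht] with r hr hr'
  exact ⟨Set.mem_Ioi.1 hr, by linarith [hr'.2], by linarith [Set.mem_Ioi.1 hr]⟩

/-- The short-time displacement. -/
theorem Fld.displacement {C : ℝ} (hb : Fld b T C) (z : Sp α) {t : ℝ} (ht : t ∈ Set.Icc 0 T)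
    (ht0 : 0 < t) :
    Tendsto (fun r => r⁻¹ • (flow (fun s => b (t - r + s)) (T - (t - r)) z r - z)) (𝓝[>] 0)
      (𝓝 (b t z)) := by
  rw [Metric.tendsto_nhds]
  intro ε hε
  obtain ⟨δ, hδ, hcont⟩ := Metric.continuousWithinAt_iff.1
    (hb.cont (t, z) ⟨ht, Set.mem_univ _⟩) (ε / 2) (half_pos hε)
  have hCz : 0 ≤ C * reach C T z := mul_nonneg hb.nonneg (by unfold reach; positivity)
  filter_upwards [eventually_trPull ht0,
    Ioo_mem_nhdsGT (div_pos hδ (by linarith : (0 : ℝ) < C * reach C T z + 2))] with r hr hr2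
  have hr' : t - r ∈ Set.Icc 0 T := ⟨hr.2.1, hr.2.2.trans ht.2⟩
  have hsmall : r * (C * reach C T z + 2) < δ := (lt_div_iff₀ (by linarith)).1 hr2.2
  have hrT : r ∈ Set.Icc 0 (T - (t - r)) := ⟨hr.1.le, by linarith [ht.2]⟩
  have hs := hb.shift hr'.1
  set y := flow (fun s => b (t - r + s)) (T - (t - r)) z
  have hd : ∀ x ∈ Set.Icc 0 r, HasDerivWithinAt (fun x => y x - x • b t z)
      (b (t - r + x) (y x) - (1 : ℝ) • b t z) (Set.Icc 0 r) x := fun x hx =>
    ((hs.flow_deriv z ⟨hx.1, hx.2.trans hrT.2⟩).mono (Icc_subset_Icc_right hrT.2)).sub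
      ((hasDerivWithinAt_id x _).smul_const (b t z))
  have hbd : ∀ x ∈ Set.Ico 0 r, ‖b (t - r + x) (y x) - (1 : ℝ) • b t z‖ ≤ ε / 2 := fun x hx => by
    rw [one_smul, ← dist_eq_norm]
    refine (hcont (x := (t - r + x, y x))
      ⟨⟨by linarith [hr'.1, hx.1], by linarith [hx.2, ht.2]⟩, Set.mem_univ _⟩ ?_).le
    rw [Prod.dist_eq, max_lt_iff]
    refine ⟨?_, ?_⟩
    · rw [Real.dist_eq, abs_lt]
      constructor <;> nlinarith [hx.1, hx.2]
    · rw [dist_eq_norm]
      refine (hb.moved z hr' ⟨hx.1, hx.2.le.trans hrT.2⟩).trans_lt ?_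
      nlinarith [hx.2, hr.1]
  have key := norm_image_sub_le_of_norm_deriv_le_segment' hd hbd r ⟨hr.1.le, le_rfl⟩
  have y0 : y 0 = z := hs.flow_zero z
  simp only [y0, zero_smul, sub_zero] at key
  have e2 : r⁻¹ • (y r - z) - b t z = r⁻¹ • (y r - r • b t z - z) := by
    simp only [smul_sub, smul_smul, inv_mul_cancel₀ hr.1.ne', one_smul]
    abel
  rw [dist_eq_norm, e2, norm_smul, norm_inv, Real.norm_of_nonneg hr.1.le, inv_mul_lt_iff₀ hr.1]
  nlinarith [hr.1]

theorem trPull_slope {C : ℝ} (hb : Fld b T C) (φ : Sp α → ℝ) (z : Sp α) {t : ℝ}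
    (ht : t ∈ Set.Icc 0 T) (ht0 : 0 < t) (hz : DifferentiableAt ℝ (trPull b T φ t) z) :
    Tendsto (fun r => r⁻¹ * (trPull b T φ (t - r) z - trPull b T φ t z)) (𝓝[>] 0)
      (𝓝 (fderiv ℝ (trPull b T φ t) z (b t z))) := by
  have hy := hb.displacement z ht ht0
  set y : ℝ → Sp α := fun r => flow (fun s => b (t - r + s)) (T - (t - r)) z r
  have hd0 : Tendsto (fun r => y r - z) (𝓝[>] 0) (𝓝 0) := by
    have h0 : Tendsto (fun r : ℝ => r) (𝓝[>] 0) (𝓝 0) := nhdsWithin_le_nhds
    have := h0.smul hy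
    rw [zero_smul] at this
    refine this.congr' ?_
    filter_upwards [eventually_trPull ht0] with r hr
    rw [smul_smul, mul_inv_cancel₀ hr.1.ne', one_smul]
  have := (hasFDerivWithinAt_univ.2 hz.hasFDerivAt).lim hd0
    (Eventually.of_forall fun _ => Set.mem_univ _) hy
  refine this.congr' ?_
  filter_upwards [eventually_trPull ht0] with r hr
  rw [add_sub_cancel, smul_eq_mul, trPull_eq hb φ z ht hr.2, sub_sub_cancel]

theorem Transp.exp_slope (h : Transp b Φ T L G) (z : Sp α) {t : ℝ} (ht : t ∈ Set.Icc 0 T)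
    (ht0 : 0 < t) :
    Tendsto (fun r => exp (-Φ (t - r) z)) (𝓝[>] 0) (𝓝 (exp (-Φ t z))) ∧
    Tendsto (fun r => r⁻¹ * (exp (-Φ (t - r) z) - exp (-Φ t z))) (𝓝[>] 0)
      (𝓝 (exp (-Φ t z) * pot' (b t) (Φ t) z)) := by
  have hp0 : Tendsto (fun r => t - r) (𝓝[>] 0) (𝓝[Set.Icc 0 T \ {t}] t) := by
    refine tendsto_nhdsWithin_iff.2 ⟨?_, ?_⟩
    · simpa using ((continuous_sub_left t).tendsto 0).mono_left nhdsWithin_le_nhds
    · filter_upwards [eventually_trPull ht0] with r hr
      exact ⟨⟨hr.2.1, hr.2.2.trans ht.2⟩, by simp [hr.1.ne']⟩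
  refine ⟨(h.eqn z t ht).neg.exp.continuousWithinAt.tendsto.comp
    (hp0.mono_right (nhdsWithin_mono _ sdiff_subset)), ?_⟩
  have hd := hasDerivWithinAt_iff_tendsto_slope.1 (h.eqn z t ht).neg.exp
  have := (hd.comp hp0).neg
  rw [mul_neg, neg_neg] at this
  refine this.congr fun r => ?_
  simp only [Function.comp_apply, slope_def_field, Pi.neg_apply]
  rw [show t - r - t = -r by ring, div_neg, neg_neg, div_eq_inv_mul]

theorem Transp.exp_time (h : Transp b Φ T L G) {C : ℝ} (hb : Fld b T C) (z : Sp α) {t t' : ℝ}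
    (ht : t ∈ Set.Icc 0 T) (ht' : t' ∈ Set.Icc 0 t) :
    |exp (-Φ t' z) - exp (-Φ t z)| ≤ (Fintype.card α * L + C) * G z * (t - t') := by
  have := Convex.norm_image_sub_le_of_norm_hasDerivWithin_le
    (f := fun x => exp (-Φ x z)) (fun x hx => (h.eqn z x hx).neg.exp)
    (C := (Fintype.card α * L + C) * G z) (fun x hx => by
      rw [Real.norm_eq_abs, abs_mul, abs_neg, abs_of_pos (exp_pos _)]
      exact (h.bounds hb hx z).2.2.1) (convex_Icc 0 T) ht ⟨ht'.1, ht'.2.trans ht.2⟩
  rwa [Real.norm_eq_abs, Real.norm_eq_abs, abs_sub_comm t' t,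
    abs_of_nonneg (sub_nonneg.2 ht'.2)] at this

theorem Transp.trPull_bound (h : Transp b Φ T L G) {C : ℝ} (hb : Fld b T C) {φ : Sp α → ℝ} {Ku : ℝ≥0}
    (z : Sp α) {M t t' : ℝ} (hM : ∀ z, |φ z| ≤ M) (ht : t ∈ Set.Icc 0 T)
    (hu : LipschitzWith Ku (trPull b T φ t)) (ht' : t' ∈ Set.Icc 0 t) :
    |exp (-Φ t' z) * trPull b T φ t' z - exp (-Φ t z) * trPull b T φ t z|
      ≤ (Ku * (C * exp (C * T)) + M * (Fintype.card α * L + C)) * G z * (t - t') := by
  have hp := h.exp_time hb z ht ht'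
  have h1 := mul_le_mul_of_nonneg_left (trPull_time hb z ht hu ht') (exp_pos (-Φ t' z)).le
  have h2 := (h.bounds hb ⟨ht'.1, ht'.2.trans ht.2⟩ z).2.1
  have h3 : (0 : ℝ) ≤ Ku * (C * exp (C * T)) * (t - t') :=
    mul_nonneg (mul_nonneg Ku.coe_nonneg (mul_nonneg hb.nonneg (exp_pos _).le))
      (sub_nonneg.2 ht'.2)
  have h4 := mul_le_mul hp (show |trPull b T φ t z| ≤ M from hM _) (abs_nonneg _)
    ((abs_nonneg _).trans hp)
  have h5 := mul_le_mul_of_nonneg_left h2 h3
  unfold reach at h1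
  rw [show exp (-Φ t' z) * trPull b T φ t' z - exp (-Φ t z) * trPull b T φ t z
      = exp (-Φ t' z) * (trPull b T φ t' z - trPull b T φ t z)
        + (exp (-Φ t' z) - exp (-Φ t z)) * trPull b T φ t z by ring]
  refine (abs_add_le _ _).trans ?_
  rw [abs_mul, abs_of_pos (exp_pos _), abs_mul]
  nlinarith

theorem Transp.trPull_cont (h : Transp b Φ T L G) {C : ℝ} (hb : Fld b T C) {φ : Sp α → ℝ} {K : ℝ≥0}
    (hφ : LipschitzWith K φ) (z : Sp α) :
    ContinuousOn (fun t => trPull b T φ t z) (Set.Icc 0 T) := by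
  set Ku : ℝ≥0 := K * Real.toNNReal (exp (L * T))
  refine LipschitzOnWith.continuousOn (K := Real.toNNReal (Ku * (C * reach C T z))) ?_
  refine LipschitzOnWith.of_dist_le_mul fun t ht t' ht' => ?_
  rw [Real.dist_eq, Real.dist_eq, Real.coe_toNNReal _ (mul_nonneg Ku.coe_nonneg
    (mul_nonneg hb.nonneg (by unfold reach; positivity)))]
  rcases le_total t t' with hle | hle
  · rw [abs_sub_comm t t', abs_of_nonneg (sub_nonneg.2 hle)]
    exact trPull_time hb z ht' (h.trPull_lip hb hφ ht') ⟨ht.1, hle⟩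
  · rw [abs_sub_comm (trPull b T φ t z), abs_of_nonneg (sub_nonneg.2 hle)]
    exact trPull_time hb z ht (h.trPull_lip hb hφ ht) ⟨ht'.1, hle⟩

/-- The tested mass, as a function of the remaining time, has zero right derivative. -/
theorem Transp.trPull_deriv (h : Transp b Φ T L G) {C : ℝ} (hb : Fld b T C) {φ : Sp α → ℝ} {K : ℝ≥0}
    (hφ : LipschitzWith K φ) {M : ℝ} (hM : ∀ z, |φ z| ≤ M) {s : ℝ} (hs : s ∈ Set.Ico 0 T) :
    HasDerivWithinAt (fun s => ∫ z, exp (-Φ (T - s) z) * trPull b T φ (T - s) z) 0 (Set.Ici s) s := by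
  rw [← hasDerivWithinAt_Ioi_iff_Ici, hasDerivWithinAt_iff_tendsto_slope' (notMem_Ioi.2 le_rfl)]
  set t := T - s with htdef
  have ht : t ∈ Set.Icc 0 T := ⟨by linarith [hs.2], by linarith [hs.1]⟩
  have ht0 : 0 < t := by linarith [hs.2]
  have hmeas : ∀ t ∈ Set.Icc 0 T,
      AEStronglyMeasurable (fun z => exp (-Φ t z) * trPull b T φ t z) volume := fun t ht =>
    ((h.c1 t ht).2.continuous.neg.rexp.mul (h.trPull_lip hb hφ ht).continuous).aestronglyMeasurable
  have hint : ∀ t ∈ Set.Icc 0 T, Integrable fun z => exp (-Φ t z) * trPull b T φ t z := fun t ht =>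
    (h.dom.1.mul_const M).mono' (hmeas t ht) (ae_of_all _ fun z => by
      rw [Real.norm_eq_abs, abs_mul, abs_of_pos (exp_pos _)]
      exact mul_le_mul (h.bounds hb ht z).1 (hM _) (abs_nonneg _)
        ((exp_pos _).le.trans (h.bounds hb ht z).1))
  suffices H : Tendsto (fun r => r⁻¹ * ((∫ z, exp (-Φ (t - r) z) * trPull b T φ (t - r) z)
      - ∫ z, exp (-Φ t z) * trPull b T φ t z)) (𝓝[>] 0) (𝓝 0) by
    have hsh : Tendsto (fun x => x - s) (𝓝[>] s) (𝓝[>] 0) := by
      refine tendsto_nhdsWithin_iff.2 ⟨?_, ?_⟩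
      · simpa using ((continuous_sub_right s).tendsto s).mono_left nhdsWithin_le_nhds
      · filter_upwards [self_mem_nhdsWithin] with x hx
        exact sub_pos.2 (Set.mem_Ioi.1 hx)
    refine (H.comp hsh).congr fun x => ?_
    simp only [Function.comp_apply, slope_def_field, htdef]
    rw [show T - s - (x - s) = T - x by ring, div_eq_inv_mul]
  set Ku : ℝ≥0 := K * Real.toNNReal (exp (L * T))
  have hF : Tendsto (fun r => ∫ z, r⁻¹ * (exp (-Φ (t - r) z) * trPull b T φ (t - r) z
      - exp (-Φ t z) * trPull b T φ t z)) (𝓝[>] 0)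
      (𝓝 (∫ z, exp (-Φ t z) * (fderiv ℝ (trPull b T φ t) z (b t z)
        + trPull b T φ t z * pot' (b t) (Φ t) z))) := by
    refine tendsto_integral_filter_of_dominated_convergence
      (fun z => (Ku * (C * exp (C * T)) + M * (Fintype.card α * L + C)) * G z) ?_ ?_
      (h.dom.1.const_mul _) ?_
    · filter_upwards [eventually_trPull ht0] with r hr
      exact (((hmeas _ ⟨hr.2.1, hr.2.2.trans ht.2⟩).sub (hmeas t ht)).const_mul _)
    · filter_upwards [eventually_trPull ht0] with r hr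
      refine ae_of_all _ fun z => ?_
      have := h.trPull_bound hb z hM ht (h.trPull_lip hb hφ ht) hr.2
      rw [sub_sub_cancel] at this
      rw [Real.norm_eq_abs, abs_mul, abs_inv, abs_of_pos hr.1, inv_mul_le_iff₀ hr.1]
      linarith
    · filter_upwards [(h.trPull_lip hb hφ ht).ae_differentiableAt] with z hz
      obtain ⟨h1, h2⟩ := h.exp_slope z ht ht0
      have := (h1.mul (trPull_slope hb φ z ht ht0 hz)).add (h2.mul_const (trPull b T φ t z))
      rw [show exp (-Φ t z) * (fderiv ℝ (trPull b T φ t) z (b t z)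
          + trPull b T φ t z * pot' (b t) (Φ t) z)
        = exp (-Φ t z) * fderiv ℝ (trPull b T φ t) z (b t z)
          + exp (-Φ t z) * pot' (b t) (Φ t) z * trPull b T φ t z by ring]
      exact this.congr fun r => by ring
  rw [h.weak hb ht (h.trPull_lip hb hφ ht) (M := M) fun z => hM _] at hF
  refine hF.congr' ?_
  filter_upwards [eventually_trPull ht0] with r hr
  rw [integral_const_mul, integral_sub (hint _ ⟨hr.2.1, hr.2.2.trans ht.2⟩) (hint t ht)]

/-- The flow transports the densities: tested on bounded Lipschitz functions. -/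
theorem Transp.integral_eq (h : Transp b Φ T L G) (hT : 0 ≤ T) {φ : Sp α → ℝ} {K : ℝ≥0}
    (hφ : LipschitzWith K φ) {M : ℝ} (hM : ∀ z, |φ z| ≤ M) :
    ∫ z, exp (-Φ 0 z) * φ (flow b T z T) = ∫ z, exp (-Φ T z) * φ z := by
  obtain ⟨C, hb⟩ := h.exists_fld
  set J : ℝ → ℝ := fun s => ∫ z, exp (-Φ (T - s) z) * trPull b T φ (T - s) z
  have hsub : ∀ s ∈ Set.Icc 0 T, T - s ∈ Set.Icc 0 T := fun s hs =>
    ⟨by linarith [hs.2], by linarith [hs.1]⟩
  have hJc : ContinuousOn J (Set.Icc 0 T) := by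
    refine continuousOn_of_dominated (bound := fun z => G z * M) (fun s hs => ?_)
      (fun s hs => ae_of_all _ fun z => ?_) (h.dom.1.mul_const M) (ae_of_all _ fun z => ?_)
    · exact ((h.c1 _ (hsub s hs)).2.continuous.neg.rexp.mul
        (h.trPull_lip hb hφ (hsub s hs)).continuous).aestronglyMeasurable
    · rw [Real.norm_eq_abs, abs_mul, abs_of_pos (exp_pos _)]
      exact mul_le_mul (h.bounds hb (hsub s hs) z).1 (hM _) (abs_nonneg _)
        ((exp_pos _).le.trans (h.bounds hb (hsub s hs) z).1)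
    · refine (ContinuousOn.mul (fun t ht => (h.eqn z t ht).continuousWithinAt.neg.rexp)
        (h.trPull_cont hb hφ z)).comp (continuousOn_const.sub continuousOn_id) fun s hs => hsub s hs
  have hconst := constant_of_has_deriv_right_zero hJc (fun s hs => h.trPull_deriv hb hφ hM hs) T
    ⟨hT, le_rfl⟩
  simp only [J, trPull, sub_self, sub_zero, zero_add] at hconst
  rw [hconst]
  refine integral_congr_ae (ae_of_all _ fun z => ?_)
  have e := (hb.shift hT).flow_zero z
  simp only [sub_self] at e ⊢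
  rw [e]

theorem isFiniteMeasure_dens {Φ : Sp α → ℝ} (h : Integrable fun z => exp (-Φ z)) :
    IsFiniteMeasure (dens Φ) := isFiniteMeasure_withDensity_ofReal h.hasFiniteIntegral

theorem integral_dens {Φ : Sp α → ℝ} (hΦ : Continuous Φ) (f : Sp α → ℝ) :
    ∫ z, f z ∂dens Φ = ∫ z, exp (-Φ z) * f z := by
  rw [dens, integral_withDensity_eq_integral_toReal_smul (show Measurable fun z => ENNReal.ofReal (exp (-Φ z)) from hΦ.neg.rexp.measurable.ennreal_ofReal)
    (ae_of_all _ fun _ => ENNReal.ofReal_lt_top)]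
  simp [ENNReal.toReal_ofReal (exp_pos _).le]

/-- The flow carries the first density to every later one. -/
theorem Transp.map_flow (h : Transp b Φ T L G) {s : ℝ} (hs : s ∈ Set.Icc 0 T) :
    (dens (Φ 0)).map (fun z => flow b T z s) = dens (Φ s) := by
  obtain ⟨C, hb⟩ := h.exists_fld
  have h0 : (0 : ℝ) ∈ Set.Icc 0 T := ⟨le_rfl, hs.1.trans hs.2⟩
  have hr : Transp b Φ s L G :=
    { cont := h.cont.mono (Set.prod_mono (Icc_subset_Icc_right hs.2) le_rfl)
      lip := fun t ht => h.lip t ⟨ht.1, ht.2.trans hs.2⟩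
      c1 := fun t ht => h.c1 t ⟨ht.1, ht.2.trans hs.2⟩
      eqn := fun z t ht => (h.eqn z t ⟨ht.1, ht.2.trans hs.2⟩).mono (Icc_subset_Icc_right hs.2)
      dom := ⟨h.dom.1, fun t ht => h.dom.2 t ⟨ht.1, ht.2.trans hs.2⟩⟩ }
  have hi : ∀ t ∈ Set.Icc 0 T, Integrable fun z => exp (-Φ t z) := fun t ht =>
    h.dom.1.mono' (h.c1 t ht).2.continuous.neg.rexp.aestronglyMeasurable
      (ae_of_all _ fun z => by
        rw [Real.norm_eq_abs, abs_of_pos (exp_pos _)]; exact (h.bounds hb ht z).1)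
  have := isFiniteMeasure_dens (hi 0 h0)
  have := isFiniteMeasure_dens (hi s hs)
  set μ := (dens (Φ 0)).map fun z => flow b T z s
  have hfm : Measurable fun z => flow b T z s := (hb.continuous_flow_at hs).measurable
  have key : ∀ (φ : Sp α → ℝ) (K : ℝ≥0) (M : ℝ), LipschitzWith K φ → (∀ z, |φ z| ≤ M) →
      ∫ z, φ z ∂μ = ∫ z, φ z ∂dens (Φ s) := by
    intro φ K M hφ hM
    rw [integral_map hfm.aemeasurable hφ.continuous.aestronglyMeasurable,
      integral_dens (h.c1 0 h0).2.continuous, integral_dens (h.c1 s hs).2.continuous,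
      ← hr.integral_eq hs.1 hφ hM]
    exact integral_congr_ae (ae_of_all _ fun z => by
      simp only [hb.flow_restrict hs.2 z ⟨hs.1, le_rfl⟩])
  have huniv : μ Set.univ = dens (Φ s) Set.univ := by
    have := key (fun _ => 1) 0 1 (LipschitzWith.const 1) (fun _ => by simp)
    simp only [integral_const, smul_eq_mul, mul_one, measureReal_def] at this
    exact (ENNReal.toReal_eq_toReal_iff' (measure_ne_top _ _) (measure_ne_top _ _)).1 this
  refine ext_of_generate_finite {F | IsClosed F} ?_ isPiSystem_isClosed (fun F hF => ?_) huniv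
  · rw [← borel_eq_generateFrom_isClosed]
    exact BorelSpace.measurable_eq
  have hδ : ∀ n : ℕ, 0 < 1 / ((n : ℝ) + 1) := fun n => by positivity
  refine tendsto_nhds_unique
    (tendsto_lintegral_thickenedIndicator_of_isClosed μ hF hδ
      tendsto_one_div_add_atTop_nhds_zero_nat) ?_
  refine (tendsto_lintegral_thickenedIndicator_of_isClosed (dens (Φ s)) hF hδ
    tendsto_one_div_add_atTop_nhds_zero_nat).congr fun n => ?_
  have hl : LipschitzWith (1 / ((n : ℝ) + 1)).toNNReal⁻¹
      fun z => (thickenedIndicator (hδ n) F z : ℝ) := by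
    have := lipschitzWith_thickenedIndicator (hδ n) F
    exact fun x y => this x y
  have hb1 : ∀ z, |(thickenedIndicator (hδ n) F z : ℝ)| ≤ 1 := fun z => by
    rw [abs_of_nonneg (NNReal.coe_nonneg _)]
    exact_mod_cast thickenedIndicator_le_one (hδ n) F z
  have he := key _ _ 1 hl hb1
  rw [← ENNReal.toReal_eq_toReal_iff' (BoundedContinuousFunction.lintegral_lt_top_of_nnreal _ _).ne
    (BoundedContinuousFunction.lintegral_lt_top_of_nnreal _ _).ne, BoundedContinuousFunction.toReal_lintegral_coe_eq_integral,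
    BoundedContinuousFunction.toReal_lintegral_coe_eq_integral]
  exact he.symm

end

end Vale.Agent.P347.Zero
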