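import Vale.Agent.P347.Zero.Creation
import Vale.Agent.P347.Zero.Cre
import Vale.Agent.P347.Zero.FlowTransp
import Vale.Agent.P309.Sharp.Tools

/-!
# P347, exponent 0: the standard Gaussian as a potential
-/

namespace Vale.Agent.P347.Zero

open MeasureTheory ProbabilityTheory Real Finset
open Vale.Agent.P309.Sharp (gaussKer gaussConst gaussConst_pos Vec)

noncomputable section

set_option linter.unusedSectionVars false

variable {α : Type} [Fintype α] [DecidableEq α]

/-- The potential of the standard Gaussian. -/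
def gPot (α : Type) [Fintype α] : Sp α → ℝ := fun z =>
  (∑ j, z j ^ 2) / 2 + log (gaussConst (Sp α))

theorem exp_neg_gPot (z : Sp α) : exp (-gPot α z) = gaussKer z := by
  rw [gPot, neg_add, exp_add, exp_neg (log _), exp_log gaussConst_pos, gaussKer, mul_comm,
    EuclideanSpace.real_norm_sq_eq, neg_div]

theorem pd_coord (i j : α) (z : Sp α) :
    pd j (fun w : Sp α => w i) z = if i = j then 1 else 0 := by
  have h : HasFDerivAt (fun w : Sp α => w i) (EuclideanSpace.proj (𝕜 := ℝ) i) z :=
    (EuclideanSpace.proj (𝕜 := ℝ) i).hasFDerivAt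
  rw [pd, h.fderiv]
  show (unitV j) i = _
  simp [unitV]

theorem temp_coord (i : α) : (fun w : Sp α => w i).HasTemperateGrowth :=
  (EuclideanSpace.proj (𝕜 := ℝ) i).hasTemperateGrowth

theorem temp_gPot : (gPot α).HasTemperateGrowth := by
  have h : (fun z : Sp α => ∑ j, z j ^ 2).HasTemperateGrowth :=
    Function.HasTemperateGrowth.sum fun j _ => (temp_coord j).pow 2
  have := (h.mul (Function.HasTemperateGrowth.const (2 : ℝ)⁻¹)).add
    (Function.HasTemperateGrowth.const (log (gaussConst (Sp α))))
  exact this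

theorem pd_gPot (j : α) : pd j (gPot α) = fun z => z j := by
  funext z
  have h : ∀ i, HasFDerivAt (fun w : Sp α => w i ^ 2)
      ((2 * z i) • EuclideanSpace.proj (𝕜 := ℝ) i) z := fun i => by
    simpa using ((EuclideanSpace.proj (𝕜 := ℝ) i).hasFDerivAt (x := z)).pow 2
  have hs : HasFDerivAt (gPot α) ((2 : ℝ)⁻¹ • ∑ i, (2 * z i) • EuclideanSpace.proj (𝕜 := ℝ) i) z := by
    have := ((HasFDerivAt.fun_sum (u := univ) fun i _ => h i).mul_const (2 : ℝ)⁻¹).add_const
      (log (gaussConst (Sp α)))
    exact this
  rw [pd, hs.fderiv]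
  simp [unitV]

theorem scP_gPot : scP (gPot α) = scG := by
  funext z j
  simp [scP, pd_gPot, scG]

theorem pd_pd_gPot (i j : α) (z : Sp α) : pd i (pd j (gPot α)) z = if j = i then 1 else 0 := by
  rw [pd_gPot, pd_coord]

theorem pot_gPot : Pot (gPot α) where
  temp := temp_gPot
  low := ⟨1 / 2, by norm_num, -log (gaussConst (Sp α)), fun z => le_of_eq (by
    rw [gPot, EuclideanSpace.real_norm_sq_eq]; ring)⟩
  prob := by
    simp only [exp_neg_gPot]
    exact P309.Sharp.integral_gaussKer

/-- A linear change of the index type. -/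
def reVec (α : Type) [Fintype α] : Vec (Fintype.card α) ≃ₗᵢ[ℝ] Sp α :=
  LinearIsometryEquiv.piLpCongrLeft 2 ℝ ℝ (Fintype.equivFin α).symm

theorem dens_gPot : dens (gPot α) = stdGaussian (Sp α) := by
  refine Measure.ext_of_lintegral _ fun F hF => ?_
  have he : Measurable (reVec α) := (reVec α).continuous.measurable
  rw [← stdGaussian_map (reVec α), lintegral_map hF he,
    P309.Sharp.lintegral_stdGaussian (F := fun g => F (reVec α g)) (hF.comp he), dens,
    lintegral_withDensity_eq_lintegral_mul _
      (show Measurable fun z => ENNReal.ofReal (exp (-gPot α z)) from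
        (temp_gPot.1.continuous.neg.rexp.measurable.ennreal_ofReal)) hF]
  simp only [Pi.mul_apply]
  rw [← (reVec α).measurePreserving.lintegral_comp (f := fun z =>
      ENNReal.ofReal (exp (-gPot α z)) * F z)
      ((temp_gPot.1.continuous.neg.rexp.measurable.ennreal_ofReal).mul hF)]
  refine lintegral_congr fun g => ?_
  simp only [exp_neg_gPot, gaussKer, LinearIsometryEquiv.norm_map]
  congr 3
  rw [gaussConst, gaussConst, finrank_euclideanSpace_fin, finrank_euclideanSpace]

theorem integral_stdGaussian_eq (f : Sp α → ℝ) : ∫ z, f z ∂stdGaussian (Sp α) = EP (gPot α) f := by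
  rw [← dens_gPot, integral_dens temp_gPot.1.continuous]
  rfl

theorem integrable_temp {f : Sp α → ℝ} (hf : f.HasTemperateGrowth) :
    Integrable f (stdGaussian (Sp α)) := by
  rw [← dens_gPot, dens, integrable_withDensity_iff_integrable_smul'
    (show Measurable fun z => ENNReal.ofReal (exp (-gPot α z)) from
      temp_gPot.1.continuous.neg.rexp.measurable.ennreal_ofReal)
    (ae_of_all _ fun _ => ENNReal.ofReal_lt_top)]
  simpa [ENNReal.toReal_ofReal (exp_pos _).le] using pot_gPot.integrable hf

theorem integrable_one_add_norm_pow (k : ℕ) :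
    Integrable (fun z : Sp α => (1 + ‖z‖) ^ k) (stdGaussian (Sp α)) := by
  have h : (fun z : Sp α => (2 + ∑ j, z j ^ 2) ^ k).HasTemperateGrowth :=
    ((Function.HasTemperateGrowth.const (2 : ℝ)).add
      (Function.HasTemperateGrowth.sum fun j _ => (temp_coord j).pow 2)).pow k
  refine (integrable_temp h).mono' (by fun_prop) (ae_of_all _ fun z => ?_)
  rw [Real.norm_eq_abs, abs_of_nonneg (by positivity), ← EuclideanSpace.real_norm_sq_eq]
  exact pow_le_pow_left₀ (by positivity) (by nlinarith [sq_nonneg (‖z‖ - 1)]) k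

/-- Integration by parts in one coordinate. -/
theorem stein_coord {f : Sp α → ℝ} (hf : f.HasTemperateGrowth) (j : α) :
    ∫ z, z j * f z ∂stdGaussian (Sp α) = ∫ z, pd j f z ∂stdGaussian (Sp α) := by
  have h := pot_gPot.adjoint hf (Function.HasTemperateGrowth.const (1 : ℝ)) j
  simp only [one_mul, pd] at h
  have e : ∀ z, dd (gPot α) j f z = z j * f z - pd j f z := fun z => by simp [dd, pd_gPot]
  rw [← sub_eq_zero, ← integral_sub (integrable_temp (temp_mul (temp_coord j) hf))
    (integrable_temp (temp_pd hf j)), integral_stdGaussian_eq]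
  simp only [e] at h
  simpa [EP] using h

end

end Vale.Agent.P347.Zero
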