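import Vale.Agent.P347.Zero.Avg
import Vale.Agent.P347.Zero.GaussDens

/-!
# P347, exponent 0: the Ornstein–Uhlenbeck average and its derivatives in the parameter

`OUT r X` is the mean of `X (r • z + √(1 - r ^ 2) • ξ)`. Its `n`-th derivative in `r` is the `n`-fold
creation `Hn n X r` of the average of the `n`-th gradient; no power of `1 - r` is lost.
-/

namespace Vale.Agent.P347.Zero

open MeasureTheory ProbabilityTheory Real Finset Set

noncomputable section

set_option linter.unusedSectionVars false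

variable {ι ι' α : Type} [Fintype ι] [DecidableEq ι] [Fintype ι'] [DecidableEq ι'] [Fintype α]
  [DecidableEq α]

/-! ## The Hessian of the Gaussian potential -/

theorem gPot_hess (z : Sp α) (i : Unit ⊕ Unit → α) :
    hessT (gPot α) z i = if i (Sum.inr ()) = i (Sum.inl ()) then 1 else 0 :=
  pd_pd_gPot _ _ _

theorem bn_gHess (z : Sp α) : BN (hessT (gPot α) z) 1 := by
  intro κ κ' _ _ _ _ hκ hκ' e
  obtain ⟨k⟩ := hκ
  obtain ⟨k'⟩ := hκ'
  have key : ∀ a b c : Unit ⊕ Unit, a ≠ c → b ≠ c → a = b := by decide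
  have : Subsingleton κ := ⟨fun a b => Sum.inl_injective (e.injective
    (key _ _ (e (Sum.inr k')) (e.injective.ne Sum.inl_ne_inr) (e.injective.ne Sum.inl_ne_inr)))⟩
  have : Subsingleton κ' := ⟨fun a b => Sum.inr_injective (e.injective
    (key _ _ (e (Sum.inl k)) (e.injective.ne Sum.inr_ne_inl) (e.injective.ne Sum.inr_ne_inl)))⟩
  let u : Unique κ := uniqueOfSubsingleton k
  let u' : Unique κ' := uniqueOfSubsingleton k'
  have hid : OpLE (fun p q : α => if p = q then (1 : ℝ) else 0) 1 := fun a b => by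
    simpa using inner_le a b
  have hsym : ∀ a : κ → α, ∀ b : κ' → α,
      flat e (hessT (gPot α) z) a b = if a default = b default then 1 else 0 := by
    intro a b
    rw [flat, gPot_hess]
    rcases h1 : e.symm (Sum.inl ()) with p | p <;> rcases h2 : e.symm (Sum.inr ()) with p' | p'
    · exact absurd (e.symm.injective (h1.trans ((congrArg Sum.inl (Subsingleton.elim p p')).trans
        h2.symm))) Sum.inl_ne_inr
    · rw [Sum.elim_inl, Sum.elim_inr, Subsingleton.elim p default, Subsingleton.elim p' default]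
      simp only [eq_comm]
    · rw [Sum.elim_inl, Sum.elim_inr, Subsingleton.elim p default, Subsingleton.elim p' default]
    · exact absurd (e.symm.injective (h1.trans ((congrArg Sum.inr (Subsingleton.elim p p')).trans
        h2.symm))) Sum.inl_ne_inr
  intro a b
  have := hid.reindex (Equiv.funUnique κ α) (Equiv.funUnique κ' α) a b
  simp only [hsym]
  exact this

theorem rb_gHess : ∀ n, RB n (hessT (gPot α)) 1
  | 0 => ⟨fun i => temp_pd (temp_pd temp_gPot _) _, bn_gHess⟩
  | n + 1 => ⟨fun i => temp_pd (temp_pd temp_gPot _) _, bn_gHess, by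
      have h : gradT (hessT (gPot α)) = 0 := by
        funext z i
        simp only [gradT, gPot_hess, fderiv_fun_const, Pi.zero_apply, zero_apply]
      exact h ▸ RB.zero n 1 zero_le_one⟩

theorem conF_gHess (Y : TF (Option ι) α) :
    ren (optU ι).symm (conF (hessT (gPot α)) (ren (optU ι) Y)) = Y := by
  funext z i
  simp only [ren, conF, con, gPot_hess]
  rw [← (Equiv.funUnique Unit α).symm.sum_comp, sum_eq_single (i none)]
  · rw [if_pos (by simp [optU, Equiv.funUnique]), one_mul]
    congr 1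
    funext o
    cases o <;> rfl
  · intro b _ hb
    rw [if_neg (by simpa [optU, Equiv.funUnique] using hb), zero_mul]
  · exact fun h => absurd (Finset.mem_univ _) h

/-! ## The average -/

theorem ouOk {r : ℝ} (hr : |r| ≤ 1) :
    AvgOk (stdGaussian (Sp α)) (fun _ => (1 : ℝ)) (fun _ => r)
      (fun ξ : Sp α => √(1 - r ^ 2) • ξ) where
  prob := inferInstance
  mw := measurable_const
  ma := measurable_const
  mc := by fun_prop
  w_le _ := by simp
  a_le _ := hr
  moment k := by
    refine (integrable_one_add_norm_pow k).mono' (by fun_prop) (ae_of_all _ fun ξ => ?_)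
    rw [norm_of_nonneg (by positivity), norm_smul, norm_of_nonneg (Real.sqrt_nonneg _)]
    refine pow_le_pow_left₀ (by positivity) (add_le_add le_rfl ?_) k
    exact mul_le_of_le_one_left (norm_nonneg _) (Real.sqrt_le_one.2 (by nlinarith [sq_nonneg r]))

/-- The Ornstein–Uhlenbeck average. -/
def OUT (r : ℝ) (X : TF ι α) : TF ι α :=
  avgT (stdGaussian (Sp α)) (fun _ => (1 : ℝ)) (fun _ => r) (fun ξ => √(1 - r ^ 2) • ξ) X

theorem OUT_apply (r : ℝ) (X : TF ι α) (z : Sp α) (i : ι → α) :
    OUT r X z i = ∫ ξ, X (r • z + √(1 - r ^ 2) • ξ) i ∂stdGaussian (Sp α) := by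
  simp [OUT, avgT, avg]

theorem OUT_one (X : TF ι α) : OUT 1 X = X := by
  funext z i
  simp [OUT_apply]

theorem OUT_zero (X : TF ι α) (z : Sp α) (i : ι → α) :
    OUT 0 X z i = ∫ ξ, X ξ i ∂stdGaussian (Sp α) := by
  simp [OUT_apply]

theorem Temp.out {X : TF ι α} (hX : Temp X) {r : ℝ} (hr : |r| ≤ 1) : Temp (OUT r X) :=
  (ouOk hr).temp hX

theorem RB.out {n : ℕ} {X : TF ι α} {K : ℝ} (hX : RB n X K) {r : ℝ} (hr : |r| ≤ 1) :
    RB n (OUT r X) K :=
  (ouOk hr).rb hX

theorem gradT_OUT {X : TF ι α} (hX : Temp X) {r : ℝ} (hr : |r| ≤ 1) :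
    gradT (OUT r X) = fun z i => r * OUT r (gradT X) z i := by
  unfold OUT
  rw [(ouOk hr).gradT_avgT hX]
  funext z i
  simp only [avgT, avg, one_mul, smul_eq_mul, integral_const_mul]

theorem OUT_continuousOn {X : TF ι α} (hX : Temp X) (z : Sp α) (i : ι → α) :
    ContinuousOn (fun r => OUT r X z i) (Icc (-1) 1) := by
  simp only [OUT_apply]
  obtain ⟨k, C, hC⟩ := (hX i).2 0
  simp only [norm_iteratedFDeriv_zero] at hC
  have hC0 : 0 ≤ C := by simpa using (norm_nonneg _).trans (hC 0)
  refine continuousOn_of_dominated (bound := fun ξ => C * (1 + ‖z‖) ^ k * (1 + ‖ξ‖) ^ k)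
    (fun r _ => ((hX i).1.continuous.comp (by fun_prop)).aestronglyMeasurable) (fun r hr => ?_)
    ((integrable_one_add_norm_pow k).const_mul _) (ae_of_all _ fun ξ => ?_)
  · refine ae_of_all _ fun ξ => (hC _).trans ?_
    rw [mul_assoc, ← mul_pow]
    have hr' : |r| ≤ 1 := abs_le.2 hr
    refine mul_le_mul_of_nonneg_left (pow_le_pow_left₀ (by positivity) ?_ k) hC0
    have h1 : ‖√(1 - r ^ 2) • ξ‖ ≤ ‖ξ‖ := by
      rw [norm_smul, norm_of_nonneg (Real.sqrt_nonneg _)]
      exact mul_le_of_le_one_left (norm_nonneg _) (Real.sqrt_le_one.2 (by nlinarith [sq_nonneg r]))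
    have h2 : ‖r • z‖ ≤ ‖z‖ := by
      rw [norm_smul]; exact mul_le_of_le_one_left (norm_nonneg _) hr'
    nlinarith [norm_add_le (r • z) (√(1 - r ^ 2) • ξ), mul_nonneg (norm_nonneg z) (norm_nonneg ξ)]
  · exact ((hX i).1.continuous.comp (by fun_prop)).continuousOn

/-- The derivative inside the interval. -/
theorem OUT_hasDerivAt {X : TF ι α} (hX : Temp X) {r : ℝ} (hr : r ∈ Ioo (-1 : ℝ) 1) (z : Sp α)
    (i : ι → α) :
    HasDerivAt (fun r => OUT r X z i) (dlt (scP (gPot α)) (OUT r (gradT X)) z i) r := by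
  have hr1 : |r| ≤ 1 := abs_le.2 ⟨hr.1.le, hr.2.le⟩
  set f : Sp α → ℝ := fun w => X w i with hfdef
  have hf : f.HasTemperateGrowth := hX i
  have hf' := temperate_fderiv hf
  obtain ⟨k, C, hC⟩ := hf'.2 0
  simp only [norm_iteratedFDeriv_zero] at hC
  have hC0 : 0 ≤ C := by simpa using (norm_nonneg _).trans (hC 0)
  obtain ⟨ρ, hρ, hρ1⟩ := exists_between (abs_lt.2 hr)
  have hρ0 : 0 ≤ ρ := (abs_nonneg r).trans hρ.le
  set c' : ℝ → ℝ := fun x => -x / √(1 - x ^ 2) with hc'
  have hs : 0 < √(1 - ρ ^ 2) := Real.sqrt_pos.2 (by nlinarith)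
  have hd : ∀ x : ℝ, |x| < ρ → ∀ ξ, HasDerivAt (fun x => f (x • z + √(1 - x ^ 2) • ξ))
      (fderiv ℝ f (x • z + √(1 - x ^ 2) • ξ) (z + c' x • ξ)) x := by
    intro x hx ξ
    have hx2 : x ^ 2 < 1 := by
      have := sq_abs x
      nlinarith [abs_nonneg x]
    have h1 : HasDerivAt (fun x : ℝ => √(1 - x ^ 2)) (c' x) x := by
      have := (((hasDerivAt_id x).pow 2).const_sub 1).sqrt (by simp; linarith)
      refine (this.congr_deriv ?_).congr_of_eventuallyEq (Filter.Eventually.of_forall fun y => by simp)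
      simp [hc']
      ring
    have h2 : HasDerivAt (fun x : ℝ => x • z + √(1 - x ^ 2) • ξ) (z + c' x • ξ) x := by
      simpa using ((hasDerivAt_id x).smul_const z).fun_add (h1.smul_const ξ)
    exact ((temp_diff hf) _).hasFDerivAt.comp_hasDerivAt x h2
  have key := hasDerivAt_integral_of_dominated_loc_of_deriv_le (μ := stdGaussian (Sp α))
    (F := fun x ξ => f (x • z + √(1 - x ^ 2) • ξ))
    (F' := fun x ξ => fderiv ℝ f (x • z + √(1 - x ^ 2) • ξ) (z + c' x • ξ))
    (bound := fun ξ => C * (1 + ‖z‖) ^ k * (‖z‖ + 1 / √(1 - ρ ^ 2)) * (1 + ‖ξ‖) ^ (k + 1))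
    (x₀ := r) (s := {x | |x| < ρ}) ((isOpen_lt continuous_abs continuous_const).mem_nhds hρ)
    (Filter.Eventually.of_forall fun x => (hf.1.continuous.comp (by fun_prop)).aestronglyMeasurable)
    ?_ (((hf'.1.continuous.comp (by fun_prop)).clm_apply (by fun_prop)).aestronglyMeasurable)
    (ae_of_all _ fun ξ x hx => ?_) ((integrable_one_add_norm_pow (k + 1)).const_mul _)
    (ae_of_all _ fun ξ x hx => hd x hx ξ)
  · simp only [OUT_apply]
    refine key.2.congr_deriv ?_
    set y : Sp α → Sp α := fun ξ => r • z + √(1 - r ^ 2) • ξ with hy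
    have hyt : y.HasTemperateGrowth := by
      have := (Function.HasTemperateGrowth.const (E := Sp α) (r • z)).add
        ((√(1 - r ^ 2)) • ContinuousLinearMap.id ℝ (Sp α)).hasTemperateGrowth
      exact this
    have hg : ∀ j, (fun ξ => pd j f (y ξ)).HasTemperateGrowth := fun j => (temp_pd hf j).comp hyt
    have hst : ∀ j, ∫ ξ, ξ j * pd j f (y ξ) ∂stdGaussian (Sp α)
        = √(1 - r ^ 2) * ∫ ξ, pd j (pd j f) (y ξ) ∂stdGaussian (Sp α) := by
      intro j
      rw [stein_coord (hg j) j, ← integral_const_mul]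
      refine integral_congr_ae (ae_of_all _ fun ξ => ?_)
      have hy' : HasFDerivAt y (√(1 - r ^ 2) • ContinuousLinearMap.id ℝ (Sp α)) ξ :=
        ((hasFDerivAt_id (𝕜 := ℝ) ξ).fun_const_smul (√(1 - r ^ 2))).const_add (r • z)
      have hc : HasFDerivAt (fun ξ => pd j f (y ξ)) _ ξ :=
        ((temp_diff (temp_pd hf j)) _).hasFDerivAt.comp ξ hy'
      show fderiv ℝ (fun ξ => pd j f (y ξ)) ξ (unitV j) = _
      rw [hc.fderiv]
      simp [pd]
    have hexp : ∀ ξ, fderiv ℝ f (y ξ) (z + c' r • ξ)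
        = ∑ j, (z j * pd j f (y ξ) + c' r * (ξ j * pd j f (y ξ))) := by
      intro ξ
      conv_lhs => rw [← sum_coord (z + c' r • ξ)]
      simp only [map_sum, map_smul, smul_eq_mul, PiLp.add_apply, PiLp.smul_apply, pd]
      exact Finset.sum_congr rfl fun j _ => by ring
    have i1 : ∀ j, Integrable (fun ξ => z j * pd j f (y ξ)) (stdGaussian (Sp α)) := fun j =>
      (integrable_temp (hg j)).const_mul _
    have i2 : ∀ j, Integrable (fun ξ : Sp α => c' r * (ξ j * pd j f (y ξ))) (stdGaussian (Sp α)) :=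
      fun j => (integrable_temp (temp_mul (temp_coord j) (hg j))).const_mul _
    change ∫ ξ, fderiv ℝ f (y ξ) (z + c' r • ξ) ∂stdGaussian (Sp α) = _
    simp only [hexp]
    rw [integral_finsetSum _ fun j _ => (i1 j).fun_add (i2 j), dlt_eq]
    refine Finset.sum_congr rfl fun j _ => ?_
    rw [integral_add (i1 j) (i2 j), integral_const_mul, integral_const_mul, hst, dd, pd_gPot]
    have hp : pd j (fun w => OUT r (gradT X) w (ext j i)) z
        = r * ∫ ξ, pd j (pd j f) (y ξ) ∂stdGaussian (Sp α) := by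
      have e1 := congrFun (congrFun (gradT_OUT (hX.gradT) hr1) z) (ext j (ext j i))
      rw [OUT_apply] at e1
      exact e1
    rw [hp, OUT_apply]
    have hc : c' r * √(1 - r ^ 2) = -r := by
      rw [hc']
      exact div_mul_cancel₀ _ (Real.sqrt_pos.2 (by nlinarith [hr.1, hr.2])).ne'
    rw [← mul_assoc (c' r), hc]
    show _ + -r * _ = z j * ∫ ξ, pd j f (y ξ) ∂stdGaussian (Sp α) - _
    ring
  · have := (ouOk hr1).integrable hf z
    simp only [one_smul] at this
    exact this
  · have hx1 : |x| ≤ 1 := (le_of_lt hx).trans hρ1.le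
    have hb := (ouOk hx1).point_le ξ z
    have hξ : ‖√(1 - x ^ 2) • ξ‖ ≤ ‖ξ‖ := by
      rw [norm_smul, norm_of_nonneg (Real.sqrt_nonneg _)]
      exact mul_le_of_le_one_left (norm_nonneg _) (Real.sqrt_le_one.2 (by nlinarith [sq_nonneg x]))
    have hc1 : |c' x| ≤ 1 / √(1 - ρ ^ 2) := by
      rw [hc', abs_div, abs_neg, abs_of_nonneg (Real.sqrt_nonneg _)]
      have hle : x ^ 2 ≤ ρ ^ 2 := by
        rw [← sq_abs x]; exact pow_le_pow_left₀ (abs_nonneg x) hx.le 2
      exact div_le_div₀ zero_le_one hx1 hs (Real.sqrt_le_sqrt (by linarith))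
    refine ((fderiv ℝ f _).le_opNorm _).trans ?_
    refine (mul_le_mul (hC _) ((norm_add_le _ _).trans (add_le_add le_rfl (norm_smul_le _ _)))
      (norm_nonneg _) (mul_nonneg hC0 (by positivity))).trans ?_
    rw [Real.norm_eq_abs, pow_succ]
    have hA : (1 + ‖x • z + √(1 - x ^ 2) • ξ‖) ^ k ≤ (1 + ‖z‖) ^ k * (1 + ‖ξ‖) ^ k := by
      rw [← mul_pow]
      exact pow_le_pow_left₀ (by positivity) (hb.trans (mul_le_mul_of_nonneg_left
        (add_le_add le_rfl hξ) (by positivity))) k
    have hB : ‖z‖ + |c' x| * ‖ξ‖ ≤ (‖z‖ + 1 / √(1 - ρ ^ 2)) * (1 + ‖ξ‖) := by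
      nlinarith [mul_le_mul_of_nonneg_right hc1 (norm_nonneg ξ), norm_nonneg z, norm_nonneg ξ,
        (by positivity : (0 : ℝ) ≤ 1 / √(1 - ρ ^ 2)), mul_nonneg (norm_nonneg z) (norm_nonneg ξ)]
    refine (mul_le_mul (mul_le_mul_of_nonneg_left hA hC0) hB (by positivity) (by positivity)).trans
      (le_of_eq (by ring))

/-! ## All derivatives -/

/-- The `n`-th derivative in `r`. -/
def Hn : ℕ → ∀ {ι : Type} [Fintype ι] [DecidableEq ι], TF ι α → ℝ → TF ι α
  | 0, _, _, _, X, r => OUT r X
  | n + 1, _, _, _, X, r => dlt (scP (gPot α)) (Hn n (gradT X) r)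

theorem Temp.hn {X : TF ι α} (hX : Temp X) {r : ℝ} (hr : |r| ≤ 1) (n : ℕ) : Temp (Hn n X r) := by
  induction n generalizing ι with
  | zero => exact hX.out hr
  | succ n ih => exact (ih hX.gradT).dlt temp_gPot

theorem Hn_ren (n : ℕ) (f : ι ≃ ι') (X : TF ι α) (r : ℝ) : Hn n (ren f X) r = ren f (Hn n X r) := by
  induction n generalizing ι ι' with
  | zero => rfl
  | succ n ih =>
    show dlt (scP (gPot α)) (Hn n (gradT (ren f X)) r) = _
    rw [gradT_ren, ih, dlt_ren]
    rfl

theorem ren_optSwap_gradT_gradT {X : TF ι α} (hX : Temp X) :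
    ren (optSwap ι) (gradT (gradT X)) = gradT (gradT X) := by
  funext z i
  exact pd_comm (hX (i ∘ some ∘ some)) (i (some none)) (i none) z

theorem gradT_Hn {X : TF ι α} (hX : Temp X) {r : ℝ} (hr : |r| ≤ 1) (n : ℕ) :
    gradT (Hn n X r)
      = (fun z i => r * Hn n (gradT X) r z i) + fun z i => (n : ℝ) * Hn (n - 1) (gradT X) r z i := by
  induction n generalizing ι with
  | zero =>
    rw [Hn, gradT_OUT hX hr]
    funext z i
    simp [Hn]
  | succ n ih =>
    have hY : Temp (Hn n (gradT X) r) := hX.gradT.hn hr n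
    show gradT (dlt (scP (gPot α)) (Hn n (gradT X) r)) = _
    rw [gradT_dlt temp_gPot hY, conF_gHess, ih hX.gradT]
    have hs : ∀ m, ren (optSwap ι) (Hn m (gradT (gradT X)) r) = Hn m (gradT (gradT X)) r :=
      fun m => by rw [← Hn_ren, ren_optSwap_gradT_gradT hX]
    have t1 : Temp (fun z i => r * Hn n (gradT (gradT X)) r z i) :=
      (hX.gradT.gradT.hn hr n).smul r
    have t2 : Temp (fun z i => (n : ℝ) * Hn (n - 1) (gradT (gradT X)) r z i) :=
      (hX.gradT.gradT.hn hr _).smul _
    rw [ren_add, show ren (optSwap ι) (fun z i => r * Hn n (gradT (gradT X)) r z i)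
        = fun z i => r * ren (optSwap ι) (Hn n (gradT (gradT X)) r) z i from rfl,
      show ren (optSwap ι) (fun z i => (n : ℝ) * Hn (n - 1) (gradT (gradT X)) r z i)
        = fun z i => (n : ℝ) * ren (optSwap ι) (Hn (n - 1) (gradT (gradT X)) r) z i from rfl,
      hs, hs, dlt_add _ t1 t2, dlt_smul _ (hX.gradT.gradT.hn hr n),
      dlt_smul _ (hX.gradT.gradT.hn hr _)]
    funext z i
    simp only [Pi.add_apply, Nat.add_sub_cancel]
    rcases n with _ | m
    · simp [Hn]
    · simp only [Nat.add_sub_cancel, Hn, Nat.cast_succ]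
      ring

theorem Hn_succ_apply {X : TF ι α} (hX : Temp X) {r : ℝ} (hr : |r| ≤ 1) (n : ℕ) (z : Sp α)
    (i : ι → α) :
    Hn (n + 1) X r z i = ∑ j, (z j * Hn n (gradT X) r z (ext j i)
      - (r * Hn n (gradT (gradT X)) r z (ext j (ext j i))
        + n * Hn (n - 1) (gradT (gradT X)) r z (ext j (ext j i)))) := by
  show dlt (scP (gPot α)) (Hn n (gradT X) r) z i = _
  rw [dlt_eq]
  refine Finset.sum_congr rfl fun j _ => ?_
  rw [dd, pd_gPot]
  congr 1
  exact congrFun (congrFun (gradT_Hn hX.gradT hr n) z) (ext j (ext j i))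

theorem Hn_continuousOn {X : TF ι α} (hX : Temp X) (n : ℕ) (z : Sp α) (i : ι → α) :
    ContinuousOn (fun r => Hn n X r z i) (Icc (-1) 1) := by
  induction n using Nat.strong_induction_on generalizing ι with
  | _ n ih =>
    rcases n with _ | n
    · exact OUT_continuousOn hX z i
    · refine ContinuousOn.congr ?_ fun r hr => Hn_succ_apply hX (abs_le.2 hr) n z i
      refine continuousOn_finsetSum _ fun j _ => ?_
      exact (continuousOn_const.mul (ih n (by omega) hX.gradT _)).sub
        ((continuousOn_id.mul (ih n (by omega) hX.gradT.gradT _)).add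
          (continuousOn_const.mul (ih (n - 1) (by omega) hX.gradT.gradT _)))

/-- A derivative inside an interval extends to its ends by continuity. -/
theorem hasDerivWithinAt_of_Ioo {F G : ℝ → ℝ} {a b : ℝ} (hab : a ≤ b)
    (hF : ContinuousOn F (Icc a b)) (hG : ContinuousOn G (Icc a b))
    (hd : ∀ x ∈ Ioo a b, HasDerivAt F (G x) x) {x : ℝ} (hx : x ∈ Icc a b) :
    HasDerivWithinAt F (G x) (Icc a b) x := by
  set g := IccExtend hab ((Icc a b).domRestrict G) with hg
  have hgc : Continuous g := continuous_IccExtend_iff.2 hG.domRestrict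
  have hge : ∀ y ∈ Icc a b, g y = G y := fun y hy => IccExtend_of_mem _ _ hy
  have e : ∀ y ∈ Icc a b, F y = F a + ∫ t in a..y, g t := by
    intro y hy
    rw [intervalIntegral.integral_eq_sub_of_hasDerivAt_of_le hy.1
      (hF.mono (Icc_subset_Icc_right hy.2)) (fun t ht => ?_) (hgc.intervalIntegrable _ _)]
    · ring
    · have ht' : t ∈ Ioo a b := ⟨ht.1, lt_of_lt_of_le ht.2 hy.2⟩
      rw [hge t (Ioo_subset_Icc_self ht')]
      exact hd t ht'
  have h1 := ((hgc.integral_hasStrictDerivAt a x).hasDerivAt.const_add (F a)).hasDerivWithinAt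
    (s := Icc a b)
  rw [hge x hx] at h1
  exact h1.congr e (e x hx)

theorem Hn_deriv {X : TF ι α} (hX : Temp X) (n : ℕ) (z : Sp α) (i : ι → α) {r : ℝ}
    (hr : r ∈ Icc (-1 : ℝ) 1) :
    HasDerivWithinAt (fun r => Hn n X r z i) (Hn (n + 1) X r z i) (Icc (-1) 1) r := by
  induction n using Nat.strong_induction_on generalizing ι with
  | _ n ih =>
    rcases n with _ | n
    · exact hasDerivWithinAt_of_Ioo (G := fun r => Hn 1 X r z i) (by norm_num)
        (OUT_continuousOn hX z i) (Hn_continuousOn hX 1 z i)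
        (fun x hx => OUT_hasDerivAt hX hx z i) hr
    · have hd : HasDerivWithinAt (fun r => ∑ j, (z j * Hn n (gradT X) r z (ext j i)
          - (r * Hn n (gradT (gradT X)) r z (ext j (ext j i))
            + n * Hn (n - 1) (gradT (gradT X)) r z (ext j (ext j i)))))
          (∑ j, (z j * Hn (n + 1) (gradT X) r z (ext j i)
          - (1 * Hn n (gradT (gradT X)) r z (ext j (ext j i))
              + r * Hn (n + 1) (gradT (gradT X)) r z (ext j (ext j i))
            + n * Hn (n - 1 + 1) (gradT (gradT X)) r z (ext j (ext j i))))) (Icc (-1) 1) r :=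
        HasDerivWithinAt.fun_sum fun j _ => ((ih n (by omega) hX.gradT _).const_mul _).fun_sub
          (((hasDerivWithinAt_id r _).fun_mul (ih n (by omega) hX.gradT.gradT _)).fun_add
            ((ih (n - 1) (by omega) hX.gradT.gradT _).const_mul _))
      refine (hd.congr (fun x hx => Hn_succ_apply hX (abs_le.2 hx) n z i)
        (Hn_succ_apply hX (abs_le.2 hr) n z i)).congr_deriv ?_
      rw [Hn_succ_apply hX (abs_le.2 hr) (n + 1) z i]
      refine Finset.sum_congr rfl fun j _ => ?_
      rcases n with _ | m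
      · simp; ring
      · simp only [Nat.add_sub_cancel, Nat.cast_succ]
        ring

theorem iteratedDerivWithin_OUT {X : TF ι α} (hX : Temp X) (n : ℕ) (z : Sp α) (i : ι → α) {a b r : ℝ}
    (hab : a < b) (ha : -1 ≤ a) (hb : b ≤ 1) (hr : r ∈ Icc a b) :
    iteratedDerivWithin n (fun r => OUT r X z i) (Icc a b) r = Hn n X r z i := by
  induction n generalizing r with
  | zero => rw [iteratedDerivWithin_zero]; rfl
  | succ n ih =>
    rw [iteratedDerivWithin_succ]
    exact (((Hn_deriv hX n z i (Icc_subset_Icc ha hb hr)).mono (Icc_subset_Icc ha hb)).congr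
      (fun x hx => ih hx) (ih hr)).derivWithin (uniqueDiffOn_Icc hab r hr)

/-- `n`-fold creations of a gradient are in the class. -/
theorem cre_Hn [Nonempty ι] {n m : ℕ} {Y : TF (Option ι) α} {K : ℝ} (hK : 0 ≤ K)
    (h : RB (m + n) Y K) {r : ℝ} (hr : |r| ≤ 1) : Cre (gPot α) n m (Hn n Y r) K := by
  induction n generalizing ι with
  | zero =>
    exact Cre.base (h.out hr) hK (i := none) (i' := some (Classical.arbitrary ι)) (by simp)
  | succ n ih =>
    exact (ih (h.2.2)).dlt

/-- The `L²` bound of the `r`-derivatives, uniform up to `r = 1`. -/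
theorem Hn_L2 [Nonempty ι] {n : ℕ} {Y : TF (Option ι) α} {K : ℝ} (hK : 0 ≤ K)
    (h : RB (nL2 n + n) Y K) {r : ℝ} (hr : |r| ≤ 1) :
    EP (gPot α) (fun z => sqT (Hn n Y r z)) ≤ bL2 1 n * (Fintype.card α * K ^ 2) :=
  (cre_Hn hK h hr).integral_sqT_le pot_gPot zero_le_one (rb_gHess _)

end

end Vale.Agent.P347.Zero
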