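import Vale.Agent.P347.Zero.SmoothCurve
import Vale.Agent.P347.Zero.GaussDens
import Vale.Agent.P347.Zero.OU
import Vale.Agent.P347.Zero.Interp
import Vale.Agent.P347.Zero.CurL2

/-!
# P347, exponent 0: the differential of a node by interpolation along its two curves

For a smoothed node the curve is `t ↦ G (a ^ 2 - t ^ 2) N (x + t z)`, for a plain one the posterior
curve. In both cases the error of `M + 2` nodes on `[0, T]` is `(T / scale) ^ (M + 1) √d` in `L²`.
-/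

namespace Vale.Agent.P347.Zero

open MeasureTheory ProbabilityTheory Real Finset Set WithLp
open Vale.Agent.P347.Quarter (E γ)
open Vale.Agent.P347.Colour (Pt)
open scoped Nat

noncomputable section

variable {d : ℕ}

/-- An integrated top derivative with measurable values is bounded in `L²` by the fixed times. -/
theorem topI_l2_of_le {M : ℕ} {T B : ℝ} (hT : 0 ≤ T) {f : E d → ℝ → E d} {Ψ : ℝ → E d → E d}
    (hc : ∀ z, Continuous fun t => Ψ t z) (hm : ∀ t, Continuous (Ψ t))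
    (heq : ∀ z, ∀ t ∈ Icc 0 T, iteratedDerivWithin (M + 1) (f z) (Icc 0 T) t = Ψ t z)
    (hB : ∀ t ∈ Icc 0 T, Integrable (fun z => ‖Ψ t z‖ ^ 2) (γ d) ∧
      ∫ z, ‖Ψ t z‖ ^ 2 ∂γ d ≤ B) :
    Integrable (fun z => topI M (f z) 0 T ^ 2) (γ d) ∧
      ∫ z, topI M (f z) 0 T ^ 2 ∂γ d ≤ T ^ 2 * B := by
  let ν := (volume : Measure ℝ).restrict (Ioc 0 T)
  have : IsFiniteMeasure ν := ⟨by simp [ν]⟩
  let G : E d × ℝ → ℝ := fun q => ‖Ψ q.2 q.1‖
  have hu : StronglyMeasurable (Function.uncurry Ψ) :=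
    stronglyMeasurable_uncurry_of_continuous_of_stronglyMeasurable (u := Ψ) hc
      fun t => (hm t).stronglyMeasurable
  have hu' : StronglyMeasurable fun q : E d × ℝ => Ψ q.2 q.1 :=
    hu.comp_measurable measurable_swap
  have hG : StronglyMeasurable G := hu'.norm
  have hI : ∀ z, topI M (f z) 0 T = ∫ s, G (z, s) ∂ν := by
    intro z
    rw [topI, intervalIntegral.integral_of_le hT]
    exact setIntegral_congr_fun measurableSet_Ioc fun s hs => by
      simp only [G, heq z s ⟨hs.1.le, hs.2⟩]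
  have hsq : ∀ z, (∫ s, G (z, s) ∂ν) ^ 2 ≤ T * ∫ s, G (z, s) ^ 2 ∂ν := by
    intro z
    have h := sq_integral_le hT ((hc z).norm)
    rwa [intervalIntegral.integral_of_le hT, intervalIntegral.integral_of_le hT] at h
  have hprod : Integrable (fun q => G q ^ 2) ((γ d).prod ν) := by
    refine (integrable_prod_iff' (hG.pow 2).aestronglyMeasurable).2 ⟨?_, ?_⟩
    · exact (ae_restrict_iff' measurableSet_Ioc).2
        (Filter.Eventually.of_forall fun s hs => (hB s ⟨hs.1.le, hs.2⟩).1)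
    · refine Integrable.of_bound
        ((hG.pow 2).norm.integral_prod_left').aestronglyMeasurable B ?_
      refine (ae_restrict_iff' measurableSet_Ioc).2 (Filter.Eventually.of_forall fun s hs => ?_)
      simp only [G, Pi.pow_apply, norm_pow, norm_norm]
      rw [Real.norm_of_nonneg (integral_nonneg fun z => by positivity)]
      exact (hB s ⟨hs.1.le, hs.2⟩).2
  have hdom : Integrable (fun z => T * ∫ s, G (z, s) ^ 2 ∂ν) (γ d) :=
    hprod.integral_prod_left.const_mul T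
  simp only [hI]
  have hint : Integrable (fun z => (∫ s, G (z, s) ∂ν) ^ 2) (γ d) :=
    hdom.mono' (hG.integral_prod_right'.pow 2).aestronglyMeasurable
      (Filter.Eventually.of_forall fun z => by
        rw [Real.norm_of_nonneg (sq_nonneg _)]
        exact hsq z)
  refine ⟨hint, (integral_mono hint hdom hsq).trans ?_⟩
  rw [integral_const_mul, integral_integral_swap (f := fun z s => G (z, s) ^ 2) hprod, sq T, mul_assoc]
  refine mul_le_mul_of_nonneg_left ?_ hT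
  refine (integral_mono_ae hprod.integral_prod_right (integrable_const B)
    ((ae_restrict_iff' measurableSet_Ioc).2
      (Filter.Eventually.of_forall fun s hs => (hB s ⟨hs.1.le, hs.2⟩).2))).trans (le_of_eq ?_)
  simp [ν, integral_const, hT]

/-- The interpolation error of the derivative at the left end, in terms of `topI`. -/
theorem interp_zero_bound {M : ℕ} {C T : ℝ} {F : ℝ → E d} {D : E d} (hT : 0 < T)
    (hC : (∑ j, |lw' (eqNode (M + 1) 0 T) j 0|) ≤ C / T)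
    (hf : ContDiffOn ℝ (M + 1 + 1 : ℕ) F (Icc 0 T)) (hD : HasDerivWithinAt F D (Icc 0 T) 0) :
    ‖(∑ j, lw' (eqNode (M + 1) 0 T) j 0 • F (eqNode (M + 1) 0 T j)) - D‖
      ≤ (1 + C) * T ^ M * topI (M + 1) F 0 T := by
  have h0 : (0 : ℝ) ∈ Icc 0 T := ⟨le_rfl, hT.le⟩
  have h := interp_deriv_bound hT (eqNode_injective hT) (fun j => eqNode_mem hT.le j) hf h0
  rw [hD.derivWithin (uniqueDiffOn_Icc hT 0 h0), norm_sub_rev, sub_zero] at h
  refine h.trans (mul_le_mul_of_nonneg_right ?_ (topI_nonneg _ _ hT.le))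
  have hC0 : 0 ≤ C := by
    have h1 := (sum_nonneg fun j _ => abs_nonneg (lw' (eqNode (M + 1) 0 T) j 0)).trans hC
    rwa [le_div_iff₀ hT, zero_mul] at h1
  have hf1 : T ^ M / M ! ≤ T ^ M :=
    div_le_self (by positivity) (by exact_mod_cast Nat.factorial_pos M)
  have hf2 : T ^ (M + 1) / (M + 1)! ≤ T ^ (M + 1) :=
    div_le_self (by positivity) (by exact_mod_cast Nat.factorial_pos (M + 1))
  have h2 := mul_le_mul hC hf2 (by positivity) (div_nonneg hC0 hT.le)
  rw [show C / T * T ^ (M + 1) = C * T ^ M by rw [pow_succ]; field_simp] at h2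
  linarith

/-! ## The smoothing curve as a curve of vectors -/

/-- The `n`-th creation of the smoothing curve, as a vector. -/
def crvV (a : ℝ) (N : E d → E d) (x : E d) (n : ℕ) (t : ℝ) (z : E d) : E d :=
  toLp 2 fun o => crv a (cpt N o) x n [] t z

variable {N : E d → E d} {L a T : ℝ} {x : E d}

theorem GradLip.crvV_zero (hN : GradLip N L) (t : ℝ) (z : E d) :
    crvV a N x 0 t z = Quarter.G (a - t ^ 2) N (x + t • z) := by
  ext o
  exact hN.crv_zero_nil o t z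

theorem GradLip.hasDerivAt_crvV (hN : GradLip N L) (n : ℕ) {t : ℝ} (ht : t ^ 2 < a) (z : E d) :
    HasDerivAt (fun t => crvV a N x n t z) (crvV a N x (n + 1) t z) t := by
  have h1 : HasDerivAt (fun t o => crv a (cpt N o) x n [] t z)
      (fun o => crv a (cpt N o) x (n + 1) [] t z) t :=
    hasDerivAt_pi.2 fun o => hN.hasDerivAt_crv_cpt (x := x) o n ht z
  have h2 := PiLp.hasFDerivAt_toLp (𝕜 := ℝ) (p := 2) (E := fun _ : Fin d => ℝ)
    (fun o => crv a (cpt N o) x n [] t z)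
  exact h2.comp_hasDerivAt t h1

theorem GradLip.crvV_jet (hN : GradLip N L) (hT : 0 < T) (hTa : T ^ 2 < a) (z : E d) (n : ℕ) :
    EqOn (iteratedDerivWithin n (fun t => crvV a N x 0 t z) (Icc 0 T))
      (fun t => crvV a N x n t z) (Icc 0 T) := by
  induction n with
  | zero =>
    intro t _
    rw [iteratedDerivWithin_zero]
  | succ n ih =>
    intro t ht
    rw [iteratedDerivWithin_succ, derivWithin_congr ih (ih ht)]
    exact ((hN.hasDerivAt_crvV n ((pow_le_pow_left₀ ht.1 ht.2 2).trans_lt hTa) z).hasDerivWithinAt).derivWithin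
      (uniqueDiffOn_Icc hT t ht)

theorem GradLip.crvV_contDiffOn (hN : GradLip N L) (hT : 0 < T) (hTa : T ^ 2 < a) (z : E d)
    (n : ℕ) : ContDiffOn ℝ n (fun t => crvV a N x 0 t z) (Icc 0 T) := by
  refine (contDiffOn_nat_iff_continuousOn_differentiableOn_deriv (uniqueDiffOn_Icc hT)).2
    ⟨fun m _ => ?_, fun m _ => ?_⟩
  · exact ContinuousOn.congr (fun t ht => ((hN.hasDerivAt_crvV m
      ((pow_le_pow_left₀ ht.1 ht.2 2).trans_lt hTa) z).continuousAt.continuousWithinAt))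
      (hN.crvV_jet hT hTa z m)
  · exact DifferentiableOn.congr (fun t ht => ((hN.hasDerivAt_crvV m
      ((pow_le_pow_left₀ ht.1 ht.2 2).trans_lt hTa) z).differentiableAt.differentiableWithinAt))
      (hN.crvV_jet hT hTa z m)

theorem GradLip.crvV_continuous (hN : GradLip N L) {t : ℝ} (ht : t ^ 2 < a) (n : ℕ) :
    Continuous (crvV a N x n t) :=
  (PiLp.continuous_toLp 2 _).comp (continuous_pi fun o =>
    (contDiff_crv (contDiff_G_lip (hN.contDiff_cpt o) (hN.lip_cpt o) (by linarith)) n []).continuous)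

theorem GradLip.crvV_l2 (hN : GradLip N L) {t : ℝ} (ht : t ^ 2 < a) (hts : |t| ≤ √(a - t ^ 2))
    {n : ℕ} (hn : 1 ≤ n) :
    Integrable (fun z => ‖crvV a N x n t z‖ ^ 2) (γ d) ∧
      ∫ z, ‖crvV a N x n t z‖ ^ 2 ∂γ d
        ≤ bL2 1 n * (d * (2 ^ ((n + nL2 n) * (n + nL2 n)) * L / √(a - t ^ 2) ^ (n - 1)) ^ 2) := by
  have e : ∀ z, ‖crvV a N x n t z‖ ^ 2 = ∑ o, crv a (cpt N o) x n [] t z ^ 2 := fun z => by
    rw [EuclideanSpace.real_norm_sq_eq]
    rfl
  simp only [e]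
  refine ⟨?_, ?_⟩
  · have hT := (hN.cre_crvT (x := x) ht hts (scP_gPot (α := Fin d)) (nL2 n) n 0 hn).temp temp_gPot
    refine integrable_finsetSum _ fun o _ => integrable_temp ?_
    have h := (hT (Sum.elim (fun _ => o) finZeroElim)).pow 2
    simp only [crvT, List.ofFn_zero, Sum.elim_inl] at h
    exact h
  · rw [show γ d = stdGaussian (Sp (Fin d)) from rfl, integral_stdGaussian_eq]
    exact hN.curve_L2 pot_gPot scP_gPot hn (rb_gHess _) ht hts

theorem GradLip.crvV_one (hN : GradLip N L) (ha : 0 < a) (z : E d) :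
    crvV a N x 1 0 z = fderiv ℝ (Quarter.G a N) x z := by
  ext o
  have hs : ContDiff ℝ (⊤ : ℕ∞) (Quarter.G (a - (0 : ℝ) ^ 2) (cpt N o)) :=
    contDiff_G_lip (hN.contDiff_cpt o) (hN.lip_cpt o) (by simpa using ha)
  show crv a (cpt N o) x 1 [] 0 z = _
  rw [crv_rec hs 0 [] z, ← (hN.G ha).dv_cpt o z x, hN.G_cpt a o, dv]
  simp only [Nat.cast_zero, zero_mul, sub_zero]
  conv_rhs => rw [← (EuclideanSpace.basisFun (Fin d) ℝ).sum_repr z, map_sum]
  simp [crv_zero, dc, dl_cons, dl_nil, dv, unitV]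

/-- The interpolation error of the smoothed node in `L²`. -/
theorem exists_gauss_adj (M : ℕ) : ∃ C : ℝ, 0 ≤ C ∧ ∀ (d : ℕ) (V : Pt d → ℝ), Mem V →
    ∀ v a T : ℝ, 0 < v → 0 < a → 0 < T → 2 * T ≤ a → ∀ x : E d,
      Integrable (fun z => ‖(∑ j, lw' (eqNode (M + 1) 0 T) j 0 •
          Quarter.G (a ^ 2 - eqNode (M + 1) 0 T j ^ 2) (Nv V v) (x + eqNode (M + 1) 0 T j • z))
        - fderiv ℝ (Quarter.G (a ^ 2) (Nv V v)) x z‖ ^ 2) (γ d) ∧
      ∫ z, ‖(∑ j, lw' (eqNode (M + 1) 0 T) j 0 •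
          Quarter.G (a ^ 2 - eqNode (M + 1) 0 T j ^ 2) (Nv V v) (x + eqNode (M + 1) 0 T j • z))
        - fderiv ℝ (Quarter.G (a ^ 2) (Nv V v)) x z‖ ^ 2 ∂γ d
        ≤ C * d * ((2 * T / a) ^ (M + 1)) ^ 2 := by
  obtain ⟨C₀, hC₀, hleb⟩ := exists_eqNode_bound (M + 1)
  set K : ℝ := 2 ^ ((M + 1 + 1 + nL2 (M + 1 + 1)) * (M + 1 + 1 + nL2 (M + 1 + 1))) * 2
  set b := bL2 1 (M + 1 + 1)
  have hb : 0 ≤ b := bL2_nonneg zero_le_one _
  refine ⟨(1 + C₀) ^ 2 * (b * K ^ 2), by positivity, fun d V hV v a T hv ha hT hTa x => ?_⟩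
  have hN : GradLip (Nv V v) 2 :=
    ⟨(Nv_smooth hV hv).1.of_le (by simp), fun y => Nv_fderiv_le hV hv y⟩
  have hTa2 : T ^ 2 < a ^ 2 := by nlinarith
  have hs : ∀ t ∈ Icc 0 T, t ^ 2 < a ^ 2 ∧ |t| ≤ √(a ^ 2 - t ^ 2) ∧ a / 2 ≤ √(a ^ 2 - t ^ 2) := by
    intro t ht
    have h1 : t ^ 2 ≤ T ^ 2 := pow_le_pow_left₀ ht.1 ht.2 2
    have h2 : a / 2 ≤ √(a ^ 2 - t ^ 2) :=
      Real.le_sqrt_of_sq_le (by nlinarith [mul_le_mul hTa hTa (by positivity) ha.le])
    exact ⟨by linarith, by rw [abs_of_nonneg ht.1]; linarith [ht.2], h2⟩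
  set B := b * (d * (K / (a / 2) ^ (M + 1)) ^ 2)
  have hB : ∀ t ∈ Icc 0 T, Integrable (fun z => ‖crvV (a ^ 2) (Nv V v) x (M + 1 + 1) t z‖ ^ 2) (γ d) ∧
      ∫ z, ‖crvV (a ^ 2) (Nv V v) x (M + 1 + 1) t z‖ ^ 2 ∂γ d ≤ B := by
    intro t ht
    obtain ⟨h1, h2, h3⟩ := hs t ht
    obtain ⟨i1, i2⟩ := hN.crvV_l2 (x := x) h1 h2 (n := M + 1 + 1) (by omega)
    refine ⟨i1, i2.trans ?_⟩
    rw [Nat.add_sub_cancel]
    simp only [B, K]
    gcongr
  let p : ℝ → Icc (0 : ℝ) T := projIcc 0 T hT.le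
  obtain ⟨hI, hI'⟩ := topI_l2_of_le (M := M + 1) (B := B) hT.le
    (f := fun z t => crvV (a ^ 2) (Nv V v) x 0 t z)
    (Ψ := fun t z => crvV (a ^ 2) (Nv V v) x (M + 1 + 1) (p t) z)
    (fun z => continuous_iff_continuousAt.2 fun t =>
      ContinuousAt.comp (g := fun s => crvV (a ^ 2) (Nv V v) x (M + 1 + 1) s z)
        (f := fun t => ((p t : ℝ)))
        (hN.hasDerivAt_crvV (M + 1 + 1) (hs _ (p t).2).1 z).continuousAt
        (continuous_subtype_val.comp continuous_projIcc).continuousAt)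
    (fun t => hN.crvV_continuous (hs _ (p t).2).1 _)
    (fun z t ht => by rw [hN.crvV_jet hT hTa2 z _ ht]; simp only [p, projIcc_of_mem hT.le ht])
    (fun t ht => by simp only [p, projIcc_of_mem hT.le ht]; exact hB t ht)
  set t := eqNode (M + 1) 0 T
  have hpt : ∀ z, ‖(∑ j, lw' t j 0 • Quarter.G (a ^ 2 - t j ^ 2) (Nv V v) (x + t j • z))
      - fderiv ℝ (Quarter.G (a ^ 2) (Nv V v)) x z‖
      ≤ (1 + C₀) * T ^ M * topI (M + 1) (fun t => crvV (a ^ 2) (Nv V v) x 0 t z) 0 T := by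
    intro z
    have h0 : (0 : ℝ) ^ 2 < a ^ 2 := by nlinarith
    have hD := (hN.hasDerivAt_crvV (x := x) 0 h0 z).hasDerivWithinAt (s := Icc 0 T)
    rw [hN.crvV_one (by positivity) z] at hD
    have hC : (∑ j, |lw' t j 0|) ≤ C₀ / T := by
      simpa using (hleb 0 T 0 hT ⟨le_rfl, hT.le⟩).2.1
    have h := interp_zero_bound hT hC (hN.crvV_contDiffOn hT hTa2 z _) hD
    simpa only [hN.crvV_zero] using h
  have hle := fun z => (pow_le_pow_left₀ (norm_nonneg _) (hpt z) 2).trans (le_of_eq (mul_pow _ _ 2))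
  have hint := hI.const_mul (((1 + C₀) * T ^ M) ^ 2)
  have hmeas : AEStronglyMeasurable (fun z => ‖(∑ j, lw' t j 0 •
      Quarter.G (a ^ 2 - t j ^ 2) (Nv V v) (x + t j • z))
      - fderiv ℝ (Quarter.G (a ^ 2) (Nv V v)) x z‖ ^ 2) (γ d) := by
    refine Continuous.aestronglyMeasurable ?_
    refine ((continuous_finsetSum _ fun j _ => ?_).sub (ContinuousLinearMap.continuous _)).norm.pow 2
    have hj : 0 < a ^ 2 - t j ^ 2 := sub_pos.2 (hs _ (eqNode_mem hT.le j)).1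
    have hlin : Continuous fun z : E d => x + t j • z := by fun_prop
    exact ((hN.contDiff_G hj).continuous.comp hlin).const_smul (lw' t j 0)
  have hint' := hint.mono' hmeas (Filter.Eventually.of_forall fun z => by
    rw [Real.norm_of_nonneg (sq_nonneg _)]
    exact hle z)
  refine ⟨hint', (integral_mono hint' hint hle).trans ?_⟩
  rw [integral_const_mul]
  refine (mul_le_mul_of_nonneg_left hI' (sq_nonneg _)).trans (le_of_eq ?_)
  simp only [B]
  rw [div_pow (2 * T) a, div_pow a 2, mul_pow 2 T]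
  field_simp
  ring

/-- The interpolation error of the plain node along the posterior curve, in `L²`. -/
theorem exists_curve_adj (M : ℕ) : ∃ C : ℝ, 0 ≤ C ∧ ∀ (d : ℕ) (V : Pt d → ℝ), Mem V →
    ∀ v T : ℝ, v ≤ 1 → 0 < T → 2 * T ≤ √v → ∀ (x : E d) (Z : E d → ℝ → E d),
      (∀ z, IsCur V v x T z (Z z)) →
      ∃ R : E d → ℝ,
        (∀ z, ‖(∑ j, lw' (eqNode (M + 1) 0 T) j 0 • curF V v x (Z z) (eqNode (M + 1) 0 T j))
          - fderiv ℝ (Nv V v) x z‖ ≤ R z) ∧
        Integrable (fun z => R z ^ 2) (γ d) ∧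
        ∫ z, R z ^ 2 ∂γ d ≤ C * d * ((2 * T / √v) ^ (M + 1)) ^ 2 := by
  obtain ⟨C₀, hC₀, hleb⟩ := exists_eqNode_bound (M + 1)
  obtain ⟨C₁, hC₁, hL2⟩ := exists_topI_l2 (M + 1)
  refine ⟨(1 + C₀) ^ 2 * C₁ * 2, by positivity, fun d V hV v T hv1 hT hTv x Z hZ => ?_⟩
  have hsv : 0 < √v := by linarith
  have hv : 0 < v := Real.sqrt_pos.1 hsv
  have hTv2 : 4 * T ^ 2 ≤ v := by
    nlinarith [Real.sq_sqrt hv.le, mul_le_mul hTv hTv (by positivity) hsv.le]
  obtain ⟨hcd, hint, hbd⟩ := hL2 d V hV v T (v / 2) (half_pos hv) hv1 hT (by linarith) x Z hZ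
  refine ⟨fun z => (1 + C₀) * T ^ M * topI (M + 1) (curF V v x (Z z)) 0 T, fun z => ?_, ?_, ?_⟩
  · refine interp_zero_bound hT (by simpa using (hleb 0 T 0 hT ⟨le_rfl, hT.le⟩).2.1) (hcd z)
      (cur_deriv_zero hV hv hT (by nlinarith) x z (Z z) (hZ z))
  · simp only [mul_pow]
    exact hint.const_mul _
  · simp only [mul_pow]
    rw [integral_const_mul]
    refine (mul_le_mul_of_nonneg_left hbd (by positivity)).trans (le_of_eq ?_)
    have h2 : (√v / √(v / 2)) ^ 2 = 2 := by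
      rw [div_pow, Real.sq_sqrt hv.le, Real.sq_sqrt (by linarith)]
      field_simp
    rw [show √v / (v / 2) = 2 / √v by field_simp; rw [Real.sq_sqrt hv.le],
      mul_pow ((2 / √v) ^ (M + 1)), h2]
    simp only [div_pow, mul_pow]
    field_simp
    ring

end

end Vale.Agent.P347.Zero
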