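import Vale.Agent.P347.Zero.CurvePol

/-!
# P347, exponent 0: the class of time derivatives along the posterior curve

Fields are read in the variable `w = z / r` with `r = sqrt s₀ / sqrt v`. `Gen w a` contains the
fields of weight `(1 / sqrt s₀) ^ w * (1 / r) ^ a`; it is closed under the derivative `Dfam` along
the curve, and each member is a finite creation of bounded fields for the potential of the curve.
-/

namespace Vale.Agent.P347.Zero

open MeasureTheory Real Set Finset Filter Topology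
open Vale.Agent.P347.Quarter (E)
open scoped ContDiff

noncomputable section

set_option linter.unusedSectionVars false

/-- A curve, a time and the smallest variance reached. -/
structure Par where
  d : ℕ
  V : Colour.Pt d → ℝ
  x : E d
  v : ℝ
  s₀ : ℝ
  t : ℝ

namespace Par

/-- Parameters at which the calculus holds. -/
structure Good (p : Par) : Prop where
  cls : Colour.Cls (id : Fin p.d → Fin p.d) p.V
  s_pos : 0 < p.s₀
  s_le : p.s₀ ≤ p.v
  v_le : p.v ≤ 1
  t_lt : p.t ^ 2 < p.v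

/-- Parameters at which the bounds hold. -/
structure Ok (p : Par) : Prop extends Good p where
  t_nonneg : 0 ≤ p.t
  t_le : p.t ^ 2 + p.s₀ ≤ p.v

/-- The scale of the space variable. -/
def r (p : Par) : ℝ := √p.s₀ / √p.v

/-- The variance reached. -/
abbrev q (p : Par) : YPar := ⟨p.d, p.V, p.v - p.t ^ 2⟩

/-- Another time. -/
abbrev atT (p : Par) (t : ℝ) : Par := { p with t := t }

/-- The potential. -/
def phi (p : Par) : E p.d → ℝ := phiS p.V p.v p.x p.r p.t

/-- The velocity. -/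
def vel (p : Par) (w : E p.d) : E p.d :=
  -p.r⁻¹ • Nv p.V (p.v - p.t ^ 2) (p.x + (p.t * p.r) • w)

/-- Times before the end, all points. -/
def tdom (p : Par) : Set (ℝ × E p.d) := {t : ℝ | t ^ 2 < p.v} ×ˢ univ

/-- The size of a weight. -/
def K (p : Par) (w a : ℕ) : ℝ := (1 / √p.s₀) ^ w * (√p.v / √p.s₀) ^ a

theorem isOpen_tdom (p : Par) : IsOpen p.tdom :=
  (isOpen_lt (continuous_pow 2) continuous_const).prod isOpen_univ

theorem r_pos {p : Par} (hp : p.Good) : 0 < p.r :=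
  div_pos (Real.sqrt_pos.2 hp.s_pos) (Real.sqrt_pos.2 (hp.s_pos.trans_le hp.s_le))

theorem r_le {p : Par} (hp : p.Good) : p.r ≤ 1 :=
  (div_le_one (Real.sqrt_pos.2 (hp.s_pos.trans_le hp.s_le))).2 (Real.sqrt_le_sqrt hp.s_le)

theorem good_q {p : Par} (hp : p.Good) : p.q.Good :=
  ⟨hp.cls, by show 0 < p.v - p.t ^ 2; linarith [hp.t_lt],
    by show p.v - p.t ^ 2 ≤ 1; linarith [hp.v_le, sq_nonneg p.t]⟩

theorem mem_tdom {p : Par} (hp : p.Good) (w : E p.d) : (p.t, w) ∈ p.tdom := ⟨hp.t_lt, trivial⟩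

theorem t_le_one {p : Par} (hp : p.Ok) : |p.t| ≤ 1 := by
  rw [abs_of_nonneg hp.t_nonneg]
  nlinarith [hp.t_le, hp.v_le, hp.s_pos, hp.t_nonneg]

theorem line_le {p : Par} (hp : p.Ok) : |p.t * p.r| ≤ √p.q.s := by
  have hv : 0 < √p.v := Real.sqrt_pos.2 (hp.s_pos.trans_le hp.s_le)
  rw [abs_mul, abs_of_nonneg hp.t_nonneg, abs_of_pos (r_pos hp.toGood)]
  refine le_trans ?_ (Real.sqrt_le_sqrt (show p.s₀ ≤ p.v - p.t ^ 2 by linarith [hp.t_le]))
  rw [r, mul_div_assoc', div_le_iff₀ hv, mul_comm √p.s₀]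
  refine mul_le_mul_of_nonneg_right ?_ (Real.sqrt_nonneg _)
  exact (Real.le_sqrt hp.t_nonneg (hp.s_pos.trans_le hp.s_le).le).2 (by linarith [hp.t_le, hp.s_pos])

theorem K_nonneg (p : Par) (w a : ℕ) : 0 ≤ p.K w a := by unfold K; positivity

theorem K_mul (p : Par) (w a w' a' : ℕ) : p.K w a * p.K w' a' = p.K (w + w') (a + a') := by
  simp only [K, pow_add]; ring

theorem K_mono {p : Par} (hp : p.Ok) {w a w' a' : ℕ} (hw : w ≤ w') (ha : a ≤ a') :
    p.K w a ≤ p.K w' a' := by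
  have hs : 0 < √p.s₀ := Real.sqrt_pos.2 hp.s_pos
  refine mul_le_mul (pow_le_pow_right₀ ?_ hw) (pow_le_pow_right₀ ?_ ha) (by positivity)
    (by positivity)
  · rw [le_div_iff₀ hs, one_mul]
    exact Real.sqrt_le_one.2 (hp.s_le.trans hp.v_le)
  · rw [le_div_iff₀ hs, one_mul]
    exact Real.sqrt_le_sqrt hp.s_le

end Par

/-- Fields over all parameters. -/
abbrev Fam (ι : Type) := ∀ p : Par, TF ι (Fin p.d)

/-- A field of `(s, y)` read along the curve. -/
def pullF {ι : Type} (Q : YF ι) : Fam ι := fun p => line (Q p.q) p.x (p.t * p.r)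

/-- The class. -/
inductive Gen : ℕ → ℕ → ∀ (ι : Type) [Fintype ι] [DecidableEq ι], Fam ι → Prop
  | pol {w : ℕ} {ι : Type} [Fintype ι] [DecidableEq ι] {Q : YF ι} :
      Pol w ι Q → Gen w 0 ι (pullF Q)
  | zero (w a : ℕ) {ι : Type} [Fintype ι] [DecidableEq ι] : Gen w a ι fun _ => 0
  | add {w a : ℕ} {ι : Type} [Fintype ι] [DecidableEq ι] {X Y : Fam ι} :
      Gen w a ι X → Gen w a ι Y → Gen w a ι fun p => X p + Y p
  | cmul {w a : ℕ} {ι : Type} [Fintype ι] [DecidableEq ι] {X : Fam ι} (c : ℝ) :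
      Gen w a ι X → Gen w a ι fun p z i => c * X p z i
  | tmul {w a : ℕ} {ι : Type} [Fintype ι] [DecidableEq ι] {X : Fam ι} :
      Gen w a ι X → Gen w a ι fun p z i => p.t * X p z i
  | rinv {w a : ℕ} {ι : Type} [Fintype ι] [DecidableEq ι] {X : Fam ι} :
      Gen w a ι X → Gen w (a + 1) ι fun p z i => p.r⁻¹ * X p z i
  | ren {w a : ℕ} {ι ι' : Type} [Fintype ι] [DecidableEq ι] [Fintype ι'] [DecidableEq ι'] {X : Fam ι}
      (f : ι ≃ ι') : Gen w a ι X → Gen w a ι' fun p => Zero.ren f (X p)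
  | conF {w a w' a' : ℕ} {A B R : Type} [Fintype A] [DecidableEq A] [Fintype B] [DecidableEq B]
      [Fintype R] [DecidableEq R] [Nonempty A] [Nonempty B] [Nonempty R] {X : Fam (A ⊕ R)}
      {Y : Fam (R ⊕ B)} : Gen w a (A ⊕ R) X → Gen w' a' (R ⊕ B) Y →
        Gen (w + w') (a + a') (A ⊕ B) fun p => Zero.conF (X p) (Y p)
  | dlt {w a : ℕ} {ι : Type} [Fintype ι] [DecidableEq ι] [Nonempty ι] {X : Fam (Option ι)} :
      Gen w a (Option ι) X → Gen w a ι fun p => Zero.dlt (scP p.phi) (X p)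
  | mono {w a w' a' : ℕ} {ι : Type} [Fintype ι] [DecidableEq ι] {X : Fam ι} (hw : w ≤ w')
      (ha : a ≤ a') : Gen w a ι X → Gen w' a' ι X

/-! ## Bounds -/

theorem hessT_phi {p : Par} (hp : p.Good) :
    hessT p.phi = fun w i => p.r ^ 2 * (if i (Sum.inl ()) = i (Sum.inr ()) then 1 else 0)
      + p.r * p.t * (p.t * p.r) * pullF V1m p w (fun o => i o.swap) := by
  funext w i
  have hq := Par.good_q hp
  have hd : ∀ j, Differentiable ℝ fun w : E p.d => Nv p.V (p.v - p.t ^ 2)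
      (p.x + (p.t * p.r) • w) j := fun j => by
    have := ((Nv_smooth hp.cls hq.pos).2 fun _ => j).differentiable (by simp)
    exact this.comp (by fun_prop)
  show pd (i (Sum.inl ())) (pd (i (Sum.inr ())) p.phi) w = _
  set j := i (Sum.inr ())
  rw [show pd j p.phi = fun w => p.r ^ 2 * w j
      + p.r * p.t * Nv p.V (p.v - p.t ^ 2) (p.x + (p.t * p.r) • w) j from
    funext fun w => pd_phiS hp.cls hp.t_lt j w]
  have h1 : HasFDerivAt (fun w : E p.d => w j) (EuclideanSpace.proj j : E p.d →L[ℝ] ℝ) w :=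
    (EuclideanSpace.proj j : E p.d →L[ℝ] ℝ).hasFDerivAt
  have h2 := (((Nv_smooth hp.cls hq.pos).2 fun _ => j).differentiable (by simp)
    (p.x + (p.t * p.r) • w)).hasFDerivAt.comp w
      (((hasFDerivAt_id w).const_smul (p.t * p.r)).const_add p.x)
  refine (DFunLike.congr_fun ((h1.const_mul (p.r ^ 2)).fun_add
    (h2.const_mul (p.r * p.t))).fderiv (unitV (i (Sum.inl ())))).trans ?_
  simp only [pullF, line, V1m_apply hq]
  simp [unitV, vecT, pd, PiLp.single_apply, eq_comm, mul_assoc, j, Sum.swap]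

theorem BN.id_mat {α : Type} [Fintype α] [DecidableEq α] :
    BN (fun i : Unit ⊕ Unit → α => if i (Sum.inl ()) = i (Sum.inr ()) then (1 : ℝ) else 0) 1 := by
  intro κ κ' _ _ _ _ hk hk' e
  have hc : Fintype.card κ + Fintype.card κ' = 2 := by
    simpa using Fintype.card_congr e
  have hk1 : 0 < Fintype.card κ := Fintype.card_pos_iff.2 hk
  have hk2 : 0 < Fintype.card κ' := Fintype.card_pos_iff.2 hk'
  obtain ⟨k₀, hk₀⟩ := Fintype.card_eq_one_iff.1 (show Fintype.card κ = 1 by omega)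
  obtain ⟨k₁, hk₁⟩ := Fintype.card_eq_one_iff.1 (show Fintype.card κ' = 1 by omega)
  have : Unique κ := ⟨⟨k₀⟩, hk₀⟩
  have : Unique κ' := ⟨⟨k₁⟩, hk₁⟩
  intro a b
  have hfl : ∀ (x : κ → α) (y : κ' → α),
      flat e (fun i : Unit ⊕ Unit → α => if i (Sum.inl ()) = i (Sum.inr ()) then (1 : ℝ) else 0) x y
        = if x k₀ = y k₁ then 1 else 0 := by
    intro x y
    simp only [flat]
    have hs : ∀ z : κ ⊕ κ', (∃ u, z = Sum.inl u) ∨ ∃ u, z = Sum.inr u := fun z => by
      rcases z with u | u <;> simp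
    rcases hs (e.symm (Sum.inl ())) with ⟨u, h0⟩ | ⟨u, h0⟩ <;>
      rcases hs (e.symm (Sum.inr ())) with ⟨u', h1⟩ | ⟨u', h1⟩
    · exact absurd (e.symm.injective (h0.trans ((by rw [hk₀ u, hk₀ u'] : Sum.inl u = Sum.inl u').trans
        h1.symm))) Sum.inl_ne_inr
    · simp [h0, h1, hk₀ u, hk₁ u']
    · simp [h0, h1, hk₁ u, hk₀ u', eq_comm]
    · exact absurd (e.symm.injective (h0.trans ((by rw [hk₁ u, hk₁ u'] : Sum.inr u = Sum.inr u').trans
        h1.symm))) Sum.inl_ne_inr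
  let eq : (κ → α) ≃ (κ' → α) :=
    (Equiv.funUnique κ α).trans (Equiv.funUnique κ' α).symm
  have key : ∀ (x : κ → α) (y : κ' → α), (x k₀ = y k₁) ↔ y = eq x := fun x y => by
    constructor
    · intro h; funext z
      rw [hk₁ z, ← h]
      simp [eq, Equiv.funUnique, hk₀ default]
    · intro h; rw [h]; simp [eq, Equiv.funUnique, hk₀ default]
  calc ∑ x, ∑ y, flat e _ x y * a x * b y = ∑ x, a x * (b ∘ eq) x := by
        refine sum_congr rfl fun x _ => ?_
        simp only [hfl, key]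
        rw [Finset.sum_eq_single (eq x)] <;> simp +contextual
    _ ≤ nrm a * nrm (b ∘ eq) := inner_le _ _
    _ = 1 * nrm a * nrm b := by rw [nrm_comp, one_mul]

theorem rb_const {ι α : Type} [Fintype ι] [DecidableEq ι] [Fintype α] [DecidableEq α] (n : ℕ)
    {T : Ten ι α} {c : ℝ} (hc0 : 0 ≤ c) (hT : BN T c) : RB n (fun _ => T : TF ι α) c := by
  have ht : Temp (fun _ => T : TF ι α) := fun i => Function.HasTemperateGrowth.const (T i)
  have hg : gradT (fun _ => T : TF ι α) = 0 := by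
    funext z i; simp [gradT]
  have hc : ∀ z : Sp α, BN T c := fun _ => hT
  cases n with
  | zero => exact ⟨ht, hc⟩
  | succ n =>
    refine ⟨ht, hc, ?_⟩
    rw [hg]
    exact RB.zero n c hc0

theorem exists_rb_hess (n : ℕ) :
    ∃ L : ℝ, 0 ≤ L ∧ ∀ p : Par, p.Ok → RB n (hessT p.phi) L := by
  obtain ⟨C, hC, h⟩ := ((Pol.atom 0).ren e11).exists_rb n
  refine ⟨1 + C, by linarith, fun p hp => ?_⟩
  have hq := Par.good_q hp.toGood
  have h1 := (h p.q hq p.x (p.t * p.r) (Par.line_le hp))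
  rw [pow_zero, div_one] at h1
  have hr := Par.r_pos hp.toGood
  have hr1 := Par.r_le hp.toGood
  have ht := Par.t_le_one hp
  have a1 := (rb_const (α := Fin p.d) n zero_le_one BN.id_mat).smul (p.r ^ 2)
  have a2 := (h1.ren (Equiv.sumComm Unit Unit)).smul (p.r * p.t * (p.t * p.r))
  rw [hessT_phi hp.toGood]
  refine (a1.add a2).of_le le_rfl (add_le_add ?_ ?_)
  · rw [mul_one, abs_of_nonneg (sq_nonneg _)]
    exact pow_le_one₀ hr.le hr1
  · refine mul_le_of_le_one_left hC ?_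
    simp only [abs_mul, abs_of_pos hr]
    exact mul_le_one₀ (mul_le_one₀ hr1 (abs_nonneg _) ht) (by positivity)
      (mul_le_one₀ ht hr.le hr1)

theorem Cre.lift {α ι : Type} [Fintype α] [DecidableEq α] [Fintype ι] [DecidableEq ι]
    {Φ : Sp α → ℝ} {j j' n : ℕ} {X : TF ι α} {K : ℝ} (h : Cre Φ j n X K) (hj : j ≤ j') :
    Cre Φ j' n X K := by
  induction hj with
  | refl => exact h
  | step _ ih => exact ih.succ

theorem Par.temp_phi {p : Par} (hp : p.Ok) : p.phi.HasTemperateGrowth :=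
  (pot_phiS hp.cls hp.v_le hp.t_lt (Par.r_pos hp.toGood)).temp

/-- Every member is a creation of bounded fields. -/
theorem Gen.exists_cre {w a : ℕ} {ι : Type} [Fintype ι] [DecidableEq ι] {X : Fam ι}
    (h : Gen w a ι X) : ∃ j, ∀ n, ∃ C : ℝ, 0 ≤ C ∧ ∀ p : Par, p.Ok →
      Cre p.phi j n (X p) (C * p.K w a) := by
  induction h with
  | @pol w ι _ _ Q hQ =>
    refine ⟨0, fun n => ?_⟩
    obtain ⟨C, hC, h⟩ := hQ.exists_rb n
    obtain ⟨i, i', hi⟩ := hQ.two
    refine ⟨C, hC, fun p hp => Cre.base ((h p.q (Par.good_q hp.toGood) p.x (p.t * p.r)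
      (Par.line_le hp)).of_le le_rfl ?_) (mul_nonneg hC (p.K_nonneg w 0)) hi⟩
    rw [Par.K, pow_zero, mul_one, one_div, inv_pow, ← div_eq_mul_inv]
    have hs : 0 < √p.s₀ := Real.sqrt_pos.2 hp.s_pos
    exact div_le_div_of_nonneg_left hC (by positivity) (pow_le_pow_left₀ hs.le
      (Real.sqrt_le_sqrt (show p.s₀ ≤ p.v - p.t ^ 2 by linarith [hp.t_le])) w)
  | zero w a =>
    exact ⟨0, fun n => ⟨0, le_rfl, fun p _ => Cre.zero 0 n (by simp)⟩⟩
  | add _ _ ih ih' =>
    obtain ⟨j, hj⟩ := ih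
    obtain ⟨j', hj'⟩ := ih'
    refine ⟨max j j', fun n => ?_⟩
    obtain ⟨C, hC, h⟩ := hj n
    obtain ⟨C', hC', h'⟩ := hj' n
    exact ⟨C + C', add_nonneg hC hC', fun p hp => (((h p hp).lift (le_max_left j j')).add
      (Par.temp_phi hp) ((h' p hp).lift (le_max_right j j'))).of_le le_rfl (add_mul C C' _).ge⟩
  | cmul c _ ih =>
    obtain ⟨j, hj⟩ := ih
    refine ⟨j, fun n => ?_⟩
    obtain ⟨C, hC, h⟩ := hj n
    exact ⟨|c| * C, by positivity, fun p hp => ((h p hp).smul (Par.temp_phi hp) c).of_le le_rfl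
      (mul_assoc _ _ _).ge⟩
  | tmul _ ih =>
    obtain ⟨j, hj⟩ := ih
    refine ⟨j, fun n => ?_⟩
    obtain ⟨C, hC, h⟩ := hj n
    exact ⟨C, hC, fun p hp => ((h p hp).smul (Par.temp_phi hp) p.t).of_le le_rfl
      (mul_le_of_le_one_left (mul_nonneg hC (p.K_nonneg _ _)) (Par.t_le_one hp))⟩
  | rinv _ ih =>
    obtain ⟨j, hj⟩ := ih
    refine ⟨j, fun n => ?_⟩
    obtain ⟨C, hC, h⟩ := hj n
    refine ⟨C, hC, fun p hp => ((h p hp).smul (Par.temp_phi hp) p.r⁻¹).of_le le_rfl (le_of_eq ?_)⟩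
    rw [abs_inv, abs_of_pos (Par.r_pos hp.toGood), Par.K, Par.K, pow_succ, Par.r, inv_div]
    ring
  | ren f _ ih =>
    obtain ⟨j, hj⟩ := ih
    refine ⟨j, fun n => ?_⟩
    obtain ⟨C, hC, h⟩ := hj n
    exact ⟨C, hC, fun p hp => (h p hp).ren f⟩
  | conF _ _ ih ih' =>
    obtain ⟨j, hj⟩ := ih
    obtain ⟨j', hj'⟩ := ih'
    refine ⟨j + j', fun n => ?_⟩
    obtain ⟨C, hC, h⟩ := hj (n + j + j' * (j + 1))
    obtain ⟨C', hC', h'⟩ := hj' (n + j + j' * (j + 1))
    obtain ⟨L, hL, hH⟩ := exists_rb_hess (n + j + j' * (j + 1))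
    refine ⟨cC j n L j' * (C * C'), mul_nonneg (cC_nonneg j n hL j') (mul_nonneg hC hC'),
      fun p hp => ((h p hp).conF (Par.temp_phi hp) hL (hH p hp) (h' p hp)).of_le le_rfl
        (le_of_eq ?_)⟩
    rw [← Par.K_mul]
    ring
  | dlt _ ih =>
    obtain ⟨j, hj⟩ := ih
    refine ⟨j + 1, fun n => ?_⟩
    obtain ⟨C, hC, h⟩ := hj n
    exact ⟨C, hC, fun p hp => (h p hp).dlt⟩
  | mono hw ha _ ih =>
    obtain ⟨j, hj⟩ := ih
    refine ⟨j, fun n => ?_⟩
    obtain ⟨C, hC, h⟩ := hj n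
    exact ⟨C, hC, fun p hp => (h p hp).of_le le_rfl
      (mul_le_mul_of_nonneg_left (Par.K_mono hp hw ha) hC)⟩

/-! ## The derivative along the curve -/

/-- A component as a function of time and space. -/
def sl {ι : Type} (X : Fam ι) (p : Par) (i : ι → Fin p.d) : ℝ × E p.d → ℝ :=
  fun u => X (p.atT u.1) u.2 i

/-- Joint smoothness. -/
def Smj {ι : Type} (X : Fam ι) : Prop :=
  ∀ p : Par, p.Good → ∀ i, ContDiffOn ℝ ∞ (sl X p i) p.tdom

/-- The derivative along the curve. -/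
def Dfam {ι : Type} (X : Fam ι) : Fam ι := fun p w i => fderiv ℝ (sl X p i) (p.t, w) (1, p.vel w)

/-- Equality of families at admissible parameters. -/
def EqF {ι : Type} (X Y : Fam ι) : Prop := ∀ p : Par, p.Good → X p = Y p

theorem good_atT {p : Par} (hp : p.Good) {t : ℝ} (ht : t ^ 2 < p.v) : (p.atT t).Good :=
  ⟨hp.cls, hp.s_pos, hp.s_le, hp.v_le, ht⟩

theorem EqF.sl_eq {ι : Type} {X Y : Fam ι} (h : EqF X Y) {p : Par} (hp : p.Good) (w : E p.d)
    (i : ι → Fin p.d) : sl X p i =ᶠ[𝓝 (p.t, w)] sl Y p i :=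
  Filter.eventuallyEq_of_mem (p.isOpen_tdom.mem_nhds (Par.mem_tdom hp w)) fun u hu =>
    congrFun (congrFun (h (p.atT u.1) (good_atT hp hu.1)) u.2) i

theorem EqF.dfam {ι : Type} {X Y : Fam ι} (h : EqF X Y) : EqF (Dfam X) (Dfam Y) := fun p hp => by
  funext w i
  show fderiv ℝ _ _ _ = fderiv ℝ _ _ _
  rw [(h.sl_eq hp w i).fderiv_eq]

theorem EqF.smj {ι : Type} {X Y : Fam ι} (h : EqF X Y) (hY : Smj Y) : Smj X := fun p hp i =>
  (hY p hp i).congr fun u hu => congrFun (congrFun (h (p.atT u.1) (good_atT hp hu.1)) u.2) i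

theorem Smj.hasFDerivAt {ι : Type} {X : Fam ι} (hX : Smj X) {p : Par} (hp : p.Good) (w : E p.d)
    (i : ι → Fin p.d) :
    HasFDerivAt (sl X p i) (fderiv ℝ (sl X p i) (p.t, w)) (p.t, w) :=
  (((hX p hp i).contDiffAt (p.isOpen_tdom.mem_nhds (Par.mem_tdom hp w))).differentiableAt
    (by simp)).hasFDerivAt

theorem Smj.pd_sl {ι : Type} {X : Fam ι} (hX : Smj X) {p : Par} (hp : p.Good) (w : E p.d)
    (i : ι → Fin p.d) (j : Fin p.d) :
    pd j (fun w => X p w i) w = fderiv ℝ (sl X p i) (p.t, w) (0, unitV j) := by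
  have h := ((hX.hasFDerivAt hp w i).comp w
    ((hasFDerivAt_const p.t w).prodMk (hasFDerivAt_id w))).fderiv
  rw [pd, show (fun w => X p w i) = sl X p i ∘ fun w => (p.t, w) from rfl, h]
  simp

theorem Smj.differentiableAt {ι : Type} {X : Fam ι} (hX : Smj X) {p : Par} (hp : p.Good)
    (w : E p.d) (i : ι → Fin p.d) : DifferentiableAt ℝ (fun w => X p w i) w :=
  ((hX.hasFDerivAt hp w i).comp w
    ((hasFDerivAt_const p.t w).prodMk (hasFDerivAt_id w))).differentiableAt

/-- The argument of a field along the curve. -/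
def arg (p : Par) (u : ℝ × E p.d) : ℝ × E p.d := (p.v - u.1 ^ 2, p.x + (u.1 * p.r) • u.2)

theorem contDiff_arg (p : Par) : ContDiff ℝ ∞ (arg p) := by
  unfold arg; fun_prop

theorem smj_VK (k : ℕ) : Smj (pullF (VK k)) := fun p hp i =>
  (contDiffOn_VK (q := p.q) hp.cls k i).comp (f := arg p) (contDiff_arg p).contDiffOn
    fun u hu => mem_dom (show 0 < p.v - u.1 ^ 2 by linarith [(show u.1 ^ 2 < p.v from hu.1)]) _

theorem Pol.smj {w : ℕ} {ι : Type} [Fintype ι] [DecidableEq ι] {Q : YF ι} (h : Pol w ι Q) :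
    Smj (pullF Q) := by
  induction h with
  | atom k => exact smj_VK (k + 1)
  | zero w i i' hi => exact fun p _ j => contDiffOn_const
  | add _ _ ih ih' => exact fun p hp i => (ih p hp i).add (ih' p hp i)
  | ren f _ ih => exact fun p hp i => ih p hp (i ∘ f)
  | conF _ _ ih ih' => exact fun p hp i =>
    (ContDiffOn.sum (s := univ) fun r _ => (ih p hp (Sum.elim (i ∘ Sum.inl) r)).mul
      (ih' p hp (Sum.elim r (i ∘ Sum.inr))) :)
  | mono _ _ ih => exact ih

theorem sl_dlt {ι : Type} [Fintype ι] [DecidableEq ι] {X : Fam (Option ι)} (hX : Smj X) {p : Par}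
    (hp : p.Good) (i : ι → Fin p.d) {u : ℝ × E p.d} (hu : u ∈ p.tdom) :
    sl (fun p => Zero.dlt (scP p.phi) (X p)) p i u
      = ∑ j, ((p.r ^ 2 * u.2 j + p.r * u.1 * sl (pullF (VK 0)) p (fun _ => j) u)
            * sl X p (ext j i) u - fderiv ℝ (sl X p (ext j i)) u (0, unitV j)) := by
  show Zero.dlt (scP (p.atT u.1).phi) (X (p.atT u.1)) u.2 i = _
  rw [dlt_eq]
  refine sum_congr rfl fun j _ => ?_
  rw [dd, show pd j (p.atT u.1).phi u.2 = _ from pd_phiS hp.cls hu.1 j u.2,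
    hX.pd_sl (good_atT hp hu.1) u.2 (ext j i) j]
  simp only [sl, pullF, line, VK_zero_apply]
  rfl

theorem Gen.smj {w a : ℕ} {ι : Type} [Fintype ι] [DecidableEq ι] {X : Fam ι} (h : Gen w a ι X) :
    Smj X := by
  induction h with
  | pol hQ => exact hQ.smj
  | zero w a => exact fun p _ i => contDiffOn_const
  | add _ _ ih ih' => exact fun p hp i => (ih p hp i).add (ih' p hp i)
  | cmul c _ ih => exact fun p hp i => contDiffOn_const.mul (ih p hp i)
  | tmul _ ih => exact fun p hp i => contDiff_fst.contDiffOn.mul (ih p hp i)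
  | rinv _ ih => exact fun p hp i => (contDiffOn_const (c := p.r⁻¹)).mul (ih p hp i)
  | ren f _ ih => exact fun p hp i => ih p hp (i ∘ f)
  | conF _ _ ih ih' => exact fun p hp i =>
    (ContDiffOn.sum (s := univ) fun r _ => (ih p hp (Sum.elim (i ∘ Sum.inl) r)).mul
      (ih' p hp (Sum.elim r (i ∘ Sum.inr))) :)
  | dlt hX ih =>
    intro p hp i
    refine ContDiffOn.congr ?_ fun u hu => sl_dlt ih hp i hu
    refine ContDiffOn.sum fun j _ => (((contDiffOn_const.mul
      ((EuclideanSpace.proj j : E p.d →L[ℝ] ℝ).contDiff.comp contDiff_snd).contDiffOn).add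
        ((contDiffOn_const.mul contDiff_fst.contDiffOn).mul (smj_VK 0 p hp _))).mul
          (ih p hp _)).sub ?_
    exact ((ih p hp _).fderiv_of_isOpen p.isOpen_tdom (by simp)).clm_apply contDiffOn_const
  | mono _ _ _ ih => exact ih

theorem dfam_zero {ι : Type} : Dfam (fun _ => 0 : Fam ι) = fun _ => 0 := by
  funext p w i
  show fderiv ℝ (fun _ : ℝ × E p.d => (0 : ℝ)) (p.t, w) _ = (0 : ℝ)
  simp

theorem dfam_add {ι : Type} {X Y : Fam ι} (hX : Smj X) (hY : Smj Y) :
    EqF (Dfam fun p => X p + Y p) fun p => Dfam X p + Dfam Y p := fun p hp => by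
  funext w i
  exact DFunLike.congr_fun ((hX.hasFDerivAt hp w i).fun_add (hY.hasFDerivAt hp w i)).fderiv _

theorem dfam_const_mul {ι : Type} {X : Fam ι} (hX : Smj X) (c : Par → ℝ)
    (hc : ∀ p t, c (Par.atT p t) = c p) :
    EqF (Dfam fun p z i => c p * X p z i) fun p z i => c p * Dfam X p z i := fun p hp => by
  funext w i
  show fderiv ℝ (fun u => c (p.atT u.1) * sl X p i u) (p.t, w) _ = _
  simp only [hc]
  rw [((hX.hasFDerivAt hp w i).const_mul (c p)).fderiv]
  rfl

theorem dfam_tmul {ι : Type} {X : Fam ι} (hX : Smj X) :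
    EqF (Dfam fun p z i => p.t * X p z i) fun p z i => X p z i + p.t * Dfam X p z i := fun p hp => by
  funext w i
  show fderiv ℝ (fun u => u.1 * sl X p i u) (p.t, w) _ = _
  rw [(hasFDerivAt_fst.fun_mul (hX.hasFDerivAt hp w i)).fderiv]
  simp [Dfam, sl]
  ring

theorem dfam_conF {A B R : Type} [Fintype A] [DecidableEq A] [Fintype B] [DecidableEq B] [Fintype R]
    [DecidableEq R] {X : Fam (A ⊕ R)} {Y : Fam (R ⊕ B)} (hX : Smj X) (hY : Smj Y) :
    EqF (Dfam fun p => Zero.conF (X p) (Y p))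
      fun p => Zero.conF (Dfam X p) (Y p) + Zero.conF (X p) (Dfam Y p) := fun p hp => by
  funext w i
  show fderiv ℝ (fun u => ∑ r : R → Fin p.d, sl X p (Sum.elim (i ∘ Sum.inl) r) u
    * sl Y p (Sum.elim r (i ∘ Sum.inr)) u) (p.t, w) _ = _
  rw [(HasFDerivAt.fun_sum (u := univ) fun r _ =>
    (hX.hasFDerivAt hp w _).fun_mul (hY.hasFDerivAt hp w _)).fderiv]
  simp only [_root_.sum_apply, add_apply, smul_apply, smul_eq_mul, Pi.add_apply,
    Zero.conF, con, ← sum_add_distrib]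
  refine sum_congr rfl fun r _ => ?_
  simp only [Dfam, sl]
  ring

theorem dfam_VK (k : ℕ) :
    EqF (Dfam (pullF (VK k))) fun p z i => p.r⁻¹ * Zero.dlt (scP p.phi)
        (pullF (fun q => Zero.ren (eK k) (VK (k + 1) q)) p) z i
      + 2 * (p.t * pullF (Qy k) p z i) := fun p hp => by
  funext w i
  have hq := Par.good_q hp
  have hr := (Par.r_pos hp).ne'
  set s := p.v - p.t ^ 2
  set y := p.x + (p.t * p.r) • w
  set c := p.t * p.r
  set N := Nv p.V s y
  set f := fun y => VK k p.q y i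
  have hf : f.HasTemperateGrowth := temp_VK hq k i
  set F := fun u : ℝ × E p.d => VK k ⟨p.d, p.V, u.1⟩ u.2 i
  have hF : ContDiffOn ℝ ∞ F (dom p.d) := contDiffOn_VK (q := p.q) hp.cls k i
  have hs : 0 < s := hq.pos
  have ha : HasFDerivAt (fun u : ℝ × E p.d => arg p u)
      ((((-(2 * p.t)) • ContinuousLinearMap.fst ℝ ℝ (E p.d))).prod
        ((ContinuousLinearMap.fst ℝ ℝ (E p.d)).smulRight (p.r • w)
          + c • ContinuousLinearMap.snd ℝ ℝ (E p.d))) (p.t, w) := by
    have h1 : HasFDerivAt (fun u : ℝ × E p.d => p.v - u.1 ^ 2)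
        ((-(2 * p.t)) • ContinuousLinearMap.fst ℝ ℝ (E p.d)) (p.t, w) := by
      refine ((hasFDerivAt_fst (p := (p.t, w))).pow 2 |>.const_sub p.v).congr_fderiv ?_
      ext <;> simp
    refine h1.prodMk (((((hasFDerivAt_fst (p := (p.t, w))).mul_const p.r).fun_smul
      (hasFDerivAt_snd (p := (p.t, w)))).const_add p.x).congr_fderiv ?_)
    refine ContinuousLinearMap.ext fun z => ?_
    simp [smul_smul, c, mul_comm p.r z.1, add_comm]
  have h := (HasFDerivAt.comp (g := F) (f := arg p) (p.t, w) (hasFDerivAt_dom hF hs y) ha).fderiv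
  have e1 := (hasDerivAt_slice hF hs y).unique (hasDerivAt_VK (q := p.q) hp.cls k hs hq.le y i)
  have e2 : ∀ u : E p.d, fderiv ℝ F (s, y) (0, u) = ∑ j, u j * pd j f y := by
    intro u
    have hu : u = ∑ j, u j • unitV j := by
      simpa [unitV] using ((EuclideanSpace.basisFun (Fin p.d) ℝ).sum_repr u).symm
    have h2 := DFunLike.congr_fun (hasFDerivAt_slice hF hs y).fderiv u
    simp only [ContinuousLinearMap.comp_apply, ContinuousLinearMap.inr_apply] at h2
    rw [← h2]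
    conv_lhs => rw [hu]
    simp only [map_sum, map_smul, smul_eq_mul]
    rfl
  have e3 : ∀ j z, pullF (fun q => Zero.ren (eK k) (VK (k + 1) q)) p z (ext j i)
      = pd j f (p.x + c • z) := fun j z => by
    show Zero.ren (eK k) (VK (k + 1) p.q) (p.x + c • z) (ext j i) = _
    rw [← gradT_VK hq k]
    rfl
  have e4 : ∀ j, pd j (fun z => pd j f (p.x + c • z)) w = c * pd j (pd j f) y := fun j => by
    have h4 := (((temp_pd hf j).1.differentiable (by simp) y).hasFDerivAt.comp w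
      (((hasFDerivAt_id w).const_smul c).const_add p.x)).fderiv
    refine (DFunLike.congr_fun h4 (unitV j)).trans ?_
    simp [pd, y]
  show fderiv ℝ (fun u => F (arg p u)) (p.t, w) (1, p.vel w) = _
  rw [show fderiv ℝ (fun u => F (arg p u)) (p.t, w) = _ from h]
  simp only [ContinuousLinearMap.comp_apply, ContinuousLinearMap.prod_apply, smul_apply, add_apply,
    ContinuousLinearMap.smulRight_apply, ContinuousLinearMap.coe_fst', ContinuousLinearMap.coe_snd',
    one_smul, smul_eq_mul, mul_one]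
  rw [show ((-(2 * p.t), p.r • w + c • p.vel w) : ℝ × E p.d)
      = (-(2 * p.t)) • (1, 0) + (0, p.r • w + c • p.vel w) by simp, map_add, map_smul, e1, e2,
    smul_eq_mul, dlt_eq]
  simp only [dd, e3, e4, show ∀ j, pd j p.phi w = p.r ^ 2 * w j + p.r * p.t * N j from
    fun j => pd_phiS hp.cls hp.t_lt j w]
  have ev : ∀ j, (p.r • w + c • p.vel w) j = p.r * w j - p.t * N j := fun j => by
    simp [Par.vel, N, c, y, s]
    field_simp
    ring
  simp only [ev, pullF, line]
  change -(2 * p.t) * (1 / 2 * ∑ j, pd j (pd j f) y - ∑ j, N j * pd j f y - Qy k p.q y i)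
    + ∑ j, (p.r * w j - p.t * N j) * pd j f y
    = p.r⁻¹ * ∑ j, ((p.r ^ 2 * w j + p.r * p.t * N j) * pd j f y - c * pd j (pd j f) y)
      + 2 * (p.t * Qy k p.q y i)
  simp only [mul_sub, Finset.mul_sum, Finset.sum_sub_distrib, sub_mul, add_mul, Finset.sum_add_distrib,
    mul_add]
  have z1 : ∀ j, p.r⁻¹ * (p.r ^ 2 * w j * pd j f y) = p.r * w j * pd j f y := fun j => by
    field_simp
  have z2 : ∀ j, p.r⁻¹ * (p.r * p.t * N j * pd j f y) = p.t * N j * pd j f y := fun j => by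
    field_simp
  have z3 : ∀ j, p.r⁻¹ * (c * pd j (pd j f) y) = p.t * pd j (pd j f) y := fun j => by
    simp only [c]; field_simp
  have z4 : ∀ j, -(2 * p.t) * (1 / 2 * pd j (pd j f) y) = -(p.t * pd j (pd j f) y) := fun j => by
    ring
  have z5 : ∀ j, -(2 * p.t) * (N j * pd j f y) = -(2 * (p.t * N j * pd j f y)) := fun j => by ring
  simp only [z1, z2, z3, z4, z5, Finset.sum_neg_distrib, ← Finset.mul_sum]
  ring

/-- The first derivative along the curve. -/
theorem exists_gen_d0 :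
    ∃ Y, Gen 0 1 (It 0) Y ∧ EqF (Dfam (pullF (VK 0))) Y := by
  refine ⟨_, ((Gen.pol ((Pol.atom 0).ren (eK 0))).dlt).rinv, fun p hp => ?_⟩
  rw [dfam_VK 0 p hp]
  funext w i
  simp [pullF, line, Qy]

theorem Pol.exists_d {w : ℕ} {ι : Type} [Fintype ι] [DecidableEq ι] {Q : YF ι} (h : Pol w ι Q) :
    ∃ Y, Gen (w + 1) 1 ι Y ∧ EqF (Dfam (pullF Q)) Y := by
  induction h with
  | atom k =>
    obtain ⟨P, hP, e⟩ := exists_pol_Qy k
    refine ⟨_, ((Gen.pol ((Pol.atom (k + 1)).ren (eK (k + 1)))).dlt.rinv).add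
      ((((Gen.pol hP).mono (w' := k + 1) (a' := 1) (Nat.le_succ k) zero_le_one).tmul).cmul 2),
      fun p hp => ?_⟩
    rw [dfam_VK (k + 1) p hp]
    funext w i
    simp only [pullF, line, Pi.add_apply, e p.q (Par.good_q hp)]
  | zero w i i' hi => exact ⟨_, Gen.zero _ _, fun p _ => congrFun dfam_zero p⟩
  | add h h' ih ih' =>
    obtain ⟨Y, hY, e⟩ := ih
    obtain ⟨Y', hY', e'⟩ := ih'
    refine ⟨_, hY.add hY', fun p hp => ?_⟩
    rw [← e p hp, ← e' p hp]
    exact dfam_add h.smj h'.smj p hp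
  | ren f _ ih =>
    obtain ⟨Y, hY, e⟩ := ih
    refine ⟨_, hY.ren f, fun p hp => ?_⟩
    rw [← e p hp]
    rfl
  | conF h h' ih ih' =>
    obtain ⟨Y, hY, e⟩ := ih
    obtain ⟨Y', hY', e'⟩ := ih'
    refine ⟨_, ((hY.conF (Gen.pol h')).mono (by omega) le_rfl).add
      (((Gen.pol h).conF hY').mono (by omega) le_rfl), fun p hp => ?_⟩
    rw [← e p hp, ← e' p hp]
    exact dfam_conF h.smj h'.smj p hp
  | mono hle _ ih =>
    obtain ⟨Y, hY, e⟩ := ih
    exact ⟨Y, hY.mono (by omega) le_rfl, e⟩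

theorem dfam_pd {ι : Type} {X : Fam ι} (hX : Smj X) {p : Par} (hp : p.Good) (w : E p.d)
    (i : ι → Fin p.d) (j : Fin p.d) :
    fderiv ℝ (fun u => fderiv ℝ (sl X p i) u (0, unitV j)) (p.t, w) (1, p.vel w)
      = pd j (fun w => Dfam X p w i) w
        + p.t * ∑ l, pullF V1m p w (Sum.elim (fun _ => l) fun _ => j)
            * fderiv ℝ (sl X p i) (p.t, w) (0, unitV l) := by
  have hq := Par.good_q hp
  have hmem := p.isOpen_tdom.mem_nhds (Par.mem_tdom hp w)
  have hG : DifferentiableAt ℝ (fderiv ℝ (sl X p i)) (p.t, w) :=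
    (((hX p hp i).fderiv_of_isOpen (m := ∞) p.isOpen_tdom (by simp)).contDiffAt hmem).differentiableAt
      (by simp)
  have hsym : IsSymmSndFDerivAt ℝ (sl X p i) (p.t, w) :=
    ((hX p hp i).contDiffAt hmem).isSymmSndFDerivAt (by simp; exact WithTop.coe_le_coe.2 le_top)
  have hN : DifferentiableAt ℝ (Nv p.V (p.v - p.t ^ 2)) (p.x + (p.t * p.r) • w) :=
    (Nv_smooth hp.cls hq.pos).1.differentiable (by simp) _
  have hv := (hN.hasFDerivAt.comp w
    (((hasFDerivAt_id w).const_smul (p.t * p.r)).const_add p.x)).const_smul (-p.r⁻¹)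
  have h1 := (hG.hasFDerivAt.comp w ((hasFDerivAt_const p.t w).prodMk (hasFDerivAt_id w))).clm_apply
    ((hasFDerivAt_const (1 : ℝ) w).prodMk hv)
  rw [pd, show (fun w => Dfam X p w i) = fun w => fderiv ℝ (sl X p i) (p.t, w) (1, p.vel w) from rfl,
    show fderiv ℝ (fun w => fderiv ℝ (sl X p i) (p.t, w) (1, p.vel w)) w = _ from h1.fderiv,
    fderiv_clm_apply hG (differentiableAt_const _)]
  simp only [fderiv_fun_const, Pi.zero_apply, ContinuousLinearMap.comp_zero, zero_add,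
    ContinuousLinearMap.flip_apply, add_apply, ContinuousLinearMap.comp_apply]
  rw [hsym.eq]
  have hl : ∀ a : E p.d, fderiv ℝ (sl X p i) (p.t, w) (0, a)
      = ∑ l, a l * fderiv ℝ (sl X p i) (p.t, w) (0, unitV l) := fun a => by
    have ha : ((0 : ℝ), a) = ∑ l, a l • ((0 : ℝ), (unitV l : E p.d)) := by
      refine Prod.ext (by simp [Prod.fst_sum]) ?_
      simpa [Prod.snd_sum, unitV] using ((EuclideanSpace.basisFun (Fin p.d) ℝ).sum_repr a).symm
    rw [ha]
    simp only [map_sum, map_smul, smul_eq_mul]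
  simp only [ContinuousLinearMap.prod_apply, zero_apply, smul_apply, ContinuousLinearMap.comp_apply,
    ContinuousLinearMap.id_apply, Par.vel, Function.comp_apply, Pi.smul_apply, id]
  rw [hl, add_comm (∑ l, _), add_assoc, eq_comm, add_eq_left, Finset.mul_sum,
    ← Finset.sum_add_distrib]
  refine Finset.sum_eq_zero fun l _ => ?_
  have hr := (Par.r_pos hp).ne'
  simp only [pullF, line, V1m_apply hq, Sum.elim_inl, Sum.elim_inr]
  have hp' : pd j (fun y => Nv p.V (p.v - p.t ^ 2) y l) (p.x + (p.t * p.r) • w)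
      = fderiv ℝ (Nv p.V (p.v - p.t ^ 2)) (p.x + (p.t * p.r) • w) (unitV j) l :=
    DFunLike.congr_fun ((EuclideanSpace.proj l : E p.d →L[ℝ] ℝ).hasFDerivAt.comp _
      hN.hasFDerivAt).fderiv _
  rw [hp']
  simp
  field_simp
  ring

/-- Exchange of the two indices in the derivative of a creation. -/
theorem dlt_sum_eq {m : Type} [Fintype m] (t : ℝ) (c A B D : m → ℝ) (M Q R : m → m → ℝ)
    (hM : ∀ l j, M l j = M j l) :
    ∑ x, (c x * A x + B x * (t * ∑ l, (c l * M x l - Q l x)) - (D x + t * ∑ l, M l x * R l x))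
      = ∑ x, (c x * (A x + t * ∑ j, M x j * B j)
          - (D x + t * ∑ j, (Q x j * B j + M x j * R x j))) := by
  have hl : ∀ x, c x * A x + B x * (t * ∑ l, (c l * M x l - Q l x)) - (D x + t * ∑ l, M l x * R l x)
      = (c x * A x - D x) + ∑ l, (B x * (t * (c l * M x l - Q l x)) - t * (M l x * R l x)) :=
    fun x => by simp only [Finset.sum_sub_distrib, ← Finset.mul_sum]; ring
  have hr : ∀ x, c x * (A x + t * ∑ j, M x j * B j) - (D x + t * ∑ j, (Q x j * B j + M x j * R x j))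
      = (c x * A x - D x) + ∑ j, (c x * (t * (M x j * B j)) - t * (Q x j * B j + M x j * R x j)) :=
    fun x => by simp only [Finset.sum_sub_distrib, ← Finset.mul_sum]; ring
  rw [sum_congr rfl fun x _ => hl x, sum_congr rfl fun x _ => hr x, Finset.sum_add_distrib,
    Finset.sum_add_distrib]
  congr 1
  rw [Finset.sum_comm]
  exact sum_congr rfl fun x _ => sum_congr rfl fun j _ => by rw [hM j x]; ring

theorem dfam_dlt {ι : Type} [Fintype ι] [DecidableEq ι] {X : Fam (Option ι)} (hX : Smj X)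
    (hD : Smj (Dfam X)) : EqF (Dfam fun p => Zero.dlt (scP p.phi) (X p))
      fun p => Zero.dlt (scP p.phi) (Dfam X p + fun z i => p.t * Zero.ren (optU ι).symm
        (Zero.conF (pullF V1m p) (Zero.ren (optU ι) (X p))) z i) := fun p hp => by
  funext w i
  have hq := Par.good_q hp
  have hr := (Par.r_pos hp).ne'
  have hmem := p.isOpen_tdom.mem_nhds (Par.mem_tdom hp w)
  have hP : ∀ j, HasFDerivAt (fun u => fderiv ℝ (sl X p (ext j i)) u (0, unitV j))
      (fderiv ℝ (fun u => fderiv ℝ (sl X p (ext j i)) u (0, unitV j)) (p.t, w)) (p.t, w) := fun j =>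
    ((((((hX p hp (ext j i)).fderiv_of_isOpen (m := ∞) p.isOpen_tdom (by simp)).clm_apply
      contDiffOn_const).contDiffAt hmem).differentiableAt (by simp))).hasFDerivAt
  have hp2 : ∀ j, HasFDerivAt (fun u : ℝ × E p.d => u.2 j)
      ((EuclideanSpace.proj j : E p.d →L[ℝ] ℝ).comp (ContinuousLinearMap.snd ℝ ℝ (E p.d)))
      (p.t, w) := fun j =>
    (EuclideanSpace.proj j : E p.d →L[ℝ] ℝ).hasFDerivAt.comp (p.t, w) hasFDerivAt_snd
  have hC := fun j => (((hp2 j).const_mul (p.r ^ 2)).fun_add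
    ((hasFDerivAt_fst.const_mul p.r).fun_mul ((smj_VK 0).hasFDerivAt hp w fun _ => j)))
  have h := (HasFDerivAt.fun_sum (u := univ) fun j _ =>
    ((hC j).fun_mul (hX.hasFDerivAt hp w (ext j i))).fun_sub (hP j)).congr_of_eventuallyEq
      (Filter.eventuallyEq_of_mem hmem fun u hu => sl_dlt hX hp i hu)
  set c : Fin p.d → ℝ := fun j => p.r ^ 2 * w j + p.r * p.t * pullF (VK 0) p w fun _ => j
  set M : Fin p.d → Fin p.d → ℝ := fun l j => pullF V1m p w (Sum.elim (fun _ => l) fun _ => j)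
  have hM : ∀ l j, pullF V1m p w (Sum.elim (fun _ => l) fun _ => j)
      = pd j (fun y => Nv p.V (p.v - p.t ^ 2) y l) (p.x + (p.t * p.r) • w) := fun l j => by
    simp [pullF, line, V1m_apply hq]
  have hMs : ∀ (z : E p.d) l j, pullF V1m p z (Sum.elim (fun _ => l) fun _ => j)
      = pullF V1m p z (Sum.elim (fun _ => j) fun _ => l) := fun z l j => by
    simp only [pullF, line, V1m_apply hq, Sum.elim_inl, Sum.elim_inr]
    exact pd_Nv_symm hp.cls hq.pos _ _ _
  have hphi : ∀ j, pd j p.phi w = c j := fun j => by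
    simp only [c, pullF, line, VK_zero_apply]
    exact pd_phiS hp.cls hp.t_lt j w
  have eV : ∀ z l j, pullF (fun q => Zero.ren (eK 0) (VK (0 + 1) q)) p z (ext l fun _ => j)
      = pullF V1m p z (Sum.elim (fun _ => j) fun _ => l) := fun z l j => by
    simp only [pullF, line, V1m_apply hq, Sum.elim_inl, Sum.elim_inr, Zero.ren, VK_succ_apply hq,
      VK_zero_apply]
    rfl
  have dN : ∀ j, p.r * Dfam (pullF (VK 0)) p w (fun _ => j)
      = ∑ l, (c l * M j l - pd l (fun z => pullF V1m p z (Sum.elim (fun _ => j) fun _ => l)) w) := by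
    intro j
    rw [dfam_VK 0 p hp]
    dsimp only
    rw [dlt_eq]
    simp only [dd, hphi, eV]
    simp only [pullF, line, Qy, Pi.zero_apply, mul_zero, add_zero, ← mul_assoc,
      mul_inv_cancel₀ hr, one_mul]
    rfl
  have dB : ∀ l, pd l (fun z => (Dfam X p + fun z i => p.t * Zero.ren (optU ι).symm
        (Zero.conF (pullF V1m p) (Zero.ren (optU ι) (X p))) z i) z (ext l i)) w
      = pd l (fun z => Dfam X p z (ext l i)) w + p.t * ∑ j,
          (pd l (fun z => pullF V1m p z (Sum.elim (fun _ => l) fun _ => j)) w * X p w (ext j i)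
            + M l j * pd l (fun z => X p z (ext j i)) w) := by
    intro l
    have d1 := hD.differentiableAt hp w (ext l i)
    have d2 : ∀ j, DifferentiableAt ℝ (fun z => pullF V1m p z (Sum.elim (fun _ => l) fun _ => j)) w :=
      fun j => ((Pol.atom 0).ren e11).smj.differentiableAt hp w _
    have d3 : ∀ j, DifferentiableAt ℝ (fun z => X p z (ext j i)) w := fun j =>
      hX.differentiableAt hp w _
    have e : ∀ z, (Dfam X p + fun z i => p.t * Zero.ren (optU ι).symm
        (Zero.conF (pullF V1m p) (Zero.ren (optU ι) (X p))) z i) z (ext l i)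
        = Dfam X p z (ext l i) + p.t * ∑ j, pullF V1m p z (Sum.elim (fun _ => l) fun _ => j)
            * X p z (ext j i) := fun z => by
      simp only [Pi.add_apply, Zero.ren, Zero.conF, con, sum_unit]
      congr 2
      refine sum_congr rfl fun j _ => ?_
      congr 2
      funext o
      rcases o with _ | o <;> rfl
    simp only [e]
    have d4 : DifferentiableAt ℝ (fun z => ∑ j, pullF V1m p z (Sum.elim (fun _ => l) fun _ => j)
        * X p z (ext j i)) w := DifferentiableAt.fun_sum fun j _ => (d2 j).fun_mul (d3 j)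
    rw [pd, (d1.hasFDerivAt.fun_add (d4.hasFDerivAt.const_mul p.t)).fderiv]
    simp only [add_apply, smul_apply, smul_eq_mul]
    rw [show fderiv ℝ (fun z => Dfam X p z (ext l i)) w (unitV l)
      = pd l (fun z => Dfam X p z (ext l i)) w from rfl,
      show fderiv ℝ (fun z => ∑ j, pullF V1m p z (Sum.elim (fun _ => l) fun _ => j) * X p z (ext j i)) w
          (unitV l)
        = pd l (fun z => ∑ j, pullF V1m p z (Sum.elim (fun _ => l) fun _ => j) * X p z (ext j i)) w
        from rfl, pd_fun_sum fun j => (d2 j).fun_mul (d3 j)]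
    simp only [pd_fun_mul (d2 _) (d3 _)]
    rfl
  show fderiv ℝ _ (p.t, w) (1, p.vel w) = _
  rw [h.fderiv]
  dsimp only
  rw [dlt_eq]
  simp only [dd, dB, _root_.sum_apply, _root_.sub_apply, add_apply, smul_apply, smul_eq_mul,
    ContinuousLinearMap.comp_apply, ContinuousLinearMap.coe_fst', ContinuousLinearMap.coe_snd',
    dfam_pd hX hp, mul_one, hphi]
  have hb : ∀ j, (p.vel w) j = -p.r⁻¹ * pullF (VK 0) p w (fun _ => j) := fun j => by
    simp [Par.vel, pullF, line, VK_zero_apply]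
  have e0 : ∀ j, fderiv ℝ (sl X p (ext j i)) (p.t, w) (1, p.vel w) = Dfam X p w (ext j i) :=
    fun j => rfl
  have e0' : ∀ j, fderiv ℝ (sl (pullF (VK 0)) p fun _ => j) (p.t, w) (1, p.vel w)
      = Dfam (pullF (VK 0)) p w (fun _ => j) := fun j => rfl
  have eB : ∀ l, (Dfam X p + fun z i => p.t * Zero.ren (optU ι).symm
      (Zero.conF (pullF V1m p) (Zero.ren (optU ι) (X p))) z i) w (ext l i)
      = Dfam X p w (ext l i) + p.t * ∑ j, M l j * X p w (ext j i) := fun l => by
    simp only [Pi.add_apply, Zero.ren, Zero.conF, con, sum_unit]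
    congr 2
    refine sum_congr rfl fun j _ => ?_
    congr 2
    funext o
    rcases o with _ | o <;> rfl
  have es : ∀ (l j : Fin p.d), fderiv ℝ (sl X p (ext j i)) (p.t, w) (0, unitV l)
      = pd l (fun z => X p z (ext j i)) w := fun l j => (hX.pd_sl hp w (ext j i) l).symm
  simp only [eB, PiLp.proj_apply, hb, es, sl, e0, e0']
  have key : ∀ j, (p.r ^ 2 * (-p.r⁻¹ * pullF (VK 0) p w fun _ => j)
      + (p.r * p.t * Dfam (pullF (VK 0)) p w (fun _ => j) + pullF (VK 0) p w (fun _ => j) * p.r))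
      = p.t * ∑ l, (c l * M j l
          - pd l (fun z => pullF V1m p z (Sum.elim (fun _ => j) fun _ => l)) w) := fun j => by
    rw [← dN j]
    field_simp
    ring
  simp only [key]
  have eL : ∀ l j, pd l (fun z => pullF V1m p z (Sum.elim (fun _ => l) fun _ => j)) w
      = pd l (fun z => pullF V1m p z (Sum.elim (fun _ => j) fun _ => l)) w := fun l j => by
    congr 1
    funext z
    exact hMs z l j
  have eM : ∀ l j, M l j = M j l := fun l j => hMs w l j
  simp only [c]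
  refine (dlt_sum_eq p.t c (fun x => Dfam X p w (ext x i)) (fun x => X p w (ext x i))
    (fun x => pd x (fun z => Dfam X p z (ext x i)) w) M
    (fun l x => pd l (fun z => pullF V1m p z (Sum.elim (fun _ => x) fun _ => l)) w)
    (fun l x => pd l (fun z => X p z (ext x i)) w) eM).trans ?_
  refine sum_congr rfl fun x _ => ?_
  simp only [fun j => eL x j]
  rfl

/-- The class is closed under the derivative along the curve. -/
theorem Gen.exists_d {w a : ℕ} {ι : Type} [Fintype ι] [DecidableEq ι] {X : Fam ι} (h : Gen w a ι X) :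
    ∃ Y, Gen (w + 1) (a + 1) ι Y ∧ EqF (Dfam X) Y := by
  induction h with
  | pol hQ => exact hQ.exists_d
  | zero w a => exact ⟨_, Gen.zero _ _, fun p _ => congrFun dfam_zero p⟩
  | add h h' ih ih' =>
    obtain ⟨Y, hY, e⟩ := ih
    obtain ⟨Y', hY', e'⟩ := ih'
    refine ⟨_, hY.add hY', fun p hp => ?_⟩
    rw [← e p hp, ← e' p hp]
    exact dfam_add h.smj h'.smj p hp
  | cmul c h ih =>
    obtain ⟨Y, hY, e⟩ := ih
    refine ⟨_, hY.cmul c, fun p hp => ?_⟩
    rw [dfam_const_mul h.smj (fun _ => c) (fun _ _ => rfl) p hp]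
    dsimp only
    rw [e p hp]
  | tmul h ih =>
    obtain ⟨Y, hY, e⟩ := ih
    refine ⟨_, (h.mono (Nat.le_succ _) (Nat.le_succ _)).add hY.tmul, fun p hp => ?_⟩
    rw [dfam_tmul h.smj p hp]
    dsimp only
    rw [e p hp]
    rfl
  | rinv h ih =>
    obtain ⟨Y, hY, e⟩ := ih
    refine ⟨_, hY.rinv, fun p hp => ?_⟩
    rw [dfam_const_mul h.smj (fun p => p.r⁻¹) (fun _ _ => rfl) p hp]
    dsimp only
    rw [e p hp]
  | ren f _ ih =>
    obtain ⟨Y, hY, e⟩ := ih
    refine ⟨_, hY.ren f, fun p hp => ?_⟩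
    rw [← e p hp]
    rfl
  | conF h h' ih ih' =>
    obtain ⟨Y, hY, e⟩ := ih
    obtain ⟨Y', hY', e'⟩ := ih'
    refine ⟨_, ((hY.conF h').mono (by omega) (by omega)).add
      ((h.conF hY').mono (by omega) (by omega)), fun p hp => ?_⟩
    rw [← e p hp, ← e' p hp]
    exact dfam_conF h.smj h'.smj p hp
  | @dlt w a ι _ _ _ X h ih =>
    obtain ⟨Y, hY, e⟩ := ih
    refine ⟨_, (hY.add ((((Gen.pol ((Pol.atom 0).ren e11)).conF (h.ren (optU ι))).mono (by omega)
      (by omega)).ren (optU ι).symm).tmul).dlt, fun p hp => ?_⟩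
    rw [dfam_dlt h.smj (e.smj hY.smj) p hp]
    dsimp only
    rw [e p hp]
    rfl
  | mono hw ha _ ih =>
    obtain ⟨Y, hY, e⟩ := ih
    exact ⟨Y, hY.mono (by omega) (by omega), e⟩

end

end Vale.Agent.P347.Zero
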