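import Vale.Agent.P347.Zero.CurveBase
import Vale.Agent.P347.Zero.CurveGen
import Vale.Agent.P347.Zero.FlowTransp

/-!
# P347, exponent 0: the posterior curve
-/

namespace Vale.Agent.P347.Zero

open MeasureTheory Real Set WithLp
open scoped RealInnerProductSpace
open Vale.Agent.P347.Quarter (E γ)

noncomputable section

variable {d : ℕ}

/-- The velocity of the posterior curve. -/
def bCur (V : Colour.Pt d → ℝ) (v : ℝ) (x : E d) (t : ℝ) (z : E d) : E d :=
  -Nv V (v - t ^ 2) (x + t • z)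

/-- `Z` is the curve from `z`. -/
def IsCur (V : Colour.Pt d → ℝ) (v : ℝ) (x : E d) (T : ℝ) (z : E d) (Z : ℝ → E d) : Prop :=
  Z 0 = z ∧ ∀ t ∈ Icc 0 T, HasDerivWithinAt Z (bCur V v x t (Z t)) (Icc 0 T) t

theorem tsq_le {t T : ℝ} (ht : t ∈ Icc 0 T) : t ^ 2 ≤ T ^ 2 := pow_le_pow_left₀ ht.1 ht.2 2

theorem continuousOn_bCur {V : Colour.Pt d → ℝ} (hV : Colour.Cls (id : Fin d → Fin d) V) {v T : ℝ}
    (hTv : T ^ 2 < v) (x : E d) :
    ContinuousOn (Function.uncurry (bCur V v x)) (Icc 0 T ×ˢ univ) := by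
  have hm : MapsTo (fun p : ℝ × E d => (v - p.1 ^ 2, x + p.1 • p.2)) (Icc 0 T ×ˢ univ) (dom d) :=
    fun p hp => mem_dom (by linarith [tsq_le hp.1]) _
  exact ((Nv_contDiffOn hV).continuousOn.comp (Continuous.continuousOn (by fun_prop)) hm).neg

theorem transp_cur {V : Colour.Pt d → ℝ} (hV : Colour.Cls (id : Fin d → Fin d) V) {v T : ℝ}
    (hT : 0 ≤ T) (hTv : T ^ 2 < v) (x : E d) :
    ∃ (L : NNReal) (G : E d → ℝ), Transp (bCur V v x) (phiS V v x 1) T L G := by
  have hv : 0 < v := lt_of_le_of_lt (sq_nonneg T) hTv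
  have hts : ∀ t ∈ Icc 0 T, t ^ 2 < v ∧ 0 < v - t ^ 2 := fun t ht =>
    ⟨(tsq_le ht).trans_lt hTv, by linarith [tsq_le ht]⟩
  obtain ⟨M, hM⟩ := isCompact_Icc.exists_bound_of_continuousOn
    ((continuousOn_bCur hV hTv x).comp (f := fun t : ℝ => (t, (0 : E d)))
      (continuousOn_id.prodMk continuousOn_const) fun t ht => ⟨ht, mem_univ _⟩)
  set B := fun z : E d => 1 + (d : ℝ) * ((1 + 2 * T * T) * (1 + ‖z‖) + T * |M|)
  have hB : Gr fun z => (1 + ‖z‖) * B z / (gMass d * rho V v x) := by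
    have h1 : Gr fun z : E d => 1 + ‖z‖ :=
      Gr.of_le (by fun_prop) (C := 1) fun w => by
        rw [abs_of_nonneg (by positivity), one_mul]
    simpa [B, div_eq_mul_inv] using
      (h1.mul ((gr_const 1).add (((h1.const_mul (1 + 2 * T * T)).add
        (gr_const (T * |M|))).const_mul (d : ℝ)))).mul (gr_const (gMass d * rho V v x)⁻¹)
  refine ⟨(2 * T).toNNReal,
    fun z => |(1 + ‖z‖) * B z / (gMass d * rho V v x)| * exp (0 * ‖z‖ - ‖z‖ ^ 2 / 2),
    { cont := continuousOn_bCur hV hTv x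
      lip := fun t ht => LipschitzWith.of_dist_le_mul fun a b => ?_
      c1 := fun t ht => ⟨?_, ?_⟩
      eqn := fun z t ht => ?_
      dom := ⟨hB.integrable_gauss 0, fun t ht z => ?_⟩ }⟩
  · rw [Real.coe_toNNReal _ (by linarith), dist_eq_norm, dist_eq_norm, bCur, bCur, neg_sub_neg]
    refine (Nv_lip hV (hts t ht).2 _ _).trans ?_
    rw [add_sub_add_left_eq_sub, ← smul_sub, norm_smul, norm_of_nonneg ht.1, norm_sub_rev b a,
      ← mul_assoc]
    gcongr
    exact ht.2
  · unfold bCur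
    exact (((Nv_smooth hV (hts t ht).2).1.of_le (by simp)).comp (by fun_prop)).neg
  · refine contDiff_one_iff_fderiv.2
      ⟨fun z => (hasFDerivAt_phiS hV (hts t ht).1 z).differentiableAt, ?_⟩
    rw [show fderiv ℝ (phiS V v x 1 t) = _ from
      funext fun z => (hasFDerivAt_phiS hV (hts t ht).1 z).fderiv]
    have hc := (Nv_smooth hV (hts t ht).2).1.continuous
    fun_prop
  · refine ((hasDerivAt_phiS hV (r := 1) (hts t ht).1 z).congr_deriv ?_).hasDerivWithinAt
    simp only [pot', pd_phiS hV (hts t ht).1, mul_one, one_mul, one_pow]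
    set N := Nv V (v - t ^ 2) (x + t • z)
    have e : ∀ j, pd j (fun w => bCur V v x t w j) z
        = -(t * fderiv ℝ (Nv V (v - t ^ 2)) (x + t • z) (EuclideanSpace.single j 1) j) := by
      intro j
      have h := ((EuclideanSpace.proj j : E d →L[ℝ] ℝ).hasFDerivAt.comp z
        ((((Nv_smooth hV (hts t ht).2).1.differentiable (by simp) _).hasFDerivAt.comp z
          (((hasFDerivAt_id z).const_smul t).const_add x)).neg)).fderiv
      refine (DFunLike.congr_fun h (unitV j)).trans ?_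
      simp [unitV]
    rw [Quarter.Tgt.tr, EuclideanSpace.norm_sq_eq, PiLp.inner_apply]
    simp only [e]
    simp only [bCur, PiLp.neg_apply, norm_eq_abs, sq_abs, RCLike.inner_apply, conj_trivial]
    simp only [mul_sub, Finset.mul_sum, ← Finset.sum_sub_distrib, ← Finset.sum_add_distrib]
    exact Finset.sum_congr rfl fun j _ => by ring
  · have hp := exp_neg_phiS (x := x) (t := t) (v := v) hV one_pos z
    rw [one_pow, one_mul, one_smul] at hp
    have hr := rho_pos hV v x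
    have hr1 : rho V (v - t ^ 2) (x + t • z) ≤ 1 := by
      refine (integral_mono (integrable_dV_shift hV _ _) (integrable_const 1)
        fun w => dV_le_one hV _).trans_eq ?_
      simp
    have h1 : exp (-phiS V v x 1 t z)
        ≤ exp (0 * ‖z‖ - ‖z‖ ^ 2 / 2) / (gMass d * rho V v x) := by
      rw [hp, zero_mul, zero_sub, wCur, ← mul_div_assoc, div_div, mul_comm (rho V v x)]
      exact div_le_div_of_nonneg_right (mul_le_of_le_one_right (exp_pos _).le hr1)
        (mul_nonneg gMass_pos.le hr.le)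
    have h2 : ∀ j, |pd j (phiS V v x 1 t) z| ≤ (1 + 2 * T * T) * (1 + ‖z‖) + T * |M| := by
      intro j
      rw [pd_phiS hV (hts t ht).1, one_pow, one_mul, one_mul, mul_one]
      refine (abs_add_le _ _).trans ?_
      rw [abs_mul, abs_of_nonneg ht.1]
      have a1 := PiLp.norm_apply_le z j
      have a2 := PiLp.norm_apply_le (Nv V (v - t ^ 2) (x + t • z)) j
      rw [norm_eq_abs] at a1 a2
      have a3 := Nv_lip hV (hts t ht).2 (x + t • z) x
      rw [add_sub_cancel_left, norm_smul, norm_of_nonneg ht.1] at a3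
      have a4 : ‖Nv V (v - t ^ 2) x‖ ≤ |M| := by
        have := hM t ht
        simp [bCur] at this
        exact this.trans (le_abs_self M)
      have a5 := norm_le_norm_sub_add (Nv V (v - t ^ 2) (x + t • z)) (Nv V (v - t ^ 2) x)
      nlinarith [norm_nonneg z, abs_nonneg M, ht.1, ht.2,
        mul_le_mul ht.2 (a2.trans (a5.trans (add_le_add a3 a4))) (abs_nonneg _) hT,
        mul_le_mul_of_nonneg_right ht.2 (mul_nonneg hT (norm_nonneg z)), mul_nonneg hT hT]
    have h3 : 1 + ∑ j, |pd j (phiS V v x 1 t) z| ≤ B z := by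
      refine add_le_add le_rfl ((Finset.sum_le_card_nsmul _ _ _ fun j _ => h2 j).trans_eq ?_)
      simp [mul_add]
    refine (mul_le_mul (mul_le_mul_of_nonneg_right h1 (by positivity)) h3 (by positivity)
      (mul_nonneg (div_nonneg (exp_pos _).le (mul_nonneg gMass_pos.le hr.le))
        (by positivity))).trans_eq ?_
    have : 0 ≤ (1 + ‖z‖) * B z / (gMass d * rho V v x) := by
      have := gMass_pos (d := d)
      positivity
    rw [abs_of_nonneg this]
    ring

theorem dens_phiS_zero {V : Colour.Pt d → ℝ} (hV : Colour.Cls (id : Fin d → Fin d) V) {v : ℝ}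
    (hv : 0 < v) (hv' : v ≤ 1) (x : E d) : dens (phiS V v x 1 0) = γ d := by
  have hw : ∀ z, wCur V v x 0 z = 1 := fun z => by
    simp [wCur, div_self (rho_pos hV v x).ne']
  have hp := pot_phiS (x := x) (r := 1) (t := 0) (v := v) hV hv' (by simpa using hv) one_pos
  have : IsFiniteMeasure (dens (phiS V v x 1 0)) := isFiniteMeasure_dens <| by
    simpa using hp.integrable (Function.HasTemperateGrowth.const (1 : ℝ))
  refine Measure.ext fun A hA => (measureReal_eq_measureReal_iff).1 ?_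
  rw [← integral_indicator_one hA, ← integral_indicator_one hA,
    integral_dens hp.temp.1.continuous]
  have := EP_phiS (x := x) (t := 0) (v := v) hV one_pos (A.indicator 1)
  simp only [inv_one, one_smul, EP, hw, one_mul] at this
  exact this

/-- A jointly continuous solution exists and transports the Gaussian to the laws `wCur`. -/
theorem exists_cur {V : Colour.Pt d → ℝ} (hV : Colour.Cls (id : Fin d → Fin d) V) {v T : ℝ}
    (hv : 0 < v) (hv' : v ≤ 1) (hT : 0 ≤ T) (hTv : T ^ 2 < v) (x : E d) :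
    ∃ Z : E d → ℝ → E d, Continuous (fun p : E d × Icc 0 T => Z p.1 p.2) ∧
      (∀ z, IsCur V v x T z (Z z)) ∧
      ∀ t ∈ Icc 0 T, ∀ f : E d → ℝ, Measurable f →
        ∫ z, f (Z z t) ∂γ d = ∫ z, wCur V v x t z * f z ∂γ d := by
  obtain ⟨L, G, htr⟩ := transp_cur hV hT hTv x
  obtain ⟨C, hb⟩ := htr.exists_fld
  refine ⟨fun z => flow (bCur V v x) T z, ?_, fun z => hb.flow_sol z, fun t ht f hf => ?_⟩
  · exact hb.flow_continuousOn_prod.comp_continuous
      (f := fun p : E d × Icc 0 T => (p.1, (p.2 : ℝ))) (by fun_prop) fun p => ⟨mem_univ _, p.2.2⟩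
  have hc : ∀ s ∈ Icc 0 T, Continuous (phiS V v x 1 s) := fun s hs =>
    (htr.c1 s hs).2.continuous
  have e : ∀ s ∈ Icc 0 T, ∀ g : E d → ℝ,
      ∫ z, g z ∂dens (phiS V v x 1 s) = ∫ z, wCur V v x s z * g z ∂γ d := fun s hs g => by
    have := EP_phiS (x := x) (t := s) (v := v) hV one_pos g
    simp only [inv_one, one_smul] at this
    rw [integral_dens (hc s hs), ← this]
    rfl
  have h0 : (0 : ℝ) ∈ Icc 0 T := ⟨le_rfl, hT⟩
  have hd0 := dens_phiS_zero hV hv hv' x
  rw [← e t ht f, ← htr.map_flow ht, hd0,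
    integral_map (hb.continuous_flow_at ht).measurable.aemeasurable hf.aestronglyMeasurable]

/-- The iterated derivatives along the curve. -/
def Dit : ℕ → Fam (It 0)
  | 0 => pullF (VK 0)
  | k + 1 => Dfam (Dit k)

theorem exists_dit : ∀ m : ℕ, ∃ Y, Gen m (m + 1) (It 0) Y ∧ EqF (Dit (m + 1)) Y
  | 0 => exists_gen_d0
  | m + 1 => by
    obtain ⟨Y, hY, e⟩ := exists_dit m
    obtain ⟨Y', hY', e'⟩ := hY.exists_d
    exact ⟨Y', hY', fun p hp => (e.dfam p hp).trans (e' p hp)⟩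

theorem smj_dit : ∀ k, Smj (Dit k)
  | 0 => smj_VK 0
  | k + 1 => by
    obtain ⟨Y, hY, e⟩ := exists_dit k
    exact e.smj hY.smj

/-- A field with one index as a vector. -/
def vecOf (T : Ten (It 0) (Fin d)) : E d := toLp 2 fun j => T fun _ => j

theorem norm_vecOf (T : Ten (It 0) (Fin d)) : ‖vecOf T‖ ^ 2 = sqT T := by
  let u : Unique (It 0) :=
    { default := Sum.inl ()
      uniq := fun x => by rcases x with u | l; exacts [rfl, l.elim0] }
  rw [EuclideanSpace.real_norm_sq_eq, sqT]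
  exact Fintype.sum_equiv (Equiv.funUnique (It 0) (Fin d)).symm _ _ fun j => rfl

/-- The derivatives of the field along a solution. -/
theorem cur_iter {p : Par} (hp : p.Good) {T : ℝ} (hTv : T ^ 2 < p.v) {z : E p.d}
    {Z : ℝ → E p.d} (hZ : IsCur p.V p.v p.x T z Z) :
    (∀ k, ∀ t ∈ Icc 0 T, HasDerivWithinAt
        (fun s => vecOf (Dit k (p.atT s) (p.r⁻¹ • Z s)))
        (vecOf (Dit (k + 1) (p.atT t) (p.r⁻¹ • Z t))) (Icc 0 T) t) ∧
      (∀ t, vecOf (Dit 0 (p.atT t) (p.r⁻¹ • Z t))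
        = Nv p.V (p.v - t ^ 2) (p.x + t • Z t)) := by
  have hr := (Par.r_pos hp).ne'
  have he : ∀ t, p.x + (t * p.r) • (p.r⁻¹ • Z t) = p.x + t • Z t := fun t => by
    rw [smul_smul, mul_assoc, mul_inv_cancel₀ hr, mul_one]
  refine ⟨fun k t ht => ?_, fun t => ?_⟩
  · have hq : (p.atT t).Good := good_atT hp ((tsq_le ht).trans_lt hTv)
    have hW : HasDerivWithinAt (fun s => p.r⁻¹ • Z s) ((p.atT t).vel (p.r⁻¹ • Z t)) (Icc 0 T) t := by
      refine ((hZ.2 t ht).const_smul p.r⁻¹).congr_deriv ?_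
      show p.r⁻¹ • bCur p.V p.v p.x t (Z t)
        = -p.r⁻¹ • Nv p.V (p.v - t ^ 2) (p.x + (t * p.r) • (p.r⁻¹ • Z t))
      rw [he, bCur, smul_neg, neg_smul]
    have hc : ∀ j, HasDerivWithinAt (fun s => Dit k (p.atT s) (p.r⁻¹ • Z s) fun _ => j)
        (Dit (k + 1) (p.atT t) (p.r⁻¹ • Z t) fun _ => j) (Icc 0 T) t := fun j =>
      ((smj_dit k).hasFDerivAt hq (p.r⁻¹ • Z t) fun _ => j).comp_hasDerivWithinAt_of_eq t
        ((hasDerivWithinAt_id t _).prodMk hW) rfl
    exact (PiLp.continuousLinearEquiv 2 ℝ fun _ : Fin p.d => ℝ).symm.toContinuousLinearMap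
      |>.hasFDerivAt.comp_hasDerivWithinAt t (hasDerivWithinAt_pi.2 hc)
  · ext j
    show pullF (VK 0) (p.atT t) (p.r⁻¹ • Z t) (fun _ => j) = _
    simp only [pullF, line, VK_zero_apply]
    rw [show (p.atT t).t * (p.atT t).r = t * p.r from rfl, he]

/-- All `t` derivatives of the field along the curve are bounded in `L²`, uniformly in `x`. -/
theorem exists_cur_deriv (n : ℕ) (hn : 1 ≤ n) : ∃ C : ℝ, 0 ≤ C ∧ ∀ (d : ℕ) (V : Colour.Pt d → ℝ),
    Colour.Cls (id : Fin d → Fin d) V → ∀ v T s₀ : ℝ, 0 < s₀ → v ≤ 1 → 0 ≤ T → T ^ 2 + s₀ ≤ v →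
      ∀ (x : E d) (Z : E d → ℝ → E d), (∀ z, IsCur V v x T z (Z z)) →
        (∀ z, ContDiffOn ℝ n (fun t => Nv V (v - t ^ 2) (x + t • Z z t)) (Icc 0 T)) ∧
        ∀ t ∈ Icc 0 T,
          Integrable (fun z => ‖iteratedDerivWithin n
            (fun t => Nv V (v - t ^ 2) (x + t • Z z t)) (Icc 0 T) t‖ ^ 2) (γ d) ∧
          ∫ z, ‖iteratedDerivWithin n
            (fun t => Nv V (v - t ^ 2) (x + t • Z z t)) (Icc 0 T) t‖ ^ 2 ∂γ d
            ≤ C * d * ((√v / s₀) ^ (n - 1) * (√v / √s₀)) ^ 2 := by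
  obtain ⟨m, rfl⟩ : ∃ m, n = m + 1 := ⟨n - 1, (Nat.sub_add_cancel hn).symm⟩
  obtain ⟨Y, hY, eY⟩ := exists_dit m
  obtain ⟨j, hj⟩ := hY.exists_cre
  obtain ⟨C, hC, hcre⟩ := hj (nL2 j)
  obtain ⟨L, hL, hH⟩ := exists_rb_hess (nL2 j)
  have hb := bL2_nonneg hL j
  refine ⟨bL2 L j * C ^ 2, by positivity, fun d V hV v T s₀ hs hv' hT hTs x Z hZ => ?_⟩
  have hv : 0 < v := by nlinarith [sq_nonneg T]
  have hTv : T ^ 2 < v := by linarith
  let p : Par := ⟨d, V, x, v, s₀, 0⟩
  have hp : p.Good := ⟨hV, hs, by show s₀ ≤ v; nlinarith [sq_nonneg T], hv', by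
    show (0 : ℝ) ^ 2 < v; simpa using hv⟩
  set F : E d → ℝ → E d := fun z t => Nv V (v - t ^ 2) (x + t • Z z t)
  have hk : 0 ≤ bL2 L j * C ^ 2 * d := by positivity
  rcases hT.eq_or_lt with hT0 | hT0
  · subst hT0
    have h0 : ∀ z, ∀ t ∈ Icc (0 : ℝ) 0, iteratedDerivWithin (m + 1) (F z) (Icc 0 0) t = 0 := by
      intro z t ht
      rw [iteratedDerivWithin_succ]
      refine derivWithin_zero_of_not_accPt fun h => ?_
      rw [Icc_self, accPt_iff_nhds] at h
      obtain ⟨y, ⟨-, hy⟩, hne⟩ := h univ Filter.univ_mem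
      rw [Icc_self] at ht
      exact hne (hy.trans ht.symm)
    refine ⟨fun z => (contDiffOn_const (c := F z 0)).congr fun y hy => ?_, fun t ht => ?_⟩
    · rw [Icc_self] at hy
      rw [hy]
    · show Integrable (fun z => ‖iteratedDerivWithin (m + 1) (F z) (Icc 0 0) t‖ ^ 2) (γ d) ∧
      ∫ z, ‖iteratedDerivWithin (m + 1) (F z) (Icc 0 0) t‖ ^ 2 ∂γ d ≤ _
      simp only [fun z => h0 z t ht, norm_zero, ne_eq, OfNat.ofNat_ne_zero, not_false_eq_true,
        zero_pow, integral_zero]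
      exact ⟨integrable_zero _ _ _, mul_nonneg hk (sq_nonneg _)⟩
  have hu := uniqueDiffOn_Icc hT0
  have hF : ∀ z, ∀ k, ∀ t ∈ Icc 0 T, iteratedDerivWithin k (F z) (Icc 0 T) t
      = vecOf (Dit k (p.atT t) (p.r⁻¹ • Z z t)) := by
    intro z k
    obtain ⟨hd, h0⟩ := cur_iter (p := p) hp hTv (hZ z)
    induction k with
    | zero => exact fun t ht => by rw [iteratedDerivWithin_zero]; exact (h0 t).symm
    | succ k ih =>
      intro t ht
      rw [iteratedDerivWithin_succ, derivWithin_congr ih (ih t ht)]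
      exact (hd k t ht).derivWithin (hu t ht)
  refine ⟨fun z => contDiffOn_of_differentiableOn_deriv fun k _ => ?_, fun t ht => ?_⟩
  · exact fun t ht => (((cur_iter (p := p) hp hTv (hZ z)).1 k t ht).differentiableWithinAt).congr
      (fun s hs => hF z k s hs) (hF z k t ht)
  show Integrable (fun z => ‖iteratedDerivWithin (m + 1) (F z) (Icc 0 T) t‖ ^ 2) (γ d) ∧
      ∫ z, ‖iteratedDerivWithin (m + 1) (F z) (Icc 0 T) t‖ ^ 2 ∂γ d ≤ _
  simp only [fun z => hF z (m + 1) t ht, norm_vecOf]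
  have hok : (p.atT t).Ok :=
    { good_atT hp ((tsq_le ht).trans_lt hTv) with
      t_nonneg := ht.1
      t_le := by show t ^ 2 + s₀ ≤ v; linarith [tsq_le ht] }
  have hr := Par.r_pos hp
  rw [eY (p.atT t) hok.toGood]
  set g : E d → ℝ := fun w => sqT (Y (p.atT t) w)
  have hg : g.HasTemperateGrowth := ((hcre _ hok).temp (Par.temp_phi hok)).sqT
  set f : E d → ℝ := fun z => g (p.r⁻¹ • z)
  have hf : f.HasTemperateGrowth :=
    hg.comp (p.r⁻¹ • ContinuousLinearMap.id ℝ (E d)).hasTemperateGrowth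
  obtain ⟨L', G, htr⟩ := transp_cur hV hT hTv x
  obtain ⟨C', hfl⟩ := htr.exists_fld
  obtain ⟨Z₀, -, hZ₀, hlaw⟩ := exists_cur hV hv hv' hT hTv x
  have e : ∀ z, Z z t = flow (bCur V v x) T z t := fun z => (hfl.flow_unique (hZ z) ht).symm
  have e₀ : ∀ z, Z₀ z t = Z z t := fun z => (hfl.sol_unique (hZ₀ z) (hZ z) ht)
  have hm : Measurable fun z => flow (bCur V v x) T z t := (hfl.continuous_flow_at ht).measurable
  have hpt := pot_phiS (x := x) (r := 1) (t := t) (v := v) hV hv' ((tsq_le ht).trans_lt hTv) one_pos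
  constructor
  · show Integrable (fun z => f (Z z t)) (γ d)
    simp only [e]
    refine (integrable_map_measure hf.1.continuous.aestronglyMeasurable hm.aemeasurable).1 ?_
    rw [← dens_phiS_zero hV hv hv' x, htr.map_flow ht, dens,
      integrable_withDensity_iff_integrable_smul' ?_ ?_]
    · refine (hpt.integrable hf).congr (ae_of_all _ fun z => ?_)
      simp only [ENNReal.toReal_ofReal (exp_pos _).le, smul_eq_mul]
    · exact hpt.temp.1.continuous.neg.rexp.measurable.ennreal_ofReal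
    · exact ae_of_all _ fun z => ENNReal.ofReal_lt_top
  · show ∫ z, f (Z z t) ∂γ d ≤ _
    have h1 : EP (p.atT t).phi (fun w => sqT (Y (p.atT t) w)) ≤ _ := (hcre _ hok).integral_sqT_le
      (pot_phiS hV hv' ((tsq_le ht).trans_lt hTv) hr) hL (hH _ hok)
    rw [show EP (p.atT t).phi (fun w => sqT (Y (p.atT t) w))
      = ∫ z, f (Z z t) ∂γ d from ?_] at h1
    · refine h1.trans_eq ?_
      have hK : p.K m (m + 1) = (√v / s₀) ^ m * (√v / √s₀) := by
        have hs2 : √s₀ * √s₀ = s₀ := mul_self_sqrt hs.le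
        show (1 / √s₀) ^ m * (√v / √s₀) ^ (m + 1) = _
        rw [pow_succ, ← mul_assoc, ← mul_pow, div_mul_div_comm, one_mul, hs2]
      rw [Fintype.card_fin, add_tsub_cancel_right, ← hK]
      show bL2 L j * (d * (C * p.K m (m + 1)) ^ 2) = _
      ring
    · simp only [← e₀]
      rw [hlaw t ht f hf.1.continuous.measurable]
      exact EP_phiS hV hr g

/-- The derivative at time zero. -/
theorem cur_deriv_zero {V : Colour.Pt d → ℝ} (hV : Colour.Cls (id : Fin d → Fin d) V) {v T : ℝ}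
    (hv : 0 < v) (hT : 0 < T) (hTv : T ^ 2 < v) (x z : E d) (Z : ℝ → E d) (hZ : IsCur V v x T z Z) :
    HasDerivWithinAt (fun t => Nv V (v - t ^ 2) (x + t • Z t))
      (fderiv ℝ (Nv V v) x z) (Icc 0 T) 0 := by
  have h0 : (0 : ℝ) ∈ Icc 0 T := ⟨le_rfl, hT.le⟩
  have hc : HasDerivWithinAt (fun t => (v - t ^ 2, x + t • Z t)) ((0 : ℝ), z) (Icc 0 T) 0 := by
    have ha : HasDerivWithinAt (fun t : ℝ => v - t ^ 2) 0 (Icc 0 T) 0 := by
      simpa using ((hasDerivAt_pow 2 (0 : ℝ)).const_sub v).hasDerivWithinAt (s := Icc 0 T)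
    refine ha.prodMk ?_
    simpa [hZ.1] using ((hasDerivWithinAt_id 0 (Icc 0 T)).smul (hZ.2 0 h0)).const_add x
  have hd : DifferentiableAt ℝ (fun p : ℝ × E d => Nv V p.1 p.2) (v, x) :=
    ((Nv_contDiffOn hV).contDiffAt (isOpen_dom.mem_nhds (mem_dom hv x))).differentiableAt (by simp)
  have e : (fderiv ℝ (fun p : ℝ × E d => Nv V p.1 p.2) (v, x)).comp
      (ContinuousLinearMap.inr ℝ ℝ (E d)) = fderiv ℝ (Nv V v) x := by
    exact (hd.hasFDerivAt.comp x ((hasFDerivAt_const v x).prodMk (hasFDerivAt_id x))).fderiv.symm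
  have h := hd.hasFDerivAt.comp_hasDerivWithinAt_of_eq 0 hc (by simp [hZ.1])
  refine h.congr_deriv ?_
  rw [← e]
  rfl

end

end Vale.Agent.P347.Zero
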