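import Vale.Agent.P347.Zero.Levels
import Vale.Agent.P347.Zero.Curve

/-!
# P347, exponent 0: Picard iterates of the posterior curve as programmes

Slot `none` is the seed, slot `some ()` the point; `shiftP τ P` is the point plus `τ` times `P`.
-/

namespace Vale.Agent.P347.Zero

open MeasureTheory Real Finset
open Vale.Agent.P347.Quarter (E γ)
open Vale.Agent.P347.Colour (Pt)

noncomputable section

variable {d m : ℕ}

/-- The input made of a seed and a point. -/
def inp2 {d : ℕ} (z x : E d) : Inp d (Option Unit) := fun o => o.elim z fun _ => x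

/-- The blurs of a seed and a point. -/
def bs (b₀ b₁ : ℝ) : Option Unit → ℝ := fun o => o.elim b₀ fun _ => b₁

/-- The point plus `τ` times a programme. -/
def shiftP (τ : ℝ) : Prog (Option Unit) → Prog (Option Unit)
  | Prog.mk n l c nd ch =>
      Prog.mk n (fun o => τ * l o + o.elim 0 fun _ => 1) (fun i => τ * c i) nd ch

/-- The Picard iterates. -/
def pcur (v : ℝ) (τ : Fin m → ℝ) (w : ℝ → Fin m → ℝ) : ℕ → ℝ → Prog (Option Unit)
  | 0, _ => Prog.mk 0 (fun o => o.elim 1 fun _ => 0) Fin.elim0 Fin.elim0 Fin.elim0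
  | k + 1, t => Prog.mk m (fun o => o.elim 1 fun _ => 0) (fun i => -w t i)
      (fun i => ⟨v - τ i ^ 2, 0⟩) (fun i => shiftP (τ i) (pcur v τ w k (τ i)))

theorem sum_opt {M : Type*} [AddCommMonoid M] (f : Option Unit → M) :
    ∑ o, f o = f none + f (some ()) := by
  simp [Fintype.sum_option]

theorem wt_opt (y : Inp d (Option Unit)) : wt y = √d + (‖y none‖ + ‖y (some ())‖) := by
  rw [wt, sum_opt]

theorem wt_inp2 (z x : E d) : wt (inp2 z x) = √d + (‖z‖ + ‖x‖) := wt_opt _

theorem pcur_lin (v : ℝ) (τ : Fin m → ℝ) (w : ℝ → Fin m → ℝ) (k : ℕ) (t : ℝ) :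
    (pcur v τ w k t).lin none = 1 ∧ (pcur v τ w k t).lin (some ()) = 0 := by
  cases k <;> exact ⟨rfl, rfl⟩

theorem shiftP_val (V : Pt d → ℝ) (τ : ℝ) (P : Prog (Option Unit)) (y : Inp d (Option Unit)) :
    (shiftP τ P).val V y = y (some ()) + τ • P.val V y := by
  cases P with
  | mk n l c nd ch =>
    simp only [shiftP, Prog.val, sum_opt, Option.elim, smul_add, smul_sum, smul_smul, add_smul,
      one_smul, zero_smul, add_zero]
    abel

theorem shiftP_depth (τ : ℝ) (P : Prog (Option Unit)) : (shiftP τ P).depth = P.depth := by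
  cases P; rfl

theorem shiftP_size (τ : ℝ) (P : Prog (Option Unit)) : (shiftP τ P).size = P.size := by
  cases P; rfl

theorem shiftP_grow (d : ℕ) (Γ τ : ℝ) (P : Prog (Option Unit)) :
    (shiftP τ P).Grow d Γ ↔ P.Grow d Γ := by
  cases P; rfl

theorem shiftP_adm {h r e τ b₀ b₁ β : ℝ} {P : Prog (Option Unit)} (hτ : 0 ≤ τ)
    (hl₀ : P.lin none = 1) (hl₁ : P.lin (some ()) = 0)
    (hch : ∀ i, (P.node i).Ok h r ∧ (P.child i).Adm h r e (bs b₀ b₁) (P.node i).scale)
    (hsum : τ * b₀ + b₁ + τ * (∑ i, |P.coef i| * √(P.node i).v) / e ≤ β) :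
    (shiftP τ P).Adm h r e (bs b₀ b₁) β := by
  cases P with
  | mk n l c nd ch =>
    simp only [Prog.lin] at hl₀ hl₁
    refine ⟨le_trans (le_of_eq ?_) hsum, hch⟩
    simp only [bs, sum_opt, Option.elim, hl₀, hl₁, Prog.coef, Prog.node]
    simp only [mul_one, mul_zero, add_zero, zero_add, abs_one, abs_mul, abs_of_nonneg hτ, one_mul]
    rw [mul_sum]
    congr 2
    exact sum_congr rfl fun i _ => by ring

theorem shiftP_grs_none {e τ : ℝ} {P : Prog (Option Unit)} (hτ : 0 ≤ τ) :
    (shiftP τ P).grs e none = τ * P.grs e none := by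
  cases P with
  | mk n l c nd ch =>
    simp only [shiftP, Prog.grs, Option.elim, add_zero, abs_mul, abs_of_nonneg hτ, mul_add, mul_sum]
    congr 1
    exact sum_congr rfl fun i _ => by ring

theorem shiftP_grs_some {e τ : ℝ} {P : Prog (Option Unit)} (hτ : 0 ≤ τ)
    (hl₁ : P.lin (some ()) = 0) :
    (shiftP τ P).grs e (some ()) = 1 + τ * P.grs e (some ()) := by
  cases P with
  | mk n l c nd ch =>
    simp only [Prog.lin] at hl₁
    simp only [shiftP, Prog.grs, Option.elim, hl₁, mul_zero, zero_add, abs_one, abs_zero, abs_mul,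
      abs_of_nonneg hτ, mul_sum]
    congr 1
    exact sum_congr rfl fun i _ => by ring

theorem adm_bmono {σ : Type} [Fintype σ] {h r e : ℝ} {b b' : σ → ℝ} (hb : ∀ s, b' s ≤ b s) :
    ∀ {P : Prog σ} {β : ℝ}, P.Adm h r e b β → P.Adm h r e b' β := by
  intro P
  induction P with
  | mk n l c nd ch ih =>
    intro β hP
    refine ⟨le_trans (add_le_add (sum_le_sum fun s _ =>
      mul_le_mul_of_nonneg_left (hb s) (abs_nonneg _)) le_rfl) hP.1,
      fun i => ⟨(hP.2 i).1, ih i (hP.2 i).2⟩⟩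

/-- The data of a rule for which the iterates are tame. -/
structure CurData (v T c : ℝ) (τ : Fin m → ℝ) (w : ℝ → Fin m → ℝ) : Prop where
  v_pos : 0 < v
  v_le : v ≤ 1 / 4
  T_nonneg : 0 ≤ T
  T_sq : T ^ 2 < v
  c_one : 1 ≤ c
  small : 32 * c * T ≤ 1
  mem : ∀ i, τ i ∈ Set.Icc 0 T
  weight : ∀ t ∈ Set.Icc 0 T, ∑ i, |w t i| ≤ c * t

namespace CurData

variable {v T c : ℝ} {τ : Fin m → ℝ} {w : ℝ → Fin m → ℝ}

theorem node_v (hd : CurData v T c τ w) (i : Fin m) :
    v - T ^ 2 ≤ v - τ i ^ 2 ∧ v - τ i ^ 2 ≤ v ∧ 0 < v - τ i ^ 2 := by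
  have h1 := pow_le_pow_left₀ (hd.mem i).1 (hd.mem i).2 2
  exact ⟨by linarith, by nlinarith, by linarith [hd.T_sq]⟩

theorem node_ok (hd : CurData v T c τ w) {h : ℝ} (hh : v ≤ h) (i : Fin m) :
    (⟨v - τ i ^ 2, 0⟩ : Nd).Ok h 1 :=
  ⟨(hd.node_v i).2.2, (hd.node_v i).2.1.trans hh, Real.sqrt_nonneg _, Or.inl rfl⟩

theorem coef_sum (hd : CurData v T c τ w) (k : ℕ) {t : ℝ} (ht : t ∈ Set.Icc 0 T) :
    ∑ i, |(pcur v τ w k t).coef i| ≤ c * T := by
  have h0 : 0 ≤ c * T := mul_nonneg (zero_le_one.trans hd.c_one) hd.T_nonneg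
  cases k with
  | zero => exact le_trans (le_of_eq (Finset.sum_eq_zero fun i _ => Fin.elim0 i)) h0
  | succ k =>
    refine le_trans (le_of_eq ?_) ((hd.weight t ht).trans
      (mul_le_mul_of_nonneg_left ht.2 (zero_le_one.trans hd.c_one)))
    exact Finset.sum_congr rfl fun i _ => by simp [pcur, Prog.coef]

theorem node_facts (hd : CurData v T c τ w) (k : ℕ) (t : ℝ) :
    ∀ i, ((pcur v τ w k t).node i).a = 0 ∧ v - T ^ 2 ≤ ((pcur v τ w k t).node i).v ∧
      ((pcur v τ w k t).node i).v ≤ v := by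
  cases k with
  | zero => exact fun i => i.elim0
  | succ k => exact fun i => ⟨rfl, (hd.node_v i).1, (hd.node_v i).2.1⟩

theorem coef_sqrt (hd : CurData v T c τ w) (k : ℕ) {t : ℝ} (ht : t ∈ Set.Icc 0 T) :
    ∑ i, |(pcur v τ w k t).coef i| * √((pcur v τ w k t).node i).v ≤ c * T * √v := by
  refine (sum_le_sum fun i _ => mul_le_mul_of_nonneg_left
    (Real.sqrt_le_sqrt (hd.node_facts k t i).2.2) (abs_nonneg _)).trans ?_
  rw [← sum_mul]
  exact mul_le_mul_of_nonneg_right (hd.coef_sum k ht) (Real.sqrt_nonneg _)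

theorem children_adm (hd : CurData v T c τ w) {h e b₀ b₁ : ℝ} (hh : v ≤ h) (he : 0 < e) (hb : 0 ≤ b₀)
    (hsmall : T * b₀ + b₁ + c * T ^ 2 * √v / e ≤ √(v - T ^ 2)) (k : ℕ) {t : ℝ}
    (ht : t ∈ Set.Icc 0 T) :
    ∀ i, ((pcur v τ w k t).node i).Ok h 1 ∧
      ((pcur v τ w k t).child i).Adm h 1 e (bs b₀ b₁) ((pcur v τ w k t).node i).scale := by
  induction k generalizing t with
  | zero => exact fun i => i.elim0
  | succ k ih =>
    intro i
    refine ⟨hd.node_ok hh i, ?_⟩
    refine shiftP_adm (hd.mem i).1 (pcur_lin v τ w k _).1 (pcur_lin v τ w k _).2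
      (ih (hd.mem i)) ?_
    have hscale : (Nd.mk (v - τ i ^ 2) 0).scale = √(v - τ i ^ 2) := by simp [Nd.scale]
    refine le_trans ?_ (hscale.symm ▸ Real.sqrt_le_sqrt (hd.node_v i).1)
    refine le_trans ?_ hsmall
    have h1 : τ i * (∑ j, |(pcur v τ w k (τ i)).coef j| * √((pcur v τ w k (τ i)).node j).v) / e
        ≤ c * T ^ 2 * √v / e := by
      refine div_le_div_of_nonneg_right ?_ he.le
      refine le_trans (mul_le_mul (hd.mem i).2 (hd.coef_sqrt k (hd.mem i))
        (sum_nonneg fun j _ => by positivity) hd.T_nonneg) (le_of_eq (by ring))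
    have := mul_le_mul_of_nonneg_right (hd.mem i).2 hb
    linarith

theorem grs_le (hd : CurData v T c τ w) {e : ℝ} (he : 0 < e)
    (hs : 8 * c * T * √v / e ≤ 1) (k : ℕ) : ∀ {t : ℝ}, t ∈ Set.Icc 0 T →
      (pcur v τ w k t).grs e none ≤ 2 ∧ (pcur v τ w k t).grs e (some ()) ≤ 8 * c * T / e := by
  have hc := zero_le_one.trans hd.c_one
  have hT := hd.T_nonneg
  induction k with
  | zero =>
    intro t _
    simp only [pcur, Prog.grs, Option.elim, abs_one, abs_zero, Finset.univ_eq_empty, Finset.sum_empty,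
      mul_zero, add_zero]
    exact ⟨one_le_two, by positivity⟩
  | succ k ih =>
    intro t ht
    have hw := (hd.weight t ht).trans (mul_le_mul_of_nonneg_left ht.2 hc)
    have hTv : T ≤ √v := Real.le_sqrt_of_sq_le hd.T_sq.le
    constructor
    · simp only [pcur, Prog.grs, Option.elim, abs_one, abs_neg]
      have h1 : ∑ i, |w t i| * (shiftP (τ i) (pcur v τ w k (τ i))).grs e none ≤ c * T * (2 * √v) := by
        refine (sum_le_sum fun i _ => mul_le_mul_of_nonneg_left ?_ (abs_nonneg _)).trans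
          (le_trans (le_of_eq (sum_mul _ _ _).symm)
            (mul_le_mul_of_nonneg_right hw (by positivity : (0 : ℝ) ≤ 2 * √v)))
        rw [shiftP_grs_none (hd.mem i).1]
        nlinarith [(hd.mem i).1, (hd.mem i).2, (ih (hd.mem i)).1, Prog.grs_nonneg he.le
          (pcur v τ w k (τ i)) none]
      have h2 : 4 / e * (c * T * (2 * √v)) = 8 * c * T * √v / e := by ring
      have h3 := mul_le_mul_of_nonneg_left h1 (by positivity : (0 : ℝ) ≤ 4 / e)
      linarith
    · simp only [pcur, Prog.grs, Option.elim, abs_zero, zero_add, abs_neg]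
      have h1 : ∑ i, |w t i| * (shiftP (τ i) (pcur v τ w k (τ i))).grs e (some ()) ≤ c * T * 2 := by
        refine (sum_le_sum fun i _ => mul_le_mul_of_nonneg_left ?_ (abs_nonneg _)).trans
          (le_trans (le_of_eq (sum_mul _ _ _).symm)
            (mul_le_mul_of_nonneg_right hw zero_le_two))
        rw [shiftP_grs_some (hd.mem i).1 (pcur_lin v τ w k _).2]
        have h4 : τ i * (8 * c * T / e) ≤ 8 * c * T * √v / e := by
          rw [mul_div_assoc', mul_comm (τ i)]
          exact div_le_div_of_nonneg_right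
            (mul_le_mul_of_nonneg_left ((hd.mem i).2.trans hTv) (by positivity)) he.le
        nlinarith [mul_le_mul_of_nonneg_left (ih (hd.mem i)).2 (hd.mem i).1]
      refine (mul_le_mul_of_nonneg_left h1 (by positivity : (0 : ℝ) ≤ 4 / e)).trans (le_of_eq ?_)
      ring

theorem shiftP_grs_le (hd : CurData v T c τ w) {e : ℝ} (he : 0 < e)
    (hs : 8 * c * T * √v / e ≤ 1) (k : ℕ) {t : ℝ} (ht : t ∈ Set.Icc 0 T) :
    (shiftP t (pcur v τ w k t)).grs e none ≤ 2 * T ∧
      (shiftP t (pcur v τ w k t)).grs e (some ()) ≤ 2 := by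
  have hg := hd.grs_le he hs k ht
  have hc := zero_le_one.trans hd.c_one
  have hT := hd.T_nonneg
  refine ⟨?_, ?_⟩
  · rw [shiftP_grs_none ht.1]
    nlinarith [ht.1, ht.2, hg.1, Prog.grs_nonneg he.le (pcur v τ w k t) none]
  · rw [shiftP_grs_some ht.1 (pcur_lin v τ w k t).2]
    have hTv : T ≤ √v := Real.le_sqrt_of_sq_le hd.T_sq.le
    have h4 : t * (8 * c * T / e) ≤ 8 * c * T * √v / e := by
      rw [mul_div_assoc', mul_comm t]
      exact div_le_div_of_nonneg_right
        (mul_le_mul_of_nonneg_left (ht.2.trans hTv) (by positivity)) he.le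
    nlinarith [mul_le_mul_of_nonneg_left hg.2 ht.1]

theorem val_le (hd : CurData v T c τ w) {V : Pt d → ℝ} (hV : Mem V) (k : ℕ) :
    ∀ {t : ℝ}, t ∈ Set.Icc 0 T → ∀ y : Inp d (Option Unit),
      ‖(pcur v τ w k t).val V y‖ ≤ 2 * wt y ∧
        ‖(shiftP t (pcur v τ w k t)).val V y‖ ≤ 3 * wt y := by
  have hc := zero_le_one.trans hd.c_one
  have hT := hd.T_nonneg
  have hT1 : 2 * T ≤ 1 := by nlinarith [hd.small, hd.c_one]
  have step : ∀ {t : ℝ}, t ∈ Set.Icc 0 T → ∀ y : Inp d (Option Unit), ∀ P : Prog (Option Unit),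
      ‖P.val V y‖ ≤ 2 * wt y → ‖(shiftP t P).val V y‖ ≤ 3 * wt y := by
    intro t ht y P hP
    rw [shiftP_val]
    refine (norm_add_le _ _).trans ?_
    rw [norm_smul, Real.norm_eq_abs, abs_of_nonneg ht.1]
    have h1 : ‖y (some ())‖ ≤ wt y := by
      rw [wt_opt]; linarith [Real.sqrt_nonneg (d : ℝ), norm_nonneg (y none)]
    nlinarith [mul_le_mul ht.2 hP (norm_nonneg _) hT, wt_nonneg y]
  induction k with
  | zero =>
    intro t ht y
    have h0 : ‖(pcur v τ w 0 t).val V y‖ ≤ 2 * wt y := by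
      simp only [pcur, Prog.val, sum_opt, Option.elim, one_smul, zero_smul, add_zero,
        Finset.univ_eq_empty, Finset.sum_empty]
      rw [wt_opt]
      linarith [Real.sqrt_nonneg (d : ℝ), norm_nonneg (y none), norm_nonneg (y (some ()))]
    exact ⟨h0, step ht y _ h0⟩
  | succ k ih =>
    intro t ht y
    have h0 : ‖(pcur v τ w (k + 1) t).val V y‖ ≤ 2 * wt y := by
      simp only [pcur, Prog.val, sum_opt, Option.elim, one_smul, zero_smul, add_zero]
      refine (norm_add_le _ _).trans ?_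
      have hN : ∀ i, ‖(Nd.mk (v - τ i ^ 2) 0).val V ((shiftP (τ i) (pcur v τ w k (τ i))).val V y)‖
          ≤ 16 * wt y := by
        intro i
        have hv2 := (hd.node_v i)
        simp only [Nd.val, Quarter.G, zero_pow two_ne_zero, Real.sqrt_zero, zero_smul, add_zero]
        rw [integral_const, probReal_univ, one_smul]
        refine (Nv_norm_le hV hv2.2.2 (hv2.2.1.trans hd.v_le) _).trans ?_
        have h2 := (ih (hd.mem i) y).2
        have h3 : √((v - τ i ^ 2) * d) ≤ √d := Real.sqrt_le_sqrt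
          (mul_le_of_le_one_left (Nat.cast_nonneg d) (by linarith [hd.v_le]))
        have h4 : √d ≤ wt y := by
          rw [wt_opt]; linarith [norm_nonneg (y none), norm_nonneg (y (some ()))]
        linarith
      have h1 : ‖∑ i, (-w t i) • (Nd.mk (v - τ i ^ 2) 0).val V
          ((shiftP (τ i) (pcur v τ w k (τ i))).val V y)‖ ≤ c * T * (16 * wt y) := by
        refine (norm_sum_le _ _).trans ?_
        refine le_trans (sum_le_sum fun i _ => ?_) (le_trans (le_of_eq (sum_mul _ _ _).symm)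
          (mul_le_mul_of_nonneg_right ((hd.weight t ht).trans (mul_le_mul_of_nonneg_left ht.2 hc))
            (by linarith [wt_nonneg y] : (0 : ℝ) ≤ 16 * wt y)))
        rw [norm_smul, Real.norm_eq_abs, abs_neg]
        exact mul_le_mul_of_nonneg_left (hN i) (abs_nonneg _)
      have h5 : ‖y none‖ ≤ wt y := by
        rw [wt_opt]; linarith [Real.sqrt_nonneg (d : ℝ), norm_nonneg (y (some ()))]
      have h6 : c * T * (16 * wt y) ≤ wt y := by
        have := mul_le_mul_of_nonneg_right hd.small (wt_nonneg y)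
        nlinarith [wt_nonneg y]
      exact (add_le_add h5 (h1.trans h6)).trans (le_of_eq (two_mul _).symm)
    exact ⟨h0, step ht y _ h0⟩

theorem grow (hd : CurData v T c τ w) (d : ℕ) {Γ : ℝ} (hΓ : 3 ≤ Γ) (k : ℕ) :
    ∀ t : ℝ, (pcur v τ w k t).Grow d Γ := by
  induction k with
  | zero => exact fun t i => i.elim0
  | succ k ih =>
    intro t i
    exact ⟨fun V hV y => (hd.val_le hV k (hd.mem i) y).2.trans
      (mul_le_mul_of_nonneg_right hΓ (wt_nonneg y)), (shiftP_grow d Γ _ _).2 (ih _)⟩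

theorem depth_le (_hd : CurData v T c τ w) (k : ℕ) : ∀ t : ℝ, (pcur v τ w k t).depth ≤ k := by
  induction k with
  | zero => intro t; simp [pcur, Prog.depth]
  | succ k ih =>
    intro t
    simp only [pcur, Prog.depth]
    refine Finset.sup_le fun i _ => ?_
    rw [shiftP_depth]
    exact Nat.succ_le_succ (ih _)

theorem size_le (_hd : CurData v T c τ w) (k : ℕ) :
    ∀ t : ℝ, (pcur v τ w k t).size ≤ (2 * m + 2) ^ k := by
  induction k with
  | zero => intro t; simp [pcur, Prog.size]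
  | succ k ih =>
    intro t
    simp only [pcur, Prog.size]
    have h1 : ∑ i : Fin m, (1 + (shiftP (τ i) (pcur v τ w k (τ i))).size)
        ≤ m * (1 + (2 * m + 2) ^ k) := by
      refine (sum_le_sum fun i _ => Nat.add_le_add_left ((shiftP_size _ _).trans_le (ih _)) 1).trans ?_
      simp
    have h2 : 1 ≤ (2 * m + 2) ^ k := Nat.one_le_pow _ _ (by omega)
    rw [pow_succ]
    nlinarith

/-- The iterates against any solution of the integral equation up to `R`. -/
theorem error (hd : CurData v T c τ w) {V : Pt d → ℝ} (hV : Mem V) (z x : E d) {Z : ℝ → E d}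
    {M₀ R : ℝ} (hM : ∀ t ∈ Set.Icc 0 T, ‖Z t - z‖ ≤ M₀)
    (hR : ∀ t ∈ Set.Icc 0 T,
      ‖Z t - z + ∑ i, w t i • Nv V (v - τ i ^ 2) (x + τ i • Z (τ i))‖ ≤ R)
    (k : ℕ) : ∀ {t : ℝ}, t ∈ Set.Icc 0 T →
      ‖(pcur v τ w k t).val V (inp2 z x) - Z t‖ ≤ (2 * c * T ^ 2) ^ k * M₀ + 2 * R := by
  have hc := zero_le_one.trans hd.c_one
  have hT := hd.T_nonneg
  have hR0 : 0 ≤ R := (norm_nonneg _).trans (hR 0 ⟨le_rfl, hT⟩)
  have hM0 : 0 ≤ M₀ := (norm_nonneg _).trans (hM 0 ⟨le_rfl, hT⟩)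
  have hT1 : T ≤ 1 / 4 := by nlinarith [hd.small, hd.c_one]
  have hθ : 2 * c * T ^ 2 ≤ 1 / 2 := by nlinarith [hd.small, mul_nonneg hc hT]
  induction k with
  | zero =>
    intro t ht
    simp only [pcur, Prog.val, sum_opt, Option.elim, one_smul, zero_smul, add_zero,
      Finset.univ_eq_empty, Finset.sum_empty, inp2, pow_zero, one_mul]
    rw [norm_sub_rev]
    linarith [hM t ht]
  | succ k ih =>
    intro t ht
    set y := inp2 z x with hy
    have hN : ∀ i, (Nd.mk (v - τ i ^ 2) 0).val V ((shiftP (τ i) (pcur v τ w k (τ i))).val V y)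
        = Nv V (v - τ i ^ 2) (x + τ i • (pcur v τ w k (τ i)).val V y) := by
      intro i
      rw [shiftP_val]
      simp [Nd.val, Quarter.G, hy, inp2]
    simp only [pcur, Prog.val, sum_opt, Option.elim, one_smul, zero_smul, add_zero, hN]
    have e : y none + ∑ i, (-w t i) • Nv V (v - τ i ^ 2) (x + τ i • (pcur v τ w k (τ i)).val V y)
          - Z t
        = -(Z t - z + ∑ i, w t i • Nv V (v - τ i ^ 2) (x + τ i • Z (τ i)))
          - ∑ i, w t i • (Nv V (v - τ i ^ 2) (x + τ i • (pcur v τ w k (τ i)).val V y)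
            - Nv V (v - τ i ^ 2) (x + τ i • Z (τ i))) := by
      simp only [smul_sub, sum_sub_distrib, neg_smul, sum_neg_distrib, hy, inp2, Option.elim]
      abel
    rw [e]
    refine (norm_sub_le _ _).trans ?_
    rw [norm_neg]
    set B := (2 * c * T ^ 2) ^ k * M₀ + 2 * R
    have hB : 0 ≤ B := by positivity
    have h1 : ‖∑ i, w t i • (Nv V (v - τ i ^ 2) (x + τ i • (pcur v τ w k (τ i)).val V y)
        - Nv V (v - τ i ^ 2) (x + τ i • Z (τ i)))‖ ≤ c * T * (2 * T * B) := by
      refine (norm_sum_le _ _).trans ?_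
      refine le_trans (sum_le_sum fun i _ => ?_) (le_trans (le_of_eq (sum_mul _ _ _).symm)
        (mul_le_mul_of_nonneg_right ((hd.weight t ht).trans (mul_le_mul_of_nonneg_left ht.2 hc))
          (by positivity : (0 : ℝ) ≤ 2 * T * B)))
      rw [norm_smul, Real.norm_eq_abs]
      refine mul_le_mul_of_nonneg_left ?_ (abs_nonneg _)
      refine (Nv_lip hV (hd.node_v i).2.2 _ _).trans ?_
      rw [add_sub_add_left_eq_sub, ← smul_sub, norm_smul, Real.norm_eq_abs,
        abs_of_nonneg (hd.mem i).1, mul_assoc]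
      exact mul_le_mul_of_nonneg_left
        (mul_le_mul (hd.mem i).2 (ih (hd.mem i)) (norm_nonneg _) hT) zero_le_two
    have h2 := hR t ht
    have h3 : c * T * (2 * T * B) = (2 * c * T ^ 2) ^ (k + 1) * M₀ + 2 * c * T ^ 2 * (2 * R) := by
      simp only [B, pow_succ]
      ring
    nlinarith [mul_le_mul_of_nonneg_right hθ hR0]

end CurData

end

end Vale.Agent.P347.Zero
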