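import Vale.Agent.P347.Zero.Interp

/-!
# P347, exponent 0: the composite collocation rule on `[0, T]`

`pw T N M t p` are the weights of the panel nodes `pnode T N M p` for the integral over `[0, t]`.
-/

namespace Vale.Agent.P347.Zero

open Finset Real MeasureTheory intervalIntegral
open scoped Nat

noncomputable section

variable {F : Type*} [NormedAddCommGroup F] [NormedSpace ℝ F] [CompleteSpace F]

/-- The left end of a panel. -/
def pa (T : ℝ) (N k : ℕ) : ℝ := T * k / N

/-- The part of a panel below `t`. -/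
def pclip (T : ℝ) (N : ℕ) (t : ℝ) (k : ℕ) : ℝ := max (pa T N k) (min (pa T N (k + 1)) t)

/-- The nodes. -/
def pnode (T : ℝ) (N M : ℕ) (p : Fin N × Fin (M + 1)) : ℝ :=
  eqNode M (pa T N p.1) (pa T N (p.1 + 1)) p.2

/-- The weights of the integral over `[0, t]`. -/
def pw (T : ℝ) (N M : ℕ) (t : ℝ) (p : Fin N × Fin (M + 1)) : ℝ :=
  ∫ s in pa T N p.1..pclip T N t p.1, lw (eqNode M (pa T N p.1) (pa T N (p.1 + 1))) p.2 s

variable {T : ℝ} {N M : ℕ}

theorem pa_zero : pa T N 0 = 0 := by simp [pa]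

theorem pa_last (hN : 0 < N) : pa T N N = T := by
  have : (N : ℝ) ≠ 0 := by positivity
  rw [pa, mul_div_assoc, div_self this, mul_one]

theorem pa_lt (hT : 0 < T) (hN : 0 < N) (k : ℕ) : pa T N k < pa T N (k + 1) := by
  unfold pa
  have : (0 : ℝ) < N := by exact_mod_cast hN
  gcongr
  exact_mod_cast Nat.lt_succ_self k

theorem pa_succ_sub (k : ℕ) : pa T N (k + 1) - pa T N k = T / N := by
  simp only [pa, Nat.cast_succ]
  ring

theorem pa_mem (hT : 0 ≤ T) {k : ℕ} (hk : k ≤ N) : pa T N k ∈ Set.Icc 0 T := by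
  unfold pa
  refine ⟨by positivity, ?_⟩
  rcases Nat.eq_zero_or_pos N with rfl | hN
  · simp [hT]
  · rw [div_le_iff₀ (by exact_mod_cast hN)]
    exact mul_le_mul_of_nonneg_left (by exact_mod_cast hk) hT

theorem panel_subset (hT : 0 ≤ T) {k : ℕ} (hk : k < N) :
    Set.Icc (pa T N k) (pa T N (k + 1)) ⊆ Set.Icc 0 T :=
  Set.Icc_subset_Icc (pa_mem hT hk.le).1 (pa_mem hT (Nat.succ_le_of_lt hk)).2

theorem pnode_mem (hT : 0 < T) (p : Fin N × Fin (M + 1)) : pnode T N M p ∈ Set.Icc 0 T :=
  panel_subset hT.le p.1.2 (eqNode_mem (pa_lt hT (Nat.zero_lt_of_lt p.1.2) _).le _)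

theorem le_pclip (t : ℝ) (k : ℕ) : pa T N k ≤ pclip T N t k := le_max_left _ _

theorem pclip_le (hT : 0 < T) (hN : 0 < N) (t : ℝ) (k : ℕ) :
    pclip T N t k ≤ pa T N (k + 1) :=
  max_le (pa_lt hT hN k).le (min_le_left _ _)

theorem sum_pclip (hT : 0 < T) (hN : 0 < N) {t : ℝ} (ht : t ∈ Set.Icc 0 T) {G : Type*}
    [AddCommGroup G] (g : ℝ → G) :
    ∑ k : Fin N, (g (pclip T N t k) - g (pa T N k)) = g t - g 0 := by
  rw [Fin.sum_univ_eq_sum_range (fun k => g (pclip T N t k) - g (pa T N k)) N]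
  have e : ∀ k, g (pclip T N t k) - g (pa T N k)
      = g (min (pa T N (k + 1)) t) - g (min (pa T N k) t) := by
    intro k
    rcases le_total (pa T N k) t with h | h
    · rw [pclip, max_eq_right (le_min (pa_lt hT hN k).le h), min_eq_left h]
    · rw [pclip, min_eq_right (h.trans (pa_lt hT hN k).le), max_eq_left h, min_eq_right h,
        sub_self, sub_self]
  simp only [e]
  rw [sum_range_sub (fun k => g (min (pa T N k) t)) N, pa_zero, pa_last hN, min_eq_right ht.2,
    min_eq_left ht.1]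

theorem pw_abs_sum {C : ℝ} (hC : ∀ a b s : ℝ, a < b → s ∈ Set.Icc a b →
      (∑ j, |lw (eqNode M a b) j s|) ≤ C) (hT : 0 < T) (hN : 0 < N) {t : ℝ}
    (ht : t ∈ Set.Icc 0 T) : ∑ p, |pw T N M t p| ≤ C * t := by
  rw [Fintype.sum_prod_type]
  have h1 : ∀ k : Fin N, ∑ j, |pw T N M t (k, j)| ≤ C * (pclip T N t k - pa T N k) := by
    intro k
    have hab := pa_lt hT hN (k : ℕ)
    have hc : ∀ j : Fin (M + 1), Continuous fun s =>
        |lw (eqNode M (pa T N k) (pa T N (k + 1))) j s| := fun j => (lw_continuous _ j).abs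
    refine (sum_le_sum fun j _ =>
      intervalIntegral.abs_integral_le_integral_abs (le_pclip t k)).trans ?_
    rw [← intervalIntegral.integral_finsetSum fun j _ => (hc j).intervalIntegrable _ _]
    refine (intervalIntegral.integral_mono_on (le_pclip t k)
      ((continuous_finsetSum _ fun j _ => hc j).intervalIntegrable _ _)
      (intervalIntegrable_const (c := C)) fun s hs => hC _ _ s hab
        ⟨hs.1, hs.2.trans (pclip_le hT hN t k)⟩).trans ?_
    rw [intervalIntegral.integral_const, smul_eq_mul, mul_comm]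
  refine (sum_le_sum fun k _ => h1 k).trans ?_
  rw [← mul_sum, sum_pclip hT hN ht (fun s => s), sub_zero]

theorem topI_panels {f : ℝ → F} (hT : 0 < T) (hN : 0 < N)
    (hf : ContDiffOn ℝ (M + 1 : ℕ) f (Set.Icc 0 T)) :
    ∑ k : Fin N, topI M f (pa T N k) (pa T N (k + 1)) = topI M f 0 T := by
  have hu := uniqueDiffOn_Icc hT
  have hc : ContinuousOn (fun s => ‖iteratedDerivWithin (M + 1) f (Set.Icc 0 T) s‖)
      (Set.Icc 0 T) := (hf.continuousOn_iteratedDerivWithin le_rfl hu).norm
  have e : ∀ k : Fin N, topI M f (pa T N k) (pa T N (k + 1))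
      = ∫ s in pa T N k..pa T N (k + 1), ‖iteratedDerivWithin (M + 1) f (Set.Icc 0 T) s‖ := by
    intro k
    have hab := pa_lt hT hN (k : ℕ)
    refine intervalIntegral.integral_congr fun s hs => ?_
    rw [Set.uIcc_of_le hab.le] at hs
    simp only [iteratedDerivWithin]
    rw [iteratedFDerivWithin_subset (panel_subset hT.le k.2) (uniqueDiffOn_Icc hab) hu hf hs]
  simp only [e]
  rw [Fin.sum_univ_eq_sum_range (fun k => ∫ s in pa T N k..pa T N (k + 1),
      ‖iteratedDerivWithin (M + 1) f (Set.Icc 0 T) s‖) N,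
    intervalIntegral.sum_integral_adjacent_intervals (a := pa T N) fun k hk =>
      (hc.mono (panel_subset hT.le hk)).intervalIntegrable_of_Icc (pa_lt hT hN k).le,
    pa_zero, pa_last hN, topI]

/-- The error of the composite rule. -/
theorem rule_bound {f : ℝ → F} {C : ℝ} (hC : ∀ a b s : ℝ, a < b → s ∈ Set.Icc a b →
      (∑ j, |lw (eqNode M a b) j s|) ≤ C) (hT : 0 < T) (hN : 0 < N)
    (hf : ContDiffOn ℝ (M + 1 : ℕ) f (Set.Icc 0 T)) {t : ℝ} (ht : t ∈ Set.Icc 0 T) :
    ‖(∫ s in (0 : ℝ)..t, f s) - ∑ p, pw T N M t p • f (pnode T N M p)‖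
      ≤ (1 + C) * (T / N) ^ (M + 1) / M ! * topI M f 0 T := by
  have hcf : ContinuousOn f (Set.Icc 0 T) := hf.continuousOn
  have hint : ∀ s ∈ Set.Icc 0 T, IntervalIntegrable f volume 0 s := fun s hs =>
    (hcf.mono (Set.Icc_subset_Icc_right hs.2)).intervalIntegrable_of_Icc hs.1
  have hC0 : 0 ≤ C := (sum_nonneg fun _ _ => abs_nonneg _).trans (hC 0 1 0 one_pos ⟨le_rfl, zero_le_one⟩)
  have hsplit : (∫ s in (0 : ℝ)..t, f s)
      = ∑ k : Fin N, ∫ s in pa T N k..pclip T N t k, f s := by
    have h := sum_pclip hT hN ht (fun c => ∫ s in (0 : ℝ)..c, f s)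
    rw [intervalIntegral.integral_same, sub_zero] at h
    rw [← h]
    refine Finset.sum_congr rfl fun k _ => ?_
    exact intervalIntegral.integral_interval_sub_left
      (hint _ (panel_subset hT.le k.2 ⟨le_pclip t k, pclip_le hT hN t k⟩))
      (hint _ (pa_mem hT.le k.2.le))
  rw [hsplit, Fintype.sum_prod_type, ← sum_sub_distrib]
  refine (norm_sum_le _ _).trans ?_
  rw [← topI_panels hT hN hf, mul_sum]
  refine sum_le_sum fun k _ => ?_
  set a := pa T N k
  set b := pa T N (k + 1)
  have hab : a < b := pa_lt hT hN (k : ℕ)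
  have hsub : Set.Icc a b ⊆ Set.Icc 0 T := panel_subset hT.le k.2
  have hc1 : a ≤ pclip T N t k := le_pclip t k
  have hc2 : pclip T N t k ≤ b := pclip_le hT hN t k
  have hsub' : Set.Icc a (pclip T N t k) ⊆ Set.Icc a b := Set.Icc_subset_Icc_right hc2
  have hfi : IntervalIntegrable f volume a (pclip T N t k) :=
    (hcf.mono (hsub'.trans hsub)).intervalIntegrable_of_Icc hc1
  have hwi : ∀ j, IntervalIntegrable (fun s => lw (eqNode M a b) j s • f (eqNode M a b j))
      volume a (pclip T N t k) := fun j =>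
    ((lw_continuous _ j).smul continuous_const).intervalIntegrable _ _
  have e : (∫ s in a..pclip T N t k, f s) - ∑ j, pw T N M t (k, j) • f (pnode T N M (k, j))
      = ∫ s in a..pclip T N t k, (f s - ∑ j, lw (eqNode M a b) j s • f (eqNode M a b j)) := by
    rw [intervalIntegral.integral_sub hfi
      ((continuous_finsetSum _ fun j _ =>
        (lw_continuous (eqNode M a b) j).smul (continuous_const (y := f (eqNode M a b j))) :
          Continuous fun s => ∑ j, lw (eqNode M a b) j s • f (eqNode M a b j)).intervalIntegrable _ _),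
      intervalIntegral.integral_finsetSum fun j _ => hwi j]
    simp only [intervalIntegral.integral_smul_const]
    rfl
  rw [e]
  have htop := topI_nonneg M f hab.le
  refine (intervalIntegral.norm_integral_le_of_norm_le_const
    (C := (1 + C) * ((b - a) ^ M / M ! * topI M f a b)) fun s hs => ?_).trans ?_
  · rw [Set.uIoc_of_le hc1] at hs
    have hs' : s ∈ Set.Icc a b := hsub' ⟨hs.1.le, hs.2⟩
    refine (interp_bound hab (eqNode_injective hab) (fun j => eqNode_mem hab.le j)
      (hf.mono hsub) hs').trans (mul_le_mul_of_nonneg_right (add_le_add_right (hC a b s hab hs') 1)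
        (mul_nonneg (div_nonneg (pow_nonneg (sub_nonneg.2 hab.le) M) (Nat.cast_nonneg _)) htop))
  · have hlen : b - a = T / N := pa_succ_sub (k : ℕ)
    have hpos : 0 ≤ (1 + C) * ((b - a) ^ M / M ! * topI M f a b) := by
      have := sub_nonneg.2 hab.le
      positivity
    rw [abs_of_nonneg (sub_nonneg.2 hc1)]
    refine (mul_le_mul_of_nonneg_left (by linarith : pclip T N t k - a ≤ b - a) hpos).trans
      (le_of_eq ?_)
    rw [hlen, pow_succ]
    ring

end

end Vale.Agent.P347.Zero
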