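import Vale.Agent.P347.Zero.Bridge
import Vale.Agent.P347.Zero.PostReg
import Vale.Agent.P347.Zero.Comp

/-!
# P347, exponent 0: the potential of the posterior curve

`phiS` is the potential of the curve read in the variable `w = z / r`; `r = 1` is the curve itself.
In that variable the derivatives of the fields along the curve are uniformly bounded.
-/

namespace Vale.Agent.P347.Zero

open MeasureTheory Real Set WithLp Filter Topology
open Vale.Agent.P347.Quarter (E γ gOf)
open scoped RealInnerProductSpace ContDiff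

noncomputable section

variable {d : ℕ} {V : Colour.Pt d → ℝ} {v : ℝ}

/-! ## Partial derivatives of functions of `(s, y)` -/

/-- Variances are positive. -/
def dom (d : ℕ) : Set (ℝ × E d) := Ioi 0 ×ˢ univ

theorem isOpen_dom : IsOpen (dom d) := isOpen_Ioi.prod isOpen_univ

theorem mem_dom {s : ℝ} (hs : 0 < s) (y : E d) : (s, y) ∈ dom d := ⟨hs, trivial⟩

variable {F : ℝ × E d → ℝ}

theorem hasFDerivAt_dom (hF : ContDiffOn ℝ ∞ F (dom d)) {s : ℝ} (hs : 0 < s) (y : E d) :
    HasFDerivAt F (fderiv ℝ F (s, y)) (s, y) :=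
  ((hF.contDiffAt (isOpen_dom.mem_nhds (mem_dom hs y))).differentiableAt (by simp)).hasFDerivAt

theorem contDiffOn_dir (hF : ContDiffOn ℝ ∞ F (dom d)) (e : ℝ × E d) :
    ContDiffOn ℝ ∞ (fun p => fderiv ℝ F p e) (dom d) :=
  (hF.fderiv_of_isOpen isOpen_dom (by simp)).clm_apply contDiffOn_const

theorem hasDerivAt_slice (hF : ContDiffOn ℝ ∞ F (dom d)) {s : ℝ} (hs : 0 < s) (y : E d) :
    HasDerivAt (fun s => F (s, y)) (fderiv ℝ F (s, y) (1, 0)) s :=
  (hasFDerivAt_dom hF hs y).comp_hasDerivAt s ((hasDerivAt_id s).prodMk (hasDerivAt_const s y))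

theorem hasFDerivAt_slice (hF : ContDiffOn ℝ ∞ F (dom d)) {s : ℝ} (hs : 0 < s) (y : E d) :
    HasFDerivAt (fun y => F (s, y))
      ((fderiv ℝ F (s, y)).comp (ContinuousLinearMap.inr ℝ ℝ (E d))) y := by
  refine ((hasFDerivAt_dom hF hs y).comp y
    ((hasFDerivAt_const s y).prodMk (hasFDerivAt_id y))).congr_fderiv ?_
  ext u
  simp

theorem pd_slice (hF : ContDiffOn ℝ ∞ F (dom d)) {s : ℝ} (hs : 0 < s) (y : E d) (j : Fin d) :
    pd j (fun y => F (s, y)) y = fderiv ℝ F (s, y) (0, unitV j) := by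
  rw [pd, (hasFDerivAt_slice hF hs y).fderiv]
  simp

theorem contDiffOn_pd_slice (hF : ContDiffOn ℝ ∞ F (dom d)) (j : Fin d) :
    ContDiffOn ℝ ∞ (fun p : ℝ × E d => pd j (fun y => F (p.1, y)) p.2) (dom d) :=
  (contDiffOn_dir hF (0, unitV j)).congr fun p hp => pd_slice hF (mem_Ioi.1 hp.1) p.2 j

theorem contDiff_slice (hF : ContDiffOn ℝ ∞ F (dom d)) {s : ℝ} (hs : 0 < s) :
    ContDiff ℝ ∞ fun y => F (s, y) :=
  contDiffOn_univ.1 (hF.comp (f := fun y : E d => (s, y))
    (contDiff_const.prodMk contDiff_id).contDiffOn fun y _ => mem_dom hs y)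

/-- The time derivative commutes with the space derivatives. -/
theorem hasDerivAt_pd (hF : ContDiffOn ℝ ∞ F (dom d)) {s : ℝ} (hs : 0 < s) (y : E d) (j : Fin d) :
    HasDerivAt (fun s => pd j (fun y => F (s, y)) y)
      (pd j (fun y => deriv (fun s => F (s, y)) s) y) s := by
  have hsym : IsSymmSndFDerivAt ℝ F (s, y) :=
    (hF.contDiffAt (isOpen_dom.mem_nhds (mem_dom hs y))).isSymmSndFDerivAt
      (by simp; exact WithTop.coe_le_coe.2 le_top)
  have hd : DifferentiableAt ℝ (fderiv ℝ F) (s, y) :=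
    ((hF.fderiv_of_isOpen (m := ∞) isOpen_dom (by simp)).contDiffAt
      (isOpen_dom.mem_nhds (mem_dom hs y))).differentiableAt (by simp)
  have h1 := hasDerivAt_slice (contDiffOn_dir hF (0, unitV j)) hs y
  have e1 : (fun y => deriv (fun s => F (s, y)) s) = fun y => fderiv ℝ F (s, y) (1, 0) :=
    funext fun y => (hasDerivAt_slice hF hs y).deriv
  rw [e1, pd_slice (contDiffOn_dir hF (1, 0)) hs y]
  rw [fderiv_clm_apply hd (differentiableAt_const _)] at h1 ⊢
  simp only [fderiv_fun_const, Pi.zero_apply, ContinuousLinearMap.comp_zero, zero_add,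
    ContinuousLinearMap.flip_apply] at h1 ⊢
  rw [hsym.eq] at h1
  exact h1.congr_of_eventuallyEq ((eventually_gt_nhds hs).mono fun s' hs' => pd_slice hF hs' y j)

/-! ## The potential -/

/-- The potential of the curve in the variable `z / r`. -/
def phiS (V : Colour.Pt d → ℝ) (v : ℝ) (x : E d) (r t : ℝ) (w : E d) : ℝ :=
  r ^ 2 * ‖w‖ ^ 2 / 2 + log (gMass d) - d * log r + uPot V (v - t ^ 2) (x + (t * r) • w)
    - uPot V v x

theorem gMass_pos : 0 < gMass d := by
  refine integral_exp_pos ?_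
  simpa [neg_div] using (gr_const (d := d) (1 : ℝ)).integrable_gauss 0

/-- Integrals against the standard Gaussian. -/
theorem integral_γ_eq (f : E d → ℝ) :
    ∫ w, f w ∂γ d = (∫ w : E d, f w * exp (-(‖w‖ ^ 2 / 2))) / gMass d := by
  have h := Quarter.Tgt.quad_integral (d := d) one_pos f
  rw [(Colour.sc_quad one_pos).integral_law] at h
  simp only [div_one, sqrt_one, one_smul] at h
  have e : ∀ n : Colour.Pt d, exp (-(1 / 2 * Colour.nr n ^ 2)) = exp (-(‖toLp 2 n‖ ^ 2 / 2)) :=
    fun n => by congr 1; simp [Colour.nr]; ring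
  simp only [e] at h
  rw [← h, integral_pt fun w => f w * exp (-(‖w‖ ^ 2 / 2)),
    integral_pt fun w => exp (-(‖w‖ ^ 2 / 2)), gMass]

variable {x : E d} {r t : ℝ}

theorem exp_neg_phiS (hV : Colour.Cls (id : Fin d → Fin d) V) (hr : 0 < r) (w : E d) :
    exp (-phiS V v x r t w)
      = r ^ d * (exp (-(‖r • w‖ ^ 2 / 2)) * wCur V v x t (r • w) / gMass d) := by
  have h1 : ∀ s y, rho V s y = exp (-uPot V s y) := fun s y => by
    rw [uPot, neg_neg, exp_log (rho_pos hV s y)]
  rw [wCur, h1, h1, smul_smul, norm_smul, norm_of_nonneg hr.le, mul_pow,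
    show r ^ d = exp (d * log r) by rw [exp_nat_mul, exp_log hr],
    show gMass d = exp (log (gMass d)) from (exp_log gMass_pos).symm, ← exp_sub, ← exp_add, ← exp_sub,
    ← exp_add, phiS]
  ring_nf

/-- The mean against the potential is a mean of the curve's law. -/
theorem EP_phiS (hV : Colour.Cls (id : Fin d → Fin d) V) (hr : 0 < r) (f : E d → ℝ) :
    EP (phiS V v x r t) f = ∫ z, wCur V v x t z * f (r⁻¹ • z) ∂γ d := by
  have h := Measure.integral_comp_smul (volume : Measure (E d))
    (fun z => exp (-(‖z‖ ^ 2 / 2)) * wCur V v x t z / gMass d * f (r⁻¹ • z)) r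
  simp only [smul_smul, inv_mul_cancel₀ hr.ne', one_smul, finrank_euclideanSpace, Fintype.card_fin,
    smul_eq_mul, abs_inv, abs_of_pos (pow_pos hr d)] at h
  rw [EP, integral_γ_eq, ← integral_div]
  calc ∫ w, exp (-phiS V v x r t w) * f w
      = r ^ d * ∫ w, exp (-(‖r • w‖ ^ 2 / 2)) * wCur V v x t (r • w) / gMass d * f w := by
        rw [← integral_const_mul]
        simp only [exp_neg_phiS hV hr, mul_assoc]
    _ = _ := by
        rw [h, ← mul_assoc, mul_inv_cancel₀ (pow_pos hr d).ne', one_mul]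
        exact integral_congr_ae (ae_of_all _ fun z => by field_simp)

theorem hasFDerivAt_phiS (hV : Colour.Cls (id : Fin d → Fin d) V) (ht : t ^ 2 < v) (w : E d) :
    HasFDerivAt (phiS V v x r t)
      (innerSL ℝ (r ^ 2 • w + (r * t) • Nv V (v - t ^ 2) (x + (t * r) • w))) w := by
  have hs : 0 < v - t ^ 2 := by linarith
  have h1 := ((hasFDerivAt_id w).norm_sq.const_mul (r ^ 2)).mul_const (2 : ℝ)⁻¹
  have h2 := (hasGradientAt_iff_hasFDerivAt.1 (hasGradientAt_uPot hV hs (x + (t * r) • w))).comp w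
    (((hasFDerivAt_id w).const_smul (t * r)).const_add x)
  refine ((((h1.add_const (log (gMass d))).sub_const ((d : ℝ) * log r)).add h2).sub_const
    (uPot V v x)).congr_fderiv (ContinuousLinearMap.ext fun u => ?_)
  simp [InnerProductSpace.toDual_apply_apply]
  ring

theorem pd_phiS (hV : Colour.Cls (id : Fin d → Fin d) V) (ht : t ^ 2 < v) (j : Fin d) (w : E d) :
    pd j (phiS V v x r t) w = r ^ 2 * w j + r * t * Nv V (v - t ^ 2) (x + (t * r) • w) j := by
  rw [pd, (hasFDerivAt_phiS hV ht w).fderiv]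
  simp [unitV, EuclideanSpace.inner_single_right]

theorem Nv_line_temp (hV : Colour.Cls (id : Fin d → Fin d) V) {s : ℝ} (hs : 0 < s) (hs' : s ≤ 1)
    (x : E d) (c : ℝ) : (fun w : E d => Nv V s (x + c • w)).HasTemperateGrowth := by
  obtain ⟨_, -, h⟩ := exists_Nv_reg 0
  exact (h d V hV s hs hs').2.vec.comp
    ((Function.HasTemperateGrowth.const x).add
      ((c • ContinuousLinearMap.id ℝ (E d)).hasTemperateGrowth))

theorem pot_phiS (hV : Colour.Cls (id : Fin d → Fin d) V) (hv' : v ≤ 1) (ht : t ^ 2 < v)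
    (hr : 0 < r) : Pot (phiS V v x r t) := by
  have hs : 0 < v - t ^ 2 := by linarith
  have hv : 0 < v := by nlinarith [sq_nonneg t]
  set s := v - t ^ 2
  set P := fun w : E d => r ^ 2 • w + (r * t) • Nv V s (x + (t * r) • w)
  have hN := Nv_line_temp hV hs (by nlinarith [sq_nonneg t]) x (t * r)
  have hP : P.HasTemperateGrowth :=
    ((Function.HasTemperateGrowth.const (r ^ 2)).smul Function.HasTemperateGrowth.id').add
      ((Function.HasTemperateGrowth.const (r * t)).smul hN)
  set K := r ^ 2 + |r * t| * (‖Nv V s x‖ + 2 * |t * r|)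
  have hK : ∀ w, ‖P w‖ ≤ K * (1 + ‖w‖) := fun w => by
    refine (norm_add_le _ _).trans ?_
    rw [norm_smul, norm_smul, norm_of_nonneg (sq_nonneg r), norm_eq_abs]
    have h1 := Nv_lip hV hs (x + (t * r) • w) x
    rw [add_sub_cancel_left, norm_smul, norm_eq_abs] at h1
    have h2 := norm_le_norm_sub_add (Nv V s (x + (t * r) • w)) (Nv V s x)
    nlinarith [norm_nonneg w, norm_nonneg (Nv V s x), abs_nonneg (r * t), abs_nonneg (t * r),
      mul_nonneg (abs_nonneg (r * t)) (norm_nonneg (Nv V s x)), sq_nonneg r,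
      mul_le_mul_of_nonneg_left (h2.trans (add_le_add h1 le_rfl)) (abs_nonneg (r * t)),
      mul_nonneg (mul_nonneg (abs_nonneg (r * t)) (norm_nonneg (Nv V s x))) (norm_nonneg w),
      mul_nonneg (abs_nonneg (r * t)) (abs_nonneg (t * r))]
  refine ⟨?_, ⟨r ^ 2 / 2, by positivity, -(log (gMass d) - d * log r - uPot V v x), fun w => ?_⟩, ?_⟩
  · refine Function.HasTemperateGrowth.of_fderiv ?_
      (fun w => (hasFDerivAt_phiS hV ht w).differentiableAt) (k := 2)
      (C := |phiS V v x r t 0| + K) fun w => ?_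
    · rw [show fderiv ℝ (phiS V v x r t) = fun w => innerSL ℝ (P w) from
        funext fun w => (hasFDerivAt_phiS hV ht w).fderiv]
      exact (innerSL ℝ).hasTemperateGrowth.comp hP
    · have hb : ∀ y ∈ Metric.closedBall (0 : E d) ‖w‖,
          ‖fderiv ℝ (phiS V v x r t) y‖ ≤ K * (1 + ‖w‖) := fun y hy => by
        rw [(hasFDerivAt_phiS hV ht y).fderiv, innerSL_apply_norm]
        refine (hK y).trans (mul_le_mul_of_nonneg_left ?_ (by positivity))
        rw [mem_closedBall_zero_iff] at hy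
        linarith
      have h := (convex_closedBall (0 : E d) ‖w‖).norm_image_sub_le_of_norm_fderiv_le
        (fun y _ => (hasFDerivAt_phiS hV ht y).differentiableAt) hb (x := 0) (y := w)
        (Metric.mem_closedBall_self (norm_nonneg _)) (by simp)
      rw [sub_zero, norm_eq_abs] at h
      rw [norm_eq_abs]
      nlinarith [abs_sub_abs_le_abs_sub (phiS V v x r t w) (phiS V v x r t 0), norm_nonneg w,
        mul_nonneg (abs_nonneg (phiS V v x r t 0)) (norm_nonneg w), sq_nonneg ‖w‖,
        mul_nonneg (abs_nonneg (phiS V v x r t 0)) (sq_nonneg ‖w‖),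
        mul_nonneg (show 0 ≤ K by positivity) (norm_nonneg w), show 0 ≤ K by positivity]
  · have := uPot_nonneg hV s (x + (t * r) • w)
    simp only [phiS]
    nlinarith
  · calc ∫ w, exp (-phiS V v x r t w) = EP (phiS V v x r t) fun _ => 1 := by simp [EP]
      _ = _ := by rw [EP_phiS hV hr]; simpa using integral_wCur hV hv ht.le x

/-- The time derivative of the potential of the curve itself. -/
theorem hasDerivAt_phiS (hV : Colour.Cls (id : Fin d → Fin d) V) (ht : t ^ 2 < v) (w : E d) :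
    HasDerivAt (fun t => phiS V v x r t w)
      (-t * (Quarter.Tgt.tr (fderiv ℝ (Nv V (v - t ^ 2)) (x + (t * r) • w))
          - ‖Nv V (v - t ^ 2) (x + (t * r) • w)‖ ^ 2)
        + r * ⟪Nv V (v - t ^ 2) (x + (t * r) • w), w⟫) t := by
  set s := v - t ^ 2
  set y := x + (t * r) • w
  have hs : 0 < s := by simp only [s]; linarith
  have hU : ContDiffOn ℝ ∞ (fun p : ℝ × E d => uPot V p.1 p.2) (dom d) := uPot_contDiffOn hV
  have hc : HasDerivAt (fun t => (v - t ^ 2, x + (t * r) • w)) (-(2 * t), r • w) t := by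
    have ha : HasDerivAt (fun t => v - t ^ 2) (-(2 * t)) t := by
      simpa using (hasDerivAt_pow 2 t).const_sub v
    refine ha.prodMk ?_
    simpa using (((hasDerivAt_id t).mul_const r).smul_const w).const_add x
  have h := (hasFDerivAt_dom hU hs y).comp_hasDerivAt_of_eq t hc rfl
  have e1 := (hasDerivAt_slice hU hs y).unique (hasDerivAt_uPot hV hs y)
  have e2 : (fderiv ℝ (fun p : ℝ × E d => uPot V p.1 p.2) (s, y)) (0, r • w)
      = r * ⟪Nv V s y, w⟫ := by
    have := DFunLike.congr_fun ((hasFDerivAt_slice hU hs y).unique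
      (hasGradientAt_iff_hasFDerivAt.1 (hasGradientAt_uPot hV hs y))) (r • w)
    simp only [ContinuousLinearMap.comp_apply, ContinuousLinearMap.inr_apply,
      InnerProductSpace.toDual_apply_apply, inner_smul_right] at this
    exact this
  refine ((h.const_add (r ^ 2 * ‖w‖ ^ 2 / 2 + log (gMass d) - d * log r)).sub_const
    (uPot V v x)).congr_deriv ?_
  rw [show ((-(2 * t), r • w) : ℝ × E d) = (-(2 * t)) • (1, 0) + (0, r • w) by simp, map_add,
    map_smul, e1, e2, smul_eq_mul]
  ring

end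

end Vale.Agent.P347.Zero
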