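import Vale.Agent.P347.Zero.CurveBase

/-!
# P347, exponent 0: expressions in the derivatives of the posterior gradient

`VK k` is the `k`-th derivative of `Nv`. `Pol w` is the class of contractions of them of total weight
`w`; it contains the correction `Qy k` in the time derivative
`ds VK k = (1/2) Δ VK k - (N · ∇) VK k - Qy k`, and pulled back to a line `x + c w` it has all
flattenings of all derivatives bounded by `C / sqrt s ^ w`.
-/

namespace Vale.Agent.P347.Zero

open MeasureTheory Real Set Finset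
open Vale.Agent.P347.Quarter (E)
open scoped ContDiff

noncomputable section

set_option linter.unusedSectionVars false

/-- A potential and a variance. -/
structure YPar where
  d : ℕ
  V : Colour.Pt d → ℝ
  s : ℝ

/-- Admissible. -/
structure YPar.Good (q : YPar) : Prop where
  cls : Colour.Cls (id : Fin q.d → Fin q.d) q.V
  pos : 0 < q.s
  le : q.s ≤ 1

/-- Fields over all parameters. -/
abbrev YF (ι : Type) := ∀ q : YPar, TF ι (Fin q.d)

/-- One output index and `k` derivatives. -/
abbrev It (k : ℕ) := Unit ⊕ Fin k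

/-- The `k`-th derivative. -/
def VK (k : ℕ) : YF (It k) := fun q => gradK k (vecT (Nv q.V q.s))

/-- The first derivative index in front. -/
def eK (k : ℕ) : It (k + 1) ≃ Option (It k) where
  toFun := Sum.elim (fun u => some (Sum.inl u))
    fun l => Fin.cases none (fun l => some (Sum.inr l)) l
  invFun o := o.elim (Sum.inr 0) (Sum.elim Sum.inl fun l => Sum.inr l.succ)
  left_inv x := by
    rcases x with u | l
    · rfl
    · refine Fin.cases ?_ (fun l => ?_) l <;> simp
  right_inv o := by rcases o with _ | (u | l) <;> simp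

theorem gradT_gradK' {α : Type} [Fintype α] [DecidableEq α] {X : TF Unit α} (hX : SmoothTF X)
    (k : ℕ) : gradT (gradK k X) = ren (eK k) (gradK (k + 1) X) := by
  funext z i
  set f := fun z => X z ((i ∘ some) ∘ Sum.inl)
  have hd : DifferentiableAt ℝ (iteratedFDeriv ℝ k f) z :=
    (hX _).differentiable_iteratedFDeriv (WithTop.coe_lt_coe.2 (ENat.natCast_lt_top k)) z
  show fderiv ℝ (fun z => iteratedFDeriv ℝ k f z fun l => unitV ((i ∘ some) (Sum.inr l))) z
      (unitV (i none))
    = iteratedFDeriv ℝ (k + 1) f z fun l => unitV ((i ∘ eK k) (Sum.inr l))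
  set m : Fin k → Sp α := fun l => unitV ((i ∘ some) (Sum.inr l))
  have h2 := ((ContinuousMultilinearMap.apply ℝ (fun _ : Fin k => Sp α) ℝ m).hasFDerivAt.comp z
    hd.hasFDerivAt).fderiv
  rw [show (fun z => iteratedFDeriv ℝ k f z m)
    = ⇑(ContinuousMultilinearMap.apply ℝ (fun _ : Fin k => Sp α) ℝ m) ∘ iteratedFDeriv ℝ k f from rfl,
    h2, iteratedFDeriv_succ_apply_left]
  rfl

variable {q : YPar}

theorem temp_Nv (hq : q.Good) : Temp (vecT (Nv q.V q.s)) := by
  obtain ⟨_, -, h⟩ := exists_Nv_reg 0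
  exact (h q.d q.V hq.cls q.s hq.pos hq.le).2

theorem gradT_VK (hq : q.Good) (k : ℕ) : gradT (VK k q) = ren (eK k) (VK (k + 1) q) :=
  gradT_gradK' (Nv_smooth hq.cls hq.pos).2 k

theorem VK_zero_apply (y : E q.d) (i : It 0 → Fin q.d) :
    VK 0 q y i = Nv q.V q.s y (i (Sum.inl ())) := by
  simp [VK, gradK, vecT]

theorem temp_VK (hq : q.Good) : ∀ k, Temp (VK k q)
  | 0 => fun i => by
    simp only [VK_zero_apply]
    exact temp_Nv hq fun _ => i (Sum.inl ())
  | k + 1 => by
    have h := ((temp_VK hq k).gradT).ren (eK k).symm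
    rw [gradT_VK hq] at h
    intro i
    have := h i
    simpa [Zero.ren, Function.comp_assoc] using this

/-- The derivative index `h` in front of `i`. -/
theorem VK_succ_apply (hq : q.Good) (k : ℕ) (y : E q.d) (i : It (k + 1) → Fin q.d) :
    VK (k + 1) q y i = pd (i (Sum.inr 0))
      (fun y => VK k q y fun o => i ((eK k).symm (some o))) y := by
  have h := congrFun (congrFun (gradT_VK hq k) y) (i ∘ (eK k).symm)
  simp only [Zero.ren, Function.comp_assoc, Equiv.symm_comp_self, Function.comp_id] at h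
  rw [← h]
  rfl

theorem VK_succ_smooth (hV : Colour.Cls (id : Fin q.d → Fin q.d) q.V) (hs : 0 < q.s) (k : ℕ)
    (y : E q.d) (i : It (k + 1) → Fin q.d) :
    VK (k + 1) q y i = pd (i (Sum.inr 0))
      (fun y => VK k q y fun o => i ((eK k).symm (some o))) y := by
  have h := congrFun (congrFun (gradT_gradK' (Nv_smooth hV hs).2 k) y) (i ∘ (eK k).symm)
  simp only [Zero.ren, Function.comp_assoc, Equiv.symm_comp_self, Function.comp_id] at h
  exact h.symm

/-- The index of a first derivative. -/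
def e11 : It 1 ≃ Unit ⊕ Unit := Equiv.sumCongr (Equiv.refl Unit) finOneEquiv

/-- The first derivative as a matrix. -/
def V1m : YF (Unit ⊕ Unit) := fun q => ren e11 (VK 1 q)

theorem V1m_apply (hq : q.Good) (y : E q.d) (i : Unit ⊕ Unit → Fin q.d) :
    V1m q y i = pd (i (Sum.inr ())) (fun y => Nv q.V q.s y (i (Sum.inl ()))) y := by
  simp only [V1m, ren, VK_succ_apply hq, VK_zero_apply]
  rfl

/-- The first index of the next derivative as the left summand. -/
def eL (k : ℕ) : It (k + 1) ≃ Unit ⊕ It k := (eK k).trans (optU (It k))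

/-- The correction in the time derivative. -/
def Qy : (k : ℕ) → YF (It k)
  | 0 => fun _ => 0
  | k + 1 => fun q => ren (eK k).symm (gradT (Qy k q))
      + ren (eL k).symm (conF (V1m q) (ren (eL k) (VK (k + 1) q)))

/-- Sums over a single index. -/
theorem sum_unit {α : Type} [Fintype α] {M : Type*} [AddCommMonoid M] (f : (Unit → α) → M) :
    ∑ r, f r = ∑ j : α, f fun _ => j :=
  ((Equiv.funUnique Unit α).symm.sum_comp f).symm

/-- Contractions of derivatives of weight `w`. -/
inductive Pol : ℕ → ∀ (ι : Type) [Fintype ι] [DecidableEq ι], YF ι → Prop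
  | atom (k : ℕ) : Pol k (It (k + 1)) (VK (k + 1))
  | zero (w : ℕ) {ι : Type} [Fintype ι] [DecidableEq ι] (i i' : ι) (h : i ≠ i') :
      Pol w ι fun _ => 0
  | add {w : ℕ} {ι : Type} [Fintype ι] [DecidableEq ι] {Q Q' : YF ι} :
      Pol w ι Q → Pol w ι Q' → Pol w ι fun q => Q q + Q' q
  | ren {w : ℕ} {ι ι' : Type} [Fintype ι] [DecidableEq ι] [Fintype ι'] [DecidableEq ι'] {Q : YF ι}
      (f : ι ≃ ι') : Pol w ι Q → Pol w ι' fun q => Zero.ren f (Q q)
  | conF {w w' : ℕ} {A B R : Type} [Fintype A] [DecidableEq A] [Fintype B] [DecidableEq B]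
      [Fintype R] [DecidableEq R] [Nonempty A] [Nonempty B] [Nonempty R] {Q : YF (A ⊕ R)}
      {Q' : YF (R ⊕ B)} :
      Pol w (A ⊕ R) Q → Pol w' (R ⊕ B) Q' → Pol (w + w') (A ⊕ B) fun q => Zero.conF (Q q) (Q' q)
  | mono {w w' : ℕ} {ι : Type} [Fintype ι] [DecidableEq ι] {Q : YF ι} (h : w ≤ w') :
      Pol w ι Q → Pol w' ι Q

variable {ι : Type} [Fintype ι] [DecidableEq ι] {w : ℕ} {Q : YF ι}

theorem Pol.two (h : Pol w ι Q) : ∃ i i' : ι, i ≠ i' := by
  induction h with
  | atom k => exact ⟨Sum.inl (), Sum.inr 0, Sum.inl_ne_inr⟩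
  | zero w i i' hi => exact ⟨i, i', hi⟩
  | add _ _ ih _ => exact ih
  | ren f _ ih => obtain ⟨i, i', hi⟩ := ih; exact ⟨f i, f i', fun e => hi (f.injective e)⟩
  | @conF w w' A B R _ _ _ _ _ _ _ _ _ Q Q' _ _ _ _ =>
    exact ⟨Sum.inl (Classical.arbitrary A), Sum.inr (Classical.arbitrary B), Sum.inl_ne_inr⟩
  | mono _ _ ih => exact ih

theorem Pol.temp (h : Pol w ι Q) (hq : q.Good) : Temp (Q q) := by
  induction h with
  | atom k => exact temp_VK hq (k + 1)
  | zero w i i' hi => exact Temp.zero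
  | add _ _ ih ih' => exact ih.add ih'
  | ren f _ ih => exact ih.ren f
  | conF _ _ ih ih' => exact ih.conF ih'
  | mono _ _ ih => exact ih

/-- Equality of families at admissible parameters. -/
def EqY {ι : Type} (Q Q' : YF ι) : Prop := ∀ q : YPar, q.Good → Q q = Q' q

theorem Pol.grad (h : Pol w ι Q) :
    ∃ Q', Pol (w + 1) (Option ι) Q' ∧ EqY (fun q => gradT (Q q)) Q' := by
  induction h with
  | atom k => exact ⟨_, (Pol.atom (k + 1)).ren (eK (k + 1)), fun q hq => gradT_VK hq (k + 1)⟩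
  | zero w i i' hi =>
    exact ⟨_, Pol.zero (w + 1) (some i) (some i') (by simpa using hi), fun q _ => gradT_zero⟩
  | add h h' ih ih' =>
    obtain ⟨P, hP, e⟩ := ih
    obtain ⟨P', hP', e'⟩ := ih'
    refine ⟨_, hP.add hP', fun q hq => ?_⟩
    dsimp only
    rw [gradT_add (h.temp hq) (h'.temp hq), show gradT _ = P q from e q hq,
      show gradT _ = P' q from e' q hq]
  | ren f h ih =>
    obtain ⟨P, hP, e⟩ := ih
    refine ⟨_, hP.ren (Equiv.optionCongr f), fun q hq => ?_⟩
    dsimp only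
    rw [gradT_ren, show gradT _ = P q from e q hq]
  | @conF w w' A B R _ _ _ _ _ _ _ _ _ Q Q' h h' ih ih' =>
    obtain ⟨P, hP, e⟩ := ih
    obtain ⟨P', hP', e'⟩ := ih'
    refine ⟨_, (((((hP.ren (optA A R)).conF h').mono (w' := w + w' + 1) (by omega)).ren
      (optA A B).symm).add (((h.conF (hP'.ren (optB R B))).mono (w' := w + w' + 1) (by omega)).ren
        (optB A B).symm)), fun q hq => ?_⟩
    dsimp only
    rw [gradT_conF (h.temp hq) (h'.temp hq), show gradT _ = P q from e q hq,
      show gradT _ = P' q from e' q hq]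
  | mono hle _ ih =>
    obtain ⟨P, hP, e⟩ := ih
    exact ⟨P, hP.mono (by omega), e⟩

theorem exists_pol_Qy : ∀ k, ∃ P, Pol k (It (k + 1)) P ∧ EqY (Qy (k + 1)) P
  | 0 => by
    refine ⟨_, ((((Pol.atom 0).ren e11).conF ((Pol.atom 0).ren (eL 0))).ren (eL 0).symm),
      fun q hq => ?_⟩
    have : gradT (0 : TF (It 0) (Fin q.d)) = 0 := gradT_zero
    simp only [Qy, this, ren_zero, zero_add]
    rfl
  | k + 1 => by
    obtain ⟨P, hP, e⟩ := exists_pol_Qy k
    obtain ⟨P', hP', e'⟩ := hP.grad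
    refine ⟨_, (hP'.ren (eK (k + 1)).symm).add
      (((((Pol.atom 0).ren e11).conF ((Pol.atom (k + 1)).ren (eL (k + 1)))).mono
        (w' := k + 1) (by omega)).ren (eL (k + 1)).symm), fun q hq => ?_⟩
    show ren (eK (k + 1)).symm (gradT (Qy (k + 1) q)) + _ = _
    rw [e q hq, show gradT (P q) = P' q from e' q hq]
    rfl

theorem Qy_temp (hq : q.Good) : ∀ k, Temp (Qy k q)
  | 0 => Temp.zero
  | k + 1 => by
    obtain ⟨P, hP, e⟩ := exists_pol_Qy k
    rw [e q hq]
    exact hP.temp hq

/-- A field along a line. -/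
def line {α : Type} [Fintype α] (X : TF ι α) (x : Sp α) (c : ℝ) : TF ι α := fun w => X (x + c • w)

theorem Temp.line {α : Type} [Fintype α] [DecidableEq α] {X : TF ι α} (hX : Temp X) (x : Sp α)
    (c : ℝ) : Temp (Zero.line X x c) := fun i =>
  (hX i).comp ((Function.HasTemperateGrowth.const x).add
    ((c • ContinuousLinearMap.id ℝ (Sp α)).hasTemperateGrowth))

theorem gradT_line {α : Type} [Fintype α] [DecidableEq α] {X : TF ι α} (hX : Temp X) (x : Sp α)
    (c : ℝ) : gradT (Zero.line X x c) = fun w i => c * Zero.line (gradT X) x c w i := by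
  funext w i
  have h := (((hX (i ∘ some)).1.differentiable (by simp) (x + c • w)).hasFDerivAt.comp w
    (((hasFDerivAt_id w).const_smul c).const_add x)).fderiv
  refine (DFunLike.congr_fun h (unitV (i none))).trans ?_
  simp [Zero.line, gradT]

theorem exists_rb_VK : ∀ n k : ℕ, ∃ C : ℝ, 0 ≤ C ∧ ∀ q : YPar, q.Good → ∀ (x : E q.d) (c : ℝ),
    |c| ≤ √q.s → RB n (Zero.line (VK (k + 1) q) x c) (C / √q.s ^ k)
  | 0, k => by
    obtain ⟨C, hC, h⟩ := exists_Nv_bn (k + 1) k.succ_pos
    exact ⟨C, hC, fun q hq x c _ => ⟨(temp_VK hq (k + 1)).line x c,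
      fun w => h q.d q.V hq.cls q.s hq.pos hq.le (x + c • w)⟩⟩
  | n + 1, k => by
    obtain ⟨C, hC, h⟩ := exists_Nv_bn (k + 1) k.succ_pos
    obtain ⟨C', hC', h'⟩ := exists_rb_VK n (k + 1)
    refine ⟨max C C', hC.trans (le_max_left _ _), fun q hq x c hc => ?_⟩
    have hs : 0 < √q.s := Real.sqrt_pos.2 hq.pos
    refine ⟨(temp_VK hq (k + 1)).line x c, fun w => ((h q.d q.V hq.cls q.s hq.pos hq.le
      (x + c • w)).mono (div_le_div_of_nonneg_right (le_max_left _ _) (by positivity))), ?_⟩
    rw [gradT_line (temp_VK hq (k + 1)), gradT_VK hq]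
    refine (((h' q hq x c hc).ren (eK (k + 1))).smul c).of_le le_rfl ?_
    rw [pow_succ √q.s k]
    calc |c| * (C' / (√q.s ^ k * √q.s)) ≤ √q.s * (C' / (√q.s ^ k * √q.s)) :=
          mul_le_mul_of_nonneg_right hc (by positivity)
      _ = C' / √q.s ^ k := by field_simp
      _ ≤ _ := div_le_div_of_nonneg_right (le_max_right _ _) (by positivity)

theorem Pol.exists_rb (h : Pol w ι Q) : ∀ n, ∃ C : ℝ, 0 ≤ C ∧ ∀ q : YPar, q.Good →
    ∀ (x : E q.d) (c : ℝ), |c| ≤ √q.s → RB n (Zero.line (Q q) x c) (C / √q.s ^ w) := by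
  induction h with
  | atom k => exact fun n => exists_rb_VK n k
  | zero w i i' hi =>
    exact fun n => ⟨0, le_rfl, fun q hq x c _ => RB.zero n _ (by positivity)⟩
  | add _ _ ih ih' =>
    intro n
    obtain ⟨C, hC, h⟩ := ih n
    obtain ⟨C', hC', h'⟩ := ih' n
    exact ⟨C + C', add_nonneg hC hC', fun q hq x c hc =>
      ((h q hq x c hc).add (h' q hq x c hc)).of_le le_rfl (add_div C C' _).ge⟩
  | ren f _ ih =>
    intro n
    obtain ⟨C, hC, h⟩ := ih n
    exact ⟨C, hC, fun q hq x c hc => (h q hq x c hc).ren f⟩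
  | conF _ _ ih ih' =>
    intro n
    obtain ⟨C, hC, h⟩ := ih n
    obtain ⟨C', hC', h'⟩ := ih' n
    refine ⟨2 ^ n * (C * C'), by positivity, fun q hq x c hc =>
      ((h q hq x c hc).conF (h' q hq x c hc) (by positivity) (by positivity)).of_le le_rfl
        (le_of_eq ?_)⟩
    rw [div_mul_div_comm, ← pow_add, ← mul_div_assoc]
  | mono hle _ ih =>
    intro n
    obtain ⟨C, hC, h⟩ := ih n
    refine ⟨C, hC, fun q hq x c hc => (h q hq x c hc).of_le le_rfl ?_⟩
    have hs : 0 < √q.s := Real.sqrt_pos.2 hq.pos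
    exact div_le_div_of_nonneg_left hC (by positivity)
      (pow_le_pow_of_le_one hs.le (Real.sqrt_le_one.2 hq.le) hle)

/-- A component as a function of the variance and the point. -/
theorem contDiffOn_VK (hV : Colour.Cls (id : Fin q.d → Fin q.d) q.V) (k : ℕ)
    (i : It k → Fin q.d) :
    ContDiffOn ℝ ∞ (fun p : ℝ × E q.d => VK k ⟨q.d, q.V, p.1⟩ p.2 i) (dom q.d) := by
  induction k with
  | zero =>
    refine ((contDiffOn_euclidean.1 (Nv_contDiffOn hV)) (i (Sum.inl ()))).congr fun p _ => ?_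
    exact VK_zero_apply (q := ⟨q.d, q.V, p.1⟩) p.2 i
  | succ k ih =>
    refine (contDiffOn_pd_slice (ih fun o => i ((eK k).symm (some o))) (i (Sum.inr 0))).congr
      fun p hp => ?_
    exact VK_succ_smooth (q := ⟨q.d, q.V, p.1⟩) hV (mem_Ioi.1 hp.1) k p.2 i

theorem pd_const_mul {α : Type} [Fintype α] [DecidableEq α] {f : Sp α → ℝ} {z : Sp α}
    (hf : DifferentiableAt ℝ f z) (j : α) (c : ℝ) :
    pd j (fun z => c * f z) z = c * pd j f z := by
  rw [pd, (hf.hasFDerivAt.const_mul c).fderiv]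
  rfl

theorem pd_fun_sub {α : Type} [Fintype α] [DecidableEq α] {f g : Sp α → ℝ} {z : Sp α}
    (hf : DifferentiableAt ℝ f z) (hg : DifferentiableAt ℝ g z) (j : α) :
    pd j (fun z => f z - g z) z = pd j f z - pd j g z := by
  rw [pd, show (fun z => f z - g z) = f - g from rfl, (hf.hasFDerivAt.sub hg.hasFDerivAt).fderiv]
  rfl

theorem pd_fun_mul {α : Type} [Fintype α] [DecidableEq α] {f g : Sp α → ℝ} {z : Sp α}
    (hf : DifferentiableAt ℝ f z) (hg : DifferentiableAt ℝ g z) (j : α) :
    pd j (fun z => f z * g z) z = pd j f z * g z + f z * pd j g z := by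
  rw [pd, (hf.hasFDerivAt.fun_mul hg.hasFDerivAt).fderiv]
  simp [pd]
  ring

theorem pd_fun_sum {α κ : Type} [Fintype α] [DecidableEq α] [Fintype κ] {f : κ → Sp α → ℝ}
    {z : Sp α} (hf : ∀ k, DifferentiableAt ℝ (f k) z) (j : α) :
    pd j (fun z => ∑ k, f k z) z = ∑ k, pd j (f k) z := by
  rw [pd, (HasFDerivAt.fun_sum (u := univ) fun k _ => (hf k).hasFDerivAt).fderiv]
  simp [pd]

/-- The contraction in the correction. -/
theorem Qy_succ_apply (hq : q.Good) (k : ℕ) (y : E q.d) (i : It (k + 1) → Fin q.d) :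
    Qy (k + 1) q y i = pd (i (Sum.inr 0)) (fun y => Qy k q y fun o => i ((eK k).symm (some o))) y
      + ∑ j, pd (i (Sum.inr 0)) (fun y => Nv q.V q.s y j) y
          * pd j (fun y => VK k q y fun o => i ((eK k).symm (some o))) y := by
  show ren (eK k).symm (gradT (Qy k q)) y i + ren (eL k).symm _ y i = _
  congr 1
  simp only [ren, conF, con, sum_unit]
  refine sum_congr rfl fun j _ => ?_
  congr 1
  · rw [V1m_apply hq]
    exact pd_Nv_symm hq.cls hq.pos _ _ y
  · simp only [VK_succ_apply hq]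
    rfl

/-- The time derivative of the derivatives. -/
theorem hasDerivAt_VK (hV : Colour.Cls (id : Fin q.d → Fin q.d) q.V) :
    ∀ (k : ℕ) {s : ℝ}, 0 < s → s ≤ 1 → ∀ (y : E q.d) (i : It k → Fin q.d),
      HasDerivAt (fun s => VK k ⟨q.d, q.V, s⟩ y i)
        (1 / 2 * ∑ j, pd j (pd j fun y => VK k ⟨q.d, q.V, s⟩ y i) y
          - ∑ j, Nv q.V s y j * pd j (fun y => VK k ⟨q.d, q.V, s⟩ y i) y
          - Qy k ⟨q.d, q.V, s⟩ y i) s
  | 0, s, hs, hs', y, i => by
    set o := i (Sum.inl ())
    have hq : YPar.Good ⟨q.d, q.V, s⟩ := ⟨hV, hs, hs'⟩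
    have hN : ∀ j, (fun y => Nv q.V s y j).HasTemperateGrowth := fun j => temp_Nv hq fun _ => j
    have hd : ∀ j y, DifferentiableAt ℝ (fun y => Nv q.V s y j) y := fun j y =>
      (hN j).1.differentiable (by simp) y
    have eN : ∀ (t : ℝ), 0 < t → ∀ y, pd o (uPot q.V t) y = Nv q.V t y o := fun t ht y => by
      rw [pd, (hasGradientAt_iff_hasFDerivAt.1 (hasGradientAt_uPot hV ht y)).fderiv]
      simp [unitV, EuclideanSpace.inner_single_right]
    have h := hasDerivAt_pd (F := fun p : ℝ × E q.d => uPot q.V p.1 p.2) (uPot_contDiffOn hV) hs y o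
    have eds : (fun y => deriv (fun t => uPot q.V t y) s)
        = fun y => 1 / 2 * ((∑ j, pd j (fun y => Nv q.V s y j) y)
            - ∑ j, Nv q.V s y j * Nv q.V s y j) := funext fun y => by
      rw [(hasDerivAt_uPot hV hs y).deriv, Quarter.Tgt.tr, EuclideanSpace.norm_sq_eq]
      have ht : ∀ j, fderiv ℝ (Nv q.V s) y (EuclideanSpace.single j 1) j
          = pd j (fun y => Nv q.V s y j) y := fun j => by
        rw [fderiv_Nv_apply hV hs, Finset.sum_eq_single j (fun k _ hk => by simp [hk]) (by simp)]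
        simp
      simp only [ht, norm_eq_abs, sq_abs]
      simp only [sq]
      ring
    rw [eds] at h
    have d1 : ∀ j y, DifferentiableAt ℝ (fun y => pd j (fun y => Nv q.V s y j) y) y := fun j y =>
      (temp_pd (hN j) j).1.differentiable (by simp) y
    have d2 : ∀ j y, DifferentiableAt ℝ (fun y => Nv q.V s y j * Nv q.V s y j) y := fun j y =>
      (hd j y).mul (hd j y)
    have key : pd o (fun y => 1 / 2 * ((∑ j, pd j (fun y => Nv q.V s y j) y)
        - ∑ j, Nv q.V s y j * Nv q.V s y j)) y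
      = 1 / 2 * ∑ j, pd j (pd j fun y => Nv q.V s y o) y
          - ∑ j, Nv q.V s y j * pd j (fun y => Nv q.V s y o) y := by
      rw [pd_const_mul ((DifferentiableAt.fun_sum fun j _ => d1 j y).fun_sub
          (DifferentiableAt.fun_sum fun j _ => d2 j y)),
        pd_fun_sub (DifferentiableAt.fun_sum fun j _ => d1 j y)
          (DifferentiableAt.fun_sum fun j _ => d2 j y),
        pd_fun_sum fun j => d1 j y, pd_fun_sum fun j => d2 j y, mul_sub, Finset.mul_sum,
        Finset.mul_sum, Finset.mul_sum]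
      congr 1
      · refine sum_congr rfl fun j _ => ?_
        rw [pd_comm (hN j) o j, show pd o (fun y => Nv q.V s y j) = pd j fun y => Nv q.V s y o from
          funext fun y => pd_Nv_symm hV hs j o y]
      · refine sum_congr rfl fun j _ => ?_
        rw [pd_fun_mul (hd j y) (hd j y), pd_Nv_symm hV hs j o y]
        ring
    simp only [VK_zero_apply, Qy, Pi.zero_apply, sub_zero]
    rw [← key]
    exact h.congr_of_eventuallyEq ((eventually_gt_nhds hs).mono fun t ht => (eN t ht y).symm)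
  | k + 1, s, hs, hs', y, i => by
    set h' := i (Sum.inr 0)
    set i' := fun o => i ((eK k).symm (some o))
    have hq : YPar.Good ⟨q.d, q.V, s⟩ := ⟨hV, hs, hs'⟩
    set f := fun y => VK k ⟨q.d, q.V, s⟩ y i'
    have hf : f.HasTemperateGrowth := temp_VK hq k i'
    have hN : ∀ j, (fun y => Nv q.V s y j).HasTemperateGrowth := fun j => temp_Nv hq fun _ => j
    have h := hasDerivAt_pd (F := fun p : ℝ × E q.d => VK k ⟨q.d, q.V, p.1⟩ p.2 i')
      (contDiffOn_VK hV k i') hs y h'
    have eds : (fun y => deriv (fun t => VK k ⟨q.d, q.V, t⟩ y i') s)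
        = fun y => 1 / 2 * ∑ j, pd j (pd j f) y - ∑ j, Nv q.V s y j * pd j f y
            - Qy k ⟨q.d, q.V, s⟩ y i' :=
      funext fun y => (hasDerivAt_VK hV k hs hs' y i').deriv
    rw [eds] at h
    have d1 : ∀ j y, DifferentiableAt ℝ (pd j (pd j f)) y := fun j y =>
      (temp_pd (temp_pd hf j) j).1.differentiable (by simp) y
    have d2 : ∀ j y, DifferentiableAt ℝ (fun y => Nv q.V s y j * pd j f y) y := fun j y =>
      ((hN j).1.differentiable (by simp) y).mul ((temp_pd hf j).1.differentiable (by simp) y)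
    have d3 : DifferentiableAt ℝ (fun y => Qy k ⟨q.d, q.V, s⟩ y i') y :=
      (Qy_temp hq k i').1.differentiable (by simp) y
    have e0 : (fun y => VK (k + 1) ⟨q.d, q.V, s⟩ y i) = pd h' f :=
      funext fun y => VK_succ_apply hq k y i
    have key : pd h' (fun y => 1 / 2 * ∑ j, pd j (pd j f) y - ∑ j, Nv q.V s y j * pd j f y
          - Qy k ⟨q.d, q.V, s⟩ y i') y
        = 1 / 2 * ∑ j, pd j (pd j (pd h' f)) y - ∑ j, Nv q.V s y j * pd j (pd h' f) y
          - Qy (k + 1) ⟨q.d, q.V, s⟩ y i := by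
      rw [pd_fun_sub (((DifferentiableAt.fun_sum fun j _ => d1 j y).const_mul _).fun_sub
          (DifferentiableAt.fun_sum fun j _ => d2 j y)) d3,
        pd_fun_sub ((DifferentiableAt.fun_sum fun j _ => d1 j y).const_mul _)
          (DifferentiableAt.fun_sum fun j _ => d2 j y),
        pd_const_mul (DifferentiableAt.fun_sum fun j _ => d1 j y),
        pd_fun_sum fun j => d1 j y, pd_fun_sum fun j => d2 j y, Qy_succ_apply hq]
      have e1 : ∀ j, pd h' (pd j (pd j f)) y = pd j (pd j (pd h' f)) y := fun j => by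
        rw [pd_comm (temp_pd hf j) h' j, show pd h' (pd j f) = pd j (pd h' f) from
          funext fun y => pd_comm hf h' j y]
      have e2 : ∀ j, pd h' (fun y => Nv q.V s y j * pd j f y) y
          = pd h' (fun y => Nv q.V s y j) y * pd j f y + Nv q.V s y j * pd j (pd h' f) y := fun j => by
        rw [pd_fun_mul ((hN j).1.differentiable (by simp) y)
          ((temp_pd hf j).1.differentiable (by simp) y), pd_comm hf h' j]
      simp only [e1, e2, sum_add_distrib]
      ring
    rw [e0, ← key]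
    exact h.congr_of_eventuallyEq ((eventually_gt_nhds hs).mono fun t ht =>
      VK_succ_smooth (q := ⟨q.d, q.V, t⟩) hV ht k y i)

end

end Vale.Agent.P347.Zero
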