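import Vale.Agent.P347.Zero.Ten

/-!
# P347, exponent 0: tensor fields, their derivatives and the creation operator
-/

namespace Vale.Agent.P347.Zero

open Finset Real MeasureTheory
open scoped ContDiff

noncomputable section

variable {ι α : Type} [Fintype ι] [DecidableEq ι] [Fintype α] [DecidableEq α]

/-- Euclidean space over the coordinates `α`. -/
abbrev Sp (α : Type) [Fintype α] := EuclideanSpace ℝ α

/-- A coordinate vector. -/
def unitV (j : α) : Sp α := EuclideanSpace.single j (1 : ℝ)

/-- A field of tensors. -/
abbrev TF (ι α : Type) [Fintype α] := Sp α → Ten ι α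

/-- All components are smooth. -/
def SmoothTF (X : TF ι α) : Prop := ∀ i, ContDiff ℝ ∞ fun z => X z i

/-- One more index in front. -/
def ext (j : α) (i : ι → α) : Option ι → α := fun o => o.elim j i

/-- The gradient, the new index being `none`. -/
def gradT (X : TF ι α) : TF (Option ι) α := fun z i =>
  fderiv ℝ (fun z => X z (i ∘ some)) z (unitV (i none))

/-- The creation operator of the probability density whose minus score is `sc`. -/
def dlt (sc : Sp α → α → ℝ) (X : TF (Option ι) α) : TF ι α := fun z i =>
  ∑ j, (sc z j * X z (ext j i) - fderiv ℝ (fun z => X z (ext j i)) z (unitV j))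

/-- The minus score of the standard Gaussian. -/
def scG : Sp α → α → ℝ := fun z j => z j

/-- The `k`-th derivative, the new indices on the right. -/
def gradK (k : ℕ) (X : TF ι α) : TF (ι ⊕ Fin k) α := fun z i =>
  iteratedFDeriv ℝ k (fun z => X z (i ∘ Sum.inl)) z fun l => unitV (i (Sum.inr l))

/-- A vector field as a tensor field. -/
def vecT (M : Sp α → Sp α) : TF Unit α := fun z i => M z (i ())

/-- Derivatives up to order `n` have all flattenings bounded by `c k`. -/
def Reg (n : ℕ) (c : ℕ → ℝ) (X : TF ι α) : Prop :=
  SmoothTF X ∧ ∀ k ≤ n, ∀ z, BN (gradK k X z) (c k)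

/-- The squared Hilbert–Schmidt norm. -/
def sqT (T : Ten ι α) : ℝ := ∑ i, T i ^ 2

end

end Vale.Agent.P347.Zero
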