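import Vale.Agent.P347.Quarter.Sampler
import Vale.Agent.P347.Zero.PostStep

/-!
# P347, exponent 0: the outer chain

An approximate sampler of the proximal posterior at step `d ^ (-ε)` gives a sampler of the target.
-/

namespace Vale.Agent.P347.Zero

open MeasureTheory ProbabilityTheory Real WithLp Finset
open Vale.Agent.P347.Colour (Pt Resp Impl BM)
open Vale.Agent.P347.Quarter
open Vale.Agent.P347.Quarter.Tgt

noncomputable section

variable {d : ℕ}

/-- The algorithm, as iterated averaging operators. -/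
def UO (η h : ℝ) (S : (Pt d → Resp d) → (E d → ℝ) → E d → ℝ) (O : Pt d → Resp d) (f : E d → ℝ) :
    ℕ → E d → ℝ
  | 0 => G η (Nlast η (gOf O) f)
  | j + 1 => G h (S O (UO η h S O f j))

theorem impl_UO {η h : ℝ} {q : ℕ} {S : (Pt d → Resp d) → (E d → ℝ) → E d → ℝ} (hS : Impl q S) :
    ∀ j, Impl (j * q + 1) fun O f => UO η h S O f j
  | 0 => by
    have := (impl_G (d := d) η).comp (impl_last (d := d) η)
    rw [zero_mul, zero_add]
    exact this
  | j + 1 => by
    have := (impl_G (d := d) h).comp (hS.comp (impl_UO (η := η) (h := h) hS j))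
    rw [show (j + 1) * q + 1 = j * q + 1 + q + 0 by ring]
    exact this

/-- Fine Euler chains are as close to stationary as desired. -/
theorem exists_chain {δ : ℝ} (hδ : 0 < δ) : ∃ (n : ℕ) (β : ℝ), 2 / 3 ≤ β ∧ β < 1 ∧
    4 * β ^ n + n * ((1 - β) * √(1 - β)) ≤ δ := by
  obtain ⟨M, hM⟩ := exists_nat_ge (8 / δ)
  obtain ⟨m, hm⟩ := exists_nat_ge (max 3 ((2 * M / δ) ^ 2))
  have hm3 : (3 : ℝ) ≤ m := (le_max_left _ _).trans hm
  have hm0 : (0 : ℝ) < m := by linarith
  have hs : 0 < √(m : ℝ) := sqrt_pos.2 hm0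
  refine ⟨m * M, 1 - 1 / m, ?_, sub_lt_self _ (by positivity), ?_⟩
  · have : 1 / (m : ℝ) ≤ 1 / 3 := one_div_le_one_div_of_le (by norm_num) hm3
    linarith
  have hM0 : (0 : ℝ) < M := lt_of_lt_of_le (by positivity) hM
  have h1 : (1 - 1 / (m : ℝ)) ^ (m * M) ≤ δ / 8 := by
    have hb : (1 - 1 / (m : ℝ)) ^ m ≤ exp (-1) := by
      simpa using one_sub_div_pow_le_exp_neg (n := m) (t := 1) (by linarith)
    have h0 : (0 : ℝ) ≤ 1 - 1 / m := by
      rw [sub_nonneg, div_le_one hm0]; linarith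
    rw [pow_mul]
    refine (pow_le_pow_left₀ (pow_nonneg h0 _) hb M).trans ?_
    rw [← exp_nat_mul, mul_neg_one, exp_neg]
    calc (exp (M : ℝ))⁻¹ ≤ (M : ℝ)⁻¹ := by
          gcongr; linarith [add_one_le_exp (M : ℝ)]
      _ ≤ (8 / δ)⁻¹ := inv_anti₀ (by positivity) hM
      _ = δ / 8 := by rw [inv_div]
  have h2 : ((m * M : ℕ) : ℝ) * ((1 - (1 - 1 / m)) * √(1 - (1 - 1 / m))) ≤ δ / 2 := by
    rw [sub_sub_cancel, sqrt_div zero_le_one, sqrt_one]
    push_cast
    rw [show (m : ℝ) * M * (1 / m * (1 / √m)) = M / √m by field_simp]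
    rw [div_le_iff₀ hs]
    have := sqrt_le_sqrt ((le_max_right _ _).trans hm)
    rw [sqrt_sq (by positivity), div_le_iff₀ hδ] at this
    linarith
  linarith

variable {η h : ℝ} {n : ℕ} {β : ℝ} {V : Pt d → ℝ}

/-- The weight of the error. -/
def oWt (d : ℕ) (M : ℝ) (z : E d) : ℝ := M * √d + ‖z‖

/-- One exact round, applied to a function below the weight. -/
theorem R_wt (hV : Colour.Cls (id : Fin d → Fin d) V) (hd : 2 ≤ d) (hh : 0 < h) (hh' : h ≤ 1 / 4)
    (hβ : 2 / 3 ≤ β) (hβ' : β < 1) (hn : 4 * β ^ n + n * ((1 - β) * √(1 - β)) ≤ 1) {D : E d → ℝ}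
    (hDm : Measurable D) (hD2 : ∀ x, |D x| ≤ 2) {M a : ℝ} (hM : 0 ≤ M) (ha : 0 ≤ a)
    (hD : ∀ x, |D x| ≤ a * oWt d M x) (z : E d) :
    |R (seed d n) (Phi h β (gOf (Colour.oracle V)) n) D z| ≤ a * (oWt d M z + 6 * √d) := by
  have hg := pot_gOf hV
  have hF := phi_flow (n := n) hg hh hh' hβ hβ'
  have := hF.prob
  set μ := seed d n
  set Φ := Phi h β (gOf (Colour.oracle V)) n
  have hd2 : (2 : ℝ) ≤ d := by exact_mod_cast hd
  have hd1 : 1 ≤ √(d : ℝ) := one_le_sqrt.2 (by linarith)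
  set B := a * (oWt d M z + 6 * √d)
  have hB : 0 ≤ B := by unfold B oWt; positivity
  suffices H : ∀ K : ℝ, 0 < K → |R μ Φ D z| ≤ (1 + 2 / K) * B by
    refine le_of_forall_pos_le_add fun t ht => ?_
    refine (H (2 * (B + 1) / t) (by positivity)).trans ?_
    have : 2 / (2 * (B + 1) / t) * B ≤ t := by
      rw [show 2 / (2 * (B + 1) / t) * B = t * (B / (B + 1)) by field_simp]
      exact mul_le_of_le_one_right ht.le ((div_le_one (by linarith)).2 (by linarith))
    linarith
  intro K hK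
  set sw : E d → ℝ := fun x => M * √d + √(1 + ‖x‖ ^ 2)
  have hsw0 : ∀ x, 0 ≤ sw x := fun x => by unfold sw; positivity
  have hsw : ∀ x, oWt d M x ≤ sw x := fun x => by
    unfold sw oWt
    refine add_le_add le_rfl ((le_abs_self _).trans ?_)
    rw [← sqrt_sq_eq_abs]; exact sqrt_le_sqrt (by linarith)
  set φ : E d → ℝ := fun x => a * sw x / (K + a * sw x)
  have hden : ∀ x, 0 < K + a * sw x := fun x => by
    have := mul_nonneg ha (hsw0 x); linarith
  have hφ0 : ∀ x, 0 ≤ φ x := fun x => div_nonneg (mul_nonneg ha (hsw0 x)) (hden x).le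
  have hφK : ∀ x, φ x ≤ a / K * sw x := fun x => by
    rw [div_mul_eq_mul_div]
    exact div_le_div_of_nonneg_left (mul_nonneg ha (hsw0 x)) hK
      (by linarith [mul_nonneg ha (hsw0 x)])
  have hφ : Lip1 φ (a / K) := by
    refine ⟨fun x => ?_, ?_, fun x => ?_⟩
    · rw [abs_of_nonneg (hφ0 x), div_le_one (hden x)]; linarith
    · have hcs : ContDiff ℝ 1 sw := by
        unfold sw
        exact contDiff_const.add ((contDiff_const.add (contDiff_norm_sq ℝ)).sqrt
          fun x => (by positivity : (0 : ℝ) < 1 + ‖x‖ ^ 2).ne')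
      exact (contDiff_const.mul hcs).div (contDiff_const.add (contDiff_const.mul hcs))
        fun x => (hden x).ne'
    · refine norm_fderiv_le_of_lip' ℝ (div_nonneg ha hK.le) (Filter.Eventually.of_forall fun y => ?_)
      have hkey : ∀ y x, |φ y - φ x| ≤ a / K * |sw y - sw x| := fun y x => by
        have e : φ y - φ x = a * K * (sw y - sw x) / ((K + a * sw y) * (K + a * sw x)) := by
          simp only [φ]; rw [div_sub_div _ _ (hden y).ne' (hden x).ne']; ring
        rw [e, abs_div, abs_mul, abs_of_nonneg (mul_nonneg ha hK.le),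
          abs_of_pos (mul_pos (hden y) (hden x))]
        calc a * K * |sw y - sw x| / ((K + a * sw y) * (K + a * sw x))
            ≤ a * K * |sw y - sw x| / (K * K) := by
              refine div_le_div_of_nonneg_left (by positivity) (by positivity)
                (mul_le_mul ?_ ?_ hK.le (hden y).le) <;>
                linarith [mul_nonneg ha (hsw0 y), mul_nonneg ha (hsw0 x)]
          _ = a / K * |sw y - sw x| := by field_simp
      rw [norm_eq_abs]
      refine (hkey y x).trans (mul_le_mul_of_nonneg_left ?_ (div_nonneg ha hK.le))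
      simp only [sw, add_sub_add_left_eq_sub]
      have h1 := abs_norm_sub_norm_le y x
      have py := sq_sqrt (show (0 : ℝ) ≤ 1 + ‖y‖ ^ 2 by positivity)
      have px := sq_sqrt (show (0 : ℝ) ≤ 1 + ‖x‖ ^ 2 by positivity)
      set p := √(1 + ‖y‖ ^ 2)
      set r := √(1 + ‖x‖ ^ 2)
      have hp : ‖y‖ ≤ p := by
        rw [← sqrt_sq (norm_nonneg y)]; exact sqrt_le_sqrt (by linarith)
      have hr : ‖x‖ ≤ r := by
        rw [← sqrt_sq (norm_nonneg x)]; exact sqrt_le_sqrt (by linarith)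
      have hpr : 0 < p + r := by
        have : (1 : ℝ) ≤ p := one_le_sqrt.2 (by nlinarith)
        linarith [sqrt_nonneg (1 + ‖x‖ ^ 2)]
      have e : (p - r) * (p + r) = (‖y‖ - ‖x‖) * (‖y‖ + ‖x‖) := by linear_combination py - px
      refine le_of_mul_le_mul_right ?_ hpr
      calc |p - r| * (p + r) = |(p - r) * (p + r)| := by rw [abs_mul, abs_of_pos hpr]
        _ = |‖y‖ - ‖x‖| * (‖y‖ + ‖x‖) := by
          rw [e, abs_mul, abs_of_nonneg (add_nonneg (norm_nonneg y) (norm_nonneg x))]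
        _ ≤ ‖y - x‖ * (p + r) := mul_le_mul h1 (add_le_add hp hr) (by positivity) (norm_nonneg _)
  have hpt : ∀ x, |D x| ≤ (1 + 2 / K) * K * φ x := fun x => by
    have ht : |D x| ≤ a * sw x := (hD x).trans (mul_le_mul_of_nonneg_left (hsw x) ha)
    rw [show (1 + 2 / K) * K = K + 2 by field_simp, mul_div_assoc', le_div_iff₀ (hden x)]
    nlinarith [mul_le_mul_of_nonneg_right (hD2 x) (mul_nonneg ha (hsw0 x)),
      mul_le_mul_of_nonneg_right ht hK.le]
  have h1 : R μ Φ φ 0 ≤ a / K * (M * √d + 6 * √d) := by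
    have h2 := chain_close hV hg hd hh hh' hβ hβ' n hφ 0
    rw [norm_zero, mul_zero, add_zero] at h2
    have hprob : IsProbabilityMeasure (back h V (0 : E d)) := by
      unfold back
      exact lawE_prob (by exact hV.sc_W (one_div_pos.2 hh) _)
    have h3 : ∫ x, φ x ∂back h V 0 ≤ a / K * (M * √d + 1 + √(8 * d)) := by
      have hm := back_mean hV hd hh (0 : E d)
      rw [norm_zero, mul_zero, add_zero] at hm
      have hi : Integrable (fun x : E d => ‖x‖) (back h V 0) :=
        lawE_integrable_lin (hV.sc_W (one_div_pos.2 hh) _) (by fun_prop) (c₀ := 0) (c₁ := 1)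
          zero_le_one fun x => by simp
      refine (integral_mono (Integrable.of_bound hφ.smooth.continuous.measurable.aestronglyMeasurable
        1 (ae_of_all _ hφ.norm_le)) (((integrable_const (M * √d + 1)).fun_add hi).const_mul (a / K))
        fun x => (hφK x).trans (mul_le_mul_of_nonneg_left ?_ (div_nonneg ha hK.le))).trans ?_
      · unfold sw
        have : √(1 + ‖x‖ ^ 2) ≤ 1 + ‖x‖ := by
          rw [sqrt_le_left (by positivity)]; nlinarith [norm_nonneg x]
        linarith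
      · rw [integral_const_mul, integral_add (integrable_const _) hi, integral_const,
          probReal_univ, one_smul]
        exact mul_le_mul_of_nonneg_left (by linarith) (div_nonneg ha hK.le)
    have h8 : √(8 * (d : ℝ)) ≤ 3 * √d := by
      rw [sqrt_mul (by norm_num)]
      exact mul_le_mul_of_nonneg_right (by rw [sqrt_le_left] <;> norm_num) (sqrt_nonneg _)
    have haK : 0 ≤ a / K := div_nonneg ha hK.le
    have hb0 : 0 ≤ β ^ n := pow_nonneg (by linarith) n
    have hT0 : 0 ≤ (n : ℝ) * ((1 - β) * √(1 - β)) :=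
      mul_nonneg (Nat.cast_nonneg n) (mul_nonneg (by linarith) (sqrt_nonneg _))
    have h4 : β ^ n * (a / K) * (4 * √d) + n * (√d * (a / K) * ((1 - β) * √(1 - β)))
        ≤ a / K * √d := by
      rw [show β ^ n * (a / K) * (4 * √d) + n * (√d * (a / K) * ((1 - β) * √(1 - β)))
        = a / K * √d * (4 * β ^ n + n * ((1 - β) * √(1 - β))) by ring]
      exact mul_le_of_le_one_right (by positivity) hn
    have := (abs_le.1 h2).2
    nlinarith [mul_le_mul_of_nonneg_left h8 haK, mul_le_mul_of_nonneg_left hd1 haK]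
  have h2 : R μ Φ φ z ≤ a / K * (oWt d M z + 6 * √d) := by
    have hl := (le_abs_self _).trans (lip_le (lip1_R hF hφ) z 0)
    rw [sub_zero] at hl
    have hc : 1 / (1 + h) * (a / K) * ‖z‖ ≤ a / K * ‖z‖ := by
      refine mul_le_mul_of_nonneg_right (mul_le_of_le_one_left (div_nonneg ha hK.le) ?_) (norm_nonneg _)
      rw [div_le_one (by linarith)]; linarith
    unfold oWt
    linarith
  have hm : ∀ {F : E d → ℝ}, Measurable F → Measurable fun ω => F (Φ z ω) := fun hF' =>
    hF'.comp (hF.meas.comp measurable_prodMk_left)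
  calc |R μ Φ D z| ≤ ∫ ω, |D (Φ z ω)| ∂μ := abs_integral_le_integral_abs
    _ ≤ ∫ ω, (1 + 2 / K) * K * φ (Φ z ω) ∂μ := integral_mono
        (Integrable.of_bound (hm hDm).abs.aestronglyMeasurable 2
          (ae_of_all _ fun ω => by rw [norm_eq_abs, abs_abs]; exact hD2 _))
        ((Integrable.of_bound (hm hφ.smooth.continuous.measurable).aestronglyMeasurable 1
          (ae_of_all _ fun ω => hφ.norm_le _)).const_mul _) fun ω => hpt _
    _ = (1 + 2 / K) * K * R μ Φ φ z := integral_const_mul _ _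
    _ ≤ (1 + 2 / K) * K * (a / K * (oWt d M z + 6 * √d)) :=
        mul_le_mul_of_nonneg_left h2 (by positivity)
    _ = (1 + 2 / K) * B := by simp only [B]; field_simp

/-- Smoothing of a function below the weight. -/
theorem G_wt (hh' : h ≤ 1) {F : E d → ℝ} (hFm : Measurable F)
    {M a : ℝ} (ha : 0 ≤ a) (hF : ∀ x, |F x| ≤ a * oWt d M x) (x : E d) :
    |G h F x| ≤ a * (oWt d M x + √d) := by
  have hn : Integrable (fun w : E d => ‖w‖) (γ d) :=
    (γ_sq_integrable.add (integrable_const (1 : ℝ))).mono' (by fun_prop)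
      (ae_of_all _ fun w => by
        simp only [norm_norm, Pi.add_apply]; nlinarith [sq_nonneg (‖w‖ - 1 / 2)])
  have hi : Integrable (fun w : E d => a * (oWt d M x + √h * ‖w‖)) (γ d) :=
    ((integrable_const _).fun_add (hn.const_mul _)).const_mul a
  have hb : ∀ w : E d, |F (x + √h • w)| ≤ a * (oWt d M x + √h * ‖w‖) := fun w => by
    refine (hF _).trans (mul_le_mul_of_nonneg_left ?_ ha)
    unfold oWt
    have := norm_add_le x (√h • w)
    rw [norm_smul, norm_eq_abs, abs_of_nonneg (sqrt_nonneg h)] at this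
    linarith
  refine abs_integral_le_integral_abs.trans ((integral_mono
    ((hi.mono' (hFm.comp (by fun_prop)).aestronglyMeasurable (ae_of_all _ hb)).abs) hi hb).trans ?_)
  rw [integral_const_mul, integral_add (integrable_const _) (hn.const_mul _), integral_const,
    probReal_univ, one_smul, integral_const_mul]
  refine mul_le_mul_of_nonneg_left (add_le_add le_rfl ?_) ha
  exact (mul_le_of_le_one_left (integral_nonneg fun w => norm_nonneg w)
    (sqrt_le_one.2 hh')).trans γ_norm_le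

/-- The error of the outer chain. -/
theorem outer_error (hV : Colour.Cls (id : Fin d → Fin d) V) (hd : 2 ≤ d) (hh : 0 < h)
    (hh' : h ≤ 1 / 4) (hη : 0 < η) (hηh : η ≤ h) {q : ℕ}
    {S : (Pt d → Resp d) → (E d → ℝ) → E d → ℝ} {e : ℝ} (he : 0 ≤ e) (hS : Impl q S)
    (hA : Approx h e S) (hβ : 2 / 3 ≤ β) (hβ' : β < 1) {δ : ℝ}
    (hn : 4 * β ^ n + n * ((1 - β) * √(1 - β)) ≤ δ) (hδ : δ ≤ 1) {f : E d → ℝ}
    (hf : Measurable f) (hf1 : ∀ x, |f x| ≤ 1) {N : ℕ} (hN : 1 ≤ N) :
    |UO η h S (Colour.oracle V) f N 0 - ∫ x, f x ∂piE V|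
      ≤ 48 * (N : ℝ) ^ 2 * (1 / √η) * (e + δ) * √d
        + (1 / (1 + h)) ^ N * (1 / √η) * √(8 * d)
        + N * (50 * (1 / √η) * d * δ) + 50 * η * d := by
  set O := Colour.oracle V
  have hO := hV.measurable_oracle
  have hg := pot_gOf hV
  have hF := phi_flow (n := n) hg hh hh' hβ hβ'
  have := hF.prob
  set μ := seed d n
  set Φ := Phi h β (gOf O) n
  set L := 1 / √η
  have hL : 0 ≤ L := by positivity
  have hc : 1 / (1 + h) ≤ (1 : ℝ) := (div_le_one (by linarith)).2 (by linarith)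
  have hT0 : 0 ≤ (n : ℝ) * ((1 - β) * √(1 - β)) :=
    mul_nonneg (Nat.cast_nonneg n) (mul_nonneg (by linarith) (sqrt_nonneg _))
  have hb0 : 0 ≤ β ^ n := pow_nonneg (by linarith) n
  have hδ0 : 0 ≤ δ := by linarith
  obtain ⟨hl, h0inv⟩ := last_inv hV hd hη (hηh.trans hh') hf hf1
  set E₀ := G η (Nlast η (gOf O) f)
  have hE0 : Lip1 E₀ L := hl.smoothing
  set Ej : ℕ → E d → ℝ := fun j => (Q h μ Φ)^[j] E₀
  have hEj : ∀ j, Lip1 (Ej j) L := fun j =>
    (lip1_iterate hF hc hh hE0 j).mono (mul_le_of_le_one_left hL (pow_le_one₀ (by positivity) hc))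
  have hUj : ∀ j, Lip1 (UO η h S O f j) L := by
    intro j
    induction j with
    | zero => exact hE0
    | succ j ih =>
      obtain ⟨hm, hb⟩ := (hS.good hO).bdd _ 1 ih.meas ih.bdd
      exact (lip1_G hm hb hh).mono
        (one_div_le_one_div_of_le (sqrt_pos.2 hη) (sqrt_le_sqrt hηh))
  have hN0 : (1 : ℝ) ≤ N := by exact_mod_cast hN
  set M := 16 * (N : ℝ) with hMdef
  set r := 1 + 1 / (N : ℝ)
  have hr1 : 1 ≤ r := by simp [r]
  have hclose : ∀ j, ∀ x, |UO η h S O f j x - Ej j x| ≤ j * r ^ j * (L * (e + δ)) * oWt d M x := by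
    intro j
    induction j with
    | zero => intro x; simp [UO, Ej, E₀]
    | succ j ih =>
      set a := j * r ^ j * (L * (e + δ))
      have ha : 0 ≤ a := by positivity
      set F := fun z => S O (UO η h S O f j) z - R μ Φ (Ej j) z
      have hFm : Measurable F :=
        ((hS.good hO).bdd _ 1 (hUj j).meas (hUj j).bdd).1.sub (lip1_R hF (hEj j)).meas
      have hstep : ∀ z, |F z| ≤ (L * (e + δ) + a * (1 + 6 / M)) * oWt d M z := by
        intro z
        have h1 := hA V hV _ L (hUj j) z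
        have h2 := chain_close hV hg hd hh hh' hβ hβ' n (hUj j) z
        have h3 := R_wt hV hd hh hh' hβ hβ' (hn.trans hδ) (D := fun x => UO η h S O f j x - Ej j x) ((hUj j).meas.sub (hEj j).meas)
          (fun x => (abs_sub _ _).trans (by linarith [(hUj j).bdd x, (hEj j).bdd x]))
          (show 0 ≤ M by positivity) ha ih z
        have hi : ∀ {u : E d → ℝ}, Lip1 u L → Integrable (fun ω => u (Φ z ω)) μ := fun hu =>
          Integrable.of_bound (hu.meas.comp (hF.meas.comp measurable_prodMk_left)).aestronglyMeasurable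
            1 (ae_of_all _ fun ω => hu.norm_le _)
        have e1 : R μ Φ (fun x => UO η h S O f j x - Ej j x) z
            = R μ Φ (UO η h S O f j) z - R μ Φ (Ej j) z := integral_sub (hi (hUj j)) (hi (hEj j))
        rw [e1] at h3
        have hw : √(d : ℝ) ≤ oWt d M z / M := by
          rw [le_div_iff₀ (by positivity)]; unfold oWt; linarith [norm_nonneg z]
        have hw1 : √(d : ℝ) + ‖z‖ ≤ oWt d M z := by
          unfold oWt
          have : √(d : ℝ) ≤ M * √d := le_mul_of_one_le_left (sqrt_nonneg _) (by linarith)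
          linarith
        have h4 : β ^ n * L * (4 * √d + 4 * ‖z‖) + n * (√d * L * ((1 - β) * √(1 - β)))
            ≤ L * δ * oWt d M z := by
          calc _ = L * ((4 * β ^ n) * (√d + ‖z‖) + n * ((1 - β) * √(1 - β)) * √d) := by ring
            _ ≤ L * ((4 * β ^ n) * oWt d M z + n * ((1 - β) * √(1 - β)) * oWt d M z) := by
              refine mul_le_mul_of_nonneg_left (add_le_add (mul_le_mul_of_nonneg_left hw1
                (by positivity)) (mul_le_mul_of_nonneg_left ?_ hT0)) hL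
              linarith [norm_nonneg z]
            _ ≤ _ := by
              rw [← add_mul, mul_assoc]
              exact mul_le_mul_of_nonneg_left (mul_le_mul_of_nonneg_right hn
                (by unfold oWt; positivity)) hL
        have h5 : a * (oWt d M z + 6 * √d) ≤ a * (1 + 6 / M) * oWt d M z := by
          calc a * (oWt d M z + 6 * √d) ≤ a * (oWt d M z + 6 * (oWt d M z / M)) := by gcongr
            _ = _ := by ring
        have h6 := abs_sub_le (S O (UO η h S O f j) z) (∫ x, UO η h S O f j x ∂back h V z)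
          (R μ Φ (UO η h S O f j) z)
        have h7 := abs_sub_le (S O (UO η h S O f j) z) (R μ Φ (UO η h S O f j) z) (R μ Φ (Ej j) z)
        rw [abs_sub_comm (∫ x, UO η h S O f j x ∂back h V z)] at h6
        have h8 := mul_le_mul_of_nonneg_left hw1 (mul_nonneg hL he)
        simp only [F]
        linarith
      intro x
      have hG := G_wt (h := h) (by linarith) hFm (by positivity) hstep x
      have hi : ∀ {u : E d → ℝ}, Measurable u → (∀ y, |u y| ≤ 1) →
          Integrable (fun w => u (x + √h • w)) (γ d) := fun hu h1 =>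
        Integrable.of_bound (hu.comp (by fun_prop)).aestronglyMeasurable 1
          (ae_of_all _ fun w => by rw [norm_eq_abs]; exact h1 _)
      have e1 : G h F x = UO η h S O f (j + 1) x - Ej (j + 1) x := by
        simp only [Ej, Function.iterate_succ_apply', UO, Q]
        exact integral_sub (hi ((hS.good hO).bdd _ 1 (hUj j).meas (hUj j).bdd).1
          ((hS.good hO).bdd _ 1 (hUj j).meas (hUj j).bdd).2)
          (hi (lip1_R hF (hEj j)).meas (lip1_R hF (hEj j)).bdd)
      rw [e1] at hG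
      refine hG.trans ?_
      have hw0 : 0 ≤ oWt d M x := by unfold oWt; positivity
      have hw : oWt d M x + √d ≤ (1 + 1 / M) * oWt d M x := by
        rw [add_mul, one_mul, div_mul_eq_mul_div, one_mul]
        refine add_le_add le_rfl ?_
        rw [le_div_iff₀ (by positivity)]; unfold oWt; linarith [norm_nonneg x]
      have hk : (1 + 6 / M) * (1 + 1 / M) ≤ r := by
        simp only [r, hMdef]
        field_simp
        nlinarith
      calc _ ≤ (L * (e + δ) + a * (1 + 6 / M)) * ((1 + 1 / M) * oWt d M x) :=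
            mul_le_mul_of_nonneg_left hw (by positivity)
        _ ≤ (L * (e + δ) * r + a * r) * oWt d M x := by
            rw [← mul_assoc, add_mul _ (a * _), mul_assoc a]
            refine mul_le_mul_of_nonneg_right (add_le_add (mul_le_mul_of_nonneg_left ?_
              (by positivity)) (mul_le_mul_of_nonneg_left hk ha)) hw0
            exact le_trans (le_mul_of_one_le_left (by positivity)
              (by linarith [show (0 : ℝ) ≤ 6 / M by positivity])) hk
        _ ≤ _ := by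
            refine mul_le_mul_of_nonneg_right ?_ hw0
            have : r ≤ r ^ (j + 1) := le_self_pow₀ hr1 j.succ_ne_zero
            push_cast
            simp only [a]
            rw [pow_succ] at this ⊢
            nlinarith [mul_le_mul_of_nonneg_right this (show 0 ≤ L * (e + δ) by positivity)]
  have h1 : |UO η h S O f N 0 - Ej N 0| ≤ 48 * (N : ℝ) ^ 2 * L * (e + δ) * √d := by
    refine (hclose N 0).trans ?_
    have hr3 : r ^ N ≤ 3 := by
      refine le_trans ?_ exp_one_lt_three.le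
      refine (pow_le_pow_left₀ (by positivity) (show r ≤ exp (1 / N) by
        linarith [add_one_le_exp (1 / (N : ℝ))]) N).trans (le_of_eq ?_)
      rw [← exp_nat_mul]; congr 1; field_simp
    rw [oWt, norm_zero, add_zero, hMdef]
    calc (N : ℝ) * r ^ N * (L * (e + δ)) * (16 * N * √d)
        = 16 * (N : ℝ) ^ 2 * L * (e + δ) * √d * r ^ N := by ring
      _ ≤ 16 * (N : ℝ) ^ 2 * L * (e + δ) * √d * 3 :=
          mul_le_mul_of_nonneg_left hr3 (by positivity)
      _ = _ := by ring
  have h2 : |Ej N 0 - ∫ x, Ej N x ∂piE V| ≤ (1 / (1 + h)) ^ N * L * √(8 * d) :=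
    start_close hV hd (lip1_iterate hF hc hh hE0 N)
  have h3 : ∀ j, |∫ x, Ej j x ∂piE V - ∫ x, f x ∂piE V| ≤ j * (50 * L * d * δ) + 50 * η * d := by
    intro j
    induction j with
    | zero => simpa [Ej] using h0inv
    | succ j ih =>
      have hr := round_inv (n := n) hV hd hh hh' hβ hβ' (hEj j)
      have hT : (1 - β) ^ (3 / 2 : ℝ) = (1 - β) * √(1 - β) := by
        rw [show (3 / 2 : ℝ) = 1 + 1 / 2 by norm_num, rpow_add (by linarith), rpow_one,
          ← sqrt_eq_rpow]
      rw [hT] at hr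
      have hd' : 50 * L * d * (β ^ n + n * ((1 - β) * √(1 - β))) ≤ 50 * L * d * δ :=
        mul_le_mul_of_nonneg_left (by linarith) (by positivity)
      simp only [Ej, Function.iterate_succ_apply'] at ih ⊢
      refine (abs_sub_le _ (∫ x, (Q h μ Φ)^[j] E₀ x ∂piE V) _).trans ?_
      push_cast
      linarith [hr.trans hd']
  linarith [abs_sub_le (UO η h S O f N 0) (Ej N 0) (∫ x, f x ∂piE V),
    abs_sub_le (Ej N 0) (∫ x, Ej N x ∂piE V) (∫ x, f x ∂piE V), h3 N]

/-- The terms of the error budget. -/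
theorem budget {d : ℕ} {c h L : ℝ} {N : ℕ} (hd1 : (1 : ℝ) ≤ d) (hc1 : 1 ≤ c) (hLd : L ≤ 90 * √d)
    (hL : 0 ≤ L) (hh : 0 < h) (hh8 : h ≤ 1 / 8) (hNc : (N : ℝ) ≤ c * d)
    (hN2 : (N : ℝ) ^ 2 ≤ c ^ 2 * (d : ℝ) ^ 2) (hbig : 10 ^ 7 * (c ^ 2 + 1) ≤ (d : ℝ))
    (hNlog : 2 / h * log (1000000 * (d : ℝ)) ≤ N) :
    48 * (N : ℝ) ^ 2 * L * (((d : ℝ) ^ 8)⁻¹ + ((d : ℝ) ^ 8)⁻¹) * √d
      + (1 / (1 + h)) ^ N * L * √(8 * d) + N * (50 * L * d * ((d : ℝ) ^ 8)⁻¹)
      + 50 * (1 / (8000 * (d : ℝ))) * d ≤ 1 / 10 := by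
  have hd0 : (0 : ℝ) < d := by linarith
  have hc0 : (0 : ℝ) ≤ c := by linarith
  set δ := ((d : ℝ) ^ 8)⁻¹
  have hδ : 0 < δ := by positivity
  have hsd : √(d : ℝ) * √d = d := mul_self_sqrt hd0.le
  have t1 : 48 * (N : ℝ) ^ 2 * L * (δ + δ) * √d ≤ 1 / 100 := by
    calc 48 * (N : ℝ) ^ 2 * L * (δ + δ) * √d
        ≤ 48 * (c ^ 2 * (d : ℝ) ^ 2) * (90 * √d) * (δ + δ) * √d := by gcongr
      _ = 8640 * c ^ 2 * ((d : ℝ) ^ 3 * δ) := by linear_combination (8640 * c ^ 2 * (d : ℝ) ^ 2 * δ) * hsd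
      _ ≤ 8640 * c ^ 2 * (1 / d) := by
        refine mul_le_mul_of_nonneg_left ?_ (by positivity)
        rw [le_div_iff₀ hd0, mul_comm ((d : ℝ) ^ 3), mul_assoc, ← pow_succ, inv_mul_le_iff₀ (by positivity), mul_one]
        exact pow_le_pow_right₀ hd1 (by norm_num)
      _ ≤ 1 / 100 := by rw [mul_one_div, div_le_iff₀ hd0]; nlinarith
  have t2 : (1 / (1 + h)) ^ N * L * √(8 * d) ≤ 1 / 100 := by
    have h1 : (1 / (1 + h)) ^ N ≤ 1 / (1000000 * d) := by
      have h2 : 1 / (1 + h) ≤ exp (-(h / 2)) := by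
        refine le_trans ?_ (add_one_le_exp _)
        rw [div_le_iff₀ (by linarith)]; nlinarith
      refine (pow_le_pow_left₀ (by positivity) h2 N).trans ?_
      rw [← exp_nat_mul, one_div, ← exp_log (show 0 < (1000000 * (d : ℝ))⁻¹ by positivity), exp_le_exp,
        log_inv]
      have := hNlog
      rw [div_mul_eq_mul_div, div_le_iff₀ hh] at this
      linarith
    calc (1 / (1 + h)) ^ N * L * √(8 * d) ≤ 1 / (1000000 * d) * (90 * √d) * (3 * √d) := by
          gcongr
          rw [sqrt_mul (by norm_num)]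
          exact mul_le_mul_of_nonneg_right (by rw [sqrt_le_left] <;> norm_num) (sqrt_nonneg _)
      _ ≤ 1 / 100 := by
        rw [show 1 / (1000000 * (d : ℝ)) * (90 * √d) * (3 * √d)
          = 270 / 1000000 * (√d * √d / d) by ring, hsd, div_self hd0.ne']
        norm_num
  have t3 : (N : ℝ) * (50 * L * d * δ) ≤ 1 / 100 := by
    have hsd1 : √(d : ℝ) ≤ d := by rw [sqrt_le_left hd0.le]; nlinarith
    calc (N : ℝ) * (50 * L * d * δ) ≤ (c * d) * (50 * (90 * d) * d * δ) := by
          gcongr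
          exact hLd.trans (mul_le_mul_of_nonneg_left hsd1 (by norm_num))
      _ = 4500 * c * ((d : ℝ) ^ 3 * δ) := by ring
      _ ≤ 4500 * c * (1 / d) := by
        refine mul_le_mul_of_nonneg_left ?_ (by positivity)
        rw [le_div_iff₀ hd0, mul_comm ((d : ℝ) ^ 3), mul_assoc, ← pow_succ, inv_mul_le_iff₀ (by positivity), mul_one]
        exact pow_le_pow_right₀ hd1 (by norm_num)
      _ ≤ 1 / 100 := by rw [mul_one_div, div_le_iff₀ hd0]; nlinarith [sq_nonneg (c - 1)]
  have t4 : 50 * (1 / (8000 * (d : ℝ))) * d ≤ 1 / 100 := by field_simp; norm_num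
  linarith


/-- A sampler of the target from samplers of the posterior. -/
theorem sampler_of_postStep (H : PostStep) {ε : ℝ} (hε : 0 < ε) : ∃ C : ℝ, ∀ d : ℕ, 2 ≤ d →
    ∃ q : ℕ, (q : ℝ) ≤ C * (d : ℝ) ^ ε ∧
    ∃ (Ω : Type) (_ : MeasurableSpace Ω) (μ : Measure Ω), IsProbabilityMeasure μ ∧
    ∃ F : (Pt d → Resp d) → Ω → Pt d, Colour.Uses q Ω F ∧
      ∀ V : Pt d → ℝ, Colour.Cls (id : Fin d → Fin d) V → ∀ B : Set (Pt d), MeasurableSet B →
        |(μ.map (F (Colour.oracle V))).real B - (Colour.law V).real B| ≤ 1 / 10 := by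
  set s := min (ε / 3) (1 / 2) with hsdef
  have hs : 0 < s := lt_min (by linarith) (by norm_num)
  obtain ⟨C₁, D₁, hstep⟩ := H s hs 8
  obtain ⟨C₂, hsmall⟩ := Quarter.sampler (γ := 1 / 4) (by norm_num)
  set c := 2 * (14 + 1 / s) + 1 with hcdef
  have hc0 : 0 ≤ c := by positivity
  set T := max (max (8 ^ (1 / s)) (10 ^ 7 * (c ^ 2 + 1))) (max (D₁ : ℝ) 2) with hTdef
  set C₁' := max C₁ 0
  refine ⟨max (c * C₁' + 1) (max C₂ 0 * T), fun d hd => ?_⟩
  have hd1 : (1 : ℝ) ≤ d := by exact_mod_cast (show 1 ≤ d by omega)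
  have hd0 : (0 : ℝ) < d := by linarith
  have hdε : 1 ≤ (d : ℝ) ^ ε := one_le_rpow hd1 hε.le
  rcases lt_or_ge (d : ℝ) T with hdT | hdT
  · obtain ⟨q, hq, rest⟩ := hsmall d hd
    refine ⟨q, hq.trans ?_, rest⟩
    have h1 : (d : ℝ) ^ ((1 : ℝ) / 4 + 1 / 4) ≤ T :=
      ((rpow_le_rpow_of_exponent_le hd1 (by norm_num)).trans_eq (rpow_one _)).trans hdT.le
    calc C₂ * (d : ℝ) ^ ((1 : ℝ) / 4 + 1 / 4) ≤ max C₂ 0 * T :=
          (mul_le_mul_of_nonneg_right (le_max_left _ _) (rpow_nonneg hd0.le _)).trans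
            (mul_le_mul_of_nonneg_left h1 (le_max_right _ _))
      _ ≤ _ := (le_max_right _ _).trans
          (le_mul_of_one_le_right ((by positivity : (0 : ℝ) ≤ c * C₁' + 1).trans (le_max_left _ _)) hdε)
  obtain ⟨q, hq, S, hS, hA⟩ := hstep d (by
    have : (D₁ : ℝ) ≤ d := ((le_max_left _ _).trans (le_max_right _ _)).trans hdT
    exact_mod_cast this)
  set h := (d : ℝ) ^ (-s) with hhdef
  have hh : 0 < h := rpow_pos_of_pos hd0 _
  have hds8 : 8 ≤ (d : ℝ) ^ s := by
    have : (8 : ℝ) ^ (1 / s) ≤ d := ((le_max_left _ _).trans (le_max_left _ _)).trans hdT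
    have := rpow_le_rpow (by positivity) this hs.le
    rwa [← rpow_mul (by norm_num), one_div_mul_cancel hs.ne', rpow_one] at this
  have hinv : h = ((d : ℝ) ^ s)⁻¹ := rpow_neg hd0.le _
  have hh8 : h ≤ 1 / 8 := by rw [hinv, one_div]; exact inv_anti₀ (by norm_num) hds8
  set η := 1 / (8000 * (d : ℝ)) with hηdef
  have hη : 0 < η := by positivity
  have hηh : η ≤ h := by
    rw [hinv, hηdef, one_div]
    refine inv_anti₀ (rpow_pos_of_pos hd0 _) ?_
    have : (d : ℝ) ^ s ≤ d :=
      (rpow_le_rpow_of_exponent_le hd1 (le_trans (min_le_right _ _) (by norm_num))).trans_eq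
        (rpow_one _)
    linarith
  set L := 1 / √η
  have hLd : L ≤ 90 * √d := by
    simp only [L, hηdef]
    rw [one_div, one_div, ← sqrt_inv, inv_inv, sqrt_mul (by norm_num)]
    exact mul_le_mul_of_nonneg_right (by rw [sqrt_le_left] <;> norm_num) (sqrt_nonneg _)
  have hlog0 : 0 ≤ log (1000000 * (d : ℝ)) := log_nonneg (by linarith)
  set N := ⌈2 / h * log (1000000 * (d : ℝ))⌉₊ with hNdef
  have hlog : 1 ≤ log (1000000 * (d : ℝ)) := by
    rw [le_log_iff_exp_le (by positivity)]; linarith [exp_one_lt_three]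
  have hN1 : 1 ≤ N := Nat.one_le_ceil_iff.2 (by positivity)
  have hNc : (N : ℝ) ≤ c * (d : ℝ) ^ (2 * s) := by
    refine (Nat.ceil_lt_add_one (by positivity)).le.trans ?_
    have h1 : log (1000000 * (d : ℝ)) ≤ (14 + 1 / s) * (d : ℝ) ^ s := by
      rw [log_mul (by norm_num) hd0.ne', add_mul]
      refine add_le_add ((?_ : log (1000000 : ℝ) ≤ 14).trans
        (le_mul_of_one_le_right (by norm_num) (one_le_rpow hd1 hs.le))) ?_
      · rw [log_le_iff_le_exp (by norm_num), show (14 : ℝ) = (14 : ℕ) * 1 by norm_num, exp_nat_mul]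
        refine le_trans (by norm_num) (pow_le_pow_left₀ (by norm_num) exp_one_gt_d9.le 14)
      · rw [one_div_mul_eq_div]; exact log_le_rpow_div hd0.le hs
    have h2 : (1 : ℝ) ≤ (d : ℝ) ^ (2 * s) := one_le_rpow hd1 (by positivity)
    have h3 : (d : ℝ) ^ (2 * s) = (d : ℝ) ^ s * (d : ℝ) ^ s := by rw [← rpow_add hd0]; ring_nf
    rw [hinv, div_inv_eq_mul, hcdef, add_mul]
    refine add_le_add ?_ (by simpa using h2)
    calc 2 * (d : ℝ) ^ s * log (1000000 * d) ≤ 2 * (d : ℝ) ^ s * ((14 + 1 / s) * (d : ℝ) ^ s) :=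
          mul_le_mul_of_nonneg_left h1 (by positivity)
      _ = _ := by rw [h3]; ring
  have hNc' : (N : ℝ) ≤ c * d := hNc.trans (mul_le_mul_of_nonneg_left
    ((rpow_le_rpow_of_exponent_le hd1 (by linarith [min_le_right (ε / 3) (1 / 2 : ℝ)])).trans_eq
      (rpow_one _)) hc0)
  have hN2 : (N : ℝ) ^ 2 ≤ c ^ 2 * (d : ℝ) ^ 2 := by
    rw [← mul_pow]
    exact pow_le_pow_left₀ (Nat.cast_nonneg _) hNc' 2
  have hc1 : 1 ≤ c := by
    rw [hcdef]; linarith [show (0 : ℝ) < 1 / s by positivity]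
  set δ := ((d : ℝ) ^ 8)⁻¹
  have hδ : 0 < δ := by positivity
  have hδ1 : δ ≤ 1 := inv_le_one_of_one_le₀ (one_le_pow₀ hd1)
  obtain ⟨n, β, hβ, hβ', hnβ⟩ := exists_chain hδ
  obtain ⟨Ω, mΩ, μ, hμ, F, hF, hlaw⟩ := Impl.algorithm (impl_UO (η := η) (h := h) hS N)
    (0 : E d) (out := fun x : E d => ofLp x) (by fun_prop)
  refine ⟨N * q + 1, ?_, Ω, mΩ, μ, hμ, F, hF, fun V hV B hB => ?_⟩
  · push_cast
    have h1 : (q : ℝ) ≤ C₁' * (d : ℝ) ^ s :=
      hq.trans (mul_le_mul_of_nonneg_right (le_max_left _ _) (rpow_nonneg hd0.le _))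
    have h2 : (d : ℝ) ^ (2 * s) * (d : ℝ) ^ s ≤ (d : ℝ) ^ ε := by
      rw [← rpow_add hd0]
      exact rpow_le_rpow_of_exponent_le hd1 (by linarith [min_le_left (ε / 3) (1 / 2 : ℝ)])
    calc (N : ℝ) * q + 1 ≤ c * (d : ℝ) ^ (2 * s) * (C₁' * (d : ℝ) ^ s) + (d : ℝ) ^ ε :=
          add_le_add (mul_le_mul hNc h1 (Nat.cast_nonneg _) (by positivity)) hdε
      _ = c * C₁' * ((d : ℝ) ^ (2 * s) * (d : ℝ) ^ s) + (d : ℝ) ^ ε := by ring
      _ ≤ c * C₁' * (d : ℝ) ^ ε + (d : ℝ) ^ ε :=
          add_le_add (mul_le_mul_of_nonneg_left h2 (mul_nonneg hc0 (le_max_right _ _))) le_rfl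
      _ = (c * C₁' + 1) * (d : ℝ) ^ ε := by ring
      _ ≤ _ := mul_le_mul_of_nonneg_right (le_max_left _ _) (rpow_nonneg hd0.le _)
  have hO := hV.measurable_oracle
  set f : E d → ℝ := ((fun x : E d => ofLp x) ⁻¹' B).indicator fun _ => 1 with hfdef
  have hfm : Measurable f := measurable_const.indicator ((by fun_prop : Measurable _) hB)
  have hf1 : ∀ x, |f x| ≤ 1 := fun x => by
    by_cases hx : x ∈ (fun x : E d => ofLp x) ⁻¹' B <;> simp [hfdef, hx]
  have hint : ∫ x, f x ∂piE V = (Colour.law V).real B := by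
    rw [piE, integral_map (by fun_prop) hfm.aestronglyMeasurable]
    change ∫ x, B.indicator (fun _ => (1 : ℝ)) x ∂Colour.law V = _
    exact integral_indicator_one hB
  rw [hlaw _ hO B hB, ← hint]
  refine (outer_error hV hd hh (by linarith) hη hηh (by positivity) hS hA hβ hβ' hnβ hδ1 hfm hf1
    hN1).trans ?_
  exact budget (by linarith) hc1 hLd (by positivity) hh hh8 hNc' hN2
    (((le_max_right _ _).trans (le_max_left _ _)).trans hdT) (Nat.le_ceil _)

end

end Vale.Agent.P347.Zero
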