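import Vale.Agent.P347.Zero.Field
import Vale.Agent.P347.Zero.Gram
import Vale.Agent.P347.Quarter.Smooth

/-!
# P347, exponent 0: iterated derivatives of Gaussian smoothings

Smoothing a Lipschitz field gives derivatives all whose flattenings are bounded without any power
of the dimension: one half of the smoothing makes the pairing with the inner indices Lipschitz,
the other half differentiates it by Bessel.
-/

namespace Vale.Agent.P347.Zero

open MeasureTheory ProbabilityTheory Real Finset Filter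
open scoped RealInnerProductSpace ContDiff
open Vale.Agent.P347.Quarter (E γ G Good)

noncomputable section

variable {d : ℕ} {b s t B L : ℝ}

/-- A directional derivative. -/
def dv (u : E d) (f : E d → ℝ) : E d → ℝ := fun x => fderiv ℝ f x u

/-- Iterated directional derivatives. -/
def dl (l : List (E d)) (f : E d → ℝ) : E d → ℝ := l.foldr dv f

theorem dl_append (l l' : List (E d)) (f : E d → ℝ) : dl (l ++ l') f = dl l (dl l' f) :=
  List.foldr_append

theorem dl_cons (u : E d) (l : List (E d)) (f : E d → ℝ) : dl (u :: l) f = dv u (dl l f) := rfl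

theorem dl_nil (f : E d → ℝ) : dl [] f = f := rfl

theorem contDiff_dv {n : ℕ∞} {f : E d → ℝ} (hf : ContDiff ℝ ∞ f) (u : E d) :
    ContDiff ℝ n (dv u f) :=
  ((hf.fderiv_right (m := ∞) (by simp)).clm_apply contDiff_const).of_le (WithTop.coe_le_coe.2 le_top)

theorem contDiff_dl {f : E d → ℝ} (hf : ContDiff ℝ ∞ f) : ∀ l, ContDiff ℝ ∞ (dl l f)
  | [] => hf
  | u :: l => contDiff_dv (contDiff_dl hf l) u

theorem dv_comm {f : E d → ℝ} (hf : ContDiff ℝ ∞ f) (u v : E d) :
    dv u (dv v f) = dv v (dv u f) := by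
  funext x
  have hd : DifferentiableAt ℝ (fderiv ℝ f) x :=
    ((hf.fderiv_right (m := ∞) (by simp)).differentiable (by simp)) x
  have hsym : IsSymmSndFDerivAt ℝ f x :=
    (hf.contDiffAt (x := x)).isSymmSndFDerivAt (by simp; exact WithTop.coe_le_coe.2 le_top)
  unfold dv
  rw [fderiv_clm_apply hd (differentiableAt_const _),
    fderiv_clm_apply hd (differentiableAt_const _)]
  simpa using hsym.eq u v

theorem dl_perm {f : E d → ℝ} (hf : ContDiff ℝ ∞ f) {l l' : List (E d)} (h : l.Perm l') :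
    dl l f = dl l' f := by
  induction h with
  | nil => rfl
  | cons u _ ih => rw [dl_cons, dl_cons, ih]
  | swap u v l => exact dv_comm (contDiff_dl hf l) v u
  | trans _ _ ih ih' => exact ih.trans ih'

theorem iteratedFDeriv_eq_dl {f : E d → ℝ} (hf : ContDiff ℝ ∞ f) :
    ∀ (n : ℕ) (m : Fin n → E d) (x : E d), iteratedFDeriv ℝ n f x m = dl (List.ofFn m) f x
  | 0, m, x => by simp [dl]
  | n + 1, m, x => by
    rw [iteratedFDeriv_succ_apply_left, List.ofFn_succ, dl_cons]
    have h1 : dl (List.ofFn fun i => m i.succ) f = fun y => iteratedFDeriv ℝ n f y (Fin.tail m) :=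
      funext fun y => (iteratedFDeriv_eq_dl hf n _ y).symm
    rw [h1]
    show _ = fderiv ℝ (fun y => iteratedFDeriv ℝ n f y (Fin.tail m)) x (m 0)
    rw [fderiv_continuousMultilinear_apply_const_apply
      ((hf.differentiable_iteratedFDeriv (WithTop.coe_lt_coe.2 (ENat.natCast_lt_top n))) x)]

/-! ## Smoothing -/

theorem G_comp {f : E d → ℝ} (hf : Continuous f) {C R : ℝ} (hR : 0 ≤ R)
    (h : ∀ x, ‖f x‖ ≤ C * exp (R * ‖x‖)) (hs : 0 ≤ s) (ht : 0 ≤ t) :
    G (s + t) f = G s (G t f) := by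
  funext x
  have h2 := integral_two (d := d) (√s) (√t) (√(s + t))
    (by rw [sq_sqrt hs, sq_sqrt ht, sq_sqrt (add_nonneg hs ht)]) (f := fun w => f (x + w))
    (hf.comp (by fun_prop)).stronglyMeasurable
  have hC : 0 ≤ C := by
    have := (norm_nonneg _).trans (h 0)
    simpa using this
  have hi : Integrable (fun p : E d × E d => f (x + (√s • p.1 + √t • p.2)))
      ((γ d).prod (γ d)) := by
    have hi1 := fun c : ℝ => Quarter.integrable_exp_norm (μ := γ d) c
    refine (((hi1 (R * √s)).mul_prod (hi1 (R * √t))).const_mul (C * exp (R * ‖x‖))).mono'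
      (hf.comp (by fun_prop)).aestronglyMeasurable (ae_of_all _ fun p => ?_)
    refine (h _).trans ?_
    rw [mul_assoc C, ← exp_add, ← exp_add]
    refine mul_le_mul_of_nonneg_left (exp_le_exp.2 ?_) hC
    have h1 := norm_add_le x (√s • p.1 + √t • p.2)
    have h3 := norm_add_le (√s • p.1) (√t • p.2)
    rw [norm_smul, norm_smul, norm_eq_abs, norm_eq_abs, abs_of_nonneg (sqrt_nonneg _),
      abs_of_nonneg (sqrt_nonneg _)] at h3
    nlinarith [mul_le_mul_of_nonneg_left (h1.trans (add_le_add le_rfl h3)) hR]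
  simp only [G]
  rw [← h2, integral_prod _ hi]
  simp only [add_assoc]

theorem G_comp_bdd {f : E d → ℝ} (hf : Continuous f) (h : ∀ x, |f x| ≤ B) (hs : 0 ≤ s)
    (ht : 0 ≤ t) : G (s + t) f = G s (G t f) :=
  G_comp hf (C := B) (R := 0) le_rfl (fun x => by simpa using h x) hs ht

theorem G_comp_lip {f : E d → ℝ} (hf : ContDiff ℝ 1 f) (hL : ∀ x, ‖fderiv ℝ f x‖ ≤ L)
    (hs : 0 ≤ s) (ht : 0 ≤ t) : G (s + t) f = G s (G t f) :=
  G_comp hf.continuous (C := ‖f 0‖ + L) (R := 0 + 1) (by norm_num)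
    (Quarter.growth_of_deriv (hf.differentiable one_ne_zero) le_rfl fun x => by simpa using hL x)
    hs ht

theorem G_comp_half {f : E d → ℝ} (hf : Continuous f) (h : ∀ x, |f x| ≤ B) (hb : 0 ≤ b) :
    G b f = G (b / 2) (G (b / 2) f) := by
  rw [← G_comp_bdd hf h (by linarith) (by linarith), add_halves]

theorem integrable_shift_lip {f : E d → ℝ} (hf : ContDiff ℝ 1 f) (hL : ∀ x, ‖fderiv ℝ f x‖ ≤ L)
    (c : ℝ) (x : E d) : Integrable (fun w => f (x + c • w)) (γ d) := by
  have hL0 : 0 ≤ L := (norm_nonneg _).trans (hL 0)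
  refine ((Quarter.γ_norm_integrable.const_mul (L * |c|)).add (integrable_const |f x|)).mono'
    (hf.continuous.comp (by fun_prop)).aestronglyMeasurable (ae_of_all _ fun w => ?_)
  have h1 := convex_univ.norm_image_sub_le_of_norm_fderiv_le
    (fun y _ => hf.differentiable one_ne_zero y) (fun y _ => hL y) (Set.mem_univ x)
    (Set.mem_univ (x + c • w))
  rw [add_sub_cancel_left, norm_smul, norm_eq_abs c, norm_eq_abs (_ - _)] at h1
  have := abs_sub_abs_le_abs_sub (f (x + c • w)) (f x)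
  simp only [Pi.add_apply, norm_eq_abs]
  linarith [mul_assoc L |c| ‖w‖]

/-- Smoothing commutes with a directional derivative. -/
theorem dv_G {f : E d → ℝ} (hf : ContDiff ℝ 1 f) (hL : ∀ x, ‖fderiv ℝ f x‖ ≤ L) (ht : 0 ≤ t)
    (u : E d) : dv u (G t f) = G t (dv u f) := by
  funext x
  have hi : Integrable (fun w => fderiv ℝ f (x + √t • w)) (γ d) :=
    (integrable_const L).mono'
      ((hf.continuous_fderiv one_ne_zero).comp (by fun_prop)).aestronglyMeasurable
      (ae_of_all _ fun w => hL _)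
  unfold dv
  rw [Quarter.fderiv_G ht hf hL x, ContinuousLinearMap.integral_apply hi]
  rfl

theorem abs_dv_le {f : E d → ℝ} (hL : ∀ x, ‖fderiv ℝ f x‖ ≤ L) (u x : E d) :
    |dv u f x| ≤ L * ‖u‖ := by
  rw [← norm_eq_abs]
  exact ((fderiv ℝ f x).le_opNorm u).trans (mul_le_mul_of_nonneg_right (hL x) (norm_nonneg _))

theorem norm_fderiv_G_bdd {f : E d → ℝ} (hf : Measurable f) (h : ∀ x, |f x| ≤ B) (ht : 0 < t)
    (x : E d) : ‖fderiv ℝ (G t f) x‖ ≤ B / √t := by
  have hB : 0 ≤ B := (abs_nonneg _).trans (h 0)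
  rw [le_div_iff₀ (sqrt_pos.2 ht)]
  refine (sq_le_sq₀ (by positivity) hB).1 ?_
  rw [mul_pow, sq_sqrt ht.le, mul_comm]
  exact Quarter.norm_fderiv_G_sq ht hf (fun y => by simpa using h y) x

theorem contDiff_one_of_bdd {f : E d → ℝ} (hf : Measurable f) (h : ∀ x, |f x| ≤ B) (ht : 0 < t) :
    ContDiff ℝ 1 (G t f) :=
  (Quarter.G_contDiff ht hf fun y => by simpa using h y).1

/-- Smoothing of a bounded continuous function is smooth. -/
theorem contDiff_G_bdd_nat : ∀ (n : ℕ) {t : ℝ}, 0 < t → ∀ {f : E d → ℝ}, Continuous f →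
    ∀ {B : ℝ}, (∀ x, |f x| ≤ B) → ContDiff ℝ n (G t f)
  | 0, t, ht, f, hf, B, h => by
    exact ((contDiff_one_of_bdd hf.measurable h ht).of_le zero_le_one)
  | n + 1, t, ht, f, hf, B, h => by
    have h2 : (0 : ℝ) < t / 2 := by linarith
    have h1 := contDiff_one_of_bdd hf.measurable h h2
    have hL := norm_fderiv_G_bdd hf.measurable h h2
    rw [show ((n + 1 : ℕ) : WithTop ℕ∞) = (n : WithTop ℕ∞) + 1 by push_cast; rfl,
      contDiff_succ_iff_fderiv_apply]
    refine ⟨(contDiff_one_of_bdd hf.measurable h ht).differentiable one_ne_zero, by simp, fun u => ?_⟩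
    show ContDiff ℝ n (dv u (G t f))
    rw [G_comp_half hf h ht.le, dv_G h1 hL h2.le u]
    exact contDiff_G_bdd_nat n h2 ((h1.continuous_fderiv one_ne_zero).clm_apply continuous_const)
      (abs_dv_le hL u)

theorem contDiff_G_bdd {f : E d → ℝ} (hf : Continuous f) (h : ∀ x, |f x| ≤ B) (ht : 0 < t) :
    ContDiff ℝ ∞ (G t f) :=
  contDiff_infty.2 fun n => contDiff_G_bdd_nat n ht hf h

theorem contDiff_G_lip {f : E d → ℝ} (hf : ContDiff ℝ 1 f) (hL : ∀ x, ‖fderiv ℝ f x‖ ≤ L)
    (ht : 0 < t) : ContDiff ℝ ∞ (G t f) := by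
  rw [contDiff_infty_iff_fderiv]
  have hd : ∀ x, HasFDerivAt (G t f) (∫ w, fderiv ℝ f (x + √t • w) ∂γ d) x := fun x =>
    Quarter.hasFDerivAt_avg hf le_rfl (C := L) (fun y => by simpa using hL y) (√t) x
  refine ⟨fun x => (hd x).differentiableAt, contDiff_clm_apply_iff.2 fun u => ?_⟩
  show ContDiff ℝ ∞ (dv u (G t f))
  rw [dv_G hf hL ht.le u]
  exact contDiff_G_bdd ((hf.continuous_fderiv one_ne_zero).clm_apply continuous_const)
    (abs_dv_le hL u) ht

/-! ## Smooth functions with bounded derivatives -/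

/-- Smooth, with all derivatives of positive order bounded. -/
def Sm (f : E d → ℝ) : Prop :=
  ContDiff ℝ ∞ f ∧ ∀ l : List (E d), l ≠ [] → ∃ B, ∀ x, |dl l f x| ≤ B

/-- The basis vectors of a tuple of coordinates. -/
def tv {n : ℕ} (a : Fin n → Fin d) : List (E d) := List.ofFn fun i => unitV (a i)

theorem Sm.contDiff_one {f : E d → ℝ} (h : Sm f) : ContDiff ℝ 1 f :=
  h.1.of_le (by simp)

theorem Sm.dl {f : E d → ℝ} (h : Sm f) (l : List (E d)) : Sm (Zero.dl l f) := by
  refine ⟨contDiff_dl h.1 l, fun l' hl' => ?_⟩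
  rw [← dl_append]
  exact h.2 _ (by simp [hl'])

theorem norm_le_of_coord (A : E d →L[ℝ] ℝ) {c : Fin d → ℝ} (h : ∀ i, |A (unitV i)| ≤ c i) :
    ‖A‖ ≤ √(∑ i, c i ^ 2) := by
  refine A.opNorm_le_bound (sqrt_nonneg _) fun u => ?_
  have e : A u = ∑ i, u i * A (unitV i) := by
    conv_lhs => rw [← (EuclideanSpace.basisFun (Fin d) ℝ).sum_repr u]
    simp [unitV]
  rw [e, norm_eq_abs]
  refine (abs_sum_le_sum_abs _ _).trans ?_
  simp only [abs_mul]
  refine (sum_le_sum fun i _ => mul_le_mul_of_nonneg_left (h i) (abs_nonneg (u i))).trans ?_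
  refine (sum_mul_le_sqrt_mul_sqrt _ _ _).trans (le_of_eq ?_)
  rw [mul_comm, EuclideanSpace.norm_eq]
  simp

theorem Sm.lip {f : E d → ℝ} (h : Sm f) : ∃ L, ∀ x, ‖fderiv ℝ f x‖ ≤ L := by
  have h1 : ∀ i : Fin d, ∃ B, ∀ x, |fderiv ℝ f x (unitV i)| ≤ B := fun i =>
    h.2 [unitV i] (by simp)
  choose c hc using h1
  exact ⟨_, fun x => norm_le_of_coord _ fun i => hc i x⟩

theorem dl_G_sm {f : E d → ℝ} (h : Sm f) (ht : 0 ≤ t) :
    ∀ l : List (E d), Zero.dl l (G t f) = G t (Zero.dl l f)
  | [] => rfl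
  | u :: l => by
    obtain ⟨L, hL⟩ := (h.dl l).lip
    rw [dl_cons, dl_cons, dl_G_sm h ht l, dv_G (h.dl l).contDiff_one hL ht u]

/-! ## The iterated Bessel inequality -/

/-- The constant of the iterated inequality. -/
def cI (n : ℕ) : ℝ := 2 ^ (n * n)

theorem cI_pos (n : ℕ) : 0 < cI n := by unfold cI; positivity

theorem tv_snoc {n : ℕ} (a : Fin n → Fin d) (i : Fin d) :
    tv (Fin.snoc a i : Fin (n + 1) → Fin d) = tv a ++ [unitV i] := by
  simp only [tv]
  rw [List.ofFn_succ', List.concat_eq_append]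
  simp

theorem bessel_family {P : Type} [Fintype P] {v : P → E d → ℝ} (hv : ∀ p, Measurable (v p))
    (hB : ∀ x, ∑ p, v p x ^ 2 ≤ B ^ 2) (ht : 0 < t) (x : E d) :
    t * ∑ i, ∑ p, dv (unitV i) (G t (v p)) x ^ 2 + ∑ p, G t (v p) x ^ 2 ≤ B ^ 2 := by
  set W := EuclideanSpace ℝ P
  set F : E d → W := fun y => WithLp.toLp 2 fun p => v p y
  have hF : Measurable F :=
    (PiLp.continuous_toLp 2 fun _ : P => ℝ).measurable.comp (measurable_pi_iff.2 hv)
  have hFn : ∀ y, ‖F y‖ ^ 2 = ∑ p, v p y ^ 2 := fun y => by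
    rw [EuclideanSpace.norm_sq_eq]; simp [F]
  have hFb : ∀ y, ‖F y‖ ≤ |B| := fun y =>
    (sq_le_sq₀ (norm_nonneg _) (abs_nonneg B)).1 (by rw [hFn, sq_abs]; exact hB y)
  obtain ⟨h1, -, h3⟩ := Quarter.G_contDiff (B := |B|) ht hF hFb
  have hp : ∀ p, G t (v p) = fun y => G t F y p := fun p => funext fun y => by
    have hi : Integrable (fun w => F (y + √t • w)) (γ d) :=
      (integrable_const |B|).mono' (hF.comp (by fun_prop)).aestronglyMeasurable
        (ae_of_all _ fun w => hFb _)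
    exact (EuclideanSpace.proj p : W →L[ℝ] ℝ).integral_comp_comm hi
  have hdp : ∀ p i, dv (unitV i) (G t (v p)) x = fderiv ℝ (G t F) x (unitV i) p := fun p i => by
    rw [dv, hp p]
    exact congrArg (fun T : E d →L[ℝ] ℝ => T (unitV i))
      (((EuclideanSpace.proj p : W →L[ℝ] ℝ).hasFDerivAt.comp x
        (h1.differentiable one_ne_zero x).hasFDerivAt).fderiv)
  have hsum : ∀ u : W, ∑ p, u p ^ 2 = ‖u‖ ^ 2 := fun u => by
    rw [EuclideanSpace.norm_sq_eq]; simp
  simp only [hdp]
  simp only [hp, hsum]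
  refine (h3 x).trans ?_
  have := Quarter.G_sq_le (b := t) hFb x
  rwa [sq_abs] at this

/-- `n` derivatives of a smoothed bounded family. -/
theorem iter_bessel : ∀ (n : ℕ) {t : ℝ}, 0 < t → ∀ {P : Type} [Fintype P] {v : P → E d → ℝ},
    (∀ p, Continuous (v p)) → ∀ {B : ℝ}, (∀ x, ∑ p, v p x ^ 2 ≤ B ^ 2) → ∀ x,
      ∑ a : Fin n → Fin d, ∑ p, dl (tv a) (G t (v p)) x ^ 2 ≤ cI n / t ^ n * B ^ 2
  | 0, t, ht, P, _, v, hv, B, hB, x => by
    have h := bessel_family (fun p => (hv p).measurable) hB ht x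
    have h0 : 0 ≤ t * ∑ i, ∑ p, dv (unitV i) (G t (v p)) x ^ 2 :=
      mul_nonneg ht.le (sum_nonneg fun i _ => sum_nonneg fun p _ => sq_nonneg _)
    simp [cI, tv, dl_nil]
    linarith
  | n + 1, t, ht, P, _, v, hv, B, hB, x => by
    have h2 : (0 : ℝ) < t / 2 := by linarith
    have hb : ∀ p y, |v p y| ≤ |B| := fun p y => sq_le_sq.1 ((Finset.single_le_sum
      (f := fun p => v p y ^ 2) (fun q _ => sq_nonneg _) (mem_univ p)).trans (hB y))
    have h1 : ∀ p, ContDiff ℝ 1 (G (t / 2) (v p)) := fun p =>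
      contDiff_one_of_bdd (hv p).measurable (hb p) h2
    set w : P × Fin d → E d → ℝ := fun q => dv (unitV q.2) (G (t / 2) (v q.1))
    have hwB : ∀ y, ∑ q, w q y ^ 2 ≤ (√(2 / t) * B) ^ 2 := by
      intro y
      have h := bessel_family (fun p => (hv p).measurable) hB h2 y
      have h0 : 0 ≤ ∑ p, G (t / 2) (v p) y ^ 2 := sum_nonneg fun p _ => sq_nonneg _
      rw [mul_pow, sq_sqrt (by positivity), Fintype.sum_prod_type_right, div_mul_eq_mul_div,
        le_div_iff₀ ht]
      simp only [w]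
      linarith
    have hw : ∀ q, Continuous (w q) := fun q =>
      ((h1 q.1).continuous_fderiv one_ne_zero).clm_apply continuous_const
    have key := iter_bessel n h2 hw hwB x
    have e : ∑ a : Fin (n + 1) → Fin d, ∑ p, dl (tv a) (G t (v p)) x ^ 2
        = ∑ a : Fin n → Fin d, ∑ q, dl (tv a) (G (t / 2) (w q)) x ^ 2 := by
      rw [← (Fin.snocEquiv fun _ : Fin (n + 1) => Fin d).sum_comp]
      rw [Fintype.sum_prod_type, sum_comm]
      refine sum_congr rfl fun a _ => ?_
      rw [Fintype.sum_prod_type_right]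
      refine sum_congr rfl fun i _ => sum_congr rfl fun p _ => ?_
      have hl := tv_snoc a i
      rw [show (Fin.snocEquiv fun _ : Fin (n + 1) => Fin d) (i, a) = Fin.snoc a i from rfl, hl,
        dl_append, dl_cons, dl_nil]
      rw [G_comp_half (hv p) (hb p) ht.le,
        dv_G (h1 p) (norm_fderiv_G_bdd (hv p).measurable (hb p) h2) h2.le]
    rw [e]
    refine key.trans ?_
    rw [mul_pow, sq_sqrt (by positivity), ← mul_assoc]
    refine mul_le_mul_of_nonneg_right ?_ (sq_nonneg B)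
    rw [div_mul_div_comm, div_pow, pow_succ t n, div_mul_eq_mul_div, div_div_eq_mul_div]
    refine div_le_div_of_nonneg_right ?_ (by positivity)
    rw [cI, cI, ← pow_succ, ← pow_add]
    exact pow_le_pow_right₀ one_le_two (by nlinarith)

theorem sm_G_lip {f : E d → ℝ} (hf : ContDiff ℝ 1 f) (hL : ∀ x, ‖fderiv ℝ f x‖ ≤ L)
    (ht : 0 < t) : Sm (G t f) := by
  refine ⟨contDiff_G_lip hf hL ht, fun l hl => ?_⟩
  have hL0 : 0 ≤ L := (norm_nonneg _).trans (hL 0)
  obtain ⟨l', u, rfl⟩ : ∃ l' u, l = l' ++ [u] :=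
    ⟨l.dropLast, l.getLast hl, (List.dropLast_append_getLast hl).symm⟩
  rw [dl_append, dl_cons, dl_nil, dv_G hf hL ht.le u]
  have hc : Continuous (dv u f) := (hf.continuous_fderiv one_ne_zero).clm_apply continuous_const
  clear hl
  suffices ∀ (l : List (E d)) (t : ℝ), 0 < t → ∀ (g : E d → ℝ), Continuous g → ∀ B : ℝ,
      (∀ x, |g x| ≤ B) → ∃ B', ∀ x, |dl l (G t g) x| ≤ B' from this l' t ht _ hc _ (abs_dv_le hL u)
  intro l
  induction l using List.reverseRecOn with
  | nil =>
    intro t ht g hg B hB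
    refine ⟨B, fun x => ?_⟩
    rw [dl_nil, ← norm_eq_abs, G]
    exact (norm_integral_le_of_norm_le_const (μ := γ d) (ae_of_all _ fun w => by
      simpa using hB _)).trans (le_of_eq (by simp))
  | append_singleton l v ih =>
    intro t ht g hg B hB
    have h2 : (0 : ℝ) < t / 2 := by linarith
    have h1 := contDiff_one_of_bdd hg.measurable hB h2
    have hn := norm_fderiv_G_bdd hg.measurable hB h2
    rw [dl_append, dl_cons, dl_nil, G_comp_half hg hB ht.le, dv_G h1 hn h2.le]
    exact ih (t / 2) h2 _ ((h1.continuous_fderiv one_ne_zero).clm_apply continuous_const) _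
      (abs_dv_le hn v)

/-! ## Flattenings of the derivatives of a smoothed vector field -/

/-- Continuously differentiable, with Jacobian bounded by `L`. -/
structure GradLip (M : E d → E d) (L : ℝ) : Prop where
  smooth : ContDiff ℝ 1 M
  lip : ∀ x, ‖fderiv ℝ M x‖ ≤ L

/-- A component. -/
def cpt (M : E d → E d) (o : Fin d) : E d → ℝ := fun x => M x o

variable {M : E d → E d}

theorem GradLip.dv_cpt (hM : GradLip M L) (o : Fin d) (u x : E d) :
    dv u (cpt M o) x = fderiv ℝ M x u o := by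
  have := ((EuclideanSpace.proj o : E d →L[ℝ] ℝ).hasFDerivAt.comp x
    (hM.smooth.differentiable one_ne_zero x).hasFDerivAt).fderiv
  exact congrArg (fun T : E d →L[ℝ] ℝ => T u) this

theorem GradLip.contDiff_cpt (hM : GradLip M L) (o : Fin d) : ContDiff ℝ 1 (cpt M o) :=
  (EuclideanSpace.proj o : E d →L[ℝ] ℝ).contDiff.comp hM.smooth

theorem GradLip.lip_cpt (hM : GradLip M L) (o : Fin d) (x : E d) :
    ‖fderiv ℝ (cpt M o) x‖ ≤ L := by
  have hL : 0 ≤ L := (norm_nonneg _).trans (hM.lip 0)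
  refine ContinuousLinearMap.opNorm_le_bound _ hL fun u => ?_
  show ‖dv u (cpt M o) x‖ ≤ _
  rw [hM.dv_cpt]
  exact (PiLp.norm_apply_le _ o).trans (((fderiv ℝ M x).le_opNorm u).trans
    (mul_le_mul_of_nonneg_right (hM.lip x) (norm_nonneg _)))

theorem GradLip.G_cpt (hM : GradLip M L) (b : ℝ) (o : Fin d) :
    cpt (G b M) o = G b (cpt M o) := by
  funext x
  have hL : 0 ≤ L := (norm_nonneg _).trans (hM.lip 0)
  have hi : Integrable (fun w => M (x + √b • w)) (γ d) := by
    refine ((Quarter.γ_norm_integrable.const_mul (L * √b)).add (integrable_const ‖M x‖)).mono'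
      (hM.smooth.continuous.comp (by fun_prop)).aestronglyMeasurable (ae_of_all _ fun w => ?_)
    have h1 := convex_univ.norm_image_sub_le_of_norm_fderiv_le
      (fun y _ => hM.smooth.differentiable one_ne_zero y) (fun y _ => hM.lip y) (Set.mem_univ x)
      (Set.mem_univ (x + √b • w))
    rw [add_sub_cancel_left, norm_smul, norm_eq_abs, abs_of_nonneg (sqrt_nonneg b)] at h1
    simp only [Pi.add_apply]
    linarith [norm_le_norm_add_norm_sub' (M (x + √b • w)) (M x), mul_assoc L (√b) ‖w‖]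
  exact ((EuclideanSpace.proj o : E d →L[ℝ] ℝ).integral_comp_comm hi).symm

theorem GradLip.contDiff_G (hM : GradLip M L) (hb : 0 < b) : ContDiff ℝ ∞ (G b M) := by
  rw [contDiff_piLp]
  intro o
  show ContDiff ℝ ∞ (cpt (G b M) o)
  rw [hM.G_cpt b o]
  exact contDiff_G_lip (hM.contDiff_cpt o) (hM.lip_cpt o) hb

theorem GradLip.G (hM : GradLip M L) (hb : 0 < b) : GradLip (Quarter.G b M) L := by
  refine ⟨(hM.contDiff_G hb).of_le (by simp), fun x => ?_⟩
  rw [Quarter.fderiv_G hb.le hM.smooth hM.lip x]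
  exact (norm_integral_le_of_norm_le_const (μ := γ d) (ae_of_all _ fun w => hM.lip _)).trans
    (le_of_eq (by rw [probReal_univ, mul_one]))

theorem GradLip.smoothTF_G (hM : GradLip M L) (hb : 0 < b) : SmoothTF (vecT (Quarter.G b M)) :=
  fun i => by
    show ContDiff ℝ ∞ (cpt (Quarter.G b M) (i ()))
    rw [hM.G_cpt b]
    exact contDiff_G_lip (hM.contDiff_cpt _) (hM.lip_cpt _) hb

theorem sum_smul_G {κ : Type*} [Fintype κ] (β : κ → ℝ) {f : κ → E d → ℝ}
    (hf : ∀ k, Sm (f k)) (t : ℝ) :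
    (fun x => ∑ k, β k * G t (f k) x) = G t fun x => ∑ k, β k * f k x := by
  funext x
  simp only [G]
  rw [integral_finsetSum _ fun k _ => ?_]
  · simp [integral_const_mul]
  · obtain ⟨L, hL⟩ := (hf k).lip
    exact (integrable_shift_lip (hf k).contDiff_one hL _ x).const_mul _

/-- The core estimate: `p + 1` indices against the output and `r` inner ones. -/
theorem GradLip.opLE_core (hM : GradLip M L) (hb : 0 < b) (p r : ℕ) (x : E d) :
    OpLE (fun (a : Fin (p + 1) → Fin d) (s : Fin d × (Fin r → Fin d)) =>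
        dl (tv a ++ tv s.2) (cpt (Quarter.G b M) s.1) x)
      (2 ^ ((p + r + 1) * (p + r + 1)) * L / √b ^ (p + r)) := by
  intro α β
  have hL0 : 0 ≤ L := (norm_nonneg _).trans (hM.lip 0)
  have h2 : (0 : ℝ) < b / 2 := by linarith
  -- the pairing with the inner indices, on one half of the smoothing
  set g : Fin d × (Fin r → Fin d) → E d → ℝ := fun s => dl (tv s.2) (Quarter.G (b / 2) (cpt M s.1))
  have hg : ∀ s, Sm (g s) := fun s => (sm_G_lip (hM.contDiff_cpt _) (hM.lip_cpt _) h2).dl _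
  set h : E d → ℝ := fun y => ∑ s, β s * g s y
  have hh : ∀ y, HasFDerivAt h (∑ s, β s • fderiv ℝ (g s) y) y := fun y =>
    HasFDerivAt.fun_sum fun s _ =>
      ((hg s).1.differentiable (by simp) y).hasFDerivAt.const_mul (β s)
  have hhc : ContDiff ℝ 1 h := ContDiff.sum fun s _ => contDiff_const.mul (hg s).contDiff_one
  set Lh := nrm β * (√(cI r / (b / 2) ^ r) * L)
  have hLh0 : 0 ≤ Lh := by have := nrm_nonneg β; positivity
  have hLh : ∀ y, ‖fderiv ℝ h y‖ ≤ Lh := fun y => by
    refine ContinuousLinearMap.opNorm_le_bound _ hLh0 fun u => ?_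
    rw [(hh y).fderiv]
    simp only [_root_.sum_apply, smul_apply, smul_eq_mul, norm_eq_abs]
    refine le_trans (le_trans (abs_sum_le_sum_abs _ _) ?_) (le_of_eq (mul_comm Lh ‖u‖).symm)
    have e : ∀ s, fderiv ℝ (g s) y u
        = dl (tv s.2) (Quarter.G (b / 2) (dv u (cpt M s.1))) y := fun s => by
      show dv u (g s) y = _
      have hs := contDiff_G_lip (hM.contDiff_cpt s.1) (hM.lip_cpt s.1) h2
      rw [← dl_cons, dl_perm hs (l' := tv s.2 ++ [u]) (List.perm_append_singleton u _).symm,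
        dl_append, dl_cons, dl_nil, dv_G (hM.contDiff_cpt _) (hM.lip_cpt _) h2.le]
    have hb2 := iter_bessel r h2 (v := fun o => dv u (cpt M o)) (fun o =>
      ((hM.contDiff_cpt o).continuous_fderiv one_ne_zero).clm_apply continuous_const)
      (B := L * ‖u‖) (fun z => by
        simp only [hM.dv_cpt]
        have := pow_le_pow_left₀ (norm_nonneg _) (((fderiv ℝ M z).le_opNorm u).trans
          (mul_le_mul_of_nonneg_right (hM.lip z) (norm_nonneg _))) 2
        rwa [EuclideanSpace.norm_sq_eq, sum_congr rfl fun i _ => by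
          rw [norm_eq_abs, sq_abs]] at this) y
    simp only [abs_mul, e]
    refine (sum_mul_le_sqrt_mul_sqrt univ _ _).trans ?_
    simp only [sq_abs]
    rw [Fintype.sum_prod_type_right (f := fun s : Fin d × (Fin r → Fin d) =>
      dl (tv s.2) (Quarter.G (b / 2) (dv u (cpt M s.1))) y ^ 2)]
    refine (mul_le_mul_of_nonneg_left (sqrt_le_sqrt hb2) (sqrt_nonneg _)).trans (le_of_eq ?_)
    rw [sqrt_mul (div_nonneg (cI_pos r).le (by positivity)), sqrt_sq (by positivity)]
    simp only [Lh, nrm]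
    ring
  -- the whole pairing
  have hsplit : ∀ a : Fin (p + 1) → Fin d,
      ∑ s, β s * dl (tv a ++ tv s.2) (cpt (Quarter.G b M) s.1) x
        = dl (tv a) (Quarter.G (b / 2) h) x := fun a => by
    have e : ∀ s : Fin d × (Fin r → Fin d), dl (tv a ++ tv s.2) (cpt (Quarter.G b M) s.1)
        = dl (tv a) (Quarter.G (b / 2) (g s)) := fun s => by
      rw [hM.G_cpt, dl_append, ← dl_G_sm (sm_G_lip (hM.contDiff_cpt _) (hM.lip_cpt _) h2) h2.le,
        ← G_comp_lip (hM.contDiff_cpt _) (hM.lip_cpt _) h2.le h2.le, add_halves]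
    simp only [e]
    have hgs : ∀ s, Sm (g s) := hg
    rw [← sum_smul_G β hg (b / 2)]
    have hlin : ∀ (l : List (E d)), dl l (fun y => ∑ s, β s * Quarter.G (b / 2) (g s) y)
        = fun y => ∑ s, β s * dl l (Quarter.G (b / 2) (g s)) y := by
      intro l
      induction l with
      | nil => rfl
      | cons v l ih =>
        funext y
        rw [dl_cons, ih]
        have hd : ∀ s, HasFDerivAt (dl l (Quarter.G (b / 2) (g s)))
            (fderiv ℝ (dl l (Quarter.G (b / 2) (g s))) y) y := fun s => by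
          obtain ⟨L', hL'⟩ := (hg s).lip
          exact ((contDiff_dl (contDiff_G_lip (hg s).contDiff_one hL' h2) l).differentiable
            (by simp) y).hasFDerivAt
        show fderiv ℝ _ y v = _
        rw [(HasFDerivAt.fun_sum (u := univ) fun s _ => (hd s).const_mul (β s)).fderiv]
        simp [dl_cons, dv]
    rw [hlin]
  simp only [mul_assoc]
  rw [show ∑ a, ∑ s, dl (tv a ++ tv s.2) (cpt (Quarter.G b M) s.1) x * (α a * β s)
      = ∑ a, α a * dl (tv a) (Quarter.G (b / 2) h) x from sum_congr rfl fun a _ => by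
    rw [← hsplit a, mul_sum]; exact sum_congr rfl fun s _ => by ring]
  refine (inner_le _ _).trans ?_
  -- the outer indices by Bessel
  have hout : ∑ a : Fin (p + 1) → Fin d, dl (tv a) (Quarter.G (b / 2) h) x ^ 2
      ≤ cI p / (b / 2) ^ p * Lh ^ 2 := by
    rw [← (Fin.snocEquiv fun _ : Fin (p + 1) => Fin d).sum_comp, Fintype.sum_prod_type, sum_comm]
    refine le_trans (le_of_eq ?_) (iter_bessel p h2 (v := fun i : Fin d => dv (unitV i) h)
      (fun i => (hhc.continuous_fderiv one_ne_zero).clm_apply continuous_const) (B := Lh)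
      (fun y => ?_) x)
    · refine sum_congr rfl fun a _ => sum_congr rfl fun i _ => ?_
      have hl := tv_snoc a i
      rw [show (Fin.snocEquiv fun _ : Fin (p + 1) => Fin d) (i, a) = Fin.snoc a i from rfl, hl,
        dl_append, dl_cons, dl_nil, dv_G hhc hLh h2.le]
    · set A := fderiv ℝ h y
      set S := ∑ i, A (unitV i) ^ 2 with hS
      have hS0 : 0 ≤ S := sum_nonneg fun i _ => sq_nonneg _
      set u : E d := WithLp.toLp 2 fun i => A (unitV i)
      have h1 : A u = S := by
        conv_lhs => rw [← (EuclideanSpace.basisFun (Fin d) ℝ).sum_repr u, map_sum]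
        simp [S, u, unitV, sq]
      have h3 : ‖u‖ = √S := by
        rw [EuclideanSpace.norm_eq]; simp [S, u]
      have h4 := (le_abs_self _).trans ((norm_eq_abs _).symm.le.trans
        ((A.le_opNorm u).trans (mul_le_mul_of_nonneg_right (hLh y) (norm_nonneg _))))
      rw [h1, h3] at h4
      show S ≤ Lh ^ 2
      nlinarith [sq_sqrt hS0, sqrt_nonneg S, sq_nonneg (√S - Lh)]
  have hn : nrm (fun a : Fin (p + 1) → Fin d => dl (tv a) (Quarter.G (b / 2) h) x)
      ≤ √(cI p / (b / 2) ^ p) * Lh := by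
    refine (sqrt_le_sqrt hout).trans (le_of_eq ?_)
    rw [sqrt_mul (div_nonneg (cI_pos p).le (by positivity)), sqrt_sq hLh0]
  refine (mul_le_mul_of_nonneg_left hn (nrm_nonneg α)).trans ?_
  have hconst : √(cI p / (b / 2) ^ p) * √(cI r / (b / 2) ^ r)
      ≤ 2 ^ ((p + r + 1) * (p + r + 1)) / √b ^ (p + r) := by
    rw [← sqrt_mul (div_nonneg (cI_pos p).le (by positivity)), div_pow, div_pow,
      div_div_eq_mul_div, div_div_eq_mul_div, div_mul_div_comm, ← pow_add b,
      show √b ^ (p + r) = √(b ^ (p + r)) from (sqrt_eq_rpow b ▸ by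
        rw [← rpow_natCast, ← rpow_mul hb.le, sqrt_eq_rpow, ← rpow_natCast, ← rpow_mul hb.le,
          mul_comm]), sqrt_div' _ (by positivity)]
    refine div_le_div_of_nonneg_right ?_ (sqrt_nonneg _)
    refine (Real.sqrt_le_left (by positivity)).2 ?_
    rw [cI, cI, ← pow_add, ← pow_add, ← pow_add, ← pow_mul]
    exact pow_le_pow_right₀ one_le_two (by nlinarith)
  calc nrm α * (√(cI p / (b / 2) ^ p) * Lh)
      = (√(cI p / (b / 2) ^ p) * √(cI r / (b / 2) ^ r)) * (L * nrm α * nrm β) := by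
        simp only [Lh]; ring
    _ ≤ (2 ^ ((p + r + 1) * (p + r + 1)) / √b ^ (p + r)) * (L * nrm α * nrm β) :=
        mul_le_mul_of_nonneg_right hconst
          (mul_nonneg (mul_nonneg hL0 (nrm_nonneg α)) (nrm_nonneg β))
    _ = _ := by ring

theorem flat_opLE_of_core {M : E d → E d} (hM : ContDiff ℝ ∞ M) {k : ℕ} {C : ℝ} (x : E d)
    (hcore : ∀ p r : ℕ, p + r + 1 = k → OpLE (fun (a : Fin (p + 1) → Fin d)
      (s : Fin d × (Fin r → Fin d)) => dl (tv a ++ tv s.2) (cpt M s.1) x) C)
    {κ κ' : Type} [Fintype κ] [Fintype κ'] [DecidableEq κ] [DecidableEq κ'] [Nonempty κ]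
    (e : κ ⊕ κ' ≃ Unit ⊕ Fin k) (o' : κ') (ho : e (Sum.inr o') = Sum.inl ()) :
    OpLE (flat e (gradK k (vecT M) x)) C := by
  classical
  set K' := {c : κ' // c ≠ o'}
  obtain ⟨p, hp⟩ : ∃ p, Fintype.card κ = p + 1 :=
    Nat.exists_eq_succ_of_ne_zero Fintype.card_ne_zero
  set r := Fintype.card K'
  let ε : Fin (p + 1) ≃ κ := (Fintype.equivFinOfCardEq hp).symm
  let ε' : Fin r ≃ K' := (Fintype.equivFin K').symm
  have hpk : p + r + 1 = k := by
    have h := Fintype.card_congr e
    simp only [Fintype.card_sum, Fintype.card_unit, Fintype.card_fin] at h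
    have : r = Fintype.card κ' - 1 := by
      simp [r, K', Fintype.card_subtype_compl]
    have : 0 < Fintype.card κ' := Fintype.card_pos_iff.2 ⟨o'⟩
    omega
  -- the positions of the derivative indices
  have hl : ∀ c : κ, ∃ i, e (Sum.inl c) = Sum.inr i := fun c => by
    rcases h : e (Sum.inl c) with ⟨⟩ | i
    · exact absurd (e.injective (h.trans ho.symm)) (by simp)
    · exact ⟨i, rfl⟩
  have hr : ∀ c : K', ∃ i, e (Sum.inr c.1) = Sum.inr i := fun c => by
    rcases h : e (Sum.inr c.1) with ⟨⟩ | i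
    · exact absurd (Sum.inr.inj (e.injective (h.trans ho.symm))) c.2
    · exact ⟨i, rfl⟩
  choose φ hφ using hl
  choose ψ hψ using hr
  have hperm : (List.finRange k).Perm
      (List.ofFn (fun j => φ (ε j)) ++ List.ofFn fun j => ψ (ε' j)) := by
    refine ((List.perm_ext_iff_of_nodup (List.nodup_finRange k) ?_).2 fun i => ?_)
    · refine List.nodup_append.2 ⟨List.nodup_ofFn.2 ?_, List.nodup_ofFn.2 ?_, fun a ha c hc => ?_⟩
      · intro a c h
        exact ε.injective (Sum.inl.inj (e.injective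
          ((hφ _).trans ((congrArg Sum.inr h).trans (hφ _).symm))))
      · intro a c h
        exact ε'.injective (Subtype.ext (Sum.inr.inj (e.injective
          ((hψ _).trans ((congrArg Sum.inr h).trans (hψ _).symm)))))
      · obtain ⟨j, rfl⟩ := List.mem_ofFn.1 ha
        obtain ⟨j', rfl⟩ := List.mem_ofFn.1 hc
        intro h
        exact Sum.inl_ne_inr (e.injective ((hφ _).trans ((congrArg Sum.inr h).trans (hψ _).symm)))
    · simp only [List.mem_finRange, true_iff, List.mem_append, List.mem_ofFn]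
      rcases h : e.symm (Sum.inr i) with c | c
      · refine Or.inl ⟨ε.symm c, ?_⟩
        have := hφ c
        rw [← h, e.apply_symm_apply] at this
        simpa using (Sum.inr.inj this).symm
      · have hc : c ≠ o' := fun hc => by
          subst hc
          rw [← h, e.apply_symm_apply] at ho
          exact Sum.inr_ne_inl ho
        refine Or.inr ⟨ε'.symm ⟨c, hc⟩, ?_⟩
        have := hψ ⟨c, hc⟩
        rw [← h, e.apply_symm_apply] at this
        simpa using (Sum.inr.inj this).symm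
  let e₁ : (κ → Fin d) ≃ (Fin (p + 1) → Fin d) := Equiv.arrowCongr ε.symm (Equiv.refl _)
  let e₂ : (κ' → Fin d) ≃ Fin d × (Fin r → Fin d) :=
    (Equiv.funSplitAt o' (Fin d)).trans
      (Equiv.prodCongr (Equiv.refl _) (Equiv.arrowCongr ε'.symm (Equiv.refl _)))
  have h := (hcore p r hpk).reindex e₁ e₂
  refine (funext₂ fun a c => ?_ : flat e (gradK k (vecT (M)) x) = _) ▸ h
  have ho' : e.symm (Sum.inl ()) = Sum.inr o' := (Equiv.symm_apply_eq e).2 ho.symm
  show iteratedFDeriv ℝ k (cpt (M) (Sum.elim a c (e.symm (Sum.inl ())))) x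
    (fun l => unitV (Sum.elim a c (e.symm (Sum.inr l)))) = _
  rw [ho', Sum.elim_inr]
  refine (iteratedFDeriv_eq_dl ((contDiff_piLp 2).1 hM (c o')) k _ x).trans ?_
  rw [show (e₂ c).1 = c o' from rfl]
  refine congrFun (dl_perm ((contDiff_piLp 2).1 hM (c o')) ?_) x
  rw [List.ofFn_eq_map]
  refine (hperm.map _).trans (List.Perm.of_eq ?_)
  simp only [List.map_append, tv, List.map_ofFn]
  congr 1
  · congr 1; funext j
    simp only [Function.comp_apply, ← hφ, Equiv.symm_apply_apply, Sum.elim_inl]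
    rfl
  · congr 1; funext j
    simp only [Function.comp_apply, ← hψ, Equiv.symm_apply_apply, Sum.elim_inr]
    rfl

/-- All flattenings from the core ones. -/
theorem bn_of_core {M : E d → E d} (hM : ContDiff ℝ ∞ M) {k : ℕ} {C : ℝ} (x : E d)
    (hcore : ∀ p r : ℕ, p + r + 1 = k → OpLE (fun (a : Fin (p + 1) → Fin d)
      (s : Fin d × (Fin r → Fin d)) => dl (tv a ++ tv s.2) (cpt M s.1) x) C) :
    BN (gradK k (vecT M) x) C := by
  intro κ κ' _ _ _ _ hk hk' e
  rcases h : e.symm (Sum.inl ()) with o | o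
  · have := flat_opLE_of_core hM x hcore ((Equiv.sumComm κ' κ).trans e) o
      (by simp [← h])
    refine (funext₂ fun a c => ?_ : flat e (gradK k (vecT M) x) = _) ▸ this.symm
    simp only [flat]
    congr 1
    funext i
    simp only [Equiv.symm_trans_apply, Equiv.sumComm_symm, Equiv.sumComm_apply]
    cases e.symm i <;> rfl
  · exact flat_opLE_of_core hM x hcore e o (by rw [← h, e.apply_symm_apply])

/-- All flattenings of the derivatives of a smoothed Lipschitz field. -/
theorem GradLip.bn_G (hM : GradLip M L) (hb : 0 < b) (k : ℕ) (x : E d) :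
    BN (gradK k (vecT (Quarter.G b M)) x) (2 ^ (k * k) * L / √b ^ (k - 1)) :=
  bn_of_core (hM.contDiff_G hb) x fun p r hpk => (hM.opLE_core hb p r x).mono
    (le_of_eq (by rw [show k - 1 = p + r by omega, ← hpk]))

theorem norm_multilinear_le {n : ℕ} (T : ContinuousMultilinearMap ℝ (fun _ : Fin n => E d) ℝ) :
    ‖T‖ ≤ ∑ a : Fin n → Fin d, |T fun l => unitV (a l)| := by
  refine ContinuousMultilinearMap.opNorm_le_bound (sum_nonneg fun a _ => abs_nonneg _) fun m => ?_
  have e : T m = ∑ a : Fin n → Fin d, (∏ l, m l (a l)) * T fun l => unitV (a l) := by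
    have hm : m = fun l => ∑ i, m l i • unitV i := funext fun l => by
      conv_lhs => rw [← (EuclideanSpace.basisFun (Fin d) ℝ).sum_repr (m l)]
      simp [unitV]
    conv_lhs => rw [hm]
    rw [ContinuousMultilinearMap.map_sum]
    refine sum_congr rfl fun a _ => ?_
    rw [ContinuousMultilinearMap.map_smul_univ, smul_eq_mul]
  rw [e, sum_mul, norm_eq_abs]
  refine (abs_sum_le_sum_abs _ _).trans (sum_le_sum fun a _ => ?_)
  rw [abs_mul, mul_comm]
  refine mul_le_mul_of_nonneg_left ?_ (abs_nonneg _)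
  rw [abs_prod]
  exact Finset.prod_le_prod (fun l _ => abs_nonneg _) fun l _ => PiLp.norm_apply_le (m l) (a l)

theorem Sm.temperate {f : E d → ℝ} (h : Sm f) : f.HasTemperateGrowth := by
  refine ⟨h.1, fun n => ?_⟩
  rcases Nat.eq_zero_or_pos n with rfl | hn
  · obtain ⟨L, hL⟩ := h.lip
    have hL0 : 0 ≤ L := (norm_nonneg _).trans (hL 0)
    refine ⟨1, |f 0| + L, fun x => ?_⟩
    have h1 := convex_univ.norm_image_sub_le_of_norm_fderiv_le
      (fun y _ => h.1.differentiable (by simp) y) (fun y _ => hL y) (Set.mem_univ 0) (Set.mem_univ x)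
    rw [norm_iteratedFDeriv_zero, norm_eq_abs, pow_one]
    rw [sub_zero, norm_eq_abs] at h1
    nlinarith [abs_sub_abs_le_abs_sub (f x) (f 0), abs_nonneg (f 0), norm_nonneg x]
  · have h1 : ∀ a : Fin n → Fin d, ∃ B, ∀ x, |Zero.dl (tv a) f x| ≤ B := fun a =>
      h.2 _ (fun e => by simpa [tv, Nat.pos_iff_ne_zero.1 hn] using congrArg List.length e)
    choose B hB using h1
    refine ⟨0, ∑ a, B a, fun x => ?_⟩
    rw [pow_zero, mul_one]
    refine (norm_multilinear_le _).trans (sum_le_sum fun a _ => ?_)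
    rw [iteratedFDeriv_eq_dl h.1]
    exact hB a x

theorem GradLip.temperate_G (hM : GradLip M L) (hb : 0 < b) (o : Fin d) :
    (cpt (Quarter.G b M) o).HasTemperateGrowth := by
  rw [hM.G_cpt]
  exact (sm_G_lip (hM.contDiff_cpt o) (hM.lip_cpt o) hb).temperate

end

end Vale.Agent.P347.Zero
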