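import Mathlib

/-!
# P347, exponent 0: bilinear bounds for matrices over finite index types
-/

namespace Vale.Agent.P347.Zero

open Finset Real

noncomputable section

variable {P Q P' Q' R : Type*} [Fintype P] [Fintype Q] [Fintype P'] [Fintype Q'] [Fintype R]

/-- Euclidean norm of a finite family. -/
def nrm (a : P → ℝ) : ℝ := √(∑ p, a p ^ 2)

/-- The bilinear form of a matrix is bounded by `c`. -/
def OpLE (M : P → Q → ℝ) (c : ℝ) : Prop :=
  ∀ a : P → ℝ, ∀ b : Q → ℝ, ∑ p, ∑ q, M p q * a p * b q ≤ c * nrm a * nrm b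

theorem nrm_nonneg (a : P → ℝ) : 0 ≤ nrm a := Real.sqrt_nonneg _

theorem nrm_sq (a : P → ℝ) : nrm a ^ 2 = ∑ p, a p ^ 2 :=
  sq_sqrt (sum_nonneg fun _ _ => sq_nonneg _)

theorem nrm_neg (a : P → ℝ) : nrm (fun p => -a p) = nrm a := by simp [nrm]

theorem nrm_comp (e : P' ≃ P) (a : P → ℝ) : nrm (a ∘ e) = nrm a := by
  simp only [nrm, Function.comp]
  rw [e.sum_comp fun p => a p ^ 2]

theorem inner_le (a b : P → ℝ) : ∑ p, a p * b p ≤ nrm a * nrm b :=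
  sum_mul_le_sqrt_mul_sqrt _ a b

theorem OpLE.mono {M : P → Q → ℝ} {c c' : ℝ} (h : OpLE M c) (hc : c ≤ c') : OpLE M c' :=
  fun a b => (h a b).trans
    (mul_le_mul_of_nonneg_right (mul_le_mul_of_nonneg_right hc (nrm_nonneg _)) (nrm_nonneg _))

theorem OpLE.symm {M : P → Q → ℝ} {c : ℝ} (h : OpLE M c) : OpLE (fun q p => M p q) c := fun b a => by
  refine le_trans (le_of_eq ?_) ((h a b).trans (le_of_eq (mul_right_comm _ _ _)))
  rw [sum_comm]
  simp only [mul_right_comm]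

theorem OpLE.reindex {M : P → Q → ℝ} {c : ℝ} (h : OpLE M c) (e : P' ≃ P) (f : Q' ≃ Q) :
    OpLE (fun p q => M (e p) (f q)) c := fun a b => by
  have := h (a ∘ e.symm) (b ∘ f.symm)
  rw [nrm_comp, nrm_comp] at this
  refine le_trans (le_of_eq ?_) this
  rw [← e.sum_comp fun p => ∑ q, M p q * (a ∘ e.symm) p * (b ∘ f.symm) q]
  refine sum_congr rfl fun p _ => ?_
  rw [← f.sum_comp fun q => M (e p) q * (a ∘ e.symm) (e p) * (b ∘ f.symm) q]
  simp

theorem OpLE.add {M N : P → Q → ℝ} {c c' : ℝ} (h : OpLE M c) (h' : OpLE N c') :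
    OpLE (fun p q => M p q + N p q) (c + c') := fun a b => by
  simp only [add_mul, sum_add_distrib]
  exact add_le_add (h a b) (h' a b)

theorem OpLE.smul {M : P → Q → ℝ} {c : ℝ} (h : OpLE M c) (r : ℝ) :
    OpLE (fun p q => r * M p q) (|r| * c) := fun a b => by
  simp only [mul_assoc r, ← mul_sum]
  rcases le_or_gt 0 r with hr | hr
  · rw [abs_of_nonneg hr]
    exact (mul_le_mul_of_nonneg_left (h a b) hr).trans (le_of_eq (by ring))
  · rw [abs_of_neg hr]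
    have := h (fun p => -a p) b
    simp only [mul_neg, neg_mul, sum_neg_distrib, nrm_neg] at this
    nlinarith [mul_le_mul_of_nonneg_left this (neg_pos.2 hr).le]

/-- The image of a vector. -/
theorem OpLE.apply_le {M : P → Q → ℝ} {c : ℝ} (h : OpLE M c) (hc : 0 ≤ c) (a : P → ℝ) :
    nrm (fun q => ∑ p, M p q * a p) ≤ c * nrm a := by
  set u := fun q => ∑ p, M p q * a p
  have h1 := h a u
  have h2 : ∑ p, ∑ q, M p q * a p * u q = nrm u ^ 2 := by
    rw [nrm_sq, sum_comm]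
    refine sum_congr rfl fun q _ => ?_
    rw [← sum_mul, sq]
  rw [h2] at h1
  rcases (nrm_nonneg u).eq_or_lt with h0 | h0
  · exact h0.symm.le.trans (mul_nonneg hc (nrm_nonneg _))
  · nlinarith

/-- Composition of two maps through a shared index, each carrying a spectator. -/
theorem OpLE.compose {P₁ P₂ Q₁ Q₂ : Type*} [Fintype P₁] [Fintype P₂] [Fintype Q₁] [Fintype Q₂]
    {M₁ : P₁ × R → Q₁ → ℝ} {M₂ : P₂ → R × Q₂ → ℝ} {c₁ c₂ : ℝ} (h₁ : OpLE M₁ c₁) (h₂ : OpLE M₂ c₂)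
    (hc₁ : 0 ≤ c₁) (hc₂ : 0 ≤ c₂) :
    OpLE (fun (p : P₁ × P₂) (q : Q₁ × Q₂) => ∑ r, M₁ (p.1, r) q.1 * M₂ p.2 (r, q.2)) (c₁ * c₂) := by
  intro a b
  set u : P₁ → R × Q₂ → ℝ := fun p₁ s => ∑ p₂, M₂ p₂ s * a (p₁, p₂)
  set v : Q₂ → P₁ × R → ℝ := fun q₂ s => ∑ q₁, M₁ s q₁ * b (q₁, q₂)
  have hsum : ∑ p : P₁ × P₂, ∑ q : Q₁ × Q₂, (∑ r, M₁ (p.1, r) q.1 * M₂ p.2 (r, q.2)) * a p * b q
      = ∑ s : (P₁ × R) × Q₂, u s.1.1 (s.1.2, s.2) * v s.2 s.1 := by
    simp only [u, v, Fintype.sum_prod_type, sum_mul, mul_sum]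
    refine sum_congr rfl fun p₁ _ => ?_
    calc ∑ p₂, ∑ q₁, ∑ q₂, ∑ r, M₁ (p₁, r) q₁ * M₂ p₂ (r, q₂) * a (p₁, p₂) * b (q₁, q₂)
        = ∑ q₁, ∑ q₂, ∑ r, ∑ p₂, M₁ (p₁, r) q₁ * M₂ p₂ (r, q₂) * a (p₁, p₂) * b (q₁, q₂) := by
          rw [sum_comm]; refine sum_congr rfl fun q₁ _ => ?_
          rw [sum_comm]; exact sum_congr rfl fun q₂ _ => sum_comm
      _ = ∑ r, ∑ q₂, ∑ q₁, ∑ p₂, M₁ (p₁, r) q₁ * M₂ p₂ (r, q₂) * a (p₁, p₂) * b (q₁, q₂) := by
          rw [sum_comm]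
          conv_lhs => arg 2; ext q₂; rw [sum_comm]
          rw [sum_comm]
      _ = _ := by
          refine sum_congr rfl fun r _ => sum_congr rfl fun q₂ _ => sum_congr rfl fun q₁ _ =>
            sum_congr rfl fun p₂ _ => ?_
          ring
  rw [hsum]
  refine (inner_le _ _).trans ?_
  have hu : nrm (fun s : (P₁ × R) × Q₂ => u s.1.1 (s.1.2, s.2)) ≤ c₂ * nrm a := by
    rw [nrm, Real.sqrt_le_left (mul_nonneg hc₂ (nrm_nonneg _)), mul_pow, nrm_sq]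
    simp only [Fintype.sum_prod_type, mul_sum]
    refine sum_le_sum fun p₁ _ => ?_
    have := pow_le_pow_left₀ (nrm_nonneg _) (h₂.apply_le hc₂ fun p₂ => a (p₁, p₂)) 2
    rw [mul_pow, nrm_sq, nrm_sq, Fintype.sum_prod_type, mul_sum] at this
    exact this
  have hv : nrm (fun s : (P₁ × R) × Q₂ => v s.2 s.1) ≤ c₁ * nrm b := by
    rw [nrm, Real.sqrt_le_left (mul_nonneg hc₁ (nrm_nonneg _)), mul_pow, nrm_sq]
    rw [Fintype.sum_prod_type, sum_comm, Fintype.sum_prod_type]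
    conv_rhs => rw [mul_sum]; arg 2; ext; rw [mul_sum]
    rw [sum_comm (s := (univ : Finset Q₁))]
    refine sum_le_sum fun q₂ _ => ?_
    have := pow_le_pow_left₀ (nrm_nonneg _) (h₁.symm.apply_le hc₁ fun q₁ => b (q₁, q₂)) 2
    rw [mul_pow, nrm_sq, nrm_sq, mul_sum] at this
    exact this
  exact (mul_le_mul hu hv (nrm_nonneg _) (mul_nonneg hc₂ (nrm_nonneg _))).trans (le_of_eq (by ring))

/-- The Hilbert–Schmidt norm of a bounded matrix. -/
theorem OpLE.sq_sum_le {M : P → Q → ℝ} {c : ℝ} (h : OpLE M c) (hc : 0 ≤ c) :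
    ∑ p, ∑ q, M p q ^ 2 ≤ c ^ 2 * Fintype.card P := by
  classical
  have hp : ∀ p, ∑ q, M p q ^ 2 ≤ c ^ 2 := by
    intro p
    have := pow_le_pow_left₀ (nrm_nonneg _) (h.apply_le hc (Pi.single p 1)) 2
    simp only [Pi.single_apply, mul_ite, mul_one, mul_zero, sum_ite_eq', mem_univ, if_true,
      nrm_sq, mul_pow] at this
    simpa [ite_pow] using this
  exact (sum_le_sum fun p _ => hp p).trans (le_of_eq (by simp [mul_comm]))

end

end Vale.Agent.P347.Zero
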