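import Vale.Agent.P347.Zero.Gram
import Vale.Agent.P347.Quarter.Budget
import Vale.Agent.P347.Quarter.AlgImpl

/-!
# P347, exponent 0: values that can be sampled

`Smp q b L β ρ val`: with `q` queries, from independent samples of `N (x s, b s ^ 2)` one obtains a
sample of `N (val x, β ^ 2)` up to `ρ * wt x` for `1`-Lipschitz tests, pathwise `L`-Lipschitz in the
samples.
-/

namespace Vale.Agent.P347.Zero

open MeasureTheory ProbabilityTheory Real Finset
open Vale.Agent.P347.Quarter (E γ)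
open Vale.Agent.P347.Colour (Pt Resp Uses oracle)
open scoped NNReal

noncomputable section

set_option linter.unusedSectionVars false

variable {d : ℕ} {σ σ' : Type} [Fintype σ] [Fintype σ']

/-- The potentials of the problem. -/
abbrev Mem (V : Pt d → ℝ) : Prop := Colour.Cls (id : Fin d → Fin d) V

/-- Inputs. -/
abbrev Inp (d : ℕ) (σ : Type) := σ → E d

/-- Inputs blurred at the scales `b`. -/
def blur (b : σ → ℝ) (x ξ : Inp d σ) : Inp d σ := fun s => x s + b s • ξ s

/-- The weight of an input. -/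
def wt (x : Inp d σ) : ℝ := √d + ∑ s, ‖x s‖

theorem wt_nonneg (x : Inp d σ) : 0 ≤ wt x :=
  add_nonneg (Real.sqrt_nonneg _) (sum_nonneg fun _ _ => norm_nonneg _)

@[fun_prop]
theorem measurable_blur (b : σ → ℝ) (x : Inp d σ) : Measurable (blur b x) := by
  unfold blur; fun_prop

/-- A randomised map samples the value. -/
structure SmpProp (b L : σ → ℝ) (β ρ : ℝ) (val : Inp d σ → E d) {Ω : Type} [MeasurableSpace Ω]
    (μ : Measure Ω) (F : Inp d σ × Ω → E d) : Prop where
  meas : Measurable F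
  int : ∀ y, Integrable (fun ω => F (y, ω)) μ
  lip : ∀ ω y y', ‖F (y, ω) - F (y', ω)‖ ≤ ∑ s, L s * ‖y s - y' s‖
  close : ∀ x (φ : E d → ℝ), LipschitzWith 1 φ →
    |∫ p, φ (F (blur b x p.1, p.2)) ∂((γs d σ).prod μ) - ∫ w, φ (val x + β • w) ∂γ d| ≤ ρ * wt x

/-- The value can be sampled with `q` queries. -/
def Smp (q : ℕ) (b L : σ → ℝ) (β ρ : ℝ) (val : (Pt d → ℝ) → Inp d σ → E d) : Prop :=
  ∃ (Ω : Type) (_ : MeasurableSpace Ω) (μ : Measure Ω), IsProbabilityMeasure μ ∧
    ∃ F : (Pt d → Resp d) → Inp d σ × Ω → E d, Uses q (Inp d σ × Ω) F ∧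
      ∀ V, Mem V → SmpProp b L β ρ (val V) μ (F (oracle V))

theorem integrable_lip {α : Type*} [MeasurableSpace α] {μ : Measure α} [IsFiniteMeasure μ]
    {X : α → E d} (hX : Integrable X μ) {φ : E d → ℝ} {K : ℝ≥0} (hφ : LipschitzWith K φ) :
    Integrable (fun a => φ (X a)) μ := by
  refine ((hX.norm.const_mul (K : ℝ)).add (integrable_const |φ 0|)).mono'
    (hφ.continuous.comp_aestronglyMeasurable hX.1) (ae_of_all _ fun a => ?_)
  have h := hφ.norm_sub_le (X a) 0
  rw [sub_zero] at h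
  calc ‖φ (X a)‖ ≤ ‖φ (X a) - φ 0‖ + ‖φ 0‖ := by simpa using norm_add_le (φ (X a) - φ 0) (φ 0)
    _ ≤ _ := by simp only [Pi.add_apply, norm_eq_abs] at h ⊢; linarith

theorem integrable_noise (v : E d) (β : ℝ) : Integrable (fun w => v + β • w) (γ d) :=
  (integrable_const v).add (IsGaussian.integrable_id.smul β)

theorem integrable_blur (b : σ → ℝ) (x : Inp d σ) (s : σ) :
    Integrable (fun ξ => blur b x ξ s) (γs d σ) :=
  (integrable_const _).add ((((measurePreserving_eval (fun _ => γ d) s).integrable_comp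
    aestronglyMeasurable_id).2 IsGaussian.integrable_id).smul (b s))

variable {b L : σ → ℝ} {β ρ : ℝ} {val : Inp d σ → E d} {Ω : Type} [MeasurableSpace Ω]
  {μ : Measure Ω} [IsProbabilityMeasure μ] {F : Inp d σ × Ω → E d}

theorem SmpProp.integrable_of (h : SmpProp b L β ρ val μ F) {α : Type*} [MeasurableSpace α]
    {ν : Measure α} [IsProbabilityMeasure ν] {Y : α → Inp d σ} (hY : Measurable Y)
    (hYi : ∀ s, Integrable (fun a => Y a s) ν) :
    Integrable (fun p : α × Ω => F (Y p.1, p.2)) (ν.prod μ) := by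
  have h1 : Integrable (fun p : α × Ω => ∑ s, L s * ‖Y p.1 s‖ + ‖F (0, p.2)‖) (ν.prod μ) :=
    Integrable.add ((integrable_finsetSum _ fun s _ => (hYi s).norm.const_mul _).comp_fst μ)
      ((h.int 0).norm.comp_snd ν)
  refine h1.mono' (h.meas.comp ((hY.comp measurable_fst).prodMk measurable_snd)).aestronglyMeasurable
    (ae_of_all _ fun p => ?_)
  have h2 := h.lip p.2 (Y p.1) 0
  simp only [Pi.zero_apply, sub_zero] at h2
  calc ‖F (Y p.1, p.2)‖ ≤ ‖F (Y p.1, p.2) - F (0, p.2)‖ + ‖F (0, p.2)‖ := by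
        simpa using norm_add_le (F (Y p.1, p.2) - F (0, p.2)) (F (0, p.2))
    _ ≤ _ := add_le_add h2 le_rfl

theorem SmpProp.integrable_run (h : SmpProp b L β ρ val μ F) (x : Inp d σ) :
    Integrable (fun p : Inp d σ × Ω => F (blur b x p.1, p.2)) ((γs d σ).prod μ) :=
  h.integrable_of (by fun_prop) fun s => integrable_blur b x s

/-- Tests with any Lipschitz constant. -/
theorem SmpProp.close_lip (h : SmpProp b L β ρ val μ F) (x : Inp d σ) {φ : E d → ℝ}
    {K : ℝ≥0} (hφ : LipschitzWith K φ) :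
    |∫ p, φ (F (blur b x p.1, p.2)) ∂((γs d σ).prod μ) - ∫ w, φ (val x + β • w) ∂γ d|
      ≤ K * (ρ * wt x) := by
  rcases eq_or_ne K 0 with rfl | hK
  · have e : ∀ v, φ v = φ 0 := fun v => by simpa [sub_eq_zero] using hφ.norm_sub_le v 0
    rw [show (fun p : Inp d σ × Ω => φ (F (blur b x p.1, p.2))) = fun _ => φ 0 from funext fun p => e _,
      show (fun w => φ (val x + β • w)) = fun _ => φ 0 from funext fun w => e _]
    simp
  · have hK0 : (0 : ℝ) < K := lt_of_le_of_ne K.coe_nonneg (by exact_mod_cast hK.symm)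
    have h1 : LipschitzWith 1 fun v => (K : ℝ)⁻¹ * φ v := LipschitzWith.of_dist_le_mul fun a c => by
      rw [NNReal.coe_one, one_mul, Real.dist_eq, ← mul_sub, abs_mul, abs_inv, abs_of_pos hK0,
        inv_mul_le_iff₀ hK0]
      exact hφ.dist_le_mul a c
    have h2 := h.close x _ h1
    rw [integral_const_mul, integral_const_mul, ← mul_sub, abs_mul, abs_inv, abs_of_pos hK0,
      inv_mul_le_iff₀ hK0] at h2
    exact h2

end

end Vale.Agent.P347.Zero
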