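import Vale.Agent.P347.Quarter.Target
import Vale.Agent.P347.Zero.Sample

/-!
# P347, exponent 0: the nodes

`Nv V v x` is the mean gradient under the posterior of variance `v` at `x`; a node is a Gaussian
smoothing `G (a ^ 2) (Nv V v)` of it.
-/

namespace Vale.Agent.P347.Zero

open MeasureTheory Real
open Vale.Agent.P347.Quarter (E γ)
open Vale.Agent.P347.Colour (Pt)

noncomputable section

variable {d : ℕ}

/-- The mean gradient under `exp (-V w - |w - x| ^ 2 / (2 v))`. -/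
def Nv (V : Pt d → ℝ) (v : ℝ) (x : E d) : E d :=
  ∫ w, Quarter.gOf (Colour.oracle V) w ∂Quarter.Tgt.back v V x

/-- A node: posterior variance `v`, extra smoothing radius `a`. -/
structure Nd where
  v : ℝ
  a : ℝ

namespace Nd

/-- The field of a node. -/
def val (nd : Nd) (V : Pt d → ℝ) (x : E d) : E d := Quarter.G (nd.a ^ 2) (Nv V nd.v) x

/-- The natural input scale of a node. -/
def scale (nd : Nd) : ℝ := if nd.a = 0 then √nd.v else nd.a

/-- Admissible nodes: `v ≤ h`, and `a` is zero or between `r √v` and `√v`. -/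
structure Ok (nd : Nd) (h r : ℝ) : Prop where
  v_pos : 0 < nd.v
  v_le : nd.v ≤ h
  a_le : nd.a ≤ √nd.v
  a_ge : nd.a = 0 ∨ (0 < nd.a ∧ r * √nd.v ≤ nd.a)

theorem Ok.scale_pos {nd : Nd} {h r : ℝ} (hn : nd.Ok h r) : 0 < nd.scale := by
  rcases hn.a_ge with h0 | h0
  · simp [scale, h0, hn.v_pos]
  · simp [scale, h0.1.ne', h0.1]

theorem Ok.scale_le {nd : Nd} {h r : ℝ} (hn : nd.Ok h r) : nd.scale ≤ √nd.v := by
  rcases hn.a_ge with h0 | h0
  · simp [scale, h0]
  · simp [scale, h0.1.ne', hn.a_le]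

theorem Ok.mono {nd : Nd} {h h' r r' : ℝ} (hn : nd.Ok h r) (hh : h ≤ h') (hr : r' ≤ r) :
    nd.Ok h' r' :=
  ⟨hn.v_pos, hn.v_le.trans hh, hn.a_le, hn.a_ge.imp_right fun h0 =>
    ⟨h0.1, (mul_le_mul_of_nonneg_right hr (Real.sqrt_nonneg _)).trans h0.2⟩⟩

end Nd

end

end Vale.Agent.P347.Zero
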