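import Vale.Agent.P347.Zero.CurGauss
import Vale.Agent.P347.Zero.CurAdj

/-!
# P347, exponent 0: the programme for the differential of a node
-/

namespace Vale.Agent.P347.Zero

open MeasureTheory Real Finset Set
open Vale.Agent.P347.Quarter (E γ)
open Vale.Agent.P347.Colour (Pt)

noncomputable section

/-- What is asked of a programme for the differential of the node `nd`. -/
def AdjProg (ε A α η s C : ℝ) (D d : ℕ) (nd : Nd) : Prop :=
  ∃ P : Prog (Option Unit),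
    (∀ o, P.lin o = 0) ∧ P.depth ≤ D ∧ (P.size : ℝ) ≤ C * (d : ℝ) ^ (s * η) ∧
    P.Grow d C ∧
    (∑ i, |P.coef i| * √(P.node i).v) ≤ C * (d : ℝ) ^ (s * η) ∧
    (∑ i, |P.coef i|) * nd.scale ≤ C * (d : ℝ) ^ (s * η) ∧
    (∀ e : ℝ, eAt ε η 0 d ≤ e → ∀ i,
      (P.node i).Ok ((d : ℝ) ^ (-ε)) ((d : ℝ) ^ (-(α + s) * η)) ∧
      nd.scale * (d : ℝ) ^ (-s * η) ≤ (P.node i).scale ∧
      (P.child i).Adm ((d : ℝ) ^ (-ε)) ((d : ℝ) ^ (-(α + s) * η)) e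
        (fun o => o.elim ((d : ℝ) ^ (-s * η)) fun _ => nd.scale * (d : ℝ) ^ (-s * η))
        (P.node i).scale ∧
      (P.child i).grs e none ≤ 2 * nd.scale ∧ (P.child i).grs e (some ()) ≤ 2) ∧
    ∀ V, Mem (d := d) V →
      (∀ y : Inp d (Option Unit), ‖P.val V y‖ ≤ C * (d : ℝ) ^ (s * η) * wt y) ∧
      ∀ x : E d,
        Integrable (fun z => ‖P.val V (inp2 z x) - fderiv ℝ (nd.val V) x z‖ ^ 2) (γ d) ∧
        ∫ z, ‖P.val V (inp2 z x) - fderiv ℝ (nd.val V) x z‖ ^ 2 ∂γ d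
          ≤ (C * (d : ℝ) ^ (-A) * (√d + ‖x‖)) ^ 2

variable {d m : ℕ}

/-- The elementary consequences of a large `d ^ η`. -/
theorem q_facts {x η : ℝ} (hx : 1 ≤ x) (hη : 0 < η) (h : 4 ≤ x ^ (η / 2)) :
    0 < x ^ (-η) ∧ x ^ (-η) ≤ 1 / 4 ∧ 2 * x ^ (-η) ≤ x ^ (-(η / 2)) := by
  have hx0 : 0 < x := zero_lt_one.trans_le hx
  have h1 : x ^ (-η) ≤ x ^ (-(η / 2)) / 4 := by
    rw [show -η = -(η / 2) + -(η / 2) by ring, rpow_add hx0, div_eq_mul_inv]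
    refine mul_le_mul_of_nonneg_left ?_ (rpow_nonneg hx0.le _)
    rw [rpow_neg hx0.le]
    exact inv_anti₀ (by norm_num) h
  have h2 := rpow_le_one_of_one_le_of_nonpos hx (show -(η / 2) ≤ 0 by linarith)
  have h3 := rpow_nonneg hx0.le (-(η / 2))
  exact ⟨rpow_pos_of_pos hx0 _, by linarith, by linarith⟩

theorem rate_adj {x η A : ℝ} (hx : 1 ≤ x) (hη : 0 < η) (h : 4 ≤ x ^ (η / 2)) :
    ((2 * x ^ (-η)) ^ (⌈2 * A / η⌉₊ + 1)) ^ 2 ≤ (x ^ (-A)) ^ 2 := by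
  have hx0 : 0 < x := zero_lt_one.trans_le hx
  obtain ⟨hq0, -, hqh⟩ := q_facts hx hη h
  refine pow_le_pow_left₀ (by positivity) ?_ 2
  refine (pow_le_pow_left₀ (by positivity) hqh _).trans ?_
  rw [← rpow_natCast, ← rpow_mul hx0.le]
  refine rpow_le_rpow_of_exponent_le hx ?_
  have h := Nat.le_ceil (2 * A / η)
  rw [div_le_iff₀ hη] at h
  push_cast
  nlinarith

theorem sq_dim_le (x : E d) : (d : ℝ) ≤ (√d + ‖x‖) ^ 2 := by
  nlinarith [Real.sq_sqrt (Nat.cast_nonneg (α := ℝ) d), Real.sqrt_nonneg (d : ℝ), norm_nonneg x]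

theorem adj_err {C C₀ Cc Cf r S D P n : ℝ} (hCc : 0 ≤ Cc) (hP : D * P ≤ r ^ 2 * S ^ 2)
    (hC : 8 * C₀ ^ 2 * n ^ 2 * Cf ^ 2 + 2 * Cc ≤ C ^ 2) :
    8 * C₀ ^ 2 * n ^ 2 * (Cf * r * S) ^ 2 + 2 * (Cc * D * P) ≤ (C * r * S) ^ 2 := by
  have h1 := mul_le_mul_of_nonneg_left hP hCc
  have h2 := mul_le_mul_of_nonneg_right hC (mul_nonneg (sq_nonneg r) (sq_nonneg S))
  nlinarith

/-- The error of the plain node: the rule, and the nodes at the Picard iterates. -/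
theorem plain_adj_l2 {V : Pt d → ℝ} (hV : Mem V) {v T c C₀ r B : ℝ} {K n : ℕ} {τ : Fin m → ℝ}
    {w : ℝ → Fin m → ℝ} (hd : CurData v T c τ w) (hC₀ : 0 ≤ C₀) (hT : 0 < T) (x : E d)
    {t co : Fin n → ℝ} (ht : ∀ j, t j ∈ Icc 0 T) (hco : ∑ j, |co j| ≤ C₀ / T)
    {Z : E d → ℝ → E d} {R : E d → ℝ}
    (hR : ∀ z, ‖(∑ j, co j • curF V v x (Z z) (t j)) - fderiv ℝ (Nv V v) x z‖ ≤ R z)
    (hRi : Integrable (fun z => R z ^ 2) (γ d)) (hRb : ∫ z, R z ^ 2 ∂γ d ≤ B)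
    (hi : ∀ j, Integrable (fun z => ‖(pcur v τ w K (t j)).val V (inp2 z x) - Z z (t j)‖ ^ 2) (γ d))
    (hb : ∀ j, ∫ z, ‖(pcur v τ w K (t j)).val V (inp2 z x) - Z z (t j)‖ ^ 2 ∂γ d ≤ r ^ 2) :
    Integrable (fun z => ‖(∑ j, co j • Nv V (v - t j ^ 2)
        (x + t j • (pcur v τ w K (t j)).val V (inp2 z x))) - fderiv ℝ (Nv V v) x z‖ ^ 2) (γ d) ∧
      ∫ z, ‖(∑ j, co j • Nv V (v - t j ^ 2)
        (x + t j • (pcur v τ w K (t j)).val V (inp2 z x))) - fderiv ℝ (Nv V v) x z‖ ^ 2 ∂γ d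
        ≤ 8 * C₀ ^ 2 * (n : ℝ) ^ 2 * r ^ 2 + 2 * B := by
  have hv : ∀ j, 0 < v - t j ^ 2 := fun j => by
    have := pow_le_pow_left₀ (ht j).1 (ht j).2 2
    linarith [hd.T_sq]
  set Δ := fun j z => ‖(pcur v τ w K (t j)).val V (inp2 z x) - Z z (t j)‖
  have hpt : ∀ z, ‖(∑ j, co j • Nv V (v - t j ^ 2)
      (x + t j • (pcur v τ w K (t j)).val V (inp2 z x))) - fderiv ℝ (Nv V v) x z‖
      ≤ 2 * C₀ * ∑ j, Δ j z + R z := by
    intro z
    refine (norm_sub_le_norm_sub_add_norm_sub _ (∑ j, co j • curF V v x (Z z) (t j)) _).trans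
      (add_le_add ?_ (hR z))
    rw [← sum_sub_distrib, mul_sum]
    refine (norm_sum_le _ _).trans (sum_le_sum fun j _ => ?_)
    rw [← smul_sub, norm_smul, Real.norm_eq_abs]
    refine (mul_le_mul_of_nonneg_left (Nv_lip hV (hv j) _ _) (abs_nonneg _)).trans ?_
    rw [add_sub_add_left_eq_sub, ← smul_sub, norm_smul, Real.norm_eq_abs,
      abs_of_nonneg (ht j).1]
    have h1 : |co j| * t j ≤ C₀ := by
      refine (mul_le_mul ((single_le_sum (fun i _ => abs_nonneg (co i)) (mem_univ j)).trans hco)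
        (ht j).2 (ht j).1 (by positivity)).trans (le_of_eq ?_)
      field_simp
    have := mul_le_mul_of_nonneg_right h1 (norm_nonneg
      ((pcur v τ w K (t j)).val V (inp2 z x) - Z z (t j)))
    simp only [Δ]
    linarith
  have hle : ∀ z, ‖(∑ j, co j • Nv V (v - t j ^ 2)
      (x + t j • (pcur v τ w K (t j)).val V (inp2 z x))) - fderiv ℝ (Nv V v) x z‖ ^ 2
      ≤ 8 * C₀ ^ 2 * (n : ℝ) * ∑ j, Δ j z ^ 2 + 2 * R z ^ 2 := by
    intro z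
    refine (pow_le_pow_left₀ (norm_nonneg _) (hpt z) 2).trans ?_
    refine (add_sq_le (a := 2 * C₀ * ∑ j, Δ j z) (b := R z)).trans ?_
    have h := sq_sum_le_card_mul_sum_sq (s := univ) (f := fun j => Δ j z)
    simp only [card_univ, Fintype.card_fin] at h
    rw [mul_pow, mul_pow, mul_add]
    have h2 := mul_le_mul_of_nonneg_left h (show 0 ≤ 8 * C₀ ^ 2 by positivity)
    linarith
  have hi1 : Integrable (fun z => ∑ j, Δ j z ^ 2) (γ d) := integrable_finsetSum _ fun j _ => hi j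
  have hI : Integrable (fun z => 8 * C₀ ^ 2 * (n : ℝ) * ∑ j, Δ j z ^ 2 + 2 * R z ^ 2) (γ d) :=
    (hi1.const_mul _).add (hRi.const_mul _)
  have hc : Continuous fun z => ‖(∑ j, co j • Nv V (v - t j ^ 2)
      (x + t j • (pcur v τ w K (t j)).val V (inp2 z x))) - fderiv ℝ (Nv V v) x z‖ ^ 2 := by
    refine ((continuous_finsetSum _ fun j _ => ?_).sub
      (ContinuousLinearMap.continuous _)).norm.pow 2
    exact ((Nv_continuous hV (hv j)).comp (continuous_const.add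
      ((pcur_continuous hV hd x K (t j)).const_smul (t j)))).const_smul (co j)
  have hI' := hI.mono' hc.aestronglyMeasurable (Filter.Eventually.of_forall fun z => by
    rw [Real.norm_of_nonneg (sq_nonneg _)]
    exact hle z)
  refine ⟨hI', (integral_mono hI' hI hle).trans ?_⟩
  rw [integral_add (hi1.const_mul _) (hRi.const_mul _), integral_const_mul, integral_const_mul,
    integral_finsetSum _ fun j _ => hi j]
  refine add_le_add ?_ (mul_le_mul_of_nonneg_left hRb zero_le_two)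
  refine (mul_le_mul_of_nonneg_left (sum_le_sum fun j _ => hb j) (by positivity)).trans (le_of_eq ?_)
  rw [sum_const, card_univ, Fintype.card_fin, nsmul_eq_mul]
  ring

/-- The value of the plain programme against the differential. -/
theorem plain_adj_prog {V : Pt d → ℝ} (hV : Mem V) {η A v T c C₀ Cc Cf C : ℝ} {K M : ℕ}
    {τ : Fin m → ℝ} {w : ℝ → Fin m → ℝ} (hη : 0 < η) (hd1 : (1 : ℝ) ≤ d)
    (hG : 4 ≤ (d : ℝ) ^ (η / 2)) (hM : M = ⌈2 * A / η⌉₊) (hC₀ : 0 ≤ C₀) (hCc : 0 ≤ Cc)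
    (hC : 8 * C₀ ^ 2 * (M + 2 : ℝ) ^ 2 * Cf ^ 2 + 2 * Cc ≤ C ^ 2) (hv : 0 < v) (hv1 : v ≤ 1)
    (hT : 0 < T) (hcd : CurData v T c τ w) {t co : Fin (M + 1 + 1) → ℝ}
    (ht : ∀ j, t j ∈ Icc 0 T) (hco : ∑ j, |co j| ≤ C₀ / T) (x : E d)
    (hTq : 2 * T / √v = 2 * (d : ℝ) ^ (-η))
    (hcurve : ∀ Z : E d → ℝ → E d, (∀ z, IsCur V v x T z (Z z)) →
      ∃ R : E d → ℝ,
        (∀ z, ‖(∑ j, co j • curF V v x (Z z) (t j)) - fderiv ℝ (Nv V v) x z‖ ≤ R z) ∧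
        Integrable (fun z => R z ^ 2) (γ d) ∧
        ∫ z, R z ^ 2 ∂γ d ≤ Cc * d * ((2 * T / √v) ^ (M + 1)) ^ 2)
    (hL2 : ∀ Z : E d → ℝ → E d, (∀ z, IsCur V v x T z (Z z)) → ∀ s ∈ Icc 0 T,
        Integrable (fun z => ‖(pcur v τ w K s).val V (inp2 z x) - Z z s‖ ^ 2) (γ d) ∧
        ∫ z, ‖(pcur v τ w K s).val V (inp2 z x) - Z z s‖ ^ 2 ∂γ d
          ≤ (Cf * (d : ℝ) ^ (-A) * (√d + ‖x‖)) ^ 2) :
    Integrable (fun z => ‖(Prog.mk (M + 1 + 1) (fun _ => 0) co (fun j => ⟨v - t j ^ 2, 0⟩)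
        fun j => shiftP (t j) (pcur v τ w K (t j))).val V (inp2 z x)
        - fderiv ℝ ((Nd.mk v 0).val V) x z‖ ^ 2) (γ d) ∧
      ∫ z, ‖(Prog.mk (M + 1 + 1) (fun _ => 0) co (fun j => ⟨v - t j ^ 2, 0⟩)
        fun j => shiftP (t j) (pcur v τ w K (t j))).val V (inp2 z x)
        - fderiv ℝ ((Nd.mk v 0).val V) x z‖ ^ 2 ∂γ d
        ≤ (C * (d : ℝ) ^ (-A) * (√d + ‖x‖)) ^ 2 := by
  obtain ⟨Z, -, hZ, -⟩ := exists_cur hV hv hv1 hT.le hcd.T_sq x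
  obtain ⟨R, hR, hRi, hRb⟩ := hcurve Z hZ
  have hval : ∀ z, (Prog.mk (M + 1 + 1) (fun _ => 0) co (fun j => ⟨v - t j ^ 2, 0⟩)
      fun j => shiftP (t j) (pcur v τ w K (t j))).val V (inp2 z x)
      = ∑ j, co j • Nv V (v - t j ^ 2) (x + t j • (pcur v τ w K (t j)).val V (inp2 z x)) := by
    intro z
    simp only [Prog.val, zero_smul, sum_const_zero, zero_add, shiftP_val, Nd.val_plain]
    rfl
  obtain ⟨h1, h2⟩ := plain_adj_l2 hV (r := Cf * (d : ℝ) ^ (-A) * (√d + ‖x‖)) hcd hC₀ hT x ht hco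
    hR hRi hRb (fun j => (hL2 Z hZ _ (ht j)).1) (fun j => (hL2 Z hZ _ (ht j)).2)
  rw [Nd.val_plain]
  simp only [hval]
  refine ⟨h1, h2.trans ?_⟩
  have hd0 : (0 : ℝ) ≤ d := Nat.cast_nonneg _
  have hB : (d : ℝ) * ((2 * (d : ℝ) ^ (-η)) ^ (M + 1)) ^ 2
      ≤ ((d : ℝ) ^ (-A)) ^ 2 * (√d + ‖x‖) ^ 2 := by
    rw [mul_comm]
    exact mul_le_mul (by rw [hM]; exact rate_adj hd1 hη hG) (sq_dim_le x) hd0 (sq_nonneg _)
  rw [hTq]
  exact adj_err hCc hB (by push_cast; linarith)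

/-- The plain node. -/
theorem node_adj_plain {ε η A α sf s C C₀ Cc Cf v c : ℝ} {K M : ℕ} {τ : Fin m → ℝ}
    {w : ℝ → Fin m → ℝ} (hη : 0 < η) (hα : 0 ≤ α) (hd1 : (1 : ℝ) ≤ d) (hh : (d : ℝ) ^ (-ε) ≤ 1 / 4)
    (hG : 4 ≤ (d : ℝ) ^ (η / 2)) (hM : M = ⌈2 * A / η⌉₊) (hs : 2 ≤ s) (hsK : sf ≤ s)
    (hC₀ : 0 ≤ C₀) (hCc : 0 ≤ Cc) (hCf : 1 ≤ Cf) (hv : 0 < v) (hvh : v ≤ (d : ℝ) ^ (-ε))
    (hC₁ : C₀ ≤ C) (hC₂ : 40 * C₀ ≤ C) (hC₃ : 2 * (M + 3 : ℝ) * Cf ≤ C) (hC₄ : 3 ≤ C)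
    (hC₅ : 8 * C₀ ^ 2 * (M + 2 : ℝ) ^ 2 * Cf ^ 2 + 2 * Cc ≤ C ^ 2)
    (hlw : ∀ T : ℝ, 0 < T → (∑ j, |lw' (eqNode (M + 1) 0 T) j 0|) ≤ C₀ / T)
    (hcurve : ∀ V : Pt d → ℝ, Mem V → ∀ (x : E d) (Z : E d → ℝ → E d),
      (∀ z, IsCur V v x (√v * (d : ℝ) ^ (-η)) z (Z z)) →
      ∃ R : E d → ℝ,
        (∀ z, ‖(∑ j, lw' (eqNode (M + 1) 0 (√v * (d : ℝ) ^ (-η))) j 0
            • curF V v x (Z z) (eqNode (M + 1) 0 (√v * (d : ℝ) ^ (-η)) j))
          - fderiv ℝ (Nv V v) x z‖ ≤ R z) ∧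
        Integrable (fun z => R z ^ 2) (γ d) ∧
        ∫ z, R z ^ 2 ∂γ d ≤ Cc * d * ((2 * (√v * (d : ℝ) ^ (-η)) / √v) ^ (M + 1)) ^ 2)
    (hcd : CurData v (√v * (d : ℝ) ^ (-η)) c τ w)
    (hsize : (((2 * m + 2) ^ K : ℕ) : ℝ) ≤ Cf * (d : ℝ) ^ (sf * η))
    (he : ∀ e : ℝ, eAt ε η 0 d ≤ e → 8 * c * (√v * (d : ℝ) ^ (-η)) * √v / e ≤ 1 ∧
      √v * (d : ℝ) ^ (-η) * (d : ℝ) ^ (-2 * η) + √v * (d : ℝ) ^ (-2 * η)
        + c * (√v * (d : ℝ) ^ (-η)) ^ 2 * √v / e ≤ √(v - (√v * (d : ℝ) ^ (-η)) ^ 2))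
    (hL2 : ∀ V, Mem (d := d) V → ∀ (x : E d) (Z : E d → ℝ → E d),
      (∀ z, IsCur V v x (√v * (d : ℝ) ^ (-η)) z (Z z)) →
      ∀ t ∈ Icc 0 (√v * (d : ℝ) ^ (-η)),
        Integrable (fun z => ‖(pcur v τ w K t).val V (inp2 z x) - Z z t‖ ^ 2) (γ d) ∧
        ∫ z, ‖(pcur v τ w K t).val V (inp2 z x) - Z z t‖ ^ 2 ∂γ d
          ≤ (Cf * (d : ℝ) ^ (-A) * (√d + ‖x‖)) ^ 2) :
    AdjProg ε A α η s C (K + 1) d ⟨v, 0⟩ := by
  have hd0 : (0 : ℝ) < d := zero_lt_one.trans_le hd1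
  obtain ⟨hq0, hq4, -⟩ := q_facts hd1 hη hG
  have hscale : (Nd.mk v 0).scale = √v := by simp [Nd.scale]
  have hsv : 0 < √v := Real.sqrt_pos.2 hv
  unfold AdjProg
  rw [hscale]
  set q := (d : ℝ) ^ (-η) with hq
  set T := √v * q with hT
  have hT0 : 0 < T := mul_pos hsv hq0
  have hTsv : T ≤ √v := mul_le_of_le_one_right hsv.le (by linarith)
  have hle : ∀ p p' : ℝ, p ≤ p' → (d : ℝ) ^ p ≤ (d : ℝ) ^ p' := fun p p' h =>
    rpow_le_rpow_of_exponent_le hd1 h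
  have hp : 1 ≤ (d : ℝ) ^ (s * η) := one_le_rpow hd1 (mul_nonneg (by linarith) hη.le)
  set t := eqNode (M + 1) 0 T
  set co := fun j => lw' t j 0
  have ht : ∀ j, t j ∈ Icc 0 T := fun j => eqNode_mem hT0.le j
  have hco : ∑ j, |co j| ≤ C₀ / T := hlw T hT0
  have hsv' : √v * ∑ j, |co j| ≤ C₀ * (d : ℝ) ^ (s * η) := by
    refine (mul_le_mul_of_nonneg_left hco hsv.le).trans ?_
    rw [hT, show √v * (C₀ / (√v * q)) = C₀ * q⁻¹ by field_simp, hq, rpow_neg hd0.le, inv_inv]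
    exact mul_le_mul_of_nonneg_left (hle _ _ (by nlinarith)) hC₀
  have hnode : ∀ j, (⟨v - t j ^ 2, 0⟩ : Nd).Ok ((d : ℝ) ^ (-ε)) 1 ∧ v - t j ^ 2 ≤ v ∧
      v - T ^ 2 ≤ v - t j ^ 2 := fun j => by
    have h1 : t j ^ 2 ≤ T ^ 2 := pow_le_pow_left₀ (ht j).1 (ht j).2 2
    exact ⟨⟨by dsimp only; linarith [hcd.T_sq], by dsimp only; nlinarith, Real.sqrt_nonneg _,
      Or.inl rfl⟩, by nlinarith, by linarith⟩
  refine ⟨Prog.mk (M + 1 + 1) (fun _ => 0) co (fun j => ⟨v - t j ^ 2, 0⟩)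
    fun j => shiftP (t j) (pcur v τ w K (t j)), fun _ => rfl, ?_, ?_, ?_, ?_, ?_, fun e hee j => ?_,
    fun V hV => ⟨fun y => ?_, fun x => ?_⟩⟩
  · simp only [Prog.depth]
    refine Finset.sup_le fun j _ => ?_
    rw [shiftP_depth]
    exact Nat.succ_le_succ (hcd.depth_le K _)
  · simp only [Prog.size, shiftP_size]
    push_cast
    refine le_trans (add_le_add le_rfl (sum_le_sum fun j _ => add_le_add le_rfl
      ((Nat.cast_le.2 (hcd.size_le K _)).trans hsize))) ?_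
    simp only [sum_const, card_univ, Fintype.card_fin, nsmul_eq_mul]
    push_cast
    have h1 : Cf * (d : ℝ) ^ (sf * η) ≤ Cf * (d : ℝ) ^ (s * η) := mul_le_mul_of_nonneg_left
      (hle _ _ (mul_le_mul_of_nonneg_right hsK hη.le)) (zero_le_one.trans hCf)
    have h2 : 1 ≤ Cf * (d : ℝ) ^ (s * η) := one_le_mul_of_one_le_of_one_le hCf hp
    have h3 := mul_le_mul_of_nonneg_right hC₃ (zero_le_one.trans hp)
    linarith [mul_le_mul_of_nonneg_left h1 (show (0 : ℝ) ≤ M + 2 by positivity),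
      mul_le_mul_of_nonneg_left h2 (show (0 : ℝ) ≤ M + 3 by positivity)]
  · exact fun j => ⟨fun V hV y => (hcd.val_le hV K (ht j) y).2.trans
      (mul_le_mul_of_nonneg_right hC₄ (wt_nonneg y)),
      (shiftP_grow d C _ _).2 (hcd.grow d hC₄ K _)⟩
  · refine le_trans ?_ (hsv'.trans (mul_le_mul_of_nonneg_right hC₁ (zero_le_one.trans hp)))
    rw [mul_sum]
    exact sum_le_sum fun j _ => (mul_le_mul_of_nonneg_left
      (Real.sqrt_le_sqrt (hnode j).2.1) (abs_nonneg _)).trans (le_of_eq (mul_comm _ _))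
  · rw [mul_comm]
    exact hsv'.trans (mul_le_mul_of_nonneg_right hC₁ (zero_le_one.trans hp))
  · have he0 : 0 < e := (rpow_pos_of_pos hd0 _).trans_le hee
    have hb : (d : ℝ) ^ (-s * η) ≤ (d : ℝ) ^ (-2 * η) := hle _ _ (by nlinarith)
    have hr : (d : ℝ) ^ (-(α + s) * η) ≤ 1 :=
      rpow_le_one_of_one_le_of_nonpos hd1 (by nlinarith)
    have hsmall : T * (d : ℝ) ^ (-s * η) + √v * (d : ℝ) ^ (-s * η) + c * T ^ 2 * √v / e
        ≤ √(v - T ^ 2) := le_trans (by gcongr) (he e hee).2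
    have hns : √(v - T ^ 2) ≤ ((⟨v - t j ^ 2, 0⟩ : Nd)).scale := by
      simp only [Nd.scale, if_true]
      exact Real.sqrt_le_sqrt (hnode j).2.2
    obtain ⟨g1, g2⟩ := hcd.shiftP_grs_le he0 (he e hee).1 K (ht j)
    refine ⟨(hnode j).1.mono le_rfl hr, ?_, ?_, g1.trans (by linarith), g2⟩
    · refine le_trans ?_ (hsmall.trans hns)
      have : 0 ≤ T * (d : ℝ) ^ (-s * η) + c * T ^ 2 * √v / e := by
        have := zero_le_one.trans hcd.c_one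
        positivity
      linarith
    · exact (hcd.shift_adm hvh he0 (rpow_nonneg hd0.le _) hsmall K (ht j) (ht j).1 (ht j).2
        (hsmall.trans hns)).mono_blur (fun _ => le_rfl) le_rfl hr
  · have hc0 : ∑ j, co j = 0 := by
      simpa using sum_lw'_pow (eqNode_injective hT0 (M := M + 1)) (Nat.zero_le _) 0 (0 : ℝ)
    refine (val_zero_sum_le hV hh hc0 (fun j => ⟨(hnode j).1, (hnode j).2.1⟩) y
      (fun j => (hcd.val_le hV K (ht j) y).2) fun j => ?_).trans ?_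
    · rw [shiftP_val, add_sub_cancel_left, norm_smul, Real.norm_eq_abs, abs_of_nonneg (ht j).1]
      refine (mul_le_mul ((ht j).2.trans hTsv) (hcd.val_le hV K (ht j) y).1 (norm_nonneg _)
        hsv.le).trans (le_of_eq (by ring))
    · refine mul_le_mul_of_nonneg_right ?_ (wt_nonneg y)
      calc 40 * (√v * ∑ j, |co j|) ≤ 40 * (C₀ * (d : ℝ) ^ (s * η)) := by linarith
        _ ≤ C * (d : ℝ) ^ (s * η) := by
          rw [← mul_assoc]; exact mul_le_mul_of_nonneg_right hC₂ (zero_le_one.trans hp)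
  · exact plain_adj_prog hV hη hd1 hG hM hC₀ hCc hC₅ hv (by linarith) hT0 hcd ht hco x
      (by simp only [hT, hq]; field_simp) (fun Z hZ => hcurve V hV x Z hZ) (hL2 V hV x)

/-- The smoothed node. -/
theorem node_adj_smooth {ε η A α s C C₀ Cg v a : ℝ} {K M : ℕ} (hη : 0 < η)
    (hd1 : (1 : ℝ) ≤ d) (hh : (d : ℝ) ^ (-ε) ≤ 1 / 4) (hG : 4 ≤ (d : ℝ) ^ (η / 2))
    (hM : M = ⌈2 * A / η⌉₊) (hs : 2 ≤ s) (hsα : α + 1 ≤ s) (hC₀ : 0 ≤ C₀)
    (hv : 0 < v) (hvh : v ≤ (d : ℝ) ^ (-ε)) (ha : 0 < a) (hav : a ≤ √v)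
    (har : (d : ℝ) ^ (-α * η) * √v ≤ a)
    (hC₁ : C₀ ≤ C) (hC₂ : 40 * C₀ ≤ C) (hC₃ : 2 * (M + 3 : ℝ) ≤ C)
    (hC₅ : Cg ≤ C ^ 2)
    (hlw : ∀ T : ℝ, 0 < T → (∑ j, |lw' (eqNode (M + 1) 0 T) j 0|) ≤ C₀ / T)
    (hgauss : ∀ V : Pt d → ℝ, Mem V → ∀ T : ℝ, 0 < T → 2 * T ≤ a → ∀ x : E d,
      Integrable (fun z => ‖(∑ j, lw' (eqNode (M + 1) 0 T) j 0 •
          Quarter.G (a ^ 2 - eqNode (M + 1) 0 T j ^ 2) (Nv V v) (x + eqNode (M + 1) 0 T j • z))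
        - fderiv ℝ (Quarter.G (a ^ 2) (Nv V v)) x z‖ ^ 2) (γ d) ∧
      ∫ z, ‖(∑ j, lw' (eqNode (M + 1) 0 T) j 0 •
          Quarter.G (a ^ 2 - eqNode (M + 1) 0 T j ^ 2) (Nv V v) (x + eqNode (M + 1) 0 T j • z))
        - fderiv ℝ (Quarter.G (a ^ 2) (Nv V v)) x z‖ ^ 2 ∂γ d
        ≤ Cg * d * ((2 * T / a) ^ (M + 1)) ^ 2) :
    AdjProg ε A α η s C (K + 1) d ⟨v, a⟩ := by
  have hd0 : (0 : ℝ) < d := zero_lt_one.trans_le hd1
  obtain ⟨hq0, hq4, -⟩ := q_facts hd1 hη hG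
  have hscale : (Nd.mk v a).scale = a := by simp [Nd.scale, ha.ne']
  unfold AdjProg
  rw [hscale]
  set q := (d : ℝ) ^ (-η) with hq
  set T := a * q with hT
  have hT0 : 0 < T := mul_pos ha hq0
  have hle : ∀ p p' : ℝ, p ≤ p' → (d : ℝ) ^ p ≤ (d : ℝ) ^ p' := fun p p' h =>
    rpow_le_rpow_of_exponent_le hd1 h
  have hp : 1 ≤ (d : ℝ) ^ (s * η) := one_le_rpow hd1 (mul_nonneg (by linarith) hη.le)
  have h2T : 2 * T ≤ a := by
    rw [hT]
    linarith [mul_le_mul_of_nonneg_left hq4 ha.le]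
  have hT1 : T ≤ 1 := by
    have h1 : √v ≤ 1 := Real.sqrt_le_one.2 (by linarith)
    linarith
  set t := eqNode (M + 1) 0 T
  set co := fun j => lw' t j 0
  have ht : ∀ j, t j ∈ Icc 0 T := fun j => eqNode_mem hT0.le j
  have hco : ∑ j, |co j| ≤ C₀ / T := hlw T hT0
  have hca : (∑ j, |co j|) * a ≤ C₀ * (d : ℝ) ^ η := by
    refine (mul_le_mul_of_nonneg_right hco ha.le).trans (le_of_eq ?_)
    rw [hT, show C₀ / (a * q) * a = C₀ * q⁻¹ by field_simp, hq, rpow_neg hd0.le, inv_inv]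
  have hcv : √v * ∑ j, |co j| ≤ C₀ * (d : ℝ) ^ (s * η) := by
    refine (mul_le_mul_of_nonneg_right (?_ : √v ≤ (d : ℝ) ^ (α * η) * a)
      (sum_nonneg fun j _ => abs_nonneg _)).trans ?_
    · rw [← div_le_iff₀' (rpow_pos_of_pos hd0 _), div_eq_inv_mul, ← rpow_neg hd0.le,
        show -(α * η) = -α * η by ring]
      exact har
    · rw [mul_assoc, mul_comm a]
      refine (mul_le_mul_of_nonneg_left hca (rpow_nonneg hd0.le _)).trans ?_
      rw [mul_left_comm, ← rpow_add hd0]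
      exact mul_le_mul_of_nonneg_left (hle _ _ (by nlinarith)) hC₀
  have hnode : ∀ j, a * q ≤ √(a ^ 2 - t j ^ 2) ∧ √(a ^ 2 - t j ^ 2) ≤ a := fun j => by
    refine ⟨Real.le_sqrt_of_sq_le ?_, Real.sqrt_le_iff.2 ⟨ha.le, by nlinarith [(ht j).1]⟩⟩
    have h1 : t j ^ 2 ≤ (a * q) ^ 2 := pow_le_pow_left₀ (ht j).1 (ht j).2 2
    nlinarith [mul_le_mul h2T h2T (by positivity) ha.le]
  have hok : ∀ j, (⟨v, √(a ^ 2 - t j ^ 2)⟩ : Nd).Ok ((d : ℝ) ^ (-ε))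
      ((d : ℝ) ^ (-(α + s) * η)) := fun j => by
    refine ⟨hv, hvh, (hnode j).2.trans hav, Or.inr ⟨hT0.trans_le (hnode j).1, ?_⟩⟩
    refine le_trans ?_ (hnode j).1
    refine (mul_le_mul_of_nonneg_right (hle _ (-α * η + -η) (by nlinarith))
      (Real.sqrt_nonneg _)).trans ?_
    rw [rpow_add hd0, mul_comm _ q, mul_assoc, mul_comm a q]
    exact mul_le_mul_of_nonneg_left har hq0.le
  have hwt : ∀ (y : Inp d (Option Unit)) (j : Fin (M + 1 + 1)),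
      ‖t j • y none + y (some ())‖ ≤ wt y ∧ ‖t j • y none‖ ≤ T * wt y := fun y j => by
    have h1 := (ht j).1
    have h2 := (ht j).2
    rw [wt_opt]
    have h3 : ‖t j • y none‖ = t j * ‖y none‖ := by
      rw [norm_smul, Real.norm_eq_abs, abs_of_nonneg h1]
    refine ⟨(norm_add_le _ _).trans ?_, ?_⟩ <;> rw [h3]
    · linarith [Real.sqrt_nonneg (d : ℝ),
        mul_le_of_le_one_left (norm_nonneg (y none)) (h2.trans hT1)]
    · refine mul_le_mul h2 ?_ (norm_nonneg _) hT0.le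
      linarith [Real.sqrt_nonneg (d : ℝ), norm_nonneg (y (some ()))]
  set ch : Fin (M + 1 + 1) → Prog (Option Unit) :=
    fun j => Prog.mk 0 (fun o => o.elim (t j) fun _ => 1) Fin.elim0 Fin.elim0 Fin.elim0 with hch'
  have hch : ∀ (V : Pt d → ℝ) (y : Inp d (Option Unit)) (j : Fin (M + 1 + 1)),
      (ch j).val V y = t j • y none + y (some ()) := fun V y j => by
    simp [hch', Prog.val]
  refine ⟨Prog.mk (M + 1 + 1) (fun _ => 0) co (fun j => ⟨v, √(a ^ 2 - t j ^ 2)⟩) ch,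
    fun _ => rfl, ?_, ?_, ?_, ?_, ?_, fun e _ j => ?_, fun V hV => ⟨fun y => ?_, fun x => ?_⟩⟩
  · simp only [Prog.depth]
    exact Finset.sup_le fun j _ => by simp [hch', Prog.depth]
  · simp only [Prog.size, hch', Finset.univ_eq_empty, Finset.sum_empty, add_zero, sum_const,
      card_univ, Fintype.card_fin, smul_eq_mul]
    push_cast
    have h3 := mul_le_mul hC₃ hp zero_le_one (by linarith)
    linarith [(Nat.cast_nonneg M : (0 : ℝ) ≤ M)]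
  · exact fun j => ⟨fun V hV y => by
      rw [hch V y j]
      exact (hwt y j).1.trans (le_mul_of_one_le_left (wt_nonneg y) (by linarith)),
      fun i => i.elim0⟩
  · refine le_trans (le_of_eq ?_) (hcv.trans
      (mul_le_mul_of_nonneg_right hC₁ (zero_le_one.trans hp)))
    rw [mul_sum]
    exact sum_congr rfl fun j _ => mul_comm _ _
  · exact (hca.trans (mul_le_mul_of_nonneg_left (hle _ _ (by nlinarith)) hC₀)).trans
      (mul_le_mul_of_nonneg_right hC₁ (zero_le_one.trans hp))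
  · have hsc : ((⟨v, √(a ^ 2 - t j ^ 2)⟩ : Nd)).scale = √(a ^ 2 - t j ^ 2) := by
      simp [Nd.scale, (hT0.trans_le (hnode j).1).ne']
    have hps : (d : ℝ) ^ (-s * η) ≤ q * q := by
      rw [hq, ← rpow_add hd0]
      exact hle _ _ (by nlinarith)
    have hps0 := rpow_nonneg hd0.le (-s * η)
    have hsq : a * (d : ℝ) ^ (-s * η) ≤ a * q / 4 := by
      rw [← mul_div_assoc']
      exact mul_le_mul_of_nonneg_left (hps.trans
        ((mul_le_mul_of_nonneg_left hq4 hq0.le).trans (le_of_eq (by ring)))) ha.le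
    have haq : 0 ≤ a * q := mul_nonneg ha.le hq0.le
    refine ⟨hok j, ?_, ⟨?_, fun i => i.elim0⟩, ?_, ?_⟩
    · show _ ≤ ((⟨v, √(a ^ 2 - t j ^ 2)⟩ : Nd)).scale
      rw [hsc]
      linarith [(hnode j).1]
    · show _ ≤ ((⟨v, √(a ^ 2 - t j ^ 2)⟩ : Nd)).scale
      rw [hsc]
      simp only [sum_opt, Option.elim, abs_of_nonneg (ht j).1, abs_one, one_mul,
        Finset.univ_eq_empty, Finset.sum_empty, zero_div, add_zero]
      linarith [(hnode j).1,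
        mul_le_mul_of_nonneg_right ((ht j).2.trans (by linarith : T ≤ a)) hps0]
    · show |t j| + _ ≤ 2 * a
      simp [abs_of_nonneg (ht j).1]
      linarith [(ht j).2]
    · show |(1 : ℝ)| + _ ≤ 2
      simp
  · have hc0 : ∑ j, co j = 0 := by
      simpa using sum_lw'_pow (eqNode_injective hT0 (M := M + 1)) (Nat.zero_le _) 0 (0 : ℝ)
    refine (val_zero_sum_le hV hh hc0 (fun j => ⟨hok j, le_rfl⟩) y
      (fun j => ?_) fun j => ?_).trans ?_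
    · rw [hch V y j]
      exact (hwt y j).1.trans (by linarith [wt_nonneg y])
    · rw [hch V y j, add_sub_cancel_right]
      refine (hwt y j).2.trans (mul_le_mul_of_nonneg_right ?_ (wt_nonneg y))
      linarith [Real.sqrt_nonneg v]
    · refine mul_le_mul_of_nonneg_right ?_ (wt_nonneg y)
      calc 40 * (√v * ∑ j, |co j|) ≤ 40 * (C₀ * (d : ℝ) ^ (s * η)) := by linarith
        _ ≤ C * (d : ℝ) ^ (s * η) := by
          rw [← mul_assoc]; exact mul_le_mul_of_nonneg_right hC₂ (zero_le_one.trans hp)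
  · obtain ⟨h1, h2⟩ := hgauss V hV T hT0 h2T x
    have hval : ∀ z, (Prog.mk (M + 1 + 1) (fun _ => 0) co
        (fun j => ⟨v, √(a ^ 2 - t j ^ 2)⟩) ch).val V (inp2 z x) = ∑ j, lw' t j 0 •
        Quarter.G (a ^ 2 - t j ^ 2) (Nv V v) (x + t j • z) := by
      intro z
      simp only [Prog.val, zero_smul, sum_const_zero, zero_add, Nd.val]
      refine sum_congr rfl fun j _ => ?_
      have hj : 0 ≤ a ^ 2 - t j ^ 2 := by
        have := pow_le_pow_left₀ (ht j).1 ((ht j).2.trans (by linarith : T ≤ a)) 2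
        linarith
      rw [hch V _ j, Real.sq_sqrt hj, add_comm x]
      rfl
    simp only [hval]
    refine ⟨h1, h2.trans ?_⟩
    have hB : (d : ℝ) * ((2 * q) ^ (M + 1)) ^ 2 ≤ ((d : ℝ) ^ (-A)) ^ 2 * (√d + ‖x‖) ^ 2 := by
      rw [mul_comm]
      exact mul_le_mul (by rw [hM, hq]; exact rate_adj hd1 hη hG) (sq_dim_le x) hd0.le (sq_nonneg _)
    rw [show 2 * T / a = 2 * q by rw [hT]; field_simp]
    rw [mul_pow (C * (d : ℝ) ^ (-A)), mul_pow C, mul_assoc Cg, mul_assoc (C ^ 2)]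
    exact mul_le_mul hC₅ hB (by positivity) (sq_nonneg _)

end

end Vale.Agent.P347.Zero
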