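import Vale.Agent.P347.Zero.GaussSmooth
import Vale.Agent.P347.Zero.Cre

/-!
# P347, exponent 0: the smoothing curve

`t ↦ G (a - t ^ 2) M (x + t z)`: its `n`-th derivative is an `n`-fold creation of the `n`-th
derivative of the smoothed field, hence it is small in `L²` of the Gaussian `z`.
-/

namespace Vale.Agent.P347.Zero

open MeasureTheory ProbabilityTheory Real Finset Filter Topology
open scoped RealInnerProductSpace ContDiff
open Vale.Agent.P347.Quarter (E γ)

noncomputable section

variable {d : ℕ} {a b t L : ℝ}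

/-- Iterated coordinate derivatives. -/
def dc (l : List (Fin d)) (f : E d → ℝ) : E d → ℝ := dl (l.map unitV) f

theorem dc_cons (j : Fin d) (l : List (Fin d)) (f : E d → ℝ) :
    dc (j :: l) f = dv (unitV j) (dc l f) := rfl

/-- The `n`-fold creation over the iterated derivatives along the curve. -/
def crv (a : ℝ) (f : E d → ℝ) (x : E d) : ℕ → List (Fin d) → ℝ → E d → ℝ
  | 0, l, t, z => dc l (Quarter.G (a - t ^ 2) f) (x + t • z)
  | n + 1, l, t, z => ∑ j, (z j * crv a f x n (j :: l) t z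
      - fderiv ℝ (crv a f x n (j :: l) t) z (unitV j))

variable {f : E d → ℝ} {x : E d}

theorem crv_zero (l : List (Fin d)) (t : ℝ) :
    crv a f x 0 l t = fun z => dc l (Quarter.G (a - t ^ 2) f) (x + t • z) := rfl

theorem contDiff_crv (hs : ContDiff ℝ ∞ (Quarter.G (a - t ^ 2) f)) :
    ∀ (n : ℕ) (l : List (Fin d)), ContDiff ℝ ∞ (crv a f x n l t)
  | 0, l => (contDiff_dl hs _).comp (contDiff_const.add (contDiff_id.const_smul t))
  | n + 1, l => by
    show ContDiff ℝ ∞ fun z => ∑ j, (z j * crv a f x n (j :: l) t z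
      - fderiv ℝ (crv a f x n (j :: l) t) z (unitV j))
    exact ContDiff.sum fun j _ =>
      ((EuclideanSpace.proj j : E d →L[ℝ] ℝ).contDiff.mul (contDiff_crv hs n (j :: l))).sub
        (((contDiff_crv hs n (j :: l)).fderiv_right (by simp)).clm_apply contDiff_const)

theorem crv_perm (hs : ContDiff ℝ ∞ (Quarter.G (a - t ^ 2) f)) :
    ∀ (n : ℕ) {l l' : List (Fin d)}, l.Perm l' → crv a f x n l t = crv a f x n l' t
  | 0, l, l', h => by
    funext z
    show dc l _ _ = dc l' _ _
    rw [dc, dc, dl_perm hs (h.map _)]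
  | n + 1, l, l', h => by
    funext z
    show ∑ j, _ = ∑ j, _
    refine sum_congr rfl fun j _ => ?_
    rw [crv_perm hs n (h.cons j)]

theorem crv_succ (n : ℕ) (l : List (Fin d)) (t : ℝ) (z : E d) :
    crv a f x (n + 1) l t z = ∑ j, (z j * crv a f x n (j :: l) t z
      - fderiv ℝ (crv a f x n (j :: l) t) z (unitV j)) := rfl

/-- The gradient passes through the creations. -/
theorem pd_crv (hs : ContDiff ℝ ∞ (Quarter.G (a - t ^ 2) f)) :
    ∀ (n : ℕ) (l : List (Fin d)) (i : Fin d) (z : E d),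
      fderiv ℝ (crv a f x n l t) z (unitV i)
        = t * crv a f x n (i :: l) t z + n * crv a f x (n - 1) (i :: l) t z
  | 0, l, i, z => by
    have h := (((contDiff_dl hs (l.map unitV)).differentiable (by simp) (x + t • z)).hasFDerivAt.comp z
      (((hasFDerivAt_id z).const_smul t).const_add x))
    rw [crv_zero, show fderiv ℝ (fun z => dc l (Quarter.G (a - t ^ 2) f) (x + t • z)) z = _
      from h.fderiv]
    simp [crv_zero, dc, dl_cons, dv]
  | n + 1, l, i, z => by
    have hd : ∀ m l', Differentiable ℝ (crv a f x m l' t) := fun m l' =>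
      (contDiff_crv hs m l').differentiable (by simp)
    have hd' : ∀ j, Differentiable ℝ fun w => fderiv ℝ (crv a f x n (j :: l) t) w (unitV j) :=
      fun j => (((contDiff_crv hs n (j :: l)).fderiv_right (m := ∞) (by simp)).clm_apply
        contDiff_const).differentiable (by simp)
    have h1 : HasFDerivAt (crv a f x (n + 1) l t)
        (∑ j, (z j • fderiv ℝ (crv a f x n (j :: l) t) z
          + crv a f x n (j :: l) t z • (EuclideanSpace.proj j : E d →L[ℝ] ℝ)
          - fderiv ℝ (fun w => fderiv ℝ (crv a f x n (j :: l) t) w (unitV j)) z)) z :=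
      HasFDerivAt.fun_sum fun j _ =>
        ((EuclideanSpace.proj j : E d →L[ℝ] ℝ).hasFDerivAt.mul (hd n _ z).hasFDerivAt).sub
          (hd' j z).hasFDerivAt
    have h2 : ∀ j, fderiv ℝ (fun w => fderiv ℝ (crv a f x n (j :: l) t) w (unitV j)) z (unitV i)
        = fderiv ℝ (fun w => fderiv ℝ (crv a f x n (j :: l) t) w (unitV i)) z (unitV j) :=
      fun j => congrFun (dv_comm (contDiff_crv hs n (j :: l)) (unitV i) (unitV j)) z
    have h3 : ∀ j, (fun w => fderiv ℝ (crv a f x n (j :: l) t) w (unitV i))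
        = fun w => t * crv a f x n (j :: i :: l) t w
          + n * crv a f x (n - 1) (j :: i :: l) t w := fun j => funext fun w => by
      rw [pd_crv hs n _ i w, crv_perm hs n (List.Perm.swap j i l),
        crv_perm hs (n - 1) (List.Perm.swap j i l)]
    have h4 : ∀ j, fderiv ℝ (fun w => fderiv ℝ (crv a f x n (j :: l) t) w (unitV j)) z (unitV i)
        = t * fderiv ℝ (crv a f x n (j :: i :: l) t) z (unitV j)
          + n * fderiv ℝ (crv a f x (n - 1) (j :: i :: l) t) z (unitV j) := fun j => by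
      rw [h2, h3, (((hd n _ z).hasFDerivAt.const_mul t).fun_add
        ((hd (n - 1) _ z).hasFDerivAt.const_mul (n : ℝ))).fderiv]
      simp
    have h5 : (∑ j, crv a f x n (j :: l) t z * (unitV i : E d) j) = crv a f x n (i :: l) t z := by
      rw [Finset.sum_eq_single i]
      · simp [unitV]
      · intro j _ hj; simp [unitV, hj]
      · simp
    rw [h1.fderiv]
    have h8 : ∀ j, fderiv ℝ (crv a f x n (j :: l) t) z (unitV i)
        = t * crv a f x n (j :: i :: l) t z + n * crv a f x (n - 1) (j :: i :: l) t z := fun j =>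
      congrFun (h3 j) z
    simp only [_root_.sum_apply, sub_apply, add_apply, smul_apply, smul_eq_mul, PiLp.proj_apply, h4,
      h8]
    rw [sum_sub_distrib, sum_add_distrib, h5, Nat.add_sub_cancel, crv_succ]
    have h6 : (n : ℝ) * ∑ j, (z j * crv a f x (n - 1) (j :: i :: l) t z
        - fderiv ℝ (crv a f x (n - 1) (j :: i :: l) t) z (unitV j))
        = n * crv a f x n (i :: l) t z := by
      rcases n with _ | m
      · simp
      · rw [Nat.add_sub_cancel, crv_succ]
    simp only [mul_sum, mul_sub, sum_sub_distrib, sum_add_distrib, mul_add] at h6 ⊢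
    simp only [mul_left_comm (z _)] at h6 ⊢
    push_cast
    linarith

/-- The recursion in closed form. -/
theorem crv_rec (hs : ContDiff ℝ ∞ (Quarter.G (a - t ^ 2) f)) (n : ℕ) (l : List (Fin d)) (z : E d) :
    crv a f x (n + 1) l t z = ∑ j, z j * crv a f x n (j :: l) t z
      - t * ∑ j, crv a f x n (j :: j :: l) t z
      - n * ∑ j, crv a f x (n - 1) (j :: j :: l) t z := by
  rw [crv_succ]
  simp only [pd_crv hs, sum_sub_distrib, sum_add_distrib, mul_sum]
  ring

/-- The heat equation along the curve, for a field with bounded derivatives. -/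
theorem hasDerivAt_smooth_curve {g : E d → ℝ} (hg : Sm g) {c t₀ : ℝ} (hc : t₀ ^ 2 < c) (z : E d) :
    HasDerivAt (fun t => Quarter.G (c - t ^ 2) g (x + t • z))
      (∑ j, z j * Quarter.G (c - t₀ ^ 2) (dv (unitV j) g) (x + t₀ • z)
        - t₀ * ∑ j, Quarter.G (c - t₀ ^ 2) (dv (unitV j) (dv (unitV j) g)) (x + t₀ • z)) t₀ := by
  obtain ⟨L, hL⟩ := hg.lip
  have hL0 : 0 ≤ L := (norm_nonneg _).trans (hL 0)
  set σ : ℝ → ℝ := fun t => √(c - t ^ 2)
  have hσ : ∀ t : ℝ, t ^ 2 < c → HasDerivAt σ (-t / σ t) t := fun t ht => by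
    have h1 : HasDerivAt (fun t : ℝ => c - t ^ 2) (-(2 * t)) t := by
      simpa using (hasDerivAt_pow 2 t).const_sub c
    refine (h1.sqrt (by linarith)).congr_deriv ?_
    simp only [σ]; field_simp
  obtain ⟨δ, hδ, hsub⟩ := Metric.isOpen_iff.1 (isOpen_lt (continuous_pow 2) continuous_const) t₀
    (show t₀ ^ 2 < (t₀ ^ 2 + c) / 2 by linarith)
  set m : ℝ := √((c - t₀ ^ 2) / 2)
  have hm : 0 < m := sqrt_pos.2 (by linarith)
  set K : ℝ := (√c + 1) / m
  have hbd : ∀ t ∈ Metric.ball t₀ δ, |-t / σ t| ≤ K := fun t ht => by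
    have h1 : t ^ 2 < (t₀ ^ 2 + c) / 2 := hsub ht
    have h2 : m ≤ σ t := sqrt_le_sqrt (by linarith)
    rw [abs_div, abs_neg, abs_of_pos (hm.trans_le h2)]
    refine div_le_div₀ (by positivity) ?_ hm h2
    have : |t| ≤ √c := abs_le_sqrt (by linarith)
    linarith
  set F : ℝ → E d → ℝ := fun t w => g (x + t • z + σ t • w)
  set F' : ℝ → E d → ℝ := fun t w => fderiv ℝ g (x + t • z + σ t • w) (z + (-t / σ t) • w)
  have hgc : Continuous (fderiv ℝ g) := hg.contDiff_one.continuous_fderiv one_ne_zero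
  have hF' : Continuous (F' t₀) := (hgc.comp (by fun_prop)).clm_apply (by fun_prop)
  have key := hasDerivAt_integral_of_dominated_loc_of_deriv_le (μ := γ d) (F := F) (F' := F')
    (x₀ := t₀) (bound := fun w => L * (‖z‖ + K * ‖w‖)) (Metric.ball_mem_nhds t₀ hδ)
    (Eventually.of_forall fun t => (hg.1.continuous.comp (by fun_prop)).aestronglyMeasurable)
    (integrable_shift_lip hg.contDiff_one hL (σ t₀) (x + t₀ • z)) hF'.aestronglyMeasurable
    (ae_of_all _ fun w t ht => ((fderiv ℝ g _).le_opNorm _).trans (mul_le_mul (hL _)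
      ((norm_add_le _ _).trans (add_le_add le_rfl (by
        rw [norm_smul, norm_eq_abs]
        exact mul_le_mul_of_nonneg_right (hbd t ht) (norm_nonneg _)))) (norm_nonneg _) hL0))
    (((integrable_const _).add (Quarter.γ_norm_integrable.const_mul K)).const_mul L)
    (ae_of_all _ fun w t ht => by
      have ht' : t ^ 2 < c := by
        have : t ^ 2 < (t₀ ^ 2 + c) / 2 := hsub ht
        linarith
      have h1 : HasDerivAt (fun t => x + t • z + σ t • w) (z + (-t / σ t) • w) t := by
        simpa using (((hasDerivAt_id t).smul_const z).const_add x).fun_add ((hσ t ht').smul_const w)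
      exact (hg.contDiff_one.differentiable one_ne_zero _).hasFDerivAt.comp_hasDerivAt t h1)
  refine key.2.congr_deriv ?_
  set s := σ t₀
  have hs : 0 < s := sqrt_pos.2 (by linarith)
  set y := x + t₀ • z
  have hexp : ∀ w : E d, F' t₀ w = ∑ j, z j * dv (unitV j) g (y + s • w)
      + (-t₀ / s) * ∑ j, ⟪w, unitV j⟫ * dv (unitV j) g (y + s • w) := fun w => by
    have e : ∀ u : E d, fderiv ℝ g (y + s • w) u = ∑ j, u j * dv (unitV j) g (y + s • w) := fun u => by
      conv_lhs => rw [← (EuclideanSpace.basisFun (Fin d) ℝ).sum_repr u]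
      simp [dv, unitV]
    simp only [F', map_add, map_smul, smul_eq_mul]
    rw [e z, e w]
    simp [unitV, EuclideanSpace.inner_single_right, y, s]
  have hlip : ∀ j, ∃ B, ∀ w, ‖fderiv ℝ (dv (unitV j) g) w‖ ≤ B := fun j => (hg.dl [unitV j]).lip
  have hsm : ∀ j, ContDiff ℝ 1 fun w : E d => dv (unitV j) g (y + s • w) := fun j =>
    ((hg.dl [unitV j]).contDiff_one).comp (by fun_prop)
  have hb : ∀ j, ∃ B, ∀ w, ‖fderiv ℝ (fun w : E d => dv (unitV j) g (y + s • w)) w‖ ≤ B := fun j => by
    obtain ⟨B, hB⟩ := hlip j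
    refine ⟨B * |s|, fun w => ?_⟩
    have h := (((hg.dl [unitV j]).contDiff_one.differentiable one_ne_zero (y + s • w)).hasFDerivAt.comp
      w (((hasFDerivAt_id w).const_smul s).const_add y)).fderiv
    rw [show fderiv ℝ (fun w : E d => dv (unitV j) g (y + s • w)) w = _ from h]
    refine ((ContinuousLinearMap.opNorm_comp_le _ _).trans (mul_le_mul (hB _) ?_ (norm_nonneg _)
      ((norm_nonneg _).trans (hB 0))))
    refine (norm_smul_le s (ContinuousLinearMap.id ℝ (E d))).trans ?_
    exact mul_le_of_le_one_right (norm_nonneg _) ContinuousLinearMap.norm_id_le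
  have hbd1 : ∀ j, ∃ B, ∀ w, |dv (unitV j) g w| ≤ B := fun j => hg.2 [unitV j] (by simp)
  have hstein : ∀ j, ∫ w, ⟪w, unitV j⟫ * dv (unitV j) g (y + s • w) ∂γ d
      = s * Quarter.G (c - t₀ ^ 2) (dv (unitV j) (dv (unitV j) g)) y := fun j => by
    obtain ⟨B, hB⟩ := hb j
    have hB0 : 0 ≤ B := (norm_nonneg _).trans (hB 0)
    rw [show γ d = stdGaussian (E d) from rfl,
      Quarter.stein (hsm j) (C := B) (fun w => (hB w).trans (le_mul_of_one_le_right hB0
        (le_add_of_nonneg_right (norm_nonneg w)))) (unitV j), Quarter.G, ← integral_const_mul]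
    refine integral_congr_ae (ae_of_all _ fun w => ?_)
    beta_reduce
    have h := (((hg.dl [unitV j]).contDiff_one.differentiable one_ne_zero (y + s • w)).hasFDerivAt.comp
      w (((hasFDerivAt_id w).const_smul s).const_add y)).fderiv
    rw [show fderiv ℝ (fun w : E d => dv (unitV j) g (y + s • w)) w = _ from h]
    simp [dv, dl, s, σ]
  have i1 : ∀ j, Integrable (fun w : E d => dv (unitV j) g (y + s • w)) (γ d) := fun j => by
    obtain ⟨B, hB⟩ := hlip j
    exact integrable_shift_lip (hg.dl [unitV j]).contDiff_one hB s y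
  have i2 : ∀ j, Integrable (fun w : E d => ⟪w, unitV j⟫ * dv (unitV j) g (y + s • w)) (γ d) := by
    intro j
    obtain ⟨B, hB⟩ := hbd1 j
    refine (Quarter.γ_norm_integrable.mul_const B).mono'
      ((Continuous.mul (by fun_prop) (hsm j).continuous)).aestronglyMeasurable
      (ae_of_all _ fun w => ?_)
    rw [norm_mul]
    refine mul_le_mul ?_ (by simpa using hB _) (norm_nonneg _) (norm_nonneg _)
    simpa [unitV] using abs_real_inner_le_norm w (unitV j)
  have j1 : Integrable (fun w => ∑ j, z j * dv (unitV j) g (y + s • w)) (γ d) :=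
    integrable_finsetSum _ fun j _ => (i1 j).const_mul (z j)
  have j2 : Integrable (fun w => (-t₀ / s) * ∑ j, ⟪w, unitV j⟫ * dv (unitV j) g (y + s • w))
      (γ d) := (integrable_finsetSum _ fun j _ => i2 j).const_mul _
  simp only [hexp]
  rw [integral_add j1 j2, integral_finsetSum _ fun j _ => (i1 j).const_mul (z j),
    integral_const_mul, integral_finsetSum _ fun j _ => i2 j]
  simp only [integral_const_mul, hstein, ← mul_sum]
  rw [show ∀ S : ℝ, -t₀ / s * (s * S) = -(t₀ * S) from fun S => by field_simp]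
  simp only [Quarter.G, σ, s]
  ring

theorem dc_G_split (hf : ContDiff ℝ 1 f) (hL : ∀ y, ‖fderiv ℝ f y‖ ≤ L) {e s : ℝ} (he : 0 < e)
    (hs : 0 ≤ s) (l : List (Fin d)) :
    dc l (Quarter.G (s + e) f) = Quarter.G s (dc l (Quarter.G e f)) := by
  rw [G_comp_lip hf hL hs he.le, dc, dl_G_sm (sm_G_lip hf hL he) hs]
  rfl

theorem hasDerivAt_crv_zero (hf : ContDiff ℝ 1 f) (hL : ∀ y, ‖fderiv ℝ f y‖ ≤ L) {t₀ : ℝ}
    (ht : t₀ ^ 2 < a) (l : List (Fin d)) (z : E d) :
    HasDerivAt (fun t => crv a f x 0 l t z) (crv a f x 1 l t₀ z) t₀ := by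
  set e := (a - t₀ ^ 2) / 2
  have he : 0 < e := half_pos (by linarith)
  have hgs := sm_G_lip hf hL he
  have h := hasDerivAt_smooth_curve (x := x) (hgs.dl (l.map unitV)) (c := a - e)
    (t₀ := t₀) (by simp only [e]; linarith) z
  have hsm : ContDiff ℝ ∞ (Quarter.G (a - t₀ ^ 2) f) := contDiff_G_lip hf hL (by linarith)
  have hev : (fun t => crv a f x 0 l t z)
      =ᶠ[𝓝 t₀] fun t => Quarter.G (a - e - t ^ 2) (dl (l.map unitV) (Quarter.G e f)) (x + t • z) := by
    filter_upwards [(isOpen_lt (continuous_pow 2) continuous_const).mem_nhds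
      (show t₀ ^ 2 < a - e by simp only [e]; linarith)] with t ht'
    show dc l (Quarter.G (a - t ^ 2) f) (x + t • z) = _
    have ht'' : t ^ 2 < a - e := ht'
    rw [show a - t ^ 2 = (a - e - t ^ 2) + e by ring, dc_G_split hf hL he (by linarith)]
    rfl
  refine (h.congr_of_eventuallyEq hev).congr_deriv ?_
  rw [crv_rec hsm 0 l z]
  simp only [Nat.cast_zero, zero_mul, sub_zero, crv_zero]
  have e1 : ∀ l' : List (Fin d), dc l' (Quarter.G (a - t₀ ^ 2) f)
      = Quarter.G (a - e - t₀ ^ 2) (dc l' (Quarter.G e f)) := fun l' => by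
    rw [← dc_G_split hf hL he (by simp only [e]; linarith)]
    congr 2
    ring
  simp only [e1]
  rfl

/-- Differentiating in the parameter adds one creation. -/
theorem hasDerivAt_crv (hf : ContDiff ℝ 1 f) (hL : ∀ y, ‖fderiv ℝ f y‖ ≤ L) :
    ∀ (n : ℕ) {t₀ : ℝ}, t₀ ^ 2 < a → ∀ (l : List (Fin d)) (z : E d),
      HasDerivAt (fun t => crv a f x n l t z) (crv a f x (n + 1) l t₀ z) t₀ := by
  suffices ∀ n : ℕ, ∀ m ≤ n, ∀ {t₀ : ℝ}, t₀ ^ 2 < a → ∀ (l : List (Fin d)) (z : E d),
      HasDerivAt (fun t => crv a f x m l t z) (crv a f x (m + 1) l t₀ z) t₀ from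
    fun n => this n n le_rfl
  intro n
  induction n with
  | zero =>
    intro m hm t₀ ht l z
    obtain rfl := Nat.le_zero.1 hm
    exact hasDerivAt_crv_zero hf hL ht l z
  | succ n ih =>
    intro m hm t₀ ht l z
    rcases Nat.lt_or_eq_of_le hm with hm' | rfl
    · exact ih m (by omega) ht l z
    have hsm : ∀ t : ℝ, t ^ 2 < a → ContDiff ℝ ∞ (Quarter.G (a - t ^ 2) f) := fun t ht =>
      contDiff_G_lip hf hL (by linarith)
    have hev : (fun t => crv a f x (n + 1) l t z)
        =ᶠ[𝓝 t₀] fun t => ∑ j, z j * crv a f x n (j :: l) t z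
          - t * ∑ j, crv a f x n (j :: j :: l) t z
          - n * ∑ j, crv a f x (n - 1) (j :: j :: l) t z := by
      filter_upwards [(isOpen_lt (continuous_pow 2) continuous_const).mem_nhds ht] with t ht'
      exact crv_rec (hsm t ht') n l z
    have d1 := HasDerivAt.fun_sum (u := univ) fun j _ =>
      (ih n le_rfl ht (j :: l) z).const_mul (z j)
    have d2 := (hasDerivAt_id' t₀).mul
      (HasDerivAt.fun_sum (u := univ) fun j _ => ih n le_rfl ht (j :: j :: l) z)
    have d3 := (HasDerivAt.fun_sum (u := univ) fun j _ =>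
      ih (n - 1) (by omega) ht (j :: j :: l) z).const_mul (n : ℝ)
    refine ((((d1.sub d2).sub d3)).congr_of_eventuallyEq hev).congr_deriv ?_
    rw [crv_rec (hsm t₀ ht) (n + 1) l z, Nat.add_sub_cancel]
    rcases n with _ | n'
    · simp; ring
    · simp only [Nat.add_sub_cancel]
      push_cast
      ring

/-! ## The tensor fields and the `L²` bound -/

/-- The creations along the curve as tensor fields: the output index and `m` derivatives. -/
def crvT (a : ℝ) (M : E d → E d) (x : E d) (n m : ℕ) (t : ℝ) : TF (Unit ⊕ Fin m) (Fin d) :=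
  fun z i => crv a (cpt M (i (Sum.inl ()))) x n (List.ofFn fun l => i (Sum.inr l)) t z

/-- A new first derivative index, read as an outer one. -/
def optCons (m : ℕ) : Unit ⊕ Fin (m + 1) ≃ Option (Unit ⊕ Fin m) where
  toFun := Sum.elim (fun u => some (Sum.inl u)) (Fin.cases none fun l => some (Sum.inr l))
  invFun o := o.elim (Sum.inr 0) (Sum.elim Sum.inl fun l => Sum.inr l.succ)
  left_inv x := by
    rcases x with u | l
    · rfl
    · refine Fin.cases ?_ (fun l => ?_) l <;> simp
  right_inv o := by rcases o with _ | (u | l) <;> simp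

variable {M : E d → E d}

theorem crvT_succ (n m : ℕ) (t : ℝ) :
    crvT a M x (n + 1) m t = dlt scG (ren (optCons m) (crvT a M x n (m + 1) t)) := by
  funext z i
  show crv a (cpt M (i (Sum.inl ()))) x (n + 1) (List.ofFn fun l => i (Sum.inr l)) t z = _
  rw [crv_succ]
  refine sum_congr rfl fun j _ => ?_
  have e : (fun w => ren (optCons m) (crvT a M x n (m + 1) t) w (ext j i))
      = crv a (cpt M (i (Sum.inl ()))) x n (j :: List.ofFn fun l => i (Sum.inr l)) t := by
    funext w
    simp [ren, crvT, optCons, ext, List.ofFn_succ]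
  rw [e, congrFun e z]
  rfl

theorem gradT_crvT_zero (hM : GradLip M L) (ht : t ^ 2 < a) (m : ℕ) :
    gradT (crvT a M x 0 m t)
      = fun z i => t * ren (optCons m) (crvT a M x 0 (m + 1) t) z i := by
  funext z i
  have hs := contDiff_G_lip (hM.contDiff_cpt (i (some (Sum.inl ())))) (hM.lip_cpt _)
    (by linarith : 0 < a - t ^ 2)
  show fderiv ℝ (crv a (cpt M (i (some (Sum.inl ())))) x 0 (List.ofFn fun l => i (some (Sum.inr l))) t) z
      (unitV (i none)) = _
  rw [pd_crv hs]
  simp [ren, crvT, optCons, List.ofFn_succ]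

theorem GradLip.temp_crvT_zero (hM : GradLip M L) (ht : t ^ 2 < a) (m : ℕ) :
    Temp (crvT a M x 0 m t) := fun i => by
  have h : Sm (dc (List.ofFn fun l => i (Sum.inr l)) (Quarter.G (a - t ^ 2) (cpt M (i (Sum.inl ()))))) :=
    (sm_G_lip (hM.contDiff_cpt _) (hM.lip_cpt _) (by linarith)).dl _
  show (dc _ _ ∘ fun z => x + t • z).HasTemperateGrowth
  exact h.temperate.comp ((Function.HasTemperateGrowth.const x).add
    (t • ContinuousLinearMap.id ℝ (E d)).hasTemperateGrowth)

theorem GradLip.bn_crvT_zero (hM : GradLip M L) (ht : t ^ 2 < a) (m : ℕ) (z : E d) :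
    BN (crvT a M x 0 m t z) (2 ^ (m * m) * L / √(a - t ^ 2) ^ (m - 1)) := by
  have h := hM.bn_G (by linarith : 0 < a - t ^ 2) m (x + t • z)
  refine (funext fun i => ?_ : gradK m (vecT (Quarter.G (a - t ^ 2) M)) (x + t • z)
    = crvT a M x 0 m t z) ▸ h
  show iteratedFDeriv ℝ m (cpt (Quarter.G (a - t ^ 2) M) (i (Sum.inl ()))) (x + t • z)
    (fun l => unitV (i (Sum.inr l))) = dc (List.ofFn fun l => i (Sum.inr l)) _ (x + t • z)
  rw [hM.G_cpt, dc, List.map_ofFn]
  exact iteratedFDeriv_eq_dl (contDiff_G_lip (hM.contDiff_cpt _) (hM.lip_cpt _) (by linarith)) _ _ _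

theorem GradLip.rb_crvT_zero (hM : GradLip M L) (ht : t ^ 2 < a) (hts : |t| ≤ √(a - t ^ 2)) :
    ∀ (N m : ℕ), 1 ≤ m →
      RB N (crvT a M x 0 m t) (2 ^ ((m + N) * (m + N)) * L / √(a - t ^ 2) ^ (m - 1))
  | 0, m, _ => ⟨hM.temp_crvT_zero ht m, hM.bn_crvT_zero ht m⟩
  | N + 1, m, hm => by
    have hL0 : 0 ≤ L := (norm_nonneg _).trans (hM.lip 0)
    set s := √(a - t ^ 2) with hs
    have hs0 : 0 < s := sqrt_pos.2 (by linarith)
    refine ⟨hM.temp_crvT_zero ht m, fun z => (hM.bn_crvT_zero ht m z).mono ?_, ?_⟩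
    · exact div_le_div_of_nonneg_right (mul_le_mul_of_nonneg_right
        (pow_le_pow_right₀ one_le_two (by nlinarith)) hL0) (by positivity)
    · rw [gradT_crvT_zero hM ht m]
      refine (((rb_crvT_zero hM ht hts N (m + 1) (by omega)).ren (optCons m)).smul t).of_le le_rfl ?_
      rw [Nat.add_sub_cancel, show m + 1 + N = m + (N + 1) by ring,
        show s ^ m = s ^ (m - 1) * s by rw [← pow_succ, Nat.sub_add_cancel hm],
        show |t| * (2 ^ ((m + (N + 1)) * (m + (N + 1))) * L / (s ^ (m - 1) * s))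
          = (2 ^ ((m + (N + 1)) * (m + (N + 1))) * L / s ^ (m - 1)) * (|t| / s) by field_simp]
      exact mul_le_of_le_one_right (by positivity) ((div_le_one hs0).2 hts)

theorem GradLip.cre_crvT (hM : GradLip M L) (ht : t ^ 2 < a) (hts : |t| ≤ √(a - t ^ 2))
    {Φ : E d → ℝ} (hΦ : scP Φ = scG) (N : ℕ) :
    ∀ (n m : ℕ), 1 ≤ n + m → Cre Φ n N (crvT a M x n m t)
      (2 ^ ((n + m + N) * (n + m + N)) * L / √(a - t ^ 2) ^ (n + m - 1))
  | 0, m, h => by
    have hm : 1 ≤ m := by omega
    have hL0 : 0 ≤ L := (norm_nonneg _).trans (hM.lip 0)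
    simp only [Nat.zero_add]
    exact Cre.base (hM.rb_crvT_zero ht hts N m hm) (by positivity)
      (i := Sum.inl ()) (i' := Sum.inr ⟨0, hm⟩) (by simp)
  | n + 1, m, h => by
    have h1 := ((cre_crvT hM ht hts hΦ N n (m + 1) (by omega)).ren (optCons m)).dlt
    rw [crvT_succ, ← hΦ]
    refine h1.of_le le_rfl (le_of_eq ?_)
    simp only [Nat.add_assoc, Nat.add_comm 1 m]

/-- The `n`-th derivative of the curve is small in `L²`. -/
theorem GradLip.curve_L2 (hM : GradLip M L) {Φ : E d → ℝ} (hΦ : Pot Φ) (hsc : scP Φ = scG)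
    {n : ℕ} (hn : 1 ≤ n) (hH : RB (nL2 n) (hessT Φ) 1) (ht : t ^ 2 < a)
    (hts : |t| ≤ √(a - t ^ 2)) :
    EP Φ (fun z => ∑ o, crv a (cpt M o) x n [] t z ^ 2)
      ≤ bL2 1 n * (d * (2 ^ ((n + nL2 n) * (n + nL2 n)) * L / √(a - t ^ 2) ^ (n - 1)) ^ 2) := by
  have h := Cre.integral_sqT_le hΦ zero_le_one hH (hM.cre_crvT (x := x) ht hts hsc (nL2 n) n 0 hn)
  simp only [Nat.add_zero, Fintype.card_fin] at h
  refine le_trans (le_of_eq ?_) h
  congr 1
  funext z
  unfold sqT
  refine Fintype.sum_equiv ((Equiv.funUnique Unit (Fin d)).symm.trans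
    (Equiv.arrowCongr (Equiv.sumEmpty Unit (Fin 0)).symm (Equiv.refl _))) _ _ fun o => ?_
  simp [crvT]

/-- The curve is the zeroth member. -/
theorem GradLip.crv_zero_nil (hM : GradLip M L) (o : Fin d) (t : ℝ) (z : E d) :
    crv a (cpt M o) x 0 [] t z = Quarter.G (a - t ^ 2) M (x + t • z) o :=
  (congrFun (hM.G_cpt (a - t ^ 2) o) (x + t • z)).symm

/-- The derivatives of a component of the curve. -/
theorem GradLip.hasDerivAt_crv_cpt (hM : GradLip M L) (o : Fin d) (n : ℕ) (ht : t ^ 2 < a)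
    (z : E d) :
    HasDerivAt (fun t => crv a (cpt M o) x n [] t z) (crv a (cpt M o) x (n + 1) [] t z) t :=
  hasDerivAt_crv (hM.contDiff_cpt o) (hM.lip_cpt o) n ht [] z

end

end Vale.Agent.P347.Zero
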