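import Vale.Agent.P347.Zero.PostMoments
import Vale.Agent.P347.Zero.SmoothCurve

/-!
# P347, exponent 0: the recursion between mixed moments and families with bounded derivatives

`mm o β α` is the mean of a derivative of the centred gradient times a derivative of the constant.
Differentiating it in the centre moves one index to `β`, up to products of lower derivatives.
-/

namespace Vale.Agent.P347.Zero

open MeasureTheory Real Finset
open Vale.Agent.P347.Quarter (E γ gOf)
open Vale.Agent.P347.Colour (Pt oracle)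
open scoped RealInnerProductSpace ContDiff

noncomputable section

variable {d : ℕ} {V : Pt d → ℝ} {v : ℝ}

/-- The splittings of a list into a nonempty part and the rest, both in order. -/
def parts {A : Type*} : List A → List (List A × List A)
  | [] => []
  | j :: l => ([j], l) :: (parts l).flatMap fun p => [(j :: p.1, p.2), (p.1, j :: p.2)]

theorem parts_map {A B : Type*} (f : A → B) :
    ∀ l : List A, parts (l.map f) = (parts l).map fun p => (p.1.map f, p.2.map f)
  | [] => rfl
  | j :: l => by
    simp only [List.map_cons, parts, parts_map f l, List.flatMap_map, List.map_flatMap]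
    simp

theorem parts_spec {A : Type*} : ∀ (l : List A), ∀ p ∈ parts l, p.1 ≠ [] ∧ (p.1 ++ p.2).Perm l
  | [], p, hp => by simp [parts] at hp
  | j :: l, p, hp => by
    simp only [parts, List.mem_cons, List.mem_flatMap] at hp
    rcases hp with rfl | ⟨q, hq, h⟩
    · exact ⟨by simp, List.Perm.refl _⟩
    · obtain ⟨h1, h2⟩ := parts_spec l q hq
      simp at h
      rcases h with rfl | rfl
      · exact ⟨by simp, h2.cons j⟩
      · exact ⟨h1, (List.perm_middle).trans (h2.cons j)⟩

theorem Adm.list_sum {ι : Type*} :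
    ∀ (L : List ι) {F : ι → E d → E d → ℝ}, (∀ i ∈ L, Adm (F i)) →
      Adm fun x w => (L.map fun i => F i x w).sum
  | [], F, _ => by simpa using Adm.zero
  | i :: L, F, h => by
    have := (h i (by simp)).add (Adm.list_sum L fun j hj => h j (by simp [hj]))
    simpa using this

theorem exv_list_sum (hV : Colour.Cls (id : Fin d → Fin d) V) (hv : 0 < v) (x : E d) {ι : Type*} :
    ∀ (L : List ι) {F : ι → E d → E d → ℝ}, (∀ i ∈ L, Adm (F i)) →
      exv V v x (fun w => (L.map fun i => F i x w).sum)
        = (L.map fun i => exv V v x (F i x)).sum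
  | [], F, _ => by simp [exv_const hV hv]
  | i :: L, F, h => by
    simp only [List.map_cons, List.sum_cons]
    rw [exv_add hV hv x (((h i (by simp)).pg x).gr)
      (((Adm.list_sum L fun j hj => h j (by simp [hj])).pg x).gr),
      exv_list_sum hV hv x L fun j hj => h j (by simp [hj])]

theorem dx_comm {F : E d → E d → ℝ} (hF : Adm F) (i j : Fin d) :
    dx i (dx j F) = dx j (dx i F) := by
  induction hF with
  | @mk c m hc hm =>
    rw [dx_mk hc, dx_mk hc, dx_mk (contDiff_dv hc _), dx_mk (contDiff_dv hc _), dv_comm hc]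
  | @add F G hF hG ihF ihG =>
    rw [dx_add hF hG, dx_add hF hG, dx_add (hF.dx j) (hG.dx j), dx_add (hF.dx i) (hG.dx i), ihF, ihG]

/-- The coefficient of the score. -/
def cS (V : Pt d → ℝ) (v : ℝ) (i : Fin d) : E d → ℝ := fun x => cpt (Nv V v) i x - x i / v

theorem contDiff_cS (hV : Colour.Cls (id : Fin d → Fin d) V) (hv : 0 < v) (i : Fin d) :
    ContDiff ℝ ∞ (cS V v i) :=
  ((contDiff_piLp 2).1 (Nv_smooth hV hv).1 i).sub
    ((EuclideanSpace.proj i : E d →L[ℝ] ℝ).contDiff.div_const v)

theorem dv_div_coord (i j : Fin d) (x : E d) :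
    dv (unitV j) (fun x : E d => x i / v) x = (if i = j then 1 / v else 0) := by
  have h : HasFDerivAt (fun x : E d => x i / v) (v⁻¹ • (EuclideanSpace.proj i : E d →L[ℝ] ℝ)) x := by
    simpa [div_eq_inv_mul] using ((EuclideanSpace.proj i : E d →L[ℝ] ℝ).hasFDerivAt (x := x)).const_mul v⁻¹
  simp [dv, h.fderiv, unitV, PiLp.single_apply]

theorem dc_cS (hV : Colour.Cls (id : Fin d → Fin d) V) (hv : 0 < v) (i : Fin d) :
    ∀ l : List (Fin d), dc l (cS V v i)
      = fun x => dc l (cpt (Nv V v) i) x - dc l (fun x : E d => x i / v) x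
  | [] => rfl
  | j :: l => by
    funext x
    rw [dc_cons, dc_cS hV hv i l, dc_cons, dc_cons, dv, fderiv_fun_sub, sub_apply]
    · rfl
    · exact (contDiff_dl ((contDiff_piLp 2).1 (Nv_smooth hV hv).1 i) _).differentiable (by simp) x
    · exact (contDiff_dl ((EuclideanSpace.proj i : E d →L[ℝ] ℝ).contDiff.div_const v) _).differentiable
        (by simp) x

theorem dc_div_coord_two (i j k : Fin d) :
    ∀ l : List (Fin d), dc (j :: k :: l) (fun x : E d => x i / v) = fun _ => 0
  | [] => by
    funext x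
    have e : dv (unitV k) (fun x : E d => x i / v) = fun _ => (if i = k then 1 / v else 0) :=
      funext fun x => dv_div_coord i k x
    simp only [dc, List.map_cons, List.map_nil, dl_cons, dl_nil, e, dv]
    simp
  | m :: l => by
    funext x
    rw [dc_cons, dc_div_coord_two i k m l]
    simp [dv]

theorem dc_cS_symm (hV : Colour.Cls (id : Fin d → Fin d) V) (hv : 0 < v) (i j : Fin d) :
    dc [j] (cS V v i) = dc [i] (cS V v j) := by
  rw [dc_cS hV hv, dc_cS hV hv]
  funext x
  have e : pd j (fun x => Nv V v x i) x = pd i (fun x => Nv V v x j) x := pd_Nv_symm hV hv i j x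
  show dv (unitV j) (cpt (Nv V v) i) x - dv (unitV j) (fun x : E d => x i / v) x
    = dv (unitV i) (cpt (Nv V v) j) x - dv (unitV i) (fun x : E d => x j / v) x
  rw [dv_div_coord, dv_div_coord]
  simp only [eq_comm (a := i) (b := j)]
  congr 1

theorem dx_q1 (i j : Fin d) (x w : E d) :
    dx i (q1 V v j) x w = dc [i] (cS V v j) x := by
  show fderiv ℝ (fun x' => q1 V v j x' w) x (unitV i) = dv (unitV i) (cS V v j) x
  have e : (fun x' => q1 V v j x' w) = fun x' => w j / v + cS V v j x' := by
    funext x'; simp only [q1, cS, cpt]; ring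
  rw [e, fderiv_const_add]
  rfl

theorem ts_smulC {F : E d → E d → ℝ} (hF : Adm F) {c : E d → ℝ} (hc : ContDiff ℝ ∞ c) (j : Fin d) :
    Ts V v j (fun x w => c x * F x w)
      = fun x w => dv (unitV j) c x * F x w + c x * Ts V v j F x w := by
  funext x w
  simp only [Ts, dx, dv, fderiv_fun_mul (hc.differentiable (by simp) x) (hF.differentiable w x),
    add_apply, smul_apply, smul_eq_mul]
  ring

/-- The derivative of an iterated score. -/
theorem dx_qq (hV : Colour.Cls (id : Fin d → Fin d) V) (hv : 0 < v) (i : Fin d) :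
    ∀ (l : List (Fin d)), dx i (Tl V v l fun _ _ => 1) = fun x w =>
      ((parts l).map fun p => dc p.1 (cS V v i) x * Tl V v p.2 (fun _ _ => 1) x w).sum
  | [] => by
    funext x w
    simp [parts, Tl, dx]
  | j :: l => by
    have hG := adm_one.tl hV hv l
    have e1 : dx i (Tl V v (j :: l) fun _ _ => 1) = fun x w =>
        Ts V v j (dx i (Tl V v l fun _ _ => 1)) x w
          + dc [j] (cS V v i) x * Tl V v l (fun _ _ => 1) x w := by
      rw [tl_cons]
      have e : Ts V v j (Tl V v l fun _ _ => 1) = fun x w =>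
          dx j (Tl V v l fun _ _ => 1) x w + q1 V v j x w * Tl V v l (fun _ _ => 1) x w := rfl
      rw [e, dx_add (hG.dx j) ((adm_q1 hV hv j).mul hG), dx_mul (adm_q1 hV hv j) hG, dx_comm hG]
      funext x w
      simp only [Ts, dx_q1, dc_cS_symm hV hv j i]
      ring
    rw [e1, dx_qq hV hv i l]
    have key : ∀ (L : List (List (Fin d) × List (Fin d))),
        Ts V v j (fun x w => (L.map fun p => dc p.1 (cS V v i) x * Tl V v p.2 (fun _ _ => 1) x w).sum)
        = fun x w => ((L.flatMap fun p => [(j :: p.1, p.2), (p.1, j :: p.2)]).map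
            fun p => dc p.1 (cS V v i) x * Tl V v p.2 (fun _ _ => 1) x w).sum := by
      intro L
      induction L with
      | nil => funext x w; simp [Ts, dx]
      | cons p L ih =>
        have hc : ContDiff ℝ ∞ (dc p.1 (cS V v i)) := contDiff_dl (contDiff_cS hV hv i) _
        have hp : Adm fun x w => dc p.1 (cS V v i) x * Tl V v p.2 (fun _ _ => 1) x w :=
          (adm_one.tl hV hv p.2).smul hc
        have hs : Adm fun x w =>
            (L.map fun p => dc p.1 (cS V v i) x * Tl V v p.2 (fun _ _ => 1) x w).sum :=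
          Adm.list_sum L fun q _ => (adm_one.tl hV hv q.2).smul (contDiff_dl (contDiff_cS hV hv i) _)
        simp only [List.map_cons, List.sum_cons]
        rw [ts_add hp.dif hs.dif, ih, ts_smulC (adm_one.tl hV hv p.2) hc]
        funext x w
        simp only [List.flatMap_cons, List.map_append, List.map_cons, List.map_nil, List.sum_append,
          List.sum_cons, List.sum_nil, tl_cons, dc_cons]
        ring
    rw [key]
    funext x w
    simp only [parts, List.map_cons, List.sum_cons]
    ring

/-! ## Mixed moments -/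

/-- The mixed moment. -/
def mm (V : Pt d → ℝ) (v : ℝ) (o : Fin d) (β α : List (Fin d)) : E d → ℝ :=
  fun x => exv V v x fun w => Tl V v β (gc V v o) x w * Tl V v α (fun _ _ => 1) x w

theorem contDiff_mm (hV : Colour.Cls (id : Fin d → Fin d) V) (hv : 0 < v) (o : Fin d)
    (β α : List (Fin d)) : ContDiff ℝ ∞ (mm V v o β α) :=
  contDiff_exv_adm hV hv (((adm_gc hV hv o).tl hV hv β).mul (adm_one.tl hV hv α))

theorem mm_nil_right (hV : Colour.Cls (id : Fin d → Fin d) V) (hv : 0 < v) (o : Fin d)
    (β : List (Fin d)) : mm V v o β [] = fun _ => 0 := by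
  funext x
  have h := congrFun (exv_tl hV hv (adm_gc hV hv o) β) x
  simp only [exv_gc hV hv] at h
  show exv V v x (fun w => Tl V v β (gc V v o) x w * (1 : ℝ)) = 0
  simp only [mul_one]
  refine h.trans ?_
  rcases β with _ | ⟨i, β⟩
  · rfl
  · rw [dl_const _ (by simp)]

theorem tl_mulW (hV : Colour.Cls (id : Fin d → Fin d) V) (hv : 0 < v) {F : E d → E d → ℝ}
    (hF : Adm F) (f : E d → ℝ) : ∀ l : List (Fin d),
      Tl V v l (fun x w => f w * F x w) = fun x w => f w * Tl V v l F x w
  | [] => rfl
  | i :: l => by rw [tl_cons, tl_mulW hV hv hF f l, ts_mulW (hF.tl hV hv l).dif, tl_cons]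

theorem mm_nil_left (hV : Colour.Cls (id : Fin d → Fin d) V) (hv : 0 < v) (o : Fin d)
    {α : List (Fin d)} (hα : α ≠ []) : mm V v o [] α = dc α (cpt (Nv V v) o) := by
  funext x
  have hg : Adm fun (_ : E d) w => gOf (oracle V) w o := Adm.ofPG (pg_g hV o)
  have hq := ((adm_one.tl hV hv α).pg x).gr
  have h0 : exv V v x (Tl V v α (fun _ _ => 1) x) = 0 := by
    have h := congrFun (exv_tl hV hv adm_one α) x
    simp only [exv_const hV hv] at h
    refine h.trans ?_
    rw [dl_const _ (by simpa using hα)]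
  have h1 : exv V v x (fun w => gOf (oracle V) w o * Tl V v α (fun _ _ => 1) x w)
      = dc α (cpt (Nv V v) o) x := by
    have e : Tl V v α (fun (_ : E d) w => gOf (oracle V) w o)
        = fun x w => gOf (oracle V) w o * Tl V v α (fun _ _ => 1) x w := by
      conv_lhs => rw [show (fun (_ : E d) w => gOf (oracle V) w o)
        = fun (x : E d) w => gOf (oracle V) w o * (fun (_ _ : E d) => (1 : ℝ)) x w from
          funext₂ fun _ _ => (mul_one _).symm]
      exact tl_mulW hV hv adm_one (fun w => gOf (oracle V) w o) α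
    have h := congrFun (exv_tl hV hv hg α) x
    rw [e] at h
    refine h.trans ?_
    congr 2
    funext y
    exact (Nv_apply hV hv y o).symm
  show exv V v x (fun w => (gOf (oracle V) w o - Nv V v x o) * Tl V v α (fun _ _ => 1) x w) = _
  simp only [sub_mul]
  rw [exv_sub hV hv x ((gr_gOf hV o).mul hq) (hq.const_mul _), exv_const_mul, h0, h1]
  simp

/-- The recursion. -/
theorem dv_mm (hV : Colour.Cls (id : Fin d → Fin d) V) (hv : 0 < v) (o i : Fin d)
    (β α : List (Fin d)) (x : E d) :
    dv (unitV i) (mm V v o β α) x = mm V v o (i :: β) α x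
      + ((parts α).map fun p => dc p.1 (cS V v i) x * mm V v o β p.2 x).sum := by
  have hA := (adm_gc hV hv o).tl hV hv β
  have hq := adm_one.tl hV hv α
  unfold mm
  rw [dv_exv hV hv (hA.mul hq)]
  have e : Ts V v i (fun x w => Tl V v β (gc V v o) x w * Tl V v α (fun _ _ => 1) x w) x
      = fun w => Tl V v (i :: β) (gc V v o) x w * Tl V v α (fun _ _ => 1) x w
        + ((parts α).map fun p => Tl V v β (gc V v o) x w
            * (dc p.1 (cS V v i) x * Tl V v p.2 (fun _ _ => 1) x w)).sum := by
    funext w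
    have h := congrFun (congrFun (dx_qq hV hv i α) x) w
    simp only [Ts, tl_cons, dx_mul hA hq, h]
    rw [← List.sum_map_mul_left]
    ring
  have hF : ∀ p : List (Fin d) × List (Fin d), Adm fun x w => Tl V v β (gc V v o) x w
      * (dc p.1 (cS V v i) x * Tl V v p.2 (fun _ _ => 1) x w) := fun p =>
    hA.mul ((adm_one.tl hV hv p.2).smul (contDiff_dl (contDiff_cS hV hv i) _))
  rw [e, exv_add hV hv x (((((adm_gc hV hv o).tl hV hv (i :: β)).mul hq).pg x).gr)
    (((Adm.list_sum (parts α) fun p _ => hF p).pg x).gr),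
    exv_list_sum hV hv x (parts α) fun p _ => hF p]
  congr 2
  refine List.map_congr_left fun p _ => ?_
  rw [← exv_const_mul]
  congr 1
  funext w
  ring

/-! ## Families with bounded derivatives -/

/-- The gradient of a family, the new index joining the rows. -/
def grX {P Q : Type} (X : P → Q → E d → ℝ) : Fin d × P → Q → E d → ℝ :=
  fun jp q => dv (unitV jp.1) (X jp.2 q)

/-- Rows against columns, the `i`-th derivative has operator norm at most `c`. -/
def Dd : ℕ → ∀ {P Q : Type} [Fintype P] [Fintype Q], (P → Q → E d → ℝ) → ℝ → Prop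
  | 0, _, _, _, _, X, c => ∀ x, OpLE (fun p q => X p q x) c
  | i + 1, _, _, _, _, X, c => Dd i (grX X) c

variable {P Q P' Q' : Type} [Fintype P] [Fintype Q] [Fintype P'] [Fintype Q']

theorem Dd.mono {i : ℕ} {X : P → Q → E d → ℝ} {c c' : ℝ} (h : Dd i X c) (hc : c ≤ c') :
    Dd i X c' := by
  induction i generalizing P with
  | zero => exact fun x => (h x).mono hc
  | succ i ih => exact ih h

theorem Dd.reindex {i : ℕ} {X : P → Q → E d → ℝ} {c : ℝ} (h : Dd i X c) (e : P' ≃ P)
    (f : Q' ≃ Q) : Dd i (fun p q => X (e p) (f q)) c := by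
  induction i generalizing P P' with
  | zero => exact fun x => (h x).reindex e f
  | succ i ih => exact ih h (Equiv.prodCongr (Equiv.refl (Fin d)) e)

theorem OpLE.zero_const {c : ℝ} (hc : 0 ≤ c) : OpLE (fun (_ : P) (_ : Q) => (0 : ℝ)) c :=
  fun a b => by
    simp only [zero_mul, Finset.sum_const_zero]
    exact mul_nonneg (mul_nonneg hc (nrm_nonneg a)) (nrm_nonneg b)

theorem Dd.zero {i : ℕ} {c : ℝ} (hc : 0 ≤ c) :
    Dd i (fun (_ : P) (_ : Q) (_ : E d) => (0 : ℝ)) c := by
  induction i generalizing P with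
  | zero => exact fun _ => OpLE.zero_const hc
  | succ i ih =>
    show Dd i (grX fun (_ : P) (_ : Q) (_ : E d) => (0 : ℝ)) _
    rw [show (grX fun (_ : P) (_ : Q) (_ : E d) => (0 : ℝ)) = fun _ _ _ => 0 by
      funext p q x; simp [grX, dv]]
    exact ih

/-- All members are smooth. -/
def SX {P Q : Type} (X : P → Q → E d → ℝ) : Prop := ∀ p q, ContDiff ℝ ∞ (X p q)

theorem SX.grX {P Q : Type} {X : P → Q → E d → ℝ} (h : SX X) : SX (Zero.grX X) :=
  fun _ _ => contDiff_dv (h _ _) _

theorem Dd.add {i : ℕ} {X Y : P → Q → E d → ℝ} {c c' : ℝ} (sX : SX X) (sY : SX Y)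
    (h : Dd i X c) (h' : Dd i Y c') : Dd i (fun p q x => X p q x + Y p q x) (c + c') := by
  induction i generalizing P with
  | zero => exact fun x => (h x).add (h' x)
  | succ i ih =>
    show Dd i (Zero.grX fun p q x => X p q x + Y p q x) _
    rw [show (Zero.grX fun p q x => X p q x + Y p q x)
        = fun p q x => Zero.grX X p q x + Zero.grX Y p q x by
      funext p q x
      simp only [Zero.grX, dv]
      rw [fderiv_fun_add ((sX _ _).differentiable (by simp) x) ((sY _ _).differentiable (by simp) x),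
        add_apply]]
    exact ih sX.grX sY.grX h h'

theorem Dd.list_sum {ι : Type*} {i : ℕ} {F : ι → P → Q → E d → ℝ} {c : ℝ} :
    ∀ L : List ι, (∀ k ∈ L, SX (F k) ∧ Dd i (F k) c) →
      SX (fun p q x => (L.map fun k => F k p q x).sum)
        ∧ Dd i (fun p q x => (L.map fun k => F k p q x).sum) (L.length * c)
  | [], _ => ⟨fun p q => by simpa using contDiff_const, by
      simpa using (Dd.zero (c := (0 : ℝ)) le_rfl : Dd i (fun (_ : P) (_ : Q) (_ : E d) => (0 : ℝ)) 0)⟩
  | k :: L, h => by
    obtain ⟨s1, h1⟩ := h k (by simp)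
    obtain ⟨s2, h2⟩ := Dd.list_sum L fun j hj => h j (by simp [hj])
    refine ⟨fun p q => by simpa using (s1 p q).add (s2 p q), ?_⟩
    have := Dd.add s1 s2 h1 h2
    simp only [List.map_cons, List.sum_cons]
    exact this.mono (le_of_eq (by simp; ring))

theorem OpLE.kron {M : P → Q → ℝ} {N : P' → Q' → ℝ} {c c' : ℝ} (h : OpLE M c) (h' : OpLE N c')
    (hc : 0 ≤ c) (hc' : 0 ≤ c') :
    OpLE (fun (p : P × P') (q : Q × Q') => M p.1 q.1 * N p.2 q.2) (c * c') := by
  have h1 := h.reindex (Equiv.prodPUnit P : P × PUnit.{1} ≃ P) (Equiv.refl Q)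
  have h2 := h'.reindex (Equiv.refl P') (Equiv.punitProd Q' : PUnit.{1} × Q' ≃ Q')
  have h3 := h1.compose h2 hc hc'
  simpa using h3

/-- Products, by the Leibniz rule. -/
theorem Dd.mul : ∀ {n : ℕ} {P P' : Type} [Fintype P] [Fintype P'] {X : P → Q → E d → ℝ}
    {Y : P' → Q' → E d → ℝ} {c c' s : ℝ}, 0 ≤ c → 0 ≤ c' → 0 < s → SX X → SX Y →
    (∀ i ≤ n, Dd i X (c / s ^ i)) → (∀ i ≤ n, Dd i Y (c' / s ^ i)) →
    Dd n (fun (p : P × P') (q : Q × Q') x => X p.1 q.1 x * Y p.2 q.2 x) (2 ^ n * (c * c') / s ^ n)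
  | 0, _, _, _, _, X, Y, c, c', s, hc, hc', _, _, _, h, h' => fun x => by
    have h0 : OpLE (fun p q => X p q x) c := by
      have := h 0 le_rfl
      simp only [pow_zero, div_one] at this
      exact this x
    have h0' : OpLE (fun p q => Y p q x) c' := by
      have := h' 0 le_rfl
      simp only [pow_zero, div_one] at this
      exact this x
    simpa using h0.kron h0' hc hc'
  | n + 1, P, P', _, _, X, Y, c, c', s, hc, hc', hs, sX, sY, h, h' => by
    show Dd n (Zero.grX fun (p : P × P') (q : Q × Q') x => X p.1 q.1 x * Y p.2 q.2 x) _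
    have h1 : Dd n (fun (p : (Fin d × P) × P') (q : Q × Q') x =>
        Zero.grX X p.1 q.1 x * Y p.2 q.2 x) (2 ^ n * (c / s * c') / s ^ n) :=
      Dd.mul (div_nonneg hc hs.le) hc' hs sX.grX sY
        (fun i hi => (h (i + 1) (by omega) : Dd i (Zero.grX X) _).mono
          (le_of_eq (by rw [pow_succ', div_div])))
        fun i hi => h' i (by omega)
    have h2 : Dd n (fun (p : P × (Fin d × P')) (q : Q × Q') x =>
        X p.1 q.1 x * Zero.grX Y p.2 q.2 x) (2 ^ n * (c * (c' / s)) / s ^ n) :=
      Dd.mul hc (div_nonneg hc' hs.le) hs sX sY.grX (fun i hi => h i (by omega))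
        (fun i hi => (h' (i + 1) (by omega) : Dd i (Zero.grX Y) _).mono
          (le_of_eq (by rw [pow_succ', div_div])))
    let e1 : Fin d × (P × P') ≃ (Fin d × P) × P' := (Equiv.prodAssoc _ _ _).symm
    let e2 : Fin d × (P × P') ≃ P × (Fin d × P') :=
      ((Equiv.prodAssoc _ _ _).symm.trans (Equiv.prodCongr (Equiv.prodComm _ _) (Equiv.refl _))).trans
        (Equiv.prodAssoc _ _ _)
    have h3 := Dd.add (X := fun (p : Fin d × (P × P')) (q : Q × Q') x =>
        Zero.grX X (e1 p).1 q.1 x * Y (e1 p).2 q.2 x)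
      (Y := fun (p : Fin d × (P × P')) (q : Q × Q') x => X (e2 p).1 q.1 x * Zero.grX Y (e2 p).2 q.2 x)
      (fun p q => (sX.grX _ _).mul (sY _ _)) (fun p q => (sX _ _).mul (sY.grX _ _))
      (h1.reindex e1 (Equiv.refl _)) (h2.reindex e2 (Equiv.refl _))
    have e : (Zero.grX fun (p : P × P') (q : Q × Q') x => X p.1 q.1 x * Y p.2 q.2 x)
        = fun (p : Fin d × (P × P')) (q : Q × Q') x =>
          Zero.grX X (e1 p).1 q.1 x * Y (e1 p).2 q.2 x + X (e2 p).1 q.1 x * Zero.grX Y (e2 p).2 q.2 x := by
      funext p q x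
      simp only [Zero.grX, dv, e1, e2]
      rw [fderiv_fun_mul ((sX _ _).differentiable (by simp) x) ((sY _ _).differentiable (by simp) x)]
      simp
      ring
    rw [e]
    refine h3.mono (le_of_eq ?_)
    field_simp
    ring

/-- Iterated derivatives as one flattening. -/
theorem Dd.opLE_list : ∀ {i : ℕ} {P : Type} [Fintype P] {X : P → Q → E d → ℝ} {c : ℝ}
    {L : P → Q → List (Fin d)} {F : P → Q → E d → ℝ}, Dd i X c →
    (∀ p q, X p q = dc (L p q) (F p q)) → ∀ x,
    OpLE (fun (s : (Fin i → Fin d) × P) q => dc (List.ofFn s.1 ++ L s.2 q) (F s.2 q) x) c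
  | 0, P, _, X, c, L, F, h, hX, x => by
    let e : (Fin 0 → Fin d) × P ≃ P := Equiv.uniqueProd _ _
    have := (h x).reindex e (Equiv.refl Q)
    simpa [e, hX] using this
  | i + 1, P, _, X, c, L, F, h, hX, x => by
    have h' : Dd i (Zero.grX X) c := h
    have := Dd.opLE_list h' (L := fun (jp : Fin d × P) q => jp.1 :: L jp.2 q)
      (F := fun jp q => F jp.2 q) (fun jp q => by
        show dv (unitV jp.1) (X jp.2 q) = _
        rw [hX, ← dc_cons]) x
    let e : (Fin (i + 1) → Fin d) × P ≃ (Fin i → Fin d) × (Fin d × P) :=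
      (Equiv.prodCongr ((Fin.snocEquiv fun _ => Fin d).symm.trans (Equiv.prodComm _ _))
        (Equiv.refl P)).trans (Equiv.prodAssoc _ _ _)
    have h2 := this.reindex e (Equiv.refl Q)
    refine (funext₂ fun s q => ?_ : (fun (s : (Fin (i + 1) → Fin d) × P) q =>
      dc (List.ofFn s.1 ++ L s.2 q) (F s.2 q) x) = _) ▸ h2
    obtain ⟨u, p⟩ := s
    show dc (List.ofFn u ++ L p q) (F p q) x
      = dc (List.ofFn (Fin.init u) ++ u (Fin.last i) :: L p q) (F p q) x
    rw [List.ofFn_succ', List.concat_eq_append, List.append_assoc]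
    rfl

end

end Vale.Agent.P347.Zero
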