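import Vale.Agent.P347.Zero.PostTilt

/-!
# P347, exponent 0: second moments of iterated scores

`qq β` is the iterated derivative of the constant under the posterior integral, `rr o β` that of
the centred gradient. Their pairings with arrays are small by Poincaré, without any power of the
dimension, since they have mean zero.
-/

namespace Vale.Agent.P347.Zero

open MeasureTheory Real Finset
open Vale.Agent.P347.Quarter (E γ gOf)
open Vale.Agent.P347.Colour (Pt oracle)
open scoped RealInnerProductSpace ContDiff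

noncomputable section

variable {d : ℕ} {V : Pt d → ℝ} {v : ℝ}

/-- Differentiable in the centre. -/
def Dif (F : E d → E d → ℝ) : Prop := ∀ w, Differentiable ℝ fun x => F x w

theorem Adm.dif {F : E d → E d → ℝ} (h : Adm F) : Dif F := h.differentiable

theorem Dif.mulW {F : E d → E d → ℝ} (h : Dif F) (f : E d → ℝ) :
    Dif fun x w => f w * F x w := fun w => (h w).const_mul (f w)

theorem Dif.add {F G : E d → E d → ℝ} (h : Dif F) (h' : Dif G) :
    Dif fun x w => F x w + G x w := fun w => (h w).add (h' w)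

theorem Dif.sum {ι : Type*} (s : Finset ι) {F : ι → E d → E d → ℝ} (h : ∀ i ∈ s, Dif (F i)) :
    Dif fun x w => ∑ i ∈ s, F i x w := fun w => Differentiable.fun_sum fun i hi => h i hi w

theorem ts_add {F G : E d → E d → ℝ} (hF : Dif F) (hG : Dif G) (i : Fin d) :
    Ts V v i (fun x w => F x w + G x w) = fun x w => Ts V v i F x w + Ts V v i G x w := by
  funext x w
  simp only [Ts, dx, fderiv_fun_add (hF w x) (hG w x), add_apply]
  ring

theorem ts_mulW {F : E d → E d → ℝ} (hF : Dif F) (f : E d → ℝ) (i : Fin d) :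
    Ts V v i (fun x w => f w * F x w) = fun x w => f w * Ts V v i F x w := by
  funext x w
  simp only [Ts, dx, fderiv_const_mul (hF w x), smul_apply, smul_eq_mul]
  ring

theorem ts_sum {ι : Type*} (s : Finset ι) {F : ι → E d → E d → ℝ} (h : ∀ i ∈ s, Dif (F i))
    (i : Fin d) :
    Ts V v i (fun x w => ∑ k ∈ s, F k x w) = fun x w => ∑ k ∈ s, Ts V v i (F k) x w := by
  funext x w
  simp only [Ts, dx, fderiv_fun_sum fun k hk => h k hk w x, _root_.sum_apply, Finset.sum_add_distrib,
    Finset.mul_sum]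

theorem ts_one (i : Fin d) :
    Ts V v i (fun (_ _ : E d) => (1 : ℝ)) = fun x w => q1 V v i x w := by
  funext x w
  simp [Ts, dx]

/-- The derivative in the point. -/
def dw (h : E d) (F : E d → E d → ℝ) : E d → E d → ℝ := fun x w => fderiv ℝ (F x) w h

theorem dw_mk (c : E d → ℝ) {m : E d → ℝ} (hm : PG m) (h : E d) :
    dw h (fun x w => c x * m w) = fun x w => c x * fderiv ℝ m w h := by
  funext x w
  simp only [dw, fderiv_const_mul (hm.1.differentiable one_ne_zero w), smul_apply, smul_eq_mul]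

theorem dw_add {F G : E d → E d → ℝ} (hF : Adm F) (hG : Adm G) (h : E d) :
    dw h (fun x w => F x w + G x w) = fun x w => dw h F x w + dw h G x w := by
  funext x w
  simp only [dw]
  rw [fderiv_fun_add ((hF.pg x).1.differentiable one_ne_zero w)
    ((hG.pg x).1.differentiable one_ne_zero w), add_apply]

theorem Adm.dif_dw {F : E d → E d → ℝ} (hF : Adm F) (h : E d) : Dif (dw h F) := by
  induction hF with
  | @mk c m hc hm => rw [dw_mk c hm]; exact fun w => (hc.differentiable (by simp)).mul_const _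
  | @add F G hF hG ihF ihG => rw [dw_add hF hG]; exact ihF.add ihG

theorem dw_dx {F : E d → E d → ℝ} (hF : Adm F) (h : E d) (i : Fin d) :
    dw h (dx i F) = dx i (dw h F) := by
  induction hF with
  | @mk c m hc hm =>
    rw [dw_mk c hm, dx_mk hc, dw_mk _ hm]
    funext x w
    simp only [dx, fderiv_mul_const (hc.differentiable (by simp) x), smul_apply, smul_eq_mul, dv]
    ring
  | @add F G hF hG ihF ihG =>
    rw [dx_add hF hG, dw_add (hF.dx i) (hG.dx i), dw_add hF hG, ihF, ihG]
    funext x w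
    simp only [dx, fderiv_fun_add (hF.dif_dw h w x) (hG.dif_dw h w x), add_apply]

theorem dw_q1 (i : Fin d) (h x w : E d) : dw h (q1 V v i) x w = h i / v := by
  have hd : HasFDerivAt (q1 V v i x) (v⁻¹ • (EuclideanSpace.proj i : E d →L[ℝ] ℝ)) w := by
    have := ((((EuclideanSpace.proj i : E d →L[ℝ] ℝ).hasFDerivAt (x := w)).sub_const (x i)).const_mul
      v⁻¹).add_const (Nv V v x i)
    refine this.congr_of_eventuallyEq (Filter.Eventually.of_forall fun u => ?_)
    simp only [q1, div_eq_inv_mul]; rfl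
  simp only [dw, hd.fderiv, smul_apply, smul_eq_mul, PiLp.proj_apply, div_eq_inv_mul]

theorem dw_ts (hV : Colour.Cls (id : Fin d → Fin d) V) (hv : 0 < v) {F : E d → E d → ℝ}
    (hF : Adm F) (h : E d) (i : Fin d) :
    dw h (Ts V v i F) = fun x w => Ts V v i (dw h F) x w + h i / v * F x w := by
  funext x w
  have e1 := congrFun (congrFun (dw_dx hF h i) x) w
  have d1 := ((hF.dx i).pg x).1.differentiable one_ne_zero w
  have d2 := ((adm_q1 hV hv i).pg x).1.differentiable one_ne_zero w
  have d3 := (hF.pg x).1.differentiable one_ne_zero w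
  have e2 := dw_q1 (V := V) (v := v) i h x w
  simp only [dw] at e1 e2
  have e : dw h (Ts V v i F) x w = fderiv ℝ (dx i F x) w h
      + (q1 V v i x w * fderiv ℝ (F x) w h + F x w * fderiv ℝ (q1 V v i x) w h) := by
    show fderiv ℝ (fun u => dx i F x u + q1 V v i x u * F x u) w h = _
    rw [fderiv_fun_add d1 (d2.fun_mul d3), fderiv_fun_mul d2 d3]
    simp
  rw [e, e1, e2]
  simp only [Ts, dw]
  ring

/-! ## The families -/

/-- The iterated derivative of the constant. -/
def qq (V : Pt d → ℝ) (v : ℝ) {n : ℕ} (β : Fin n → Fin d) : E d → E d → ℝ :=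
  Tl V v (List.ofFn β) fun _ _ => 1

/-- The centred gradient. -/
def gc (V : Pt d → ℝ) (v : ℝ) (o : Fin d) : E d → E d → ℝ :=
  fun x w => gOf (oracle V) w o - Nv V v x o

/-- The iterated derivative of the centred gradient. -/
def rr (V : Pt d → ℝ) (v : ℝ) (o : Fin d) {n : ℕ} (β : Fin n → Fin d) : E d → E d → ℝ :=
  Tl V v (List.ofFn β) (gc V v o)

theorem adm_one : Adm fun (_ _ : E d) => (1 : ℝ) := Adm.ofC contDiff_const

theorem adm_gc (hV : Colour.Cls (id : Fin d → Fin d) V) (hv : 0 < v) (o : Fin d) :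
    Adm (gc V v o) :=
  (Adm.ofPG (pg_g hV o)).sub (Adm.ofC ((contDiff_piLp 2).1 (Nv_smooth hV hv).1 o))

theorem tl_cons (i : Fin d) (l : List (Fin d)) (F : E d → E d → ℝ) :
    Tl V v (i :: l) F = Ts V v i (Tl V v l F) := rfl

theorem exv_tl (hV : Colour.Cls (id : Fin d → Fin d) V) (hv : 0 < v) {F : E d → E d → ℝ}
    (hF : Adm F) : ∀ l : List (Fin d), (fun x => exv V v x (Tl V v l F x))
      = dl (l.map unitV) fun x => exv V v x (F x)
  | [] => rfl
  | i :: l => by
    rw [List.map_cons, dl_cons, ← exv_tl hV hv hF l]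
    funext x
    exact (dv_exv hV hv (hF.tl hV hv l) i x).symm

theorem dl_const : ∀ (l : List (E d)), l ≠ [] → ∀ c : ℝ, dl l (fun _ => c) = fun _ => 0
  | [u], _, c => by funext x; simp [dl, dv]
  | u :: u' :: l, _, c => by
    rw [dl_cons, dl_const (u' :: l) (by simp) c]
    funext x; simp [dv]

theorem exv_gc (hV : Colour.Cls (id : Fin d → Fin d) V) (hv : 0 < v) (o : Fin d) (x : E d) :
    exv V v x (gc V v o x) = 0 := by
  show exv V v x (fun w => gOf (oracle V) w o - Nv V v x o) = 0
  rw [exv_sub hV hv x (gr_gOf hV o) (gr_const _), exv_const hV hv, Nv_apply hV hv, sub_self]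

theorem exv_rr (hV : Colour.Cls (id : Fin d → Fin d) V) (hv : 0 < v) (o : Fin d) {n : ℕ}
    (β : Fin n → Fin d) (x : E d) : exv V v x (rr V v o β x) = 0 := by
  have h := congrFun (exv_tl hV hv (adm_gc hV hv o) (List.ofFn β)) x
  refine h.trans ?_
  simp only [exv_gc hV hv]
  rcases n with _ | n
  · simp [dl]
  · rw [dl_const _ (by simp)]

theorem exv_qq (hV : Colour.Cls (id : Fin d → Fin d) V) (hv : 0 < v) {n : ℕ}
    (β : Fin (n + 1) → Fin d) (x : E d) : exv V v x (qq V v β x) = 0 := by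
  have h := congrFun (exv_tl hV hv adm_one (List.ofFn β)) x
  refine h.trans ?_
  simp only [exv_const hV hv]
  rw [dl_const _ (by simp)]

/-- The derivative in the point of an iterated derivative. -/
theorem dw_tl (hV : Colour.Cls (id : Fin d → Fin d) V) (hv : 0 < v) {φ : E d → E d → ℝ}
    (hφ : Adm φ) {f : E d → ℝ} (h : E d) (hf : ∀ x w, dw h φ x w = f w) :
    ∀ (n : ℕ) (β : Fin (n + 1) → Fin d), dw h (Tl V v (List.ofFn β) φ) = fun x w =>
      f w * qq V v β x w
        + ∑ l : Fin (n + 1), h (β l) / v * Tl V v (List.ofFn (β ∘ l.succAbove)) φ x w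
  | 0, β => by
    have e : dw h φ = fun x w => f w * (fun (_ _ : E d) => (1 : ℝ)) x w :=
      funext₂ fun x w => by simp [hf]
    rw [List.ofFn_succ, List.ofFn_zero, tl_cons, show Tl V v [] φ = φ from rfl,
      dw_ts hV hv hφ h (β 0), e, ts_mulW (adm_one.dif) f]
    funext x w
    simp [qq, Tl, ts_one]
  | n + 1, β => by
    have hh := hφ.tl hV hv (List.ofFn fun l : Fin (n + 1) => β l.succ)
    rw [List.ofFn_succ, tl_cons, dw_ts hV hv hh h (β 0), dw_tl hV hv hφ h hf n fun l => β l.succ]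
    have hd1 : Dif fun x w => f w * qq V v (fun l : Fin (n + 1) => β l.succ) x w :=
      ((adm_one.tl hV hv _).dif).mulW f
    have hd2 : ∀ l ∈ (Finset.univ : Finset (Fin (n + 1))), Dif fun x w => h (β l.succ) / v
        * Tl V v (List.ofFn ((fun l => β (Fin.succ l)) ∘ l.succAbove)) φ x w :=
      fun l _ => ((hφ.tl hV hv _).dif).mulW fun _ => h (β l.succ) / v
    rw [ts_add hd1 (Dif.sum _ hd2), ts_mulW (F := qq V v fun l : Fin (n + 1) => β l.succ)
      (adm_one.tl hV hv _).dif f, ts_sum _ hd2]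
    funext x w
    simp only [ts_mulW (hφ.tl hV hv _).dif]
    have eq : qq V v β = Ts V v (β 0) (qq V v fun l => β (Fin.succ l)) := by
      simp only [qq, List.ofFn_succ, tl_cons]
    have el : ∀ l : Fin (n + 1), Tl V v (List.ofFn (β ∘ (Fin.succ l).succAbove)) φ
        = Ts V v (β 0) (Tl V v (List.ofFn ((fun l => β (Fin.succ l)) ∘ l.succAbove)) φ) := by
      intro l
      rw [List.ofFn_succ, tl_cons]
      simp [Function.comp_def, Fin.succ_succAbove_succ]
    rw [Fin.sum_univ_succ (f := fun l : Fin (n + 2) =>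
      h (β l) / v * Tl V v (List.ofFn (β ∘ l.succAbove)) φ x w)]
    have e0 : β ∘ (0 : Fin (n + 2)).succAbove = fun l => β (Fin.succ l) := by
      funext l; simp
    simp only [el, e0, eq]
    ring

/-- The pairing of an array with a family. -/
def pr {P : Type} [Fintype P] {n : ℕ} (B : P × (Fin n → Fin d) → ℝ)
    (Φ : P × (Fin n → Fin d) → E d → E d → ℝ) (x w : E d) : ℝ := ∑ s, B s * Φ s x w

theorem adm_pr {P : Type} [Fintype P] {n : ℕ} (B : P × (Fin n → Fin d) → ℝ)
    {Φ : P × (Fin n → Fin d) → E d → E d → ℝ} (h : ∀ s, Adm (Φ s)) : Adm (pr B Φ) :=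
  Adm.sum _ fun s _ => (h s).smul (c := fun _ => B s) contDiff_const

theorem exv_pr (hV : Colour.Cls (id : Fin d → Fin d) V) (hv : 0 < v) {P : Type} [Fintype P] {n : ℕ}
    (B : P × (Fin n → Fin d) → ℝ) {Φ : P × (Fin n → Fin d) → E d → E d → ℝ} (h : ∀ s, Adm (Φ s))
    (x : E d) : exv V v x (pr B Φ x) = ∑ s, B s * exv V v x (Φ s x) := by
  unfold pr
  rw [exv_sum hV hv x univ fun s _ => ((h s).pg x).gr.const_mul (B s)]
  simp [exv_const_mul]

/-- The constant of the moment bound. -/
def cm (K : ℕ → ℝ) (A : ℝ) : ℕ → ℝ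
  | 0 => A
  | n + 1 => 2 * K n + 2 * ((n : ℝ) + 1) ^ 2 * cm K A n

theorem cm_nonneg {K : ℕ → ℝ} {A : ℝ} (hK : ∀ n, 0 ≤ K n) (hA : 0 ≤ A) : ∀ n, 0 ≤ cm K A n
  | 0 => hA
  | n + 1 => by
    have := cm_nonneg hK hA n
    have := hK n
    unfold cm
    positivity

/-- Pairings of a mean-zero family. -/
theorem moment (hV : Colour.Cls (id : Fin d → Fin d) V) (hv : 0 < v) {P : Type} [Fintype P]
    {φ : P → E d → E d → ℝ} (hφ : ∀ p, Adm (φ p)) {f : P → E d → E d → ℝ}
    (hf : ∀ p h x w, dw h (φ p) x w = f p h w)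
    (hmean : ∀ p (n : ℕ) (β : Fin (n + 1) → Fin d) x,
      exv V v x (Tl V v (List.ofFn β) (φ p) x) = 0)
    {A s : ℝ} {K : ℕ → ℝ}
    (hbase : ∀ (c : P → ℝ) x, exv V v x (fun w => (∑ p, c p * φ p x w) ^ 2) ≤ A * s * nrm c ^ 2)
    (hR : ∀ (n : ℕ) (B : P × (Fin (n + 1) → Fin d) → ℝ) x, ∃ R : E d → ℝ, Gr R ∧
      (∀ w h, |∑ p, B p * (f p.1 h w * qq V v p.2 x w)| ≤ R w * ‖h‖) ∧
      exv V v x (fun w => R w ^ 2) ≤ K n * s * nrm B ^ 2 / v ^ (n + 2)) :
    ∀ (n : ℕ) (B : P × (Fin n → Fin d) → ℝ) x,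
      exv V v x (fun w => pr B (fun p => Tl V v (List.ofFn p.2) (φ p.1)) x w ^ 2)
        ≤ cm K A n * s * nrm B ^ 2 / v ^ n := by
  intro n
  induction n with
  | zero =>
    intro B x
    let e : P ≃ P × (Fin 0 → Fin d) := (Equiv.prodUnique P _).symm
    have := hbase (B ∘ e) x
    rw [nrm_comp] at this
    simp only [pow_zero, div_one, cm]
    refine le_trans (le_of_eq ?_) this
    congr 1
    funext w
    unfold pr
    rw [← e.sum_comp]
    simp [e, Tl]
  | succ n ih =>
    intro B x
    have hT : ∀ p : P × (Fin (n + 1) → Fin d), Adm (Tl V v (List.ofFn p.2) (φ p.1)) :=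
      fun p => (hφ p.1).tl hV hv _
    set U := fun w => pr B (fun p => Tl V v (List.ofFn p.2) (φ p.1)) x w
    have hU : PG U := (adm_pr B hT).pg x
    have hU0 : exv V v x U = 0 := (exv_pr hV hv B hT x).trans
      (sum_eq_zero fun p _ => by rw [hmean, mul_zero])
    obtain ⟨R, hRgr, hRb, hRi⟩ := hR n B x
    -- the arrays with one position read off
    set Bl : Fin (n + 1) → Fin d → P × (Fin n → Fin d) → ℝ :=
      fun l j p => B (p.1, Fin.insertNth l j p.2)
    set Z : Fin (n + 1) → Fin d → E d → ℝ :=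
      fun l j w => pr (Bl l j) (fun p => Tl V v (List.ofFn p.2) (φ p.1)) x w
    have hZ : ∀ l j, Gr (Z l j) := fun l j =>
      ((adm_pr (Bl l j) fun p => (hφ p.1).tl hV hv _).pg x).gr
    have hBl : ∀ l, ∑ j, nrm (Bl l j) ^ 2 = nrm B ^ 2 := fun l => by
      simp only [nrm_sq, Bl, Fintype.sum_prod_type]
      rw [sum_comm]
      refine sum_congr rfl fun p _ => ?_
      rw [← (Fin.insertNthEquiv (fun _ => Fin d) l).sum_comp fun β => B (p, β) ^ 2,
        Fintype.sum_prod_type]
      rfl
    set S := fun w => ∑ l, ∑ j, Z l j w ^ 2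
    have hS : Gr S := gr_sum univ fun l _ => gr_sum univ fun j _ => (hZ l j).sq
    have hgrad : ∀ w, ‖fderiv ℝ U w‖ ^ 2 ≤ 2 * R w ^ 2 + 2 * (n + 1) / v ^ 2 * S w := by
      intro w
      set T : Fin (n + 1) → ℝ := fun l => √(∑ j, Z l j w ^ 2)
      have hop : ‖fderiv ℝ U w‖ ≤ |R w| + (∑ l, T l) / v := by
        refine ContinuousLinearMap.opNorm_le_bound _ (by positivity) fun h => ?_
        have e1 : fderiv ℝ U w h = ∑ p, B p * dw h (Tl V v (List.ofFn p.2) (φ p.1)) x w := by
          have hd : HasFDerivAt U (∑ p, B p • fderiv ℝ (Tl V v (List.ofFn p.2) (φ p.1) x) w) w :=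
            HasFDerivAt.fun_sum fun p _ =>
              (((hT p).pg x).1.differentiable one_ne_zero w).hasFDerivAt.const_mul (B p)
          rw [hd.fderiv]
          simp [dw]
        have e2 : ∀ l, ∑ p : P × (Fin (n + 1) → Fin d), B p * (h (p.2 l) / v
            * Tl V v (List.ofFn (p.2 ∘ l.succAbove)) (φ p.1) x w) = (∑ j, h j * Z l j w) / v := by
          intro l
          rw [Fintype.sum_prod_type]
          simp only [Z, pr, Bl, mul_sum, sum_div, Fintype.sum_prod_type]
          rw [sum_comm (s := (univ : Finset (Fin d)))]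
          refine sum_congr rfl fun p _ => ?_
          rw [← (Fin.insertNthEquiv (fun _ => Fin d) l).sum_comp, Fintype.sum_prod_type]
          refine sum_congr rfl fun j _ => sum_congr rfl fun β _ => ?_
          simp [Fin.insertNthEquiv, Function.comp_def]
          ring
        have e3 : fderiv ℝ U w h = ∑ p, B p * (f p.1 h w * qq V v p.2 x w)
            + (∑ l, ∑ j, h j * Z l j w) / v := by
          rw [e1, sum_div, ← sum_congr rfl fun l _ => e2 l, sum_comm, ← sum_add_distrib]
          refine sum_congr rfl fun p _ => ?_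
          rw [congrFun (congrFun (dw_tl hV hv (hφ p.1) h (f := f p.1 h) (hf p.1 h) n p.2) x) w,
            mul_add, mul_sum]
        rw [e3, norm_eq_abs]
        refine (abs_add_le _ _).trans ?_
        rw [add_mul]
        refine add_le_add ((hRb w h).trans (mul_le_mul_of_nonneg_right (le_abs_self _)
          (norm_nonneg _))) ?_
        rw [abs_div, abs_of_pos hv, div_mul_eq_mul_div, sum_mul]
        refine div_le_div_of_nonneg_right ((abs_sum_le_sum_abs _ _).trans
          (sum_le_sum fun l _ => ?_)) hv.le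
        refine (abs_sum_le_sum_abs _ _).trans ?_
        simp only [abs_mul]
        refine (sum_mul_le_sqrt_mul_sqrt univ _ _).trans (le_of_eq ?_)
        rw [EuclideanSpace.norm_eq, mul_comm]
        simp [T, norm_eq_abs]
      have h1 := pow_le_pow_left₀ (norm_nonneg _) hop 2
      have h2 : ((∑ l, T l) / v) ^ 2 ≤ (n + 1) / v ^ 2 * S w := by
        rw [div_pow, div_mul_eq_mul_div]
        refine div_le_div_of_nonneg_right (sq_sum_le_card_mul_sum_sq.trans (le_of_eq ?_)) (sq_nonneg v)
        simp [T, S, sq_sqrt (sum_nonneg fun j (_ : j ∈ univ) => sq_nonneg (Z _ j w))]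
      have hh : 2 * ((n : ℝ) + 1) / v ^ 2 * S w = 2 * ((n + 1) / v ^ 2 * S w) := by ring
      rw [hh]
      nlinarith [sq_nonneg (|R w| - (∑ l, T l) / v), sq_abs (R w)]
    have hdS : Gr fun w => 2 * (↑n + 1) / v ^ 2 * S w := hS.const_mul _
    have hgi := exv_mono hV hv x hU.gr_fderiv.sq ((hRgr.sq.const_mul 2).add hdS) hgrad
    rw [exv_add hV hv x (hRgr.sq.const_mul 2) hdS, exv_const_mul, exv_const_mul] at hgi
    have hSi : exv V v x S ≤ (n + 1) * (cm K A n * s * nrm B ^ 2 / v ^ n) := by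
      rw [exv_sum hV hv x univ fun l _ => gr_sum univ fun j _ => (hZ l j).sq]
      refine (sum_le_sum fun l _ => ?_).trans (le_of_eq (?_ : ∑ _l : Fin (n + 1),
        cm K A n * s * nrm B ^ 2 / v ^ n = _))
      · rw [exv_sum hV hv x univ fun j _ => (hZ l j).sq, ← hBl l, mul_sum, sum_div]
        exact sum_le_sum fun j _ => ih (Bl l j) x
      · simp
    have hP := exv_sq_sub_le hV hv x hU.gr hU.1 hU.gr_fderiv
    simp only [hU0, sub_zero] at hP
    refine hP.trans ?_
    refine (mul_le_mul_of_nonneg_left (hgi.trans (add_le_add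
      (mul_le_mul_of_nonneg_left hRi zero_le_two)
      (mul_le_mul_of_nonneg_left hSi (by positivity)))) hv.le).trans (le_of_eq ?_)
    simp only [cm]
    field_simp
    ring

/-- Pairings of the scores. -/
theorem moment_qq (hV : Colour.Cls (id : Fin d → Fin d) V) (hv : 0 < v) (n : ℕ)
    (B : (Fin n → Fin d) → ℝ) (x : E d) :
    exv V v x (fun w => (∑ β, B β * qq V v β x w) ^ 2)
      ≤ cm (fun _ => 0) 1 n * nrm B ^ 2 / v ^ n := by
  let e : (Fin n → Fin d) ≃ Unit × (Fin n → Fin d) := (Equiv.uniqueProd _ Unit).symm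
  have h := moment hV hv (P := Unit) (φ := fun _ _ _ => 1) (fun _ => adm_one)
    (f := fun _ _ _ => 0) (fun _ h x w => by simp [dw])
    (fun _ k β x => exv_qq hV hv β x) (A := 1) (s := 1) (K := fun _ => 0) (fun c x => le_of_eq (by simp [exv_const hV hv, nrm_sq]))
    (fun k B x => ⟨fun _ => 0, gr_const 0, fun w h => by simp, le_of_eq (by simp [exv_const hV hv])⟩)
    n (B ∘ e.symm) x
  rw [nrm_comp, mul_one] at h
  refine le_trans (le_of_eq ?_) h
  congr 1
  funext w
  unfold pr
  rw [← e.sum_comp]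
  simp [qq, e]

/-- The constant of the centred gradient. -/
def cr (n : ℕ) : ℝ := cm (fun k => 4 * cm (fun _ => 0) 1 (k + 1)) 4 n

theorem cm_qq_nonneg (n : ℕ) : 0 ≤ cm (fun _ => 0) 1 n :=
  cm_nonneg (fun _ => le_rfl) zero_le_one n

theorem cr_nonneg (n : ℕ) : 0 ≤ cr n :=
  cm_nonneg (fun k => mul_nonneg (by norm_num) (cm_qq_nonneg _)) (by norm_num) n

/-- Pairings of the centred gradient and its derivatives. -/
theorem moment_rr (hV : Colour.Cls (id : Fin d → Fin d) V) (hv : 0 < v) (n : ℕ)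
    (B : Fin d × (Fin n → Fin d) → ℝ) (x : E d) :
    exv V v x (fun w => (∑ s, B s * rr V v s.1 s.2 x w) ^ 2) ≤ cr n * v * nrm B ^ 2 / v ^ n := by
  have hg := Quarter.pot_gOf hV
  have hdg : ∀ o h w, fderiv ℝ (fun w => gOf (oracle V) w o) w h
      = fderiv ℝ (gOf (oracle V)) w h o := fun o h w =>
    congrArg (fun T : E d →L[ℝ] ℝ => T h) (((EuclideanSpace.proj o : E d →L[ℝ] ℝ).hasFDerivAt.comp w
      (hg.smooth.differentiable one_ne_zero w).hasFDerivAt).fderiv)
  refine moment hV hv (φ := gc V v) (adm_gc hV hv)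
    (f := fun o h w => fderiv ℝ (gOf (oracle V)) w h o) (fun o h x w => ?_)
    (fun o k β x => exv_rr hV hv o β x) (A := 4) (s := v) (K := fun k => 4 * cm (fun _ => 0) 1 (k + 1))
    ?_ ?_ n B x
  · show fderiv ℝ (fun w => gOf (oracle V) w o - Nv V v x o) w h = _
    rw [fderiv_sub_const, hdg]
  · intro c x
    set u : E d := WithLp.toLp 2 c
    have hu : ‖u‖ ^ 2 = nrm c ^ 2 := by
      rw [EuclideanSpace.norm_sq_eq, nrm_sq]; simp [u]
    have := exv_var_g hV hv x u
    rw [mul_pow, hu] at this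
    refine le_trans (le_of_eq ?_) (this.trans (le_of_eq (by ring)))
    congr 1
    funext w
    congr 1
    simp [u, gc, PiLp.inner_apply, mul_comm, mul_sub, Finset.sum_sub_distrib]
  · intro k B x
    set Q : Fin d → E d → ℝ := fun o w => ∑ β, B (o, β) * qq V v β x w
    have hQ : ∀ o, Gr (Q o) := fun o => gr_sum univ fun β _ =>
      (((adm_one.tl hV hv _).pg x).gr).const_mul (B (o, β))
    have hQ2 : Gr fun w => ∑ o, Q o w ^ 2 := gr_sum univ fun o _ => (hQ o).sq
    have hRgr : Gr fun w => 2 * √(∑ o, Q o w ^ 2) := by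
      obtain ⟨hm, l, C, hC⟩ := hQ2
      have hC0 : 0 ≤ C := by simpa using (abs_nonneg _).trans (hC 0)
      refine ⟨(hm.sqrt).const_mul 2, l, 2 * (1 + C), fun w => ?_⟩
      have h1 := (le_abs_self _).trans (hC w)
      have h2 : (1 : ℝ) ≤ (1 + ‖w‖) ^ l := one_le_pow₀ (by linarith [norm_nonneg w])
      have h3 : 0 ≤ ∑ o, Q o w ^ 2 := sum_nonneg fun o _ => sq_nonneg _
      rw [abs_of_nonneg (by positivity)]
      nlinarith [sq_nonneg (√(∑ o, Q o w ^ 2) - 1), sq_sqrt h3]
    refine ⟨_, hRgr, fun w h => ?_, ?_⟩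
    · have e : ∑ p, B p * (fderiv ℝ (gOf (oracle V)) w h p.1 * qq V v p.2 x w)
          = ∑ o, fderiv ℝ (gOf (oracle V)) w h o * Q o w := by
        simp only [Fintype.sum_prod_type, Q, mul_sum]
        exact sum_congr rfl fun o _ => sum_congr rfl fun β _ => by ring
      rw [e]
      refine (abs_sum_le_sum_abs _ _).trans ?_
      simp only [abs_mul]
      refine (sum_mul_le_sqrt_mul_sqrt univ _ _).trans ?_
      simp only [sq_abs]
      rw [show √(∑ i, fderiv ℝ (gOf (oracle V)) w h i ^ 2) = ‖fderiv ℝ (gOf (oracle V)) w h‖ by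
        rw [EuclideanSpace.norm_eq]; simp]
      refine (mul_le_mul_of_nonneg_right (((fderiv ℝ (gOf (oracle V)) w).le_opNorm h).trans
        (mul_le_mul_of_nonneg_right (Quarter.Tgt.pot_norm hg w) (norm_nonneg h)))
        (sqrt_nonneg _)).trans (le_of_eq (by ring))
    · have e : ∀ w, (2 * √(∑ o, Q o w ^ 2)) ^ 2 = 4 * ∑ o, Q o w ^ 2 := fun w => by
        rw [mul_pow, sq_sqrt (sum_nonneg fun o _ => sq_nonneg _)]; norm_num
      simp only [e]
      rw [exv_const_mul, exv_sum hV hv x univ fun o _ => (hQ o).sq]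
      refine (mul_le_mul_of_nonneg_left (sum_le_sum fun o _ =>
        moment_qq hV hv (k + 1) (fun β => B (o, β)) x) (by norm_num)).trans (le_of_eq ?_)
      simp only [nrm_sq, Fintype.sum_prod_type, ← sum_div, ← mul_sum]
      field_simp
      ring

/-- The flattening of the mixed moments into centred gradient against scores. -/
theorem opLE_rr_qq (hV : Colour.Cls (id : Fin d → Fin d) V) (hv : 0 < v) (a b : ℕ) (x : E d) :
    OpLE (fun (s : Fin d × (Fin b → Fin d)) (α : Fin a → Fin d) =>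
        exv V v x fun w => rr V v s.1 s.2 x w * qq V v α x w)
      (√(cr b * v / v ^ b) * √(cm (fun _ => 0) 1 a / v ^ a)) := by
  intro B A
  have hr : ∀ s : Fin d × (Fin b → Fin d), Gr (rr V v s.1 s.2 x) := fun s =>
    (((adm_gc hV hv s.1).tl hV hv _).pg x).gr
  have hq : ∀ α : Fin a → Fin d, Gr (qq V v α x) := fun α => ((adm_one.tl hV hv _).pg x).gr
  have hF : Gr fun w => ∑ s, B s * rr V v s.1 s.2 x w :=
    gr_sum univ fun s _ => (hr s).const_mul (B s)
  have hG : Gr fun w => ∑ α, A α * qq V v α x w := gr_sum univ fun α _ => (hq α).const_mul (A α)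
  have h0 : 0 ≤ cr b * v / v ^ b := by have := cr_nonneg b; positivity
  have h1 : 0 ≤ cm (fun _ => 0) 1 a / v ^ a := by have := cm_qq_nonneg a; positivity
  have h := abs_exv_mul_le hV hv x hF hG (P := √(cr b * v / v ^ b) * nrm B)
    (Q := √(cm (fun _ => 0) 1 a / v ^ a) * nrm A)
    (mul_nonneg (sqrt_nonneg _) (nrm_nonneg B)) (mul_nonneg (sqrt_nonneg _) (nrm_nonneg A))
    ((moment_rr hV hv b B x).trans (le_of_eq (by rw [mul_pow, sq_sqrt h0]; ring)))
    ((moment_qq hV hv a A x).trans (le_of_eq (by rw [mul_pow, sq_sqrt h1]; ring)))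
  refine le_trans (le_trans (le_of_eq ?_) ((le_abs_self _).trans h)) (le_of_eq (by ring))
  have e : ∀ w, (∑ s, B s * rr V v s.1 s.2 x w) * ∑ α, A α * qq V v α x w
      = ∑ s, ∑ α, B s * A α * (rr V v s.1 s.2 x w * qq V v α x w) := fun w => by
    rw [sum_mul_sum]
    exact sum_congr rfl fun s _ => sum_congr rfl fun α _ => by ring
  simp only [e]
  rw [exv_sum hV hv x univ fun s _ => gr_sum univ fun α _ => ((hr s).mul (hq α)).const_mul _]
  refine sum_congr rfl fun s _ => ?_
  rw [exv_sum hV hv x univ fun α _ => ((hr s).mul (hq α)).const_mul _]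
  refine sum_congr rfl fun α _ => ?_
  rw [exv_const_mul]
  ring

end

end Vale.Agent.P347.Zero
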