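import Vale.Agent.P347.Zero.Posterior
import Vale.Agent.P347.Zero.GaussSmooth

/-!
# P347, exponent 0: differentiating posterior means in the centre

Functions of the centre `x` and the point `w` that are finite sums of products `c x * m w`, and the
operator `Ts i`, the derivative of a posterior mean read under the integral.
-/

namespace Vale.Agent.P347.Zero

open MeasureTheory Real Set
open Vale.Agent.P347.Quarter (E γ gOf)
open Vale.Agent.P347.Quarter.Tgt (back lawE)
open Vale.Agent.P347.Colour (Pt oracle)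
open scoped RealInnerProductSpace ContDiff

noncomputable section

variable {d : ℕ} {V : Pt d → ℝ} {v : ℝ}

/-- Continuously differentiable, of polynomial growth with the derivative. -/
def PG (m : E d → ℝ) : Prop :=
  ContDiff ℝ 1 m ∧ ∃ (C : ℝ) (k : ℕ), ∀ w,
    |m w| ≤ C * (1 + ‖w‖) ^ k ∧ ‖fderiv ℝ m w‖ ≤ C * (1 + ‖w‖) ^ k

theorem PG.const (c : ℝ) : PG fun _ : E d => c :=
  ⟨contDiff_const, |c|, 0, fun w => by simp⟩

theorem PG.coord (i : Fin d) : PG fun w : E d => w i := by
  refine ⟨(EuclideanSpace.proj i : E d →L[ℝ] ℝ).contDiff, 1, 1, fun w => ⟨?_, ?_⟩⟩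
  · rw [one_mul, pow_one, ← norm_eq_abs]
    linarith [PiLp.norm_apply_le w i]
  · rw [show fderiv ℝ (fun w : E d => w i) w = EuclideanSpace.proj i from
      (EuclideanSpace.proj i : E d →L[ℝ] ℝ).fderiv]
    refine ContinuousLinearMap.opNorm_le_bound _ (by positivity) fun u => ?_
    refine le_trans (PiLp.norm_apply_le u i) (le_mul_of_one_le_left (norm_nonneg u) ?_)
    simp

theorem PG.mul {m n : E d → ℝ} (hm : PG m) (hn : PG n) : PG fun w => m w * n w := by
  obtain ⟨hm1, C, k, hC⟩ := hm
  obtain ⟨hn1, D, l, hD⟩ := hn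
  have hC0 : 0 ≤ C := by simpa using (abs_nonneg _).trans (hC 0).1
  have hD0 : 0 ≤ D := by simpa using (abs_nonneg _).trans (hD 0).1
  refine ⟨hm1.mul hn1, 2 * (C * D), k + l, fun w => ?_⟩
  set r := 1 + ‖w‖
  have hr : 0 ≤ r := by positivity
  have e : C * r ^ k * (D * r ^ l) = C * D * r ^ (k + l) := by ring
  refine ⟨?_, ?_⟩
  · rw [abs_mul]
    exact (mul_le_mul (hC w).1 (hD w).1 (abs_nonneg _) (by positivity)).trans
      (e.le.trans (by nlinarith [mul_nonneg (mul_nonneg hC0 hD0) (pow_nonneg hr (k + l))]))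
  · rw [show (fun w => m w * n w) = m * n from rfl,
      ((hm1.differentiable one_ne_zero w).hasFDerivAt.mul
        (hn1.differentiable one_ne_zero w).hasFDerivAt).fderiv]
    refine (norm_add_le _ _).trans ?_
    rw [norm_smul, norm_smul, norm_eq_abs, norm_eq_abs]
    nlinarith [mul_le_mul (hC w).1 (hD w).2 (norm_nonneg _) (by positivity : 0 ≤ C * r ^ k),
      mul_le_mul (hD w).1 (hC w).2 (norm_nonneg _) (by positivity : 0 ≤ D * r ^ l)]

theorem pg_g (hV : Colour.Cls (id : Fin d → Fin d) V) (i : Fin d) :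
    PG fun w => gOf (oracle V) w i := by
  have hg := Quarter.pot_gOf hV
  refine ⟨(EuclideanSpace.proj i : E d →L[ℝ] ℝ).contDiff.comp hg.smooth, 2, 1, fun w => ⟨?_, ?_⟩⟩
  · rw [pow_one, ← norm_eq_abs]
    refine (PiLp.norm_apply_le _ i).trans ?_
    linarith [Quarter.Tgt.pot_lin hg w]
  · have h := ((EuclideanSpace.proj i : E d →L[ℝ] ℝ).hasFDerivAt.comp w
      (hg.smooth.differentiable one_ne_zero w).hasFDerivAt).fderiv
    rw [show fderiv ℝ (fun w => gOf (oracle V) w i) w = _ from h]
    refine ContinuousLinearMap.opNorm_le_bound _ (by positivity) fun u => ?_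
    refine le_trans (PiLp.norm_apply_le _ i) (((fderiv ℝ (gOf (oracle V)) w).le_opNorm u).trans
      (mul_le_mul_of_nonneg_right ((Quarter.Tgt.pot_norm hg w).trans ?_) (norm_nonneg u)))
    rw [pow_one]; nlinarith [norm_nonneg w]

theorem PG.gr {m : E d → ℝ} (hm : PG m) : Gr m := by
  obtain ⟨h1, C, k, hC⟩ := hm
  exact ⟨h1.continuous.measurable, k, C, fun w => (hC w).1⟩

theorem PG.gr_fderiv {m : E d → ℝ} (hm : PG m) : Gr fun w => ‖fderiv ℝ m w‖ := by
  obtain ⟨h1, C, k, hC⟩ := hm
  exact ⟨(h1.continuous_fderiv one_ne_zero).norm.measurable, k, C, fun w => by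
    rw [abs_norm]; exact (hC w).2⟩

/-! ## Admissible functions -/

/-- Finite sums of a smooth function of the centre times a function of polynomial growth. -/
inductive Adm : (E d → E d → ℝ) → Prop
  | mk {c m : E d → ℝ} (hc : ContDiff ℝ ∞ c) (hm : PG m) : Adm fun x w => c x * m w
  | add {F G : E d → E d → ℝ} (hF : Adm F) (hG : Adm G) : Adm fun x w => F x w + G x w

theorem Adm.congr {F G : E d → E d → ℝ} (h : Adm F) (e : ∀ x w, G x w = F x w) : Adm G :=
  (funext₂ e : G = F) ▸ h

theorem Adm.ofPG {m : E d → ℝ} (hm : PG m) : Adm fun (_ : E d) w => m w :=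
  (Adm.mk (c := fun _ => 1) contDiff_const hm).congr fun _ _ => (one_mul _).symm

theorem Adm.ofC {c : E d → ℝ} (hc : ContDiff ℝ ∞ c) : Adm fun (x _ : E d) => c x :=
  (Adm.mk hc (PG.const 1)).congr fun _ _ => (mul_one _).symm

theorem Adm.smul {F : E d → E d → ℝ} (h : Adm F) {c : E d → ℝ} (hc : ContDiff ℝ ∞ c) :
    Adm fun x w => c x * F x w := by
  induction h with
  | mk hc' hm => exact (Adm.mk (hc.mul hc') hm).congr fun x w => by ring
  | add _ _ hF hG => exact (hF.add hG).congr fun x w => by ring

theorem Adm.mulPG {F : E d → E d → ℝ} (h : Adm F) {n : E d → ℝ} (hn : PG n) :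
    Adm fun x w => n w * F x w := by
  induction h with
  | mk hc hm => exact (Adm.mk hc (hn.mul hm)).congr fun x w => by ring
  | add _ _ hF hG => exact (hF.add hG).congr fun x w => by ring

theorem Adm.mul {F G : E d → E d → ℝ} (hF : Adm F) (hG : Adm G) :
    Adm fun x w => F x w * G x w := by
  induction hF with
  | mk hc hm => exact ((hG.mulPG hm).smul hc).congr fun x w => by ring
  | add _ _ h1 h2 => exact (h1.add h2).congr fun x w => by ring

theorem Adm.sub {F G : E d → E d → ℝ} (hF : Adm F) (hG : Adm G) :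
    Adm fun x w => F x w - G x w :=
  (hF.add (hG.smul (c := fun _ => -1) contDiff_const)).congr fun x w => by ring

theorem Adm.zero : Adm fun (_ _ : E d) => (0 : ℝ) := Adm.ofC contDiff_const

theorem Adm.sum {ι : Type*} (s : Finset ι) {F : ι → E d → E d → ℝ} (h : ∀ i ∈ s, Adm (F i)) :
    Adm fun x w => ∑ i ∈ s, F i x w := by
  classical
  induction s using Finset.induction_on with
  | empty => simpa using Adm.zero
  | insert a s ha ih =>
    exact ((h a (Finset.mem_insert_self a s)).add
      (ih fun i hi => h i (Finset.mem_insert_of_mem hi))).congr fun x w => Finset.sum_insert ha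

theorem Adm.differentiable {F : E d → E d → ℝ} (h : Adm F) (w : E d) :
    Differentiable ℝ fun x => F x w := by
  induction h with
  | mk hc _ => exact (hc.differentiable (by simp)).mul_const _
  | add _ _ hF hG => exact hF.add hG

theorem Adm.pg {F : E d → E d → ℝ} (h : Adm F) (x : E d) : PG (F x) := by
  induction h with
  | @mk c m _ hm => exact (PG.const (c x)).mul hm
  | @add F G _ _ hF hG =>
    obtain ⟨h1, C, k, hC⟩ := hF
    obtain ⟨h2, D, l, hD⟩ := hG
    refine ⟨h1.add h2, C + D, max k l, fun w => ?_⟩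
    have hr : (1 : ℝ) ≤ 1 + ‖w‖ := by linarith [norm_nonneg w]
    have hC0 : 0 ≤ C := by simpa using (abs_nonneg _).trans (hC 0).1
    have hD0 : 0 ≤ D := by simpa using (abs_nonneg _).trans (hD 0).1
    have p1 : C * (1 + ‖w‖) ^ k ≤ C * (1 + ‖w‖) ^ max k l :=
      mul_le_mul_of_nonneg_left (pow_le_pow_right₀ hr (le_max_left k l)) hC0
    have p2 : D * (1 + ‖w‖) ^ l ≤ D * (1 + ‖w‖) ^ max k l :=
      mul_le_mul_of_nonneg_left (pow_le_pow_right₀ hr (le_max_right k l)) hD0
    constructor
    · exact (abs_add_le _ _).trans (by linarith [(hC w).1, (hD w).1])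
    · rw [show ((fun x w => F x w + G x w) x) = F x + G x from rfl,
        fderiv_add (h1.differentiable one_ne_zero w) (h2.differentiable one_ne_zero w)]
      exact (norm_add_le _ _).trans (by linarith [(hC w).2, (hD w).2])

/-- The derivative in the centre. -/
def dx (i : Fin d) (F : E d → E d → ℝ) : E d → E d → ℝ :=
  fun x w => fderiv ℝ (fun x' => F x' w) x (unitV i)

theorem dx_mk {c m : E d → ℝ} (hc : ContDiff ℝ ∞ c) (i : Fin d) :
    dx i (fun x w => c x * m w) = fun x w => dv (unitV i) c x * m w := by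
  funext x w
  simp only [dx, fderiv_mul_const (hc.differentiable (by simp) x), smul_apply, smul_eq_mul, dv]
  ring

theorem dx_add {F G : E d → E d → ℝ} (hF : Adm F) (hG : Adm G) (i : Fin d) :
    dx i (fun x w => F x w + G x w) = fun x w => dx i F x w + dx i G x w := by
  funext x w
  simp only [dx, fderiv_fun_add (hF.differentiable w x) (hG.differentiable w x), add_apply]

theorem dx_mul {F G : E d → E d → ℝ} (hF : Adm F) (hG : Adm G) (i : Fin d) :
    dx i (fun x w => F x w * G x w) = fun x w => dx i F x w * G x w + F x w * dx i G x w := by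
  funext x w
  simp only [dx, fderiv_fun_mul (hF.differentiable w x) (hG.differentiable w x), add_apply,
    smul_apply, smul_eq_mul]
  ring

theorem Adm.dx {F : E d → E d → ℝ} (h : Adm F) (i : Fin d) : Adm (Zero.dx i F) := by
  induction h with
  | mk hc hm => rw [dx_mk hc]; exact Adm.mk (contDiff_dv hc _) hm
  | add hF hG ihF ihG => rw [dx_add hF hG]; exact ihF.add ihG

theorem adm_q1 (hV : Colour.Cls (id : Fin d → Fin d) V) (hv : 0 < v) (i : Fin d) :
    Adm (q1 V v i) := by
  have hN : ContDiff ℝ ∞ fun x : E d => Nv V v x i - x i / v :=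
    ((contDiff_piLp 2).1 (Nv_smooth hV hv).1 i).sub
      ((EuclideanSpace.proj i : E d →L[ℝ] ℝ).contDiff.div_const v)
  exact ((Adm.mk (c := fun _ => 1 / v) contDiff_const (PG.coord i)).add (Adm.ofC hN)).congr
    fun x w => by simp only [q1]; ring

/-- A derivative of a posterior mean, read under the integral. -/
def Ts (V : Pt d → ℝ) (v : ℝ) (i : Fin d) (F : E d → E d → ℝ) : E d → E d → ℝ :=
  fun x w => dx i F x w + q1 V v i x w * F x w

/-- Iterated derivatives under the integral. -/
def Tl (V : Pt d → ℝ) (v : ℝ) (l : List (Fin d)) (F : E d → E d → ℝ) : E d → E d → ℝ :=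
  l.foldr (Ts V v) F

theorem Adm.ts {F : E d → E d → ℝ} (h : Adm F) (hV : Colour.Cls (id : Fin d → Fin d) V)
    (hv : 0 < v) (i : Fin d) : Adm (Ts V v i F) :=
  (h.dx i).add ((adm_q1 hV hv i).mul h)

theorem Adm.tl {F : E d → E d → ℝ} (h : Adm F) (hV : Colour.Cls (id : Fin d → Fin d) V)
    (hv : 0 < v) : ∀ l, Adm (Tl V v l F)
  | [] => h
  | i :: l => (Adm.tl h hV hv l).ts hV hv i

theorem contDiff_exv_adm (hV : Colour.Cls (id : Fin d → Fin d) V) (hv : 0 < v)
    {F : E d → E d → ℝ} (h : Adm F) : ContDiff ℝ ∞ fun x => exv V v x (F x) := by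
  induction h with
  | @mk c m hc hm =>
    simp only [exv_const_mul]
    exact hc.mul (contDiff_exv hV hv hm.gr)
  | @add F G hF hG ihF ihG =>
    have e : (fun x => exv V v x fun w => F x w + G x w)
        = fun x => exv V v x (F x) + exv V v x (G x) :=
      funext fun x => exv_add hV hv x (hF.pg x).gr (hG.pg x).gr
    rw [e]
    exact ihF.add ihG

theorem dv_exv (hV : Colour.Cls (id : Fin d → Fin d) V) (hv : 0 < v) {F : E d → E d → ℝ}
    (h : Adm F) (i : Fin d) (x : E d) :
    dv (unitV i) (fun x => exv V v x (F x)) x = exv V v x (Ts V v i F x) := by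
  induction h generalizing x with
  | @mk c m hc hm =>
    have e : (fun x => exv V v x fun w => c x * m w) = fun x => c x * exv V v x m :=
      funext fun x => exv_const_mul x _ _
    have hp : fderiv ℝ (fun x => exv V v x m) x (unitV i)
        = exv V v x fun w => m w * q1 V v i x w := pd_exv hV hv hm.gr i x
    rw [e, dv, fderiv_fun_mul (hc.differentiable (by simp) x)
      ((contDiff_exv hV hv hm.gr).differentiable (by simp) x)]
    have e2 : Ts V v i (fun x w => c x * m w) x
        = fun w => (fun x w => dv (unitV i) c x * m w) x w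
          + (fun x w => c x * (q1 V v i x w * m w)) x w := by
      funext w; simp only [Ts, dx_mk hc]; ring
    rw [e2, exv_add hV hv x ((Adm.mk (contDiff_dv hc _) hm).pg x).gr
      ((((adm_q1 hV hv i).mul (Adm.ofPG hm)).smul hc).pg x).gr]
    simp only [add_apply, smul_apply, smul_eq_mul, hp, exv_const_mul, dv,
      mul_comm (q1 V v i x _)]
    ring
  | @add F G hF hG ihF ihG =>
    have e : (fun x => exv V v x fun w => F x w + G x w)
        = fun x => exv V v x (F x) + exv V v x (G x) :=
      funext fun x => exv_add hV hv x (hF.pg x).gr (hG.pg x).gr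
    have e2 : Ts V v i (fun x w => F x w + G x w) x
        = fun w => Ts V v i F x w + Ts V v i G x w := by
      funext w; simp only [Ts, dx_add hF hG]; ring
    rw [e, e2, exv_add hV hv x ((hF.ts hV hv i).pg x).gr ((hG.ts hV hv i).pg x).gr, ← ihF x, ← ihG x, dv,
      fderiv_fun_add ((contDiff_exv_adm hV hv hF).differentiable (by simp) x)
        ((contDiff_exv_adm hV hv hG).differentiable (by simp) x), add_apply]
    rfl

end

end Vale.Agent.P347.Zero
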