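import Vale.Agent.P347.Zero.Blocks
import Vale.Agent.P347.Zero.Interp

/-!
# P347, exponent 0: the panel quadrature of `∫₀¹ dfT f 0 r u y dr` with interior nodes

The error in mean is `C * √d * KM * N ^ (-M)`, with a number of derivatives of `f` linear in `M`.
-/

namespace Vale.Agent.P347.Zero

open MeasureTheory ProbabilityTheory Real Finset Filter
open scoped Topology Nat
open Vale.Agent.P347.Quarter (E γ)

noncomputable section

set_option linter.unusedSectionVars false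

/-- A mean square bound gives a bound in mean. -/
theorem integral_abs_le_of_sq {X : Type*} [MeasurableSpace X] {μ : Measure X}
    [IsProbabilityMeasure μ] {f : X → ℝ} (hm : AEStronglyMeasurable f μ)
    (hi : Integrable (fun x => f x ^ 2) μ) {S : ℝ} (hS0 : 0 ≤ S) (hS : ∫ x, f x ^ 2 ∂μ ≤ S ^ 2) :
    Integrable f μ ∧ ∫ x, |f x| ∂μ ≤ S := by
  have hf : Integrable f μ := (hi.add (integrable_const 1)).mono' hm (ae_of_all _ fun x => by
    rw [Real.norm_eq_abs, Pi.add_apply]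
    nlinarith [sq_nonneg (|f x| - 1), sq_abs (f x)])
  refine ⟨hf, le_of_forall_pos_le_add fun ε hε => ?_⟩
  set c := S + ε with hc
  have hcp : 0 < c := by linarith
  calc ∫ x, |f x| ∂μ ≤ ∫ x, (f x ^ 2 / (2 * c) + c / 2) ∂μ :=
        integral_mono hf.abs ((hi.div_const _).add (integrable_const _)) fun x => by
          show |f x| ≤ f x ^ 2 / (2 * c) + c / 2
          rw [← sq_abs (f x)]
          have : |f x| ^ 2 / (2 * c) + c / 2 - |f x| = (|f x| - c) ^ 2 / (2 * c) := by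
            field_simp
            ring
          linarith [div_nonneg (sq_nonneg (|f x| - c)) (by linarith : (0 : ℝ) ≤ 2 * c)]
    _ = (∫ x, f x ^ 2 ∂μ) / (2 * c) + c / 2 := by
          rw [integral_add (hi.div_const _) (integrable_const _), integral_div]
          simp
    _ ≤ c ^ 2 / (2 * c) + c / 2 := by
          gcongr
          nlinarith
    _ = S + ε := by rw [hc]; field_simp; ring

/-- A time integral in mean. -/
theorem integral_intervalIntegral_le {X : Type*} [TopologicalSpace X] [MeasurableSpace X]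
    [BorelSpace X] [SecondCountableTopology X] {μ : Measure X} [IsProbabilityMeasure μ]
    {g : ℝ → X → ℝ} {a b : ℝ} (hab : a ≤ b)
    (hg : ContinuousOn (Function.uncurry g) (Set.Icc a b ×ˢ Set.univ))
    (h0 : ∀ s ∈ Set.Icc a b, ∀ x, 0 ≤ g s x)
    (hi : ∀ s ∈ Set.Icc a b, Integrable (fun x => g s x ^ 2) μ) {S : ℝ} (hS0 : 0 ≤ S)
    (hS : ∀ s ∈ Set.Icc a b, ∫ x, g s x ^ 2 ∂μ ≤ S ^ 2) :
    Integrable (fun x => ∫ s in a..b, g s x) μ ∧ ∫ x, (∫ s in a..b, g s x) ∂μ ≤ (b - a) * S := by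
  set ν := volume.restrict (Set.Ioc a b) with hν
  have hae : ∀ᵐ s ∂ν, s ∈ Set.Icc a b :=
    (ae_restrict_mem measurableSet_Ioc).mono fun s hs => Set.Ioc_subset_Icc_self hs
  have hone : ∀ s ∈ Set.Icc a b, Integrable (g s) μ ∧ ∫ x, |g s x| ∂μ ≤ S := fun s hs =>
    integral_abs_le_of_sq ((hg.comp_continuous (f := fun x => (s, x)) (by fun_prop)
      fun x => ⟨hs, Set.mem_univ _⟩).aestronglyMeasurable) (hi s hs) hS0 (hS s hs)
  have hm : AEStronglyMeasurable (fun p : ℝ × X => g p.1 p.2) (ν.prod μ) := by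
    rw [hν, ← Measure.restrict_univ (μ := μ), Measure.prod_restrict]
    exact (hg.mono (Set.prod_mono Set.Ioc_subset_Icc_self le_rfl)).aestronglyMeasurable
      (measurableSet_Ioc.prod MeasurableSet.univ)
  have hin : Integrable (fun p : ℝ × X => g p.1 p.2) (ν.prod μ) := by
    refine (integrable_prod_iff hm).2 ⟨hae.mono fun s hs => (hone s hs).1, ?_⟩
    refine (integrable_const S).mono' hm.norm.integral_prod_right' (hae.mono fun s hs => ?_)
    simp only [Real.norm_eq_abs]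
    rw [abs_of_nonneg (integral_nonneg fun x => abs_nonneg _)]
    exact (hone s hs).2
  simp only [intervalIntegral.integral_of_le hab]
  refine ⟨hin.integral_prod_right, ?_⟩
  rw [← integral_integral_swap hin]
  refine (integral_mono_of_nonneg (hae.mono fun s hs => integral_nonneg (h0 s hs))
    (integrable_const S) (hae.mono fun s hs => ?_)).trans (le_of_eq ?_)
  · exact (integral_mono (hone s hs).1 (hone s hs).1.abs fun x => le_abs_self _).trans (hone s hs).2
  · simp [hν, Real.volume_real_Ioc_of_le hab]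

section Joint

variable {ι α : Type} [Fintype ι] [DecidableEq ι] [Fintype α] [DecidableEq α]

theorem OUT_continuousOn_prod {X : TF ι α} (hX : Temp X) (i : ι → α) :
    ContinuousOn (fun q : ℝ × Sp α => OUT q.1 X q.2 i) (Set.Icc (-1) 1 ×ˢ Set.univ) := by
  intro q₀ _
  simp only [OUT_apply]
  obtain ⟨k, C, hC⟩ := (hX i).2 0
  simp only [norm_iteratedFDeriv_zero] at hC
  have hC0 : 0 ≤ C := by simpa using (norm_nonneg _).trans (hC 0)
  have hev : ∀ᶠ q in 𝓝[Set.Icc (-1) 1 ×ˢ Set.univ] q₀,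
      |q.1| ≤ 1 ∧ ‖q.2‖ ≤ ‖q₀.2‖ + 1 := by
    filter_upwards [self_mem_nhdsWithin, mem_nhdsWithin_of_mem_nhds
      ((isOpen_lt (continuous_norm.comp continuous_snd) continuous_const).mem_nhds
        (show ‖q₀.2‖ < ‖q₀.2‖ + 1 by linarith))] with q h1 h2
    exact ⟨abs_le.2 h1.1, le_of_lt h2⟩
  refine continuousWithinAt_of_dominated
    (bound := fun ξ => C * (2 + ‖q₀.2‖) ^ k * (1 + ‖ξ‖) ^ k)
    (Eventually.of_forall fun q => ((hX i).1.continuous.comp (by fun_prop)).aestronglyMeasurable)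
    ?_ ((integrable_one_add_norm_pow k).const_mul _)
    (ae_of_all _ fun ξ => ((hX i).1.continuous.comp (by fun_prop)).continuousWithinAt)
  filter_upwards [hev] with q ⟨hr, hz⟩
  refine ae_of_all _ fun ξ => (hC _).trans ?_
  rw [mul_assoc, ← mul_pow]
  refine mul_le_mul_of_nonneg_left (pow_le_pow_left₀ (by positivity) ?_ k) hC0
  refine ((ouOk hr).point_le ξ q.2).trans (mul_le_mul (by linarith) ?_ (by positivity) (by positivity))
  rw [norm_smul, norm_of_nonneg (Real.sqrt_nonneg _)]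
  exact add_le_add le_rfl
    (mul_le_of_le_one_left (norm_nonneg _) (Real.sqrt_le_one.2 (by nlinarith [sq_nonneg q.1])))

theorem Hn_continuousOn_prod {X : TF ι α} (hX : Temp X) (n : ℕ) (i : ι → α) :
    ContinuousOn (fun q : ℝ × Sp α => Hn n X q.1 q.2 i) (Set.Icc (-1) 1 ×ˢ Set.univ) := by
  induction n using Nat.strong_induction_on generalizing ι with
  | _ n ih =>
    rcases n with _ | n
    · exact OUT_continuousOn_prod hX i
    · refine ContinuousOn.congr ?_ fun q hq => Hn_succ_apply hX (abs_le.2 hq.1) n q.2 i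
      refine continuousOn_finsetSum _ fun j _ => ?_
      have hz : ContinuousOn (fun q : ℝ × Sp α => q.2 j) (Set.Icc (-1) 1 ×ˢ Set.univ) :=
        ((EuclideanSpace.proj (𝕜 := ℝ) j).continuous.comp continuous_snd).continuousOn
      exact (hz.mul (ih n (by omega) hX.gradT _)).sub
        ((continuousOn_fst.mul (ih n (by omega) hX.gradT.gradT _)).add
          (continuousOn_const.mul (ih (n - 1) (by omega) hX.gradT.gradT _)))

end Joint

variable {d : ℕ} {f : E d → E d}

theorem dfT_continuousOn_prod (hf : Temp (vecT f)) (n : ℕ) :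
    ContinuousOn (fun q : ℝ × (E d × E d) => dfT f n q.1 q.2.1 q.2.2)
      (Set.Icc (-1) 1 ×ˢ Set.univ) := by
  refine (PiLp.continuous_toLp 2 _).comp_continuousOn (continuousOn_pi.2 fun a => ?_)
  refine continuousOn_finsetSum _ fun b _ => ?_
  exact (((EuclideanSpace.proj (𝕜 := ℝ) b).continuous.comp
      (continuous_snd.comp continuous_snd)).continuousOn).mul
    ((Hn_continuousOn_prod hf.gradT n _).comp (f := fun q : ℝ × (E d × E d) => (q.1, q.2.1))
      (by fun_prop) fun q hq => ⟨hq.1, Set.mem_univ _⟩)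

theorem iteratedDerivWithin_dfT (hf : Temp (vecT f)) (n : ℕ) (u y : E d) {a b r : ℝ} (hab : a < b)
    (ha : -1 ≤ a) (hb : b ≤ 1) (hr : r ∈ Set.Icc a b) :
    iteratedDerivWithin n (fun r => dfT f 0 r u y) (Set.Icc a b) r = dfT f n r u y := by
  induction n generalizing r with
  | zero => rw [iteratedDerivWithin_zero]
  | succ n ih =>
    rw [iteratedDerivWithin_succ]
    exact (((dfT_deriv hf n u y ⟨ha.trans hr.1, hr.2.trans hb⟩).mono
      (Set.Icc_subset_Icc ha hb)).congr (fun x hx => ih hx) (ih hr)).derivWithin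
        (uniqueDiffOn_Icc hab r hr)

theorem contDiffOn_dfT (hf : Temp (vecT f)) (u y : E d) {a b : ℝ} (hab : a < b) (ha : -1 ≤ a)
    (hb : b ≤ 1) (n : ℕ) : ContDiffOn ℝ n (fun r => dfT f 0 r u y) (Set.Icc a b) :=
  contDiffOn_of_differentiableOn_deriv fun m _ r hr =>
    (((dfT_deriv hf m u y ⟨ha.trans hr.1, hr.2.trans hb⟩).mono
      (Set.Icc_subset_Icc ha hb)).congr (fun x hx => iteratedDerivWithin_dfT hf m u y hab ha hb hx)
      (iteratedDerivWithin_dfT hf m u y hab ha hb hr)).differentiableWithinAt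

/-- The mean square of `dfT` over both Gaussians. -/
theorem integral_dfT_prod {KM : ℝ} (hKM : 0 ≤ KM) {n : ℕ} (h : RB (2 * n) (gradT (vecT f)) KM)
    (hf : Temp (vecT f)) {r : ℝ} (hr : |r| ≤ 1) :
    Integrable (fun p : E d × E d => ‖dfT f n r p.1 p.2‖ ^ 2) ((γ d).prod (γ d)) ∧
      ∫ p : E d × E d, ‖dfT f n r p.1 p.2‖ ^ 2 ∂(γ d).prod (γ d) ≤ (√(cH n * d) * KM) ^ 2 := by
  have hH : Temp (Hn n (gradT (vecT f)) r) := hf.gradT.hn hr n
  have hm : AEStronglyMeasurable (fun p : E d × E d => ‖dfT f n r p.1 p.2‖ ^ 2)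
      ((γ d).prod (γ d)) :=
    (((dfT_continuousOn_prod hf n).comp_continuous (f := fun p : E d × E d => (r, p)) (by fun_prop)
      fun p => ⟨abs_le.1 hr, Set.mem_univ _⟩).norm.pow 2).aestronglyMeasurable
  have hy : ∀ u, Integrable (fun y => ‖dfT f n r u y‖ ^ 2) (γ d) := fun u => by
    set c : Fin d → Fin d → ℝ := fun a b => Hn n (gradT (vecT f)) r u (ext a fun _ => b)
    refine (Quarter.γ_sq_integrable.const_mul (∑ a, ∑ b, c a b ^ 2)).mono'
      (((dfT_continuousOn_prod hf n).comp_continuous (f := fun y : E d => (r, (u, y))) (by fun_prop)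
        fun y => ⟨abs_le.1 hr, Set.mem_univ _⟩).norm.pow 2).aestronglyMeasurable
      (ae_of_all _ fun y => ?_)
    rw [Real.norm_eq_abs, abs_pow, abs_norm, EuclideanSpace.real_norm_sq_eq,
      EuclideanSpace.real_norm_sq_eq, sum_mul]
    refine sum_le_sum fun a _ => ?_
    show (∑ b, y b * c a b) ^ 2 ≤ _
    rw [mul_comm]
    exact sum_mul_sq_le_sq_mul_sq univ (fun b => y b) (c a)
  have hin : Integrable (fun p : E d × E d => ‖dfT f n r p.1 p.2‖ ^ 2) ((γ d).prod (γ d)) := by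
    refine (integrable_prod_iff hm).2 ⟨ae_of_all _ hy, ?_⟩
    simp only [Real.norm_eq_abs, abs_pow, abs_norm, integral_dfT_sq]
    exact integrable_temp hH.sqT
  refine ⟨hin, ?_⟩
  rw [integral_prod _ hin]
  simp only [integral_dfT_sq]
  rw [γ, integral_stdGaussian_eq, mul_pow, sq_sqrt (mul_nonneg (cH_nonneg n) (Nat.cast_nonneg d))]
  refine (Hn_L2' hKM h hr).trans (le_of_eq ?_)
  simp [mul_assoc]

/-- A node of the panel rule: the nodes of the panel `[p / N, (p + 1) / N]` fill its left half. -/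
def rPan (N M : ℕ) (p : Fin N) (j : Fin (M + 1)) : ℝ :=
  eqNode M ((p : ℕ) / (N : ℝ)) ((p : ℕ) / (N : ℝ) + 1 / (2 * N)) j

/-- A weight of the panel rule. -/
def rWgt (N M : ℕ) (p : Fin N) (j : Fin (M + 1)) : ℝ :=
  li (rPan N M p) ((p : ℕ) / (N : ℝ)) (((p : ℕ) + 1) / (N : ℝ)) j

theorem rPan_facts {N M : ℕ} (p : Fin N) (j : Fin (M + 1)) :
    0 ≤ (p : ℕ) / (N : ℝ) ∧ ((p : ℕ) + 1 : ℝ) / N ≤ 1 ∧
      (p : ℕ) / (N : ℝ) < (p : ℕ) / (N : ℝ) + 1 / (2 * N) ∧
      (p : ℕ) / (N : ℝ) + 1 / (2 * N) ≤ ((p : ℕ) + 1 : ℝ) / N - 1 / (2 * N) ∧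
      rPan N M p j ∈ Set.Icc ((p : ℕ) / (N : ℝ)) ((p : ℕ) / (N : ℝ) + 1 / (2 * N)) := by
  have hN : (0 : ℝ) < N := by
    have := p.2
    exact_mod_cast (by omega : 0 < N)
  have h2 : (0 : ℝ) < 1 / (2 * N) := by positivity
  refine ⟨by positivity, ?_, by linarith, le_of_eq ?_, eqNode_mem (by linarith) j⟩
  · rw [div_le_one hN]; exact_mod_cast p.2
  · field_simp
    ring

theorem exists_rWgt_bound (M : ℕ) :
    ∃ B : ℝ, 0 ≤ B ∧ ∀ (N : ℕ) (p : Fin N), ∑ j, |rWgt N M p j| ≤ B * (1 / N) := by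
  obtain ⟨B, hB⟩ := isCompact_Icc.exists_bound_of_continuousOn
    (f := fun s => ∑ j, |lw (eqNode M 0 1) j s|) (s := Set.Icc (0 : ℝ) 2)
    (Continuous.continuousOn (continuous_finsetSum _ fun j _ => (lw_continuous _ j).abs))
  refine ⟨B, (norm_nonneg _).trans (hB 0 ⟨le_rfl, zero_le_two⟩), fun N p => ?_⟩
  obtain ⟨a0, a1, a2, a3, -⟩ := rPan_facts p (0 : Fin (M + 1))
  have hc : ∀ j, Continuous fun s => |lw (rPan N M p) j s| := fun j => (lw_continuous _ j).abs
  have hab : (p : ℕ) / (N : ℝ) ≤ ((p : ℕ) + 1 : ℝ) / N := by linarith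
  refine (sum_le_sum fun j _ => intervalIntegral.abs_integral_le_integral_abs hab).trans ?_
  rw [← intervalIntegral.integral_finsetSum (fun j _ => (hc j).intervalIntegrable _ _)]
  refine (intervalIntegral.integral_mono_on hab
    ((continuous_finsetSum _ fun j _ => hc j).intervalIntegrable _ _)
    (intervalIntegrable_const (c := B)) fun s hs => ?_).trans (le_of_eq ?_)
  · unfold rPan
    simp only [lw_eqNode a2]
    refine (le_abs_self _).trans (hB _ ⟨?_, ?_⟩)
    · exact div_nonneg (by linarith [hs.1]) (by linarith)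
    · rw [div_le_iff₀ (by linarith)]
      have : ((p : ℕ) + 1 : ℝ) / N = (p : ℕ) / (N : ℝ) + 2 * (1 / (2 * N)) := by
        field_simp
      linarith [hs.2]
  · rw [intervalIntegral.integral_const, smul_eq_mul]; ring

/-- The error of the panel rule on one curve. -/
theorem rquad_pointwise (hf : Temp (vecT f)) {B : ℝ} {N M : ℕ} (hN : 1 ≤ N)
    (hw : ∀ p : Fin N, ∑ j, |rWgt N M p j| ≤ B * (1 / N)) (u y : E d) :
    ‖(∑ p, ∑ j, rWgt N M p j • dfT f 0 (rPan N M p j) u y) - ∫ r in (0 : ℝ)..1, dfT f 0 r u y‖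
      ≤ (1 + B) * (1 / (N : ℝ)) ^ M * ∫ r in (0 : ℝ)..1, ‖dfT f (M + 1) r u y‖ := by
  have hN0 : (0 : ℝ) < N := by exact_mod_cast hN
  set F : ℝ → E d := fun r => dfT f 0 r u y with hF
  set pa : ℕ → ℝ := fun q => (q : ℝ) / N with hpa
  have hFc : ∀ n, ContinuousOn (fun r => dfT f n r u y) (Set.Icc 0 1) := fun n =>
    (dfT_continuousOn hf n _ _).mono (Set.Icc_subset_Icc_left (by norm_num))
  have hsub : ∀ q < N, Set.Icc (pa q) (pa (q + 1)) ⊆ Set.Icc 0 1 := fun q hq =>
    Set.Icc_subset_Icc (by positivity) (by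
      simp only [hpa]; rw [div_le_one hN0]; exact_mod_cast hq)
  have hle : ∀ q, pa q ≤ pa (q + 1) := fun q => by
    simp only [hpa]; push_cast; gcongr; linarith
  have e0 : pa 0 = 0 := by simp [hpa]
  have e1 : pa N = 1 := by simp [hpa, hN0.ne']
  have es : ∀ q : ℕ, pa (q + 1) = ((q : ℝ) + 1) / N := fun q => by simp [hpa]
  have hadj : ∫ r in (0 : ℝ)..1, F r = ∑ q : Fin N, ∫ r in (pa q)..(pa (q + 1)), F r := by
    rw [Fin.sum_univ_eq_sum_range (fun q => ∫ r in (pa q)..(pa (q + 1)), F r),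
      intervalIntegral.sum_integral_adjacent_intervals fun q hq =>
        ((hFc 0).mono (hsub q hq)).intervalIntegrable_of_Icc (hle q), e0, e1]
  have hadj' : ∫ r in (0 : ℝ)..1, ‖dfT f (M + 1) r u y‖
      = ∑ q : Fin N, ∫ r in (pa q)..(pa (q + 1)), ‖dfT f (M + 1) r u y‖ := by
    rw [Fin.sum_univ_eq_sum_range (fun q => ∫ r in (pa q)..(pa (q + 1)), ‖dfT f (M + 1) r u y‖),
      intervalIntegral.sum_integral_adjacent_intervals fun q hq =>
        ((hFc (M + 1)).norm.mono (hsub q hq)).intervalIntegrable_of_Icc (hle q), e0, e1]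
  rw [hadj, ← sum_sub_distrib, hadj', mul_sum]
  refine (norm_sum_le _ _).trans (sum_le_sum fun q _ => ?_)
  rw [norm_sub_rev, es]
  show ‖(∫ r in ((q : ℕ) : ℝ) / N..((q : ℕ) + 1 : ℝ) / N, F r) - _‖
    ≤ _ * ∫ r in ((q : ℕ) : ℝ) / N..((q : ℕ) + 1 : ℝ) / N, _
  set a := ((q : ℕ) : ℝ) / N with ha
  set b := ((q : ℕ) + 1 : ℝ) / N with hb
  obtain ⟨a0, a1, a2, a3, -⟩ := rPan_facts q (0 : Fin (M + 1))
  have hab : a < b := by linarith
  have hm : ∀ j, rPan N M q j ∈ Set.Icc a b := fun j => by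
    obtain ⟨-, -, -, -, h⟩ := rPan_facts q j
    exact ⟨h.1, h.2.trans (by linarith)⟩
  refine (interp_integral_bound (v := rPan N M q) hab (eqNode_injective a2) hm
    (contDiffOn_dfT hf u y hab (by linarith) a1 _)).trans ?_
  have htop : topI M F a b = ∫ r in a..b, ‖dfT f (M + 1) r u y‖ := by
    refine intervalIntegral.integral_congr fun r hr => ?_
    rw [Set.uIcc_of_le hab.le] at hr
    simp only [hF, iteratedDerivWithin_dfT hf (M + 1) u y hab (by linarith) a1 hr]
  rw [htop, ← mul_assoc]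
  refine mul_le_mul_of_nonneg_right ?_ (intervalIntegral.integral_nonneg hab.le fun r _ => norm_nonneg _)
  have hd : b - a = 1 / N := by
    rw [ha, hb, ← sub_div]; congr 1; ring
  have h1 : 1 / (N : ℝ) ≤ 1 := by rw [div_le_one hN0]; exact_mod_cast hN
  have hsum : ∑ j, |li (rPan N M q) a b j| ≤ B * (1 / N) := hw q
  have hB0 : 0 ≤ B * (1 / (N : ℝ)) := (sum_nonneg fun j _ => abs_nonneg _).trans hsum
  rw [hd]
  refine mul_le_mul ?_ (div_le_self (by positivity) (by exact_mod_cast M.factorial_pos))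
    (by positivity) ?_
  · nlinarith [(by positivity : (0 : ℝ) < 1 / N)]
  · nlinarith [(by positivity : (0 : ℝ) < 1 / N)]

theorem continuous_dfT (hf : Temp (vecT f)) (n : ℕ) {r : ℝ} (hr : r ∈ Set.Icc (-1 : ℝ) 1) :
    Continuous fun p : E d × E d => dfT f n r p.1 p.2 :=
  (dfT_continuousOn_prod hf n).comp_continuous (f := fun p : E d × E d => (r, p)) (by fun_prop)
    fun _ => ⟨hr, Set.mem_univ _⟩

theorem continuous_integral_dfT (hf : Temp (vecT f)) :
    Continuous fun p : E d × E d => ∫ r in (0 : ℝ)..1, dfT f 0 r p.1 p.2 := by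
  have h : Continuous fun p : E d × E d =>
      ∫ r in (0 : ℝ)..1, dfT f 0 (max 0 (min r 1)) p.1 p.2 :=
    intervalIntegral.continuous_parametric_intervalIntegral_of_continuous'
      (μ := volume) (f := fun (p : E d × E d) r => dfT f 0 (max 0 (min r 1)) p.1 p.2)
      ((dfT_continuousOn_prod hf 0).comp_continuous
        (f := fun q : (E d × E d) × ℝ => (max 0 (min q.2 1), q.1)) (by fun_prop)
        fun q => ⟨⟨le_trans (by norm_num) (le_max_left _ _),
          max_le zero_le_one (min_le_right _ _)⟩, Set.mem_univ _⟩) 0 1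
  refine h.congr fun p => intervalIntegral.integral_congr fun r hr => ?_
  rw [Set.uIcc_of_le zero_le_one] at hr
  simp [min_eq_left hr.2, max_eq_right hr.1]

/-- The quadrature rule. -/
theorem exists_rquad (M : ℕ) : ∃ C : ℝ, 2 ≤ C ∧ ∀ N : ℕ, 1 ≤ N →
    ∃ rs ws : Fin (N * (M + 1)) → ℝ, (∀ k, 0 ≤ rs k ∧ rs k ≤ 1 - 1 / (C * N)) ∧
      ∑ k, |ws k| ≤ C ∧
      ∀ (d : ℕ) (f : E d → E d) (KM : ℝ), 0 ≤ KM → Temp (vecT f) →
        RB (2 * (M + 1)) (gradT (vecT f)) KM →
        Integrable (fun p : E d × E d =>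
            ‖(∑ k, ws k • dfT f 0 (rs k) p.1 p.2) - ∫ r in (0 : ℝ)..1, dfT f 0 r p.1 p.2‖)
          ((γ d).prod (γ d)) ∧
        ∫ p : E d × E d,
            ‖(∑ k, ws k • dfT f 0 (rs k) p.1 p.2) - ∫ r in (0 : ℝ)..1, dfT f 0 r p.1 p.2‖
            ∂(γ d).prod (γ d) ≤ C * √d * KM * (1 / (N : ℝ)) ^ M := by
  obtain ⟨B, hB0, hB⟩ := exists_rWgt_bound M
  refine ⟨2 + B + (1 + B) * √(cH (M + 1)), by
    nlinarith [Real.sqrt_nonneg (cH (M + 1))], fun N hN => ?_⟩
  set C := 2 + B + (1 + B) * √(cH (M + 1)) with hC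
  have hC2 : 2 ≤ C := by nlinarith [Real.sqrt_nonneg (cH (M + 1))]
  have hN0 : (0 : ℝ) < N := by exact_mod_cast hN
  let e : Fin (N * (M + 1)) ≃ Fin N × Fin (M + 1) := finProdFinEquiv.symm
  have hsum : ∀ {G : Type} [AddCommMonoid G] (g : Fin N → Fin (M + 1) → G),
      ∑ k, g (e k).1 (e k).2 = ∑ p, ∑ j, g p j :=
    fun g => (e.sum_comp fun q => g q.1 q.2).trans (Fintype.sum_prod_type _)
  refine ⟨fun k => rPan N M (e k).1 (e k).2, fun k => rWgt N M (e k).1 (e k).2, fun k => ?_, ?_, ?_⟩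
  · obtain ⟨a0, a1, a2, a3, hm⟩ := rPan_facts (e k).1 (e k).2
    refine ⟨a0.trans hm.1, hm.2.trans ?_⟩
    have : 1 / (C * N) ≤ 1 / (2 * N) :=
      one_div_le_one_div_of_le (by positivity) (mul_le_mul_of_nonneg_right hC2 hN0.le)
    linarith
  · rw [hsum fun p j => |rWgt N M p j|]
    refine (sum_le_card_nsmul _ _ _ fun p _ => hB N p).trans ?_
    rw [card_univ, Fintype.card_fin, nsmul_eq_mul, show (N : ℝ) * (B * (1 / N)) = B by field_simp]
    nlinarith [Real.sqrt_nonneg (cH (M + 1))]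
  intro d f KM hKM hf hRB
  have hgc : ContinuousOn (Function.uncurry fun r (p : E d × E d) => ‖dfT f (M + 1) r p.1 p.2‖)
      (Set.Icc 0 1 ×ˢ Set.univ) :=
    ((dfT_continuousOn_prod hf (M + 1)).mono
      (Set.prod_mono (Set.Icc_subset_Icc_left (by norm_num)) le_rfl)).norm
  have hint := fun r (hr : r ∈ Set.Icc (0 : ℝ) 1) => integral_dfT_prod hKM (n := M + 1) hRB hf
    (r := r) (abs_le.2 ⟨by linarith [hr.1], hr.2⟩)
  obtain ⟨hi, hle⟩ := integral_intervalIntegral_le (μ := (γ d).prod (γ d)) zero_le_one hgc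
    (fun r _ p => norm_nonneg _) (fun r hr => (hint r hr).1)
    (by positivity : (0 : ℝ) ≤ √(cH (M + 1) * d) * KM) fun r hr => (hint r hr).2
  have hpt : ∀ p : E d × E d,
      ‖(∑ k, rWgt N M (e k).1 (e k).2 • dfT f 0 (rPan N M (e k).1 (e k).2) p.1 p.2)
          - ∫ r in (0 : ℝ)..1, dfT f 0 r p.1 p.2‖
        ≤ (1 + B) * (1 / (N : ℝ)) ^ M * ∫ r in (0 : ℝ)..1, ‖dfT f (M + 1) r p.1 p.2‖ := by
    intro p
    rw [hsum fun q j => rWgt N M q j • dfT f 0 (rPan N M q j) p.1 p.2]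
    exact rquad_pointwise hf hN (hB N) p.1 p.2
  have c1 : Continuous fun p : E d × E d =>
      ∑ k, rWgt N M (e k).1 (e k).2 • dfT f 0 (rPan N M (e k).1 (e k).2) p.1 p.2 := by
    refine continuous_finsetSum _ fun k _ => ?_
    obtain ⟨a0, a1, a2, a3, hm⟩ := rPan_facts (e k).1 (e k).2
    exact (continuous_dfT hf 0 (r := rPan N M (e k).1 (e k).2)
      ⟨by linarith [hm.1], by linarith [hm.2]⟩).const_smul (rWgt N M (e k).1 (e k).2)
  have hFm := ((c1.sub (continuous_integral_dfT hf)).norm).aestronglyMeasurable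
    (μ := (γ d).prod (γ d))
  refine ⟨(hi.const_mul ((1 + B) * (1 / (N : ℝ)) ^ M)).mono' hFm (ae_of_all _ fun p => by
    rw [norm_norm]; exact hpt p), ?_⟩
  refine (integral_mono_of_nonneg (ae_of_all _ fun p => norm_nonneg _)
    (hi.const_mul ((1 + B) * (1 / (N : ℝ)) ^ M)) (ae_of_all _ hpt)).trans ?_
  rw [integral_const_mul]
  refine (mul_le_mul_of_nonneg_left hle (by positivity)).trans ?_
  rw [Real.sqrt_mul (cH_nonneg _)]
  nlinarith [show 0 ≤ (2 + B) * (√d * KM * (1 / (N : ℝ)) ^ M) by positivity]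

end

end Vale.Agent.P347.Zero
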