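import Vale.Agent.P347.Zero.SkewTime
import Vale.Agent.P347.Zero.Interp

/-!
# P347, exponent 0: pathwise stability of collocation, and its error terms in `L²`
-/

namespace Vale.Agent.P347.Zero

open MeasureTheory ProbabilityTheory Real Finset
open scoped NNReal

noncomputable section

set_option linter.unusedSectionVars false

section Pathwise

variable {ν : Type*} [Fintype ν] {E : Type*} [NormedAddCommGroup E] [NormedSpace ℝ E]

/-- Picard iterates of the collocation equations `X i = z + ∑ j, w i j • F j (X j)`. -/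
def picard (F : ν → E → E) (w : ν → ν → ℝ) (z : E) (X₀ : ν → E) : ℕ → ν → E
  | 0 => X₀
  | k + 1 => fun i => z + ∑ j, w i j • F j (picard F w z X₀ k j)

/-- Picard iterates of a Lipschitz surrogate follow a curve up to its quadrature errors and the
errors of the surrogate on the curve alone. -/
theorem picard_err {F : ν → E → E} {L : ℝ≥0} (hF : ∀ j, LipschitzWith L (F j)) {w : ν → ν → ℝ}
    {Λ : ℝ} (hw : ∀ i, ∑ j, |w i j| ≤ Λ) (hΛ : 0 ≤ Λ) (hL : Λ * L ≤ 1 / 2) (z : E)
    (X₀ x b : ν → E) (k : ℕ) (i : ν) :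
    ‖picard F w z X₀ k i - x i‖ ≤ (Λ * L) ^ k * ∑ j, ‖X₀ j - x j‖
      + 2 * ((∑ i, ‖x i - z - ∑ j, w i j • b j‖) + Λ * ∑ j, ‖F j (x j) - b j‖) := by
  set D := ∑ j, ‖X₀ j - x j‖
  set Q := (∑ i, ‖x i - z - ∑ j, w i j • b j‖) + Λ * ∑ j, ‖F j (x j) - b j‖ with hQ
  have hD : 0 ≤ D := sum_nonneg fun _ _ => norm_nonneg _
  have hQ0 : 0 ≤ Q := add_nonneg (sum_nonneg fun _ _ => norm_nonneg _)
    (mul_nonneg hΛ (sum_nonneg fun _ _ => norm_nonneg _))
  induction k generalizing i with
  | zero =>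
    have := single_le_sum (f := fun j => ‖X₀ j - x j‖) (fun j _ => norm_nonneg _) (mem_univ i)
    simp only [picard, pow_zero, one_mul]
    linarith
  | succ k ih =>
    set ρ := (Λ * L) ^ k * D + 2 * Q with hρ
    have hρ0 : 0 ≤ ρ := (norm_nonneg _).trans (ih i)
    have h1 : picard F w z X₀ (k + 1) i - x i
        = ∑ j, w i j • (F j (picard F w z X₀ k j) - b j) - (x i - z - ∑ j, w i j • b j) := by
      simp only [picard, smul_sub, sum_sub_distrib]
      abel
    have h2 : ∀ j, ‖w i j • (F j (picard F w z X₀ k j) - b j)‖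
        ≤ |w i j| * (L * ρ + ∑ j, ‖F j (x j) - b j‖) := by
      intro j
      rw [norm_smul, Real.norm_eq_abs]
      refine mul_le_mul_of_nonneg_left ?_ (abs_nonneg _)
      refine (norm_sub_le_norm_sub_add_norm_sub _ (F j (x j)) _).trans (add_le_add ?_ ?_)
      · exact ((hF j).norm_sub_le _ _).trans (mul_le_mul_of_nonneg_left (ih j) L.coe_nonneg)
      · exact single_le_sum (f := fun j => ‖F j (x j) - b j‖) (fun j _ => norm_nonneg _)
          (mem_univ j)
    rw [h1]
    refine (norm_sub_le _ _).trans ((add_le_add ((norm_sum_le _ _).trans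
      ((sum_le_sum fun j _ => h2 j).trans (le_of_eq (sum_mul _ _ _).symm)))
      (single_le_sum (f := fun i => ‖x i - z - ∑ j, w i j • b j‖) (fun i _ => norm_nonneg _)
        (mem_univ i))).trans ?_)
    have hR : 0 ≤ L * ρ + ∑ j, ‖F j (x j) - b j‖ :=
      add_nonneg (mul_nonneg L.coe_nonneg hρ0) (sum_nonneg fun _ _ => norm_nonneg _)
    refine (add_le_add (mul_le_mul_of_nonneg_right (hw i) hR) le_rfl).trans ?_
    have h3 : Λ * L * (2 * Q) ≤ Q := by nlinarith
    rw [mul_add, ← mul_assoc Λ (L : ℝ), hρ, mul_add (Λ * L), pow_succ', mul_assoc (Λ * L)]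
    linarith [hQ]

/-- One read-out of the iterates. -/
theorem output_err {κ : Type*} [Fintype κ] {G : κ → E → E} {L : ℝ≥0}
    (hG : ∀ j, LipschitzWith L (G j)) (ω : κ → ℝ) (z y : E) (P x b : κ → E) :
    ‖z + ∑ j, ω j • G j (P j) - y‖ ≤ ‖y - z - ∑ j, ω j • b j‖
      + ∑ j, |ω j| * (L * ‖P j - x j‖ + ‖G j (x j) - b j‖) := by
  have e : z + ∑ j, ω j • G j (P j) - y
      = ∑ j, ω j • (G j (P j) - b j) - (y - z - ∑ j, ω j • b j) := by
    simp only [smul_sub, sum_sub_distrib]
    abel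
  rw [e]
  refine (norm_sub_le _ _).trans ?_
  rw [add_comm]
  refine add_le_add le_rfl ((norm_sum_le _ _).trans (sum_le_sum fun j _ => ?_))
  rw [norm_smul, Real.norm_eq_abs]
  refine mul_le_mul_of_nonneg_left ?_ (abs_nonneg _)
  exact (norm_sub_le_norm_sub_add_norm_sub _ (G j (x j)) _).trans
    (add_le_add ((hG j).norm_sub_le _ _) le_rfl)

end Pathwise

/-! ## Error terms in `L²` -/

/-- The square of a weighted sum in mean. -/
theorem integral_sq_sum_le {κ Ω : Type*} [Fintype κ] [MeasurableSpace Ω] {μ : Measure Ω}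
    (c : κ → ℝ) {f : κ → Ω → ℝ} (hf : ∀ i, Integrable (fun o => f i o ^ 2) μ) {S : ℝ} (hS : ∀ i, ∫ o, f i o ^ 2 ∂μ ≤ S) :
    ∫ o, (∑ i, c i * f i o) ^ 2 ∂μ ≤ (∑ i, |c i|) ^ 2 * S := by
  have hp : ∀ o, (∑ i, c i * f i o) ^ 2 ≤ (∑ i, |c i|) * ∑ i, |c i| * f i o ^ 2 := fun o =>
    sum_sq_le_sum_mul_sum_of_sq_le_mul univ (fun i _ => abs_nonneg _) (fun i _ => by positivity)
      fun i _ => by rw [mul_pow, ← sq_abs (c i)]; exact le_of_eq (by ring)
  have hi : Integrable (fun o => (∑ i, |c i|) * ∑ i, |c i| * f i o ^ 2) μ :=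
    (integrable_finsetSum _ fun i _ => (hf i).const_mul _).const_mul _
  refine (integral_mono_of_nonneg (ae_of_all _ fun o => sq_nonneg _) hi (ae_of_all _ hp)).trans ?_
  rw [integral_const_mul, integral_finsetSum _ fun i _ => (hf i).const_mul _, sq, mul_assoc]
  refine mul_le_mul_of_nonneg_left ?_ (sum_nonneg fun _ _ => abs_nonneg _)
  rw [sum_mul]
  exact sum_le_sum fun i _ => by
    rw [integral_const_mul]; exact mul_le_mul_of_nonneg_left (hS i) (abs_nonneg _)

theorem sq_intervalIntegral_le {f : ℝ → ℝ} {a b : ℝ} (hab : a ≤ b)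
    (hf : ContinuousOn f (Set.Icc a b)) :
    (∫ s in a..b, f s) ^ 2 ≤ (b - a) * ∫ s in a..b, f s ^ 2 := by
  set I := ∫ s in a..b, f s
  set J := ∫ s in a..b, f s ^ 2
  rcases hab.eq_or_lt with rfl | hlt
  · simp [I, J]
  set c := I / (b - a) with hc
  have i1 : IntervalIntegrable f volume a b := hf.intervalIntegrable_of_Icc hab
  have i2 : IntervalIntegrable (fun s => f s ^ 2) volume a b :=
    (hf.pow 2).intervalIntegrable_of_Icc hab
  have h0 : 0 ≤ ∫ s in a..b, (f s ^ 2 - 2 * c * f s + c ^ 2) :=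
    intervalIntegral.integral_nonneg hab fun s _ => by nlinarith [sq_nonneg (f s - c)]
  rw [intervalIntegral.integral_add (i2.sub (i1.const_mul _)) intervalIntegrable_const,
    intervalIntegral.integral_sub i2 (i1.const_mul _), intervalIntegral.integral_const_mul,
    intervalIntegral.integral_const, smul_eq_mul] at h0
  have hcI : c * (b - a) = I := div_mul_cancel₀ _ (sub_pos.2 hlt).ne'
  change 0 ≤ J - 2 * c * I + (b - a) * c ^ 2 at h0
  nlinarith [mul_le_mul_of_nonneg_left h0 (sub_pos.2 hlt).le]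

/-- The square of a time integral, or of anything below it, in mean. -/
theorem integral_sq_le_of_intervalIntegral {α : Type} [Fintype α] {μ : Measure (Sp α)}
    [IsProbabilityMeasure μ] {f : Sp α → ℝ} {g : ℝ → Sp α → ℝ} {a b : ℝ} (hab : a ≤ b)
    (hf : ∀ z, f z ^ 2 ≤ (∫ s in a..b, g s z) ^ 2)
    (hg : ContinuousOn (Function.uncurry g) (Set.Icc a b ×ˢ Set.univ))
    (hi : ∀ s ∈ Set.Icc a b, Integrable (fun z => g s z ^ 2) μ) {S : ℝ}
    (hS : ∀ s ∈ Set.Icc a b, ∫ z, g s z ^ 2 ∂μ ≤ S) :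
    ∫ z, f z ^ 2 ∂μ ≤ (b - a) ^ 2 * S := by
  set ν := volume.restrict (Set.Ioc a b) with hν
  have hae : ∀ᵐ s ∂ν, s ∈ Set.Icc a b :=
    (ae_restrict_mem measurableSet_Ioc).mono fun s hs => Set.Ioc_subset_Icc_self hs
  have hm : AEStronglyMeasurable (fun p : ℝ × Sp α => g p.1 p.2 ^ 2) (ν.prod μ) := by
    rw [hν, ← Measure.restrict_univ (μ := μ), Measure.prod_restrict]
    exact (((hg.mono (Set.prod_mono Set.Ioc_subset_Icc_self le_rfl)).pow 2).aestronglyMeasurable
      (measurableSet_Ioc.prod MeasurableSet.univ))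
  have hin : Integrable (fun p : ℝ × Sp α => g p.1 p.2 ^ 2) (ν.prod μ) := by
    refine (integrable_prod_iff hm).2 ⟨hae.mono fun s hs => hi s hs, ?_⟩
    refine (integrable_const S).mono' ?_ (hae.mono fun s hs => ?_)
    · exact hm.norm.integral_prod_right'
    · simp only [Real.norm_eq_abs, abs_pow, sq_abs]
      rw [abs_of_nonneg (integral_nonneg fun z => sq_nonneg _)]
      exact hS s hs
  have hfib : ∀ z, ContinuousOn (fun s => g s z) (Set.Icc a b) := fun z =>
    hg.comp (f := fun s : ℝ => (s, z)) (continuousOn_id.prodMk continuousOn_const)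
      fun s hs => ⟨hs, Set.mem_univ _⟩
  refine (integral_mono_of_nonneg (ae_of_all _ fun z => sq_nonneg _)
    ((hin.integral_prod_right).const_mul (b - a)) (ae_of_all _ fun z => ?_)).trans ?_
  · refine ((hf z).trans (sq_intervalIntegral_le hab (hfib z))).trans (le_of_eq ?_)
    rw [intervalIntegral.integral_of_le hab]
  · rw [integral_const_mul, sq, mul_assoc]
    refine mul_le_mul_of_nonneg_left ?_ (sub_nonneg.2 hab)
    rw [← integral_integral_swap hin]
    refine (integral_mono_of_nonneg (ae_of_all _ fun s => integral_nonneg fun z => sq_nonneg _)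
      (integrable_const S) (hae.mono fun s hs => hS s hs)).trans (le_of_eq ?_)
    simp [hν, Real.volume_real_Ioc_of_le hab]

variable {α : Type} [Fintype α] [DecidableEq α]

/-- The interpolation remainder of the velocity along the skew flow, in `L²`. -/
theorem integral_topI_vel {A : TF (Unit ⊕ Unit) α} {K : ℝ} (ha : Anti A) (hK : 0 ≤ K) {n : ℕ}
    (h : RB (nV (n + 1) (nL2 (n + 2))) A K) (h1 : RB 1 A K) {T a b : ℝ} (h0 : 0 ≤ a) (hab : a < b)
    (hT : b ≤ T) :
    ∫ z, topI n (fun s => vel A (flow (fun _ => vel A) T z s)) a b ^ 2 ∂stdGaussian (Sp α)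
      ≤ (b - a) ^ 2 * (bV (n + 1) * Fintype.card α * K ^ (2 * (n + 2))) := by
  obtain ⟨C, hb⟩ := vel_fld h1 hK T
  have hA := h1.temp
  have hsub : Set.Icc a b ⊆ Set.Icc 0 T := Set.Icc_subset_Icc h0 hT
  have e : ∀ z, topI n (fun s => vel A (flow (fun _ => vel A) T z s)) a b
      = ∫ s in a..b, ‖velV A (n + 1) (flow (fun _ => vel A) T z s)‖ := fun z => by
    refine intervalIntegral.integral_congr fun s hs => ?_
    rw [Set.uIcc_of_le hab.le] at hs
    simp only [iteratedDerivWithin_vel hA ha hb z h0 hab hT (n + 1) hs]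
  simp only [e]
  refine integral_sq_le_of_intervalIntegral hab.le (fun z => le_rfl) ?_ (fun s hs => ?_) fun s hs =>
    integral_velV ha hK h h1 (hsub hs)
  · exact ((temp_velV hA ha (n + 1)).1.continuous.norm).comp_continuousOn
      (hb.flow_continuousOn_prod.comp (f := fun p : ℝ × Sp α => (p.2, p.1)) (by fun_prop)
        fun p hp => ⟨Set.mem_univ _, hsub hp.1⟩)
  · have hm := (hb.continuous_flow_at (hsub hs)).measurable
    refine Integrable.comp_measurable (g := fun v => ‖velV A (n + 1) v‖ ^ 2) ?_ hm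
    rw [vel_flow_map h1 hK ha (hsub hs)]
    simp only [norm_velV_sq]
    exact integrable_temp (temp_velN hA ha (n + 1)).sqT

/-- The flow moves by at most its time, in `L²`. -/
theorem integral_displacement {A : TF (Unit ⊕ Unit) α} {K : ℝ} (ha : Anti A) (hK : 0 ≤ K)
    (h : RB (nV 0 (nL2 1)) A K) (h1 : RB 1 A K) {T s : ℝ} (hs : s ∈ Set.Icc 0 T) :
    ∫ z, ‖flow (fun _ => vel A) T z s - z‖ ^ 2 ∂stdGaussian (Sp α)
      ≤ s ^ 2 * (bV 0 * Fintype.card α * K ^ 2) := by
  obtain ⟨C, hb⟩ := vel_fld h1 hK T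
  have hA := h1.temp
  have hsub : Set.Icc 0 s ⊆ Set.Icc 0 T := Set.Icc_subset_Icc le_rfl hs.2
  have hcont : ContinuousOn
      (Function.uncurry fun t z => ‖velV A 0 (flow (fun _ => vel A) T z t)‖)
      (Set.Icc 0 s ×ˢ Set.univ) :=
    ((temp_velV hA ha 0).1.continuous.norm).comp_continuousOn
      (hb.flow_continuousOn_prod.comp (f := fun p : ℝ × Sp α => (p.2, p.1)) (by fun_prop)
        fun p hp => ⟨Set.mem_univ _, hsub hp.1⟩)
  have hint : ∀ t ∈ Set.Icc 0 s,
      Integrable (fun z => ‖velV A 0 (flow (fun _ => vel A) T z t)‖ ^ 2) (stdGaussian (Sp α)) :=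
    fun t ht => by
      refine Integrable.comp_measurable (g := fun v => ‖velV A 0 v‖ ^ 2) ?_
        (hb.continuous_flow_at (hsub ht)).measurable
      rw [vel_flow_map h1 hK ha (hsub ht)]
      simp only [norm_velV_sq]
      exact integrable_temp (temp_velN hA ha 0).sqT
  have hpt : ∀ z, ‖flow (fun _ => vel A) T z s - z‖
      ≤ ∫ t in (0 : ℝ)..s, ‖velV A 0 (flow (fun _ => vel A) T z t)‖ := by
    intro z
    have hc : ContinuousOn (fun t => velV A 0 (flow (fun _ => vel A) T z t)) (Set.Icc 0 s) :=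
      (temp_velV hA ha 0).1.continuous.comp_continuousOn ((hb.flow_sol z).continuousOn.mono hsub)
    have e := intervalIntegral.integral_eq_sub_of_hasDerivAt_of_le
      (f := fun t => flow (fun _ => vel A) T z t) hs.1 ((hb.flow_sol z).continuousOn.mono hsub)
      (fun t ht => (hb.flow_deriv z (hsub (Set.Ioo_subset_Icc_self ht))).hasDerivAt
        (Icc_mem_nhds ht.1 (lt_of_lt_of_le ht.2 hs.2))) (hc.intervalIntegrable_of_Icc hs.1)
    rw [hb.flow_zero] at e
    rw [← e]
    exact intervalIntegral.norm_integral_le_integral_norm hs.1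
  refine (integral_sq_le_of_intervalIntegral hs.1
    (fun z => pow_le_pow_left₀ (norm_nonneg _) (hpt z) 2) hcont hint
    fun t ht => integral_velV ha hK h h1 (hsub ht)).trans (le_of_eq ?_)
  rw [sub_zero]

/-- The `n`-th derivative of the integrand of `Wᵀ z` as a vector. -/
def wzV (M : Sp α → Sp α) (n : ℕ) (r : ℝ) (z : Sp α) : Sp α :=
  WithLp.toLp 2 fun i => wzN M n r z fun _ => i

theorem iteratedDerivWithin_wz {M : Sp α → Sp α} (hM : Temp (vecT M)) (n : ℕ) (z : Sp α)
    {a b r : ℝ} (hab : a < b) (ha : -1 ≤ a) (hb : b ≤ 1) (hr : r ∈ Set.Icc a b) :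
    iteratedDerivWithin n (fun r => wzV M 0 r z) (Set.Icc a b) r = wzV M n r z := by
  induction n generalizing r with
  | zero => rw [iteratedDerivWithin_zero]
  | succ n ih =>
    rw [iteratedDerivWithin_succ]
    have hd : HasDerivWithinAt (fun r => wzV M n r z) (wzV M (n + 1) r z) (Set.Icc a b) r := by
      have h := HasDerivWithinAt.fun_sum (u := univ) fun i _ =>
        ((wzN_deriv hM n z (fun _ => i) (r := r) ⟨ha.trans hr.1, hr.2.trans hb⟩).mono
          (Set.Icc_subset_Icc ha hb)).smul_const (unitV i)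
      exact ((h.congr (fun x _ => (sum_coord (wzV M n x z)).symm)
        (sum_coord (wzV M n r z)).symm).congr_deriv (sum_coord (wzV M (n + 1) r z)))
    exact ((hd).congr (fun x hx => ih hx) (ih hr)).derivWithin (uniqueDiffOn_Icc hab r hr)

end

end Vale.Agent.P347.Zero
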