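import Vale.Agent.P347.Zero.RQuad
import Vale.Agent.P347.Zero.Stab
import Vale.Agent.P347.Quarter.Target

/-!
# P347, exponent 0: tools for the collocation scheme of the skew flow
-/

namespace Vale.Agent.P347.Zero

open MeasureTheory ProbabilityTheory Real Finset
open scoped RealInnerProductSpace NNReal Nat
open Vale.Agent.P347.Quarter (E γ)

noncomputable section

set_option linter.unusedSectionVars false

variable {d : ℕ} {f : E d → E d}

theorem fderiv_coord (hd : Differentiable ℝ f) (u : E d) (a b : Fin d) :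
    fderiv ℝ f u (unitV a) b = gradT (vecT f) u (ext a fun _ => b) := by
  have h : HasFDerivAt (fun v => f v b)
      ((EuclideanSpace.proj (𝕜 := ℝ) b).comp (fderiv ℝ f u)) u :=
    (EuclideanSpace.proj (𝕜 := ℝ) b).hasFDerivAt.comp u (hd u).hasFDerivAt
  show _ = fderiv ℝ (fun v => f v b) u (unitV a)
  rw [h.fderiv]
  rfl

theorem adjoint_coord (hd : Differentiable ℝ f) (u y : E d) (a : Fin d) :
    (fderiv ℝ f u).adjoint y a = ∑ b, y b * gradT (vecT f) u (ext a fun _ => b) := by
  have h := ContinuousLinearMap.adjoint_inner_left (fderiv ℝ f u) (unitV a) y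
  simp only [unitV, EuclideanSpace.inner_single_right, one_mul, conj_trivial] at h
  rw [h, PiLp.inner_apply]
  refine sum_congr rfl fun b _ => ?_
  rw [← fderiv_coord hd]
  simp [unitV, mul_comm]

/-- A bound on the flattenings of the gradient is a Lipschitz bound. -/
theorem norm_fderiv_le_of_rb (hf : Temp (vecT f)) {n : ℕ} {K : ℝ}
    (h : RB n (gradT (vecT f)) K) (hK : 0 ≤ K) (u : E d) : ‖fderiv ℝ f u‖ ≤ K := by
  have hd : Differentiable ℝ f := hf.vec.1.differentiable (by simp)
  refine ContinuousLinearMap.opNorm_le_bound _ hK fun v => ?_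
  set A := fderiv ℝ f u
  have h1 := (h.bn u Unit Unit inferInstance inferInstance (optU Unit).symm)
    (fun p => v (p ())) (fun q => A v (q ()))
  have hn : ∀ w : E d, nrm (fun p : Unit → Fin d => w (p ())) = ‖w‖ := fun w => by
    rw [nrm, EuclideanSpace.norm_eq, ← (Equiv.funUnique Unit (Fin d)).symm.sum_comp]
    simp [Equiv.funUnique]
  rw [hn, hn] at h1
  have e : ∑ p : Unit → Fin d, ∑ q : Unit → Fin d,
      flat (optU Unit).symm (gradT (vecT f) u) p q * v (p ()) * A v (q ()) = ‖A v‖ ^ 2 := by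
    rw [EuclideanSpace.real_norm_sq_eq, ← (Equiv.funUnique Unit (Fin d)).symm.sum_comp]
    have hq : ∀ g : (Unit → Fin d) → ℝ, ∑ q : Unit → Fin d, g q = ∑ b : Fin d, g fun _ => b :=
      fun g => by
        rw [← (Equiv.funUnique Unit (Fin d)).symm.sum_comp]
        rfl
    refine (sum_congr rfl fun p _ => hq _).trans ?_
    rw [sum_comm]
    refine sum_congr rfl fun b _ => ?_
    have hAv : A v b = ∑ a, v a * gradT (vecT f) u (ext a fun _ => b) := by
      conv_lhs => rw [← sum_coord v]
      simp only [map_sum, map_smul, A]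
      simp [fderiv_coord hd, Finset.sum_apply]
    rw [sq]
    refine Eq.trans ?_ (congrArg (· * A v b) hAv.symm)
    rw [sum_mul]
    refine sum_congr rfl fun a _ => ?_
    have ef : flat (optU Unit).symm (gradT (vecT f) u) ((Equiv.funUnique Unit (Fin d)).symm a)
        (fun _ => b) = gradT (vecT f) u (ext a fun _ => b) := by
      show gradT (vecT f) u _ = _
      congr 1
      funext o
      rcases o with _ | ⟨⟩ <;> rfl
    rw [ef, mul_comm (v a) (gradT (vecT f) u _)]
    rfl
  rw [e] at h1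
  rcases (norm_nonneg (A v)).eq_or_lt with h0 | h0
  · rw [← h0]; positivity
  · nlinarith

theorem lipschitz_of_rb (hf : Temp (vecT f)) {n : ℕ} {K : ℝ} (h : RB n (gradT (vecT f)) K)
    (hK : 0 ≤ K) : LipschitzWith K.toNNReal f :=
  lipschitzWith_of_nnnorm_fderiv_le (hf.vec.1.differentiable (by simp)) fun u => by
    rw [← NNReal.coe_le_coe, coe_nnnorm, Real.coe_toNNReal _ hK]
    exact norm_fderiv_le_of_rb hf h hK u

theorem continuous_adjoint_fderiv (hf : Temp (vecT f)) :
    Continuous fun q : E d × E d => (fderiv ℝ f q.1).adjoint q.2 :=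
  ((ContinuousLinearMap.adjoint.continuous.comp
    ((hf.vec.1.of_le (by simp : (1 : WithTop ℕ∞) ≤ _)).continuous_fderiv one_ne_zero)).comp
      continuous_fst).clm_apply continuous_snd

theorem norm_adjoint_fderiv_le (hf : Temp (vecT f)) {n : ℕ} {K : ℝ}
    (h : RB n (gradT (vecT f)) K) (hK : 0 ≤ K) (u y : E d) :
    ‖(fderiv ℝ f u).adjoint y‖ ≤ K * ‖y‖ :=
  ((fderiv ℝ f u).adjoint.le_opNorm y).trans (mul_le_mul_of_nonneg_right
    ((LinearIsometryEquiv.norm_map _ _).trans_le (norm_fderiv_le_of_rb hf h hK u)) (norm_nonneg _))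

theorem dfT_zero_eq (hf : Temp (vecT f)) {n : ℕ} {K : ℝ} (h : RB n (gradT (vecT f)) K)
    (hK : 0 ≤ K) (r : ℝ) (u y : E d) :
    dfT f 0 r u y = ∫ ξ, (fderiv ℝ f (r • u + √(1 - r ^ 2) • ξ)).adjoint y ∂γ d := by
  have hd : Differentiable ℝ f := hf.vec.1.differentiable (by simp)
  have hc : Continuous fun ξ : E d => (fderiv ℝ f (r • u + √(1 - r ^ 2) • ξ)).adjoint y :=
    (continuous_adjoint_fderiv hf).comp
      (f := fun ξ : E d => (r • u + √(1 - r ^ 2) • ξ, y)) (by fun_prop)
  have hi : Integrable (fun ξ : E d => (fderiv ℝ f (r • u + √(1 - r ^ 2) • ξ)).adjoint y) (γ d) :=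
    (integrable_const (K * ‖y‖)).mono' hc.aestronglyMeasurable
      (ae_of_all _ fun ξ => norm_adjoint_fderiv_le hf h hK _ _)
  ext a
  show ∑ b, y b * Hn 0 (gradT (vecT f)) r u (ext a fun _ => b)
    = EuclideanSpace.proj (𝕜 := ℝ) a (∫ ξ, (fderiv ℝ f (r • u + √(1 - r ^ 2) • ξ)).adjoint y ∂γ d)
  rw [← ContinuousLinearMap.integral_comp_comm _ hi]
  simp only [PiLp.proj_apply, adjoint_coord hd, Hn, OUT_apply, ← integral_const_mul]
  rw [γ, integral_finsetSum]
  intro b _
  have hb : ∀ v, |gradT (vecT f) v (ext a fun _ => b)| ≤ K := fun v => by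
    rw [← fderiv_coord hd]
    refine (abs_apply_le_norm _ b).trans ((ContinuousLinearMap.le_opNorm _ _).trans ?_)
    rw [norm_unitV, mul_one]
    exact norm_fderiv_le_of_rb hf h hK v
  refine ((integrable_const K).mono'
    (((hf.gradT _).1.continuous.comp (by fun_prop)).aestronglyMeasurable)
    (ae_of_all _ fun ξ => (Real.norm_eq_abs _).trans_le (hb _))).const_mul _

/-! ## Rotations -/

/-- A rotated pair. -/
theorem measurePreserving_rot2 {a c : ℝ} (h : a ^ 2 + c ^ 2 = 1) :
    MeasurePreserving (fun p : E d × E d => a • p.1 + c • p.2) ((γ d).prod (γ d)) (γ d) := by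
  refine ⟨by fun_prop, ?_⟩
  rw [← (measurePreserving_pair (d := d)).map_eq, Measure.map_map (by fun_prop) (by fun_prop)]
  have h1 := map_lin_eq (d := d) (ι := Unit) (κ := Bool) (κ' := Unit)
    (fun _ k => bif k then a else c) (fun _ _ => 1) (by intro _ _; simp [← sq, h])
  calc (γs d Bool).map ((fun p : E d × E d => a • p.1 + c • p.2) ∘ fun ξ => (ξ true, ξ false))
      = ((γs d Bool).map (lin fun (_ : Unit) k => bif k then a else c)).map (fun v => v ()) := by
        rw [Measure.map_map (by fun_prop) (by fun_prop)]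
        congr 1
        funext ξ
        simp [lin]
    _ = ((γs d Unit).map (lin fun (_ : Unit) (_ : Unit) => (1 : ℝ))).map (fun v => v ()) := by
        rw [h1]
    _ = γ d := by
        rw [Measure.map_map (by fun_prop) (by fun_prop),
          show ((fun v : Unit → E d => v ()) ∘ lin fun (_ : Unit) (_ : Unit) => (1 : ℝ))
            = fun ξ => ξ () from funext fun ξ => by simp [lin]]
        exact (measurePreserving_coord ()).map_eq

/-! ## Collocation -/

variable {F : Type*} [NormedAddCommGroup F] [NormedSpace ℝ F] [CompleteSpace F]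

/-- Collocation weights on `[0, 1]`. -/
theorem li_abs_le {n : ℕ} {B : ℝ} (hB0 : 0 ≤ B)
    (hB : ∀ a b t : ℝ, a < b → t ∈ Set.Icc a b → (∑ j, |lw (eqNode n a b) j t|) ≤ B ∧
      (∑ j, |lw' (eqNode n a b) j t|) ≤ B / (b - a) ∧
        (∑ j, |li (eqNode n a b) a b j|) ≤ B * (b - a))
    {s : ℝ} (hs : s ∈ Set.Icc (0 : ℝ) 1) : ∑ j, |li (eqNode n 0 1) 0 s j| ≤ 1 + B := by
  have hc : ∀ j, Continuous fun t => |lw (eqNode n 0 1) j t| := fun j => (lw_continuous _ j).abs
  refine (sum_le_sum fun j _ => intervalIntegral.abs_integral_le_integral_abs hs.1).trans ?_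
  rw [← intervalIntegral.integral_finsetSum (fun j _ => (hc j).intervalIntegrable _ _)]
  refine (intervalIntegral.integral_mono_on hs.1
    ((continuous_finsetSum _ fun j _ => hc j).intervalIntegrable _ _)
    (intervalIntegrable_const (c := B)) fun t ht =>
      (hB 0 1 t one_pos ⟨ht.1, ht.2.trans hs.2⟩).1).trans ?_
  rw [intervalIntegral.integral_const, smul_eq_mul]
  nlinarith [hs.1, hs.2]

/-- Collocation errors on `[0, 1]`. -/
theorem colloc_err {n : ℕ} {B : ℝ} (hB0 : 0 ≤ B)
    (hB : ∀ a b t : ℝ, a < b → t ∈ Set.Icc a b → (∑ j, |lw (eqNode n a b) j t|) ≤ B ∧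
      (∑ j, |lw' (eqNode n a b) j t|) ≤ B / (b - a) ∧
        (∑ j, |li (eqNode n a b) a b j|) ≤ B * (b - a))
    {g : ℝ → F} (hg : ContDiffOn ℝ (n + 1 : ℕ) g (Set.Icc 0 1)) {s : ℝ}
    (hs : s ∈ Set.Icc (0 : ℝ) 1) :
    ‖(∫ t in (0 : ℝ)..s, g t) - ∑ j, li (eqNode n 0 1) 0 s j • g (eqNode n 0 1 j)‖
      ≤ (1 + B) * topI n g 0 1 := by
  have hinj : Function.Injective (eqNode n (0 : ℝ) 1) := eqNode_injective one_pos
  have hgi : IntervalIntegrable g volume 0 s :=
    (hg.continuousOn.mono (Set.Icc_subset_Icc_right hs.2)).intervalIntegrable_of_Icc hs.1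
  have hwi : ∀ j, IntervalIntegrable (fun t => lw (eqNode n 0 1) j t • g (eqNode n 0 1 j))
      volume 0 s := fun j => ((lw_continuous _ j).smul continuous_const).intervalIntegrable _ _
  have e : ∑ j, li (eqNode n 0 1) 0 s j • g (eqNode n 0 1 j)
      = ∫ t in (0 : ℝ)..s, ∑ j, lw (eqNode n 0 1) j t • g (eqNode n 0 1 j) := by
    rw [intervalIntegral.integral_finsetSum fun j _ => hwi j]
    simp only [li, intervalIntegral.integral_smul_const]
  have hsi : IntervalIntegrable
      (fun t => ∑ j, lw (eqNode n 0 1) j t • g (eqNode n 0 1 j)) volume 0 s :=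
    (continuous_finsetSum _ fun j _ =>
      (lw_continuous (eqNode n 0 1) j).smul continuous_const).intervalIntegrable _ _
  rw [e, ← intervalIntegral.integral_sub hgi hsi]
  refine (intervalIntegral.norm_integral_le_of_norm_le_const (C := (1 + B) * topI n g 0 1)
    fun t ht => ?_).trans ?_
  · rw [Set.uIoc_of_le hs.1] at ht
    have ht' : t ∈ Set.Icc (0 : ℝ) 1 := ⟨ht.1.le, ht.2.trans hs.2⟩
    refine (interp_bound one_pos hinj (fun j => eqNode_mem zero_le_one j) hg ht').trans ?_
    refine mul_le_mul (by linarith [(hB 0 1 t one_pos ht').1]) ?_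
      (mul_nonneg (by positivity) (topI_nonneg n g zero_le_one)) (by linarith)
    refine mul_le_of_le_one_left (topI_nonneg n g zero_le_one) ?_
    rw [sub_zero, one_pow, div_le_one (by exact_mod_cast n.factorial_pos)]
    exact_mod_cast n.factorial_pos
  · rw [sub_zero, abs_of_nonneg hs.1]
    exact mul_le_of_le_one_right (mul_nonneg (by linarith) (topI_nonneg n g zero_le_one)) hs.2

end

end Vale.Agent.P347.Zero
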