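import Vale.Agent.P347.Zero.OU
import Vale.Agent.P347.Zero.Comp

/-!
# P347, exponent 0: the flow of an antisymmetric field keeps the Gaussian exactly

`vel A` is the creation of the antisymmetric field `A`. Its flow carries the standard Gaussian to
itself, and every time derivative along it is bounded in `L²` by the bounds on the flattenings of
`A`, with only `√(card α)`.
-/

namespace Vale.Agent.P347.Zero

open MeasureTheory ProbabilityTheory Real Finset Filter Metric
open scoped Topology NNReal

noncomputable section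

set_option linter.unusedSectionVars false

variable {ι α : Type} [Fintype ι] [DecidableEq ι] [Fintype α] [DecidableEq α]

/-- The two indices of a matrix field. -/
def pair (j i : α) : Unit ⊕ Unit → α := Sum.elim (fun _ => j) fun _ => i

theorem pair_eta (x : Unit ⊕ Unit → α) : pair (x (Sum.inl ())) (x (Sum.inr ())) = x := by
  funext o
  rcases o with ⟨⟩ | ⟨⟩ <;> rfl

/-- Antisymmetric fields. -/
def Anti (A : TF (Unit ⊕ Unit) α) : Prop := ∀ z i j, A z (pair i j) = -A z (pair j i)

/-- The field made by one creation from `A`. -/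
def vel (A : TF (Unit ⊕ Unit) α) (z : Sp α) : Sp α :=
  WithLp.toLp 2 fun i => ∑ j, dd (gPot α) j (fun w => A w (pair j i)) z

theorem vel_apply (A : TF (Unit ⊕ Unit) α) (z : Sp α) (i : α) :
    vel A z i = ∑ j, dd (gPot α) j (fun w => A w (pair j i)) z := rfl

theorem vecT_vel (A : TF (Unit ⊕ Unit) α) :
    vecT (vel A) = dlt (scP (gPot α)) (ren (optU Unit).symm A) := by
  funext z i
  rw [dlt_eq]
  show vel A z (i ()) = _
  rw [vel_apply]
  refine sum_congr rfl fun j _ => ?_
  congr 1
  funext w
  show A w _ = A w _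
  congr 1
  funext o
  rcases o with ⟨⟩ | ⟨⟩ <;> rfl

theorem temp_vel {A : TF (Unit ⊕ Unit) α} (hA : Temp A) : Temp (vecT (vel A)) := by
  rw [vecT_vel]
  exact (hA.ren _).dlt temp_gPot

theorem contDiff_vel {A : TF (Unit ⊕ Unit) α} (hA : Temp A) : ContDiff ℝ 1 (vel A) :=
  (temp_vel hA).vec.1.of_le (by simp)

theorem dd_neg (Φ : Sp α → ℝ) (j : α) (f : Sp α → ℝ) (z : Sp α) :
    dd Φ j (fun w => -f w) z = -dd Φ j f z := by
  simp only [dd, pd, fderiv_fun_neg, neg_apply]
  ring

theorem dd_dd_comm {f : Sp α → ℝ} (hf : f.HasTemperateGrowth) (i j : α) (z : Sp α) :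
    dd (gPot α) i (dd (gPot α) j f) z = dd (gPot α) j (dd (gPot α) i f) z := by
  have e : ∀ i j, dd (gPot α) i (dd (gPot α) j f) z = z i * z j * f z - z i * pd j f z
      - z j * pd i f z + pd j (pd i f) z - (if i = j then f z else 0) := by
    intro i j
    rw [dd, pd_dd temp_gPot hf i j z, pd_pd_gPot, dd, dd, pd_gPot, pd_gPot]
    by_cases h : i = j
    · subst h
      simp only [if_true]
      ring
    · rw [if_neg h, if_neg (fun h' => h h'.symm)]
      ring
  rw [e i j, e j i, pd_comm hf i j z]
  by_cases h : i = j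
  · subst h
    ring
  · rw [if_neg h, if_neg (fun h' => h h'.symm)]
    ring

theorem dd_sum (Φ : Sp α → ℝ) (i : α) {β : Type*} (u : Finset β) {f : β → Sp α → ℝ}
    (hf : ∀ j ∈ u, (f j).HasTemperateGrowth) (z : Sp α) :
    dd Φ i (fun w => ∑ j ∈ u, f j w) z = ∑ j ∈ u, dd Φ i (f j) z := by
  simp only [dd, pd, mul_sum]
  rw [fderiv_fun_sum (fun j hj => temp_diff (hf j hj) z), _root_.sum_apply,
    ← sum_sub_distrib]

/-- The Gaussian divergence of `vel A` vanishes. -/
theorem sum_dd_vel {A : TF (Unit ⊕ Unit) α} (hA : Temp A) (ha : Anti A) (z : Sp α) :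
    ∑ i, dd (gPot α) i (fun w => vel A w i) z = 0 := by
  set S := ∑ i, ∑ j, dd (gPot α) i (dd (gPot α) j fun w => A w (pair j i)) z with hS
  have e : ∑ i, dd (gPot α) i (fun w => vel A w i) z = S := by
    refine sum_congr rfl fun i _ => ?_
    simp only [vel_apply]
    exact dd_sum _ _ _ (fun j _ => temp_dd temp_gPot (hA _) j) z
  have hneg : S = -S := by
    calc S = ∑ i, ∑ j, dd (gPot α) j (dd (gPot α) i fun w => A w (pair j i)) z :=
          sum_congr rfl fun i _ => sum_congr rfl fun j _ => dd_dd_comm (hA _) i j z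
      _ = ∑ j, ∑ i, dd (gPot α) j (dd (gPot α) i fun w => A w (pair j i)) z := sum_comm
      _ = ∑ j, ∑ i, -dd (gPot α) j (dd (gPot α) i fun w => A w (pair i j)) z := by
          refine sum_congr rfl fun j _ => sum_congr rfl fun i _ => ?_
          have e1 : (fun w => A w (pair j i)) = fun w => -A w (pair i j) := funext fun w => ha w j i
          have e2 : dd (gPot α) i (fun w => -A w (pair i j))
              = fun w => -dd (gPot α) i (fun w => A w (pair i j)) w := funext fun w => dd_neg _ _ _ _
          rw [e1, e2, dd_neg]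
      _ = -S := by simp only [sum_neg_distrib, hS]
  rw [e]
  linarith

/-! ## The flow -/

theorem BN.abs_le {T : Ten ι α} {c : ℝ} (h : BN T c) (hc : 0 ≤ c) {i₀ i₁ : ι} (hi : i₁ ≠ i₀)
    (x : ι → α) : |T x| ≤ c * √(Fintype.card α) := by
  have h1 : T x ^ 2 ≤ c ^ 2 * Fintype.card α :=
    (single_le_sum (f := fun y => T y ^ 2) (fun y _ => sq_nonneg _) (mem_univ x)).trans
      (h.sq_sum_le hc i₀ ⟨i₁, hi⟩)
  rw [← Real.sqrt_sq hc, ← Real.sqrt_mul (sq_nonneg c), ← Real.sqrt_sq_eq_abs]
  exact Real.sqrt_le_sqrt h1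

theorem norm_le_sum_abs (x : Sp α) : ‖x‖ ≤ ∑ j, |x j| := by
  conv_lhs => rw [← sum_coord x]
  refine (norm_sum_le _ _).trans (sum_le_sum fun j _ => le_of_eq ?_)
  rw [norm_smul, norm_unitV, mul_one, Real.norm_eq_abs]

theorem vel_fld {A : TF (Unit ⊕ Unit) α} {K : ℝ} (hA : RB 1 A K) (hK : 0 ≤ K) (T : ℝ) :
    ∃ C, Fld (fun _ => vel A) T C := by
  have hc := contDiff_vel hA.temp
  set M := K * √(Fintype.card α) with hM
  have hM0 : 0 ≤ M := by positivity
  refine ⟨Fintype.card α * (Fintype.card α * M), by positivity,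
    (hc.continuous.comp continuous_snd).continuousOn, fun t _ z => ?_, fun R => ?_⟩
  · refine (norm_le_sum_abs _).trans ?_
    refine (sum_le_card_nsmul _ _ (Fintype.card α * M * (1 + ‖z‖)) fun i _ => ?_).trans (le_of_eq ?_)
    · rw [vel_apply]
      refine (abs_sum_le_sum_abs _ _).trans ((sum_le_card_nsmul _ _ (M * (1 + ‖z‖))
        fun j _ => ?_).trans (le_of_eq ?_))
      · rw [dd, pd_gPot]
        have a1 : |A z (pair j i)| ≤ M :=
          (hA.bn z).abs_le hK (i₀ := Sum.inl ()) (i₁ := Sum.inr ()) Sum.inr_ne_inl _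
        have a2 : |pd j (fun w => A w (pair j i)) z| ≤ M := (hA.2.2.bn z).abs_le hK
          (i₀ := none) (i₁ := some (Sum.inl ())) (by simp) (ext j (pair j i))
        refine (abs_sub _ _).trans ?_
        rw [abs_mul]
        nlinarith [mul_le_mul (abs_apply_le_norm z j) a1 (abs_nonneg _) (norm_nonneg z)]
      · rw [nsmul_eq_mul, card_univ]
        ring
    · rw [nsmul_eq_mul, card_univ]
      ring
  · obtain ⟨L, hL⟩ := (hc.contDiffOn (s := closedBall (0 : Sp α) R)).exists_lipschitzOnWith
      one_ne_zero (convex_closedBall 0 R) (isCompact_closedBall 0 R)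
    exact ⟨L, fun _ _ => hL⟩

/-- Invariance for compactly supported fields. -/
theorem vel_map_compact {A : TF (Unit ⊕ Unit) α} (hA : Temp A) (ha : Anti A)
    (hs : ∀ x, HasCompactSupport fun z => A z x) {T s : ℝ} (hT : s ∈ Set.Icc 0 T) :
    (stdGaussian (Sp α)).map (fun z => flow (fun _ => vel A) T z s) = stdGaussian (Sp α) := by
  have hc := contDiff_vel hA
  have hsup : HasCompactSupport (vel A) := by
    have hsum : ∀ i, HasCompactSupport fun z => vel A z i := by
      intro i
      rw [hasCompactSupport_iff_eventuallyEq]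
      have h1 : ∀ j, (fun z => A z (pair j i)) =ᶠ[coclosedCompact (Sp α)] 0 := fun j =>
        hasCompactSupport_iff_eventuallyEq.1 (hs _)
      have h2 : ∀ j, (fun z => pd j (fun w => A w (pair j i)) z) =ᶠ[coclosedCompact (Sp α)] 0 :=
        fun j => hasCompactSupport_iff_eventuallyEq.1 ((hs _).fderiv_apply ℝ (unitV j))
      filter_upwards [eventually_all.2 h1, eventually_all.2 h2] with z h1 h2
      simp only [Pi.zero_apply] at h1 h2 ⊢
      rw [vel_apply]
      exact sum_eq_zero fun j _ => by rw [dd, h1, h2, mul_zero, sub_zero]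
    rw [hasCompactSupport_iff_eventuallyEq]
    filter_upwards [eventually_all.2 fun i => hasCompactSupport_iff_eventuallyEq.1 (hsum i)] with z hz
    ext i
    exact hz i
  obtain ⟨L, hL⟩ := hc.lipschitzWith_of_hasCompactSupport hsup one_ne_zero
  set S : Sp α → ℝ := fun z => (2 + ∑ j, z j ^ 2) * (1 + Fintype.card α + ∑ j, z j ^ 2) with hS
  have hSt : S.HasTemperateGrowth := by
    have hq : (fun z : Sp α => ∑ j, z j ^ 2).HasTemperateGrowth :=
      Function.HasTemperateGrowth.sum fun j _ => (temp_coord j).pow 2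
    exact ((Function.HasTemperateGrowth.const (2 : ℝ)).add hq).mul
      ((Function.HasTemperateGrowth.const ((1 : ℝ) + Fintype.card α)).add hq)
  have h : Transp (fun _ => vel A) (fun _ => gPot α) T L (fun z => exp (-gPot α z) * S z) := by
    refine ⟨(hc.continuous.comp continuous_snd).continuousOn, fun _ _ => hL,
      fun _ _ => ⟨hc, temp_gPot.1.of_le (by simp)⟩, fun z t _ => ?_,
      pot_gPot.integrable hSt, fun _ _ z => ?_⟩
    · have e : pot' (vel A) (gPot α) z = 0 := by
        have := sum_dd_vel hA ha z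
        rw [pot', ← neg_eq_zero, ← sum_neg_distrib, ← this]
        refine sum_congr rfl fun j _ => ?_
        rw [dd]
        ring
      rw [e]
      exact hasDerivWithinAt_const _ _ _
    · rw [mul_assoc]
      refine mul_le_mul_of_nonneg_left ?_ (exp_pos _).le
      simp only [pd_gPot, hS]
      refine mul_le_mul ?_ ?_ (by positivity) (by positivity)
      · rw [← EuclideanSpace.real_norm_sq_eq]
        nlinarith [sq_nonneg (‖z‖ - 1)]
      · have : ∀ j : α, |z j| ≤ 1 + z j ^ 2 := fun j => by
          nlinarith [sq_abs (z j), sq_nonneg (|z j| - 1)]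
        refine (add_le_add le_rfl (sum_le_sum fun j _ => this j)).trans (le_of_eq ?_)
        simp [sum_add_distrib, add_assoc]
  have := h.map_flow hT
  rwa [dens_gPot] at this

theorem chi_eq_one {n : ℕ} {w : Sp α} (hw : ‖w‖ ≤ (n : ℝ) + 1) : chi n w = 1 := by
  refine ContDiffBump.one_of_mem_closedBall _ ?_
  rw [mem_closedBall_zero_iff, norm_smul, norm_inv, Real.norm_of_nonneg (by positivity),
    inv_mul_le_iff₀ (by positivity), mul_one]
  exact hw

/-- A cutoff matrix field. -/
def cutA (n : ℕ) (A : TF (Unit ⊕ Unit) α) : TF (Unit ⊕ Unit) α := fun z x => chi n z * A z x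

theorem temp_cutA {A : TF (Unit ⊕ Unit) α} (hA : Temp A) (n : ℕ) : Temp (cutA n A) := fun x =>
  ((chi_props.1 n).2.mul_right).hasTemperateGrowth ((chi_props.1 n).1.mul (hA x).1)

theorem vel_cutA {A : TF (Unit ⊕ Unit) α} {n : ℕ} {z : Sp α} (hz : ‖z‖ < (n : ℝ) + 1) :
    vel (cutA n A) z = vel A z := by
  have hev : ∀ᶠ w in 𝓝 z, chi n w = 1 := by
    filter_upwards [(isOpen_lt continuous_norm continuous_const).mem_nhds hz] with w hw
    exact chi_eq_one (le_of_lt hw)
  ext i
  rw [vel_apply, vel_apply]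
  refine sum_congr rfl fun j _ => ?_
  have he : (fun w => cutA n A w (pair j i)) =ᶠ[𝓝 z] fun w => A w (pair j i) := by
    filter_upwards [hev] with w hw
    simp [cutA, hw]
  have h0 : cutA n A z (pair j i) = A z (pair j i) := he.self_of_nhds
  simp only [dd, pd, he.fderiv_eq, h0]

/-- The flow of `vel A` keeps the standard Gaussian. -/
theorem vel_flow_map {A : TF (Unit ⊕ Unit) α} {K : ℝ} (hA : RB 1 A K) (hK : 0 ≤ K) (ha : Anti A)
    {T s : ℝ} (hs : s ∈ Set.Icc 0 T) :
    (stdGaussian (Sp α)).map (fun z => flow (fun _ => vel A) T z s) = stdGaussian (Sp α) := by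
  obtain ⟨C, hb⟩ := vel_fld hA hK T
  have hm : Measurable fun z => flow (fun _ => vel A) T z s :=
    (hb.continuous_flow_at hs).measurable
  have hcut : ∀ n, (stdGaussian (Sp α)).map (fun z => flow (fun _ => vel (cutA n A)) T z s)
      = stdGaussian (Sp α) := fun n =>
    vel_map_compact (temp_cutA hA.temp n) (fun z i j => by simp [cutA, ha z i j])
      (fun x => (chi_props.1 n).2.mul_right) hs
  have hbn : ∀ n, ∃ C, Fld (fun _ => vel (cutA n A)) T C := by
    intro n
    have hc := contDiff_vel (temp_cutA hA.temp n)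
    obtain ⟨M, hM⟩ := (isCompact_closedBall (0 : Sp α) (2 * ((n : ℝ) + 1))).exists_bound_of_continuousOn
      hc.continuous.continuousOn
    refine ⟨max M 0, le_max_right _ _, (hc.continuous.comp continuous_snd).continuousOn,
      fun t _ z => ?_, fun R => ?_⟩
    · by_cases hz : z ∈ closedBall (0 : Sp α) (2 * ((n : ℝ) + 1))
      · nlinarith [(hM z hz).trans (le_max_left M 0), norm_nonneg z, le_max_right M 0]
      · have hev : ∀ᶠ w in 𝓝 z, chi n w = 0 := by
          rw [mem_closedBall_zero_iff, not_le] at hz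
          filter_upwards [(isOpen_lt continuous_const continuous_norm).mem_nhds hz] with w hw
          refine ContDiffBump.zero_of_le_dist _ ?_
          rw [dist_zero_right, norm_smul, norm_inv, Real.norm_of_nonneg (by positivity),
            le_inv_mul_iff₀ (by positivity)]
          show ((n : ℝ) + 1) * 2 ≤ ‖w‖
          linarith
        have : vel (cutA n A) z = 0 := by
          ext i
          rw [vel_apply]
          refine sum_eq_zero fun j _ => ?_
          have he : (fun w => cutA n A w (pair j i)) =ᶠ[𝓝 z] fun _ => (0 : ℝ) := by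
            filter_upwards [hev] with w hw
            simp [cutA, hw]
          have h0 : cutA n A z (pair j i) = 0 := he.self_of_nhds
          simp [dd, pd, he.fderiv_eq, h0]
        rw [this, norm_zero]
        positivity
    · obtain ⟨L, hL⟩ := (hc.contDiffOn (s := closedBall (0 : Sp α) R)).exists_lipschitzOnWith
        one_ne_zero (convex_closedBall 0 R) (isCompact_closedBall 0 R)
      exact ⟨L, fun _ _ => hL⟩
  have hev : ∀ z, ∀ᶠ n : ℕ in atTop,
      flow (fun _ => vel (cutA n A)) T z s = flow (fun _ => vel A) T z s := by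
    intro z
    filter_upwards [eventually_ge_atTop ⌈reach C T z⌉₊] with n hn
    obtain ⟨Cn, hn'⟩ := hbn n
    refine hn'.flow_unique ⟨hb.flow_zero z, fun t ht => ?_⟩ hs
    have h1 := hb.flow_bound z ht
    have h2 := reach_mono hb.nonneg ht.2 z
    have h3 : ‖flow (fun _ => vel A) T z t‖ < (n : ℝ) + 1 := by
      linarith [Nat.ceil_le.1 hn]
    show HasDerivWithinAt _ (vel (cutA n A) (flow (fun _ => vel A) T z t)) _ t
    rw [vel_cutA h3]
    exact hb.flow_deriv z ht
  refine ext_of_forall_integral_eq_of_IsFiniteMeasure fun φ => ?_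
  rw [integral_map hm.aemeasurable φ.continuous.aestronglyMeasurable]
  have hmn : ∀ n, Measurable fun z => flow (fun _ => vel (cutA n A)) T z s := fun n => by
    obtain ⟨Cn, hn⟩ := hbn n
    exact (hn.continuous_flow_at hs).measurable
  refine tendsto_nhds_unique (tendsto_integral_of_dominated_convergence (fun _ => ‖φ‖)
    (fun n => (φ.continuous.measurable.comp (hmn n)).aestronglyMeasurable) (integrable_const _)
    (fun n => ae_of_all _ fun z => φ.norm_coe_le_norm _)
    (ae_of_all _ fun z => tendsto_const_nhds.congr' ((hev z).mono fun n hn => by simp only [Function.comp_apply, hn]))) ?_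
  refine tendsto_const_nhds.congr fun n => ?_
  show _ = ∫ z, φ (flow (fun _ => vel (cutA n A)) T z s) ∂stdGaussian (Sp α)
  rw [← integral_map (hmn n).aemeasurable φ.continuous.aestronglyMeasurable, hcut n]

/-! ## Derivatives along the flow -/

/-- The derivative along `vel A`. -/
def Dv (A : TF (Unit ⊕ Unit) α) (X : TF ι α) : TF ι α := fun z i =>
  fderiv ℝ (fun w => X w i) z (vel A z)

/-- By antisymmetry it is again a creation. -/
theorem Dv_eq {A : TF (Unit ⊕ Unit) α} (hA : Temp A) (ha : Anti A) {X : TF ι α} (hX : Temp X) :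
    Dv A X = dlt (scP (gPot α)) (ren (optU ι).symm (conF A (ren (optU ι) (gradT X)))) := by
  funext z i
  have hent : ∀ (w : Sp α) (j : α), ren (optU ι).symm (conF A (ren (optU ι) (gradT X))) w (ext j i)
      = ∑ k, A w (pair j k) * pd k (fun w => X w i) w := by
    intro w j
    simp only [ren, conF, con]
    rw [← (Equiv.funUnique Unit α).symm.sum_comp]
    refine sum_congr rfl fun k _ => ?_
    congr 1
  have hd : ∀ j k, dd (gPot α) j (fun w => A w (pair j k) * pd k (fun w => X w i) w) z
      = dd (gPot α) j (fun w => A w (pair j k)) z * pd k (fun w => X w i) z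
        - A z (pair j k) * pd j (pd k fun w => X w i) z := by
    intro j k
    simp only [dd]
    rw [show pd j (fun w => A w (pair j k) * pd k (fun w => X w i) w) z
      = fderiv ℝ (fun w => A w (pair j k) * pd k (fun w => X w i) w) z (unitV j) from rfl,
      fderiv_fun_mul (temp_diff (hA _) z) (temp_diff (temp_pd (hX i) k) z)]
    simp only [add_apply, smul_apply, smul_eq_mul]
    show _ - (_ * pd j (pd k fun w => X w i) z + _ * pd j (fun w => A w (pair j k)) z) = _
    ring
  have hzero : ∑ j, ∑ k, A z (pair j k) * pd j (pd k fun w => X w i) z = 0 := by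
    have : ∑ j, ∑ k, A z (pair j k) * pd j (pd k fun w => X w i) z
        = -∑ j, ∑ k, A z (pair j k) * pd j (pd k fun w => X w i) z := by
      conv_lhs => rw [sum_comm]
      simp only [← sum_neg_distrib]
      refine sum_congr rfl fun j _ => sum_congr rfl fun k _ => ?_
      rw [ha z k j, pd_comm (hX i) k j z, neg_mul]
    linarith
  rw [dlt_eq]
  simp only [hent]
  have e1 : ∀ j, dd (gPot α) j (fun w => ∑ k, A w (pair j k) * pd k (fun w => X w i) w) z
      = ∑ k, dd (gPot α) j (fun w => A w (pair j k) * pd k (fun w => X w i) w) z := fun j =>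
    dd_sum _ _ _ (fun k _ => temp_mul (hA _) (temp_pd (hX i) k)) z
  simp only [e1, hd, sum_sub_distrib]
  rw [hzero, sub_zero, Dv]
  conv_lhs => rw [← sum_coord (vel A z)]
  simp only [map_sum, map_smul, smul_eq_mul, vel_apply, sum_mul]
  exact sum_comm

theorem Temp.dv {A : TF (Unit ⊕ Unit) α} (hA : Temp A) (ha : Anti A) {X : TF ι α} (hX : Temp X) :
    Temp (Dv A X) := by
  rw [Dv_eq hA ha hX]
  exact ((hA.conF (hX.gradT.ren _)).ren _).dlt temp_gPot

/-- The `n`-th derivative of the velocity along its flow. -/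
def velN (A : TF (Unit ⊕ Unit) α) (n : ℕ) : TF Unit α := (Dv A)^[n] (vecT (vel A))

theorem velN_succ (A : TF (Unit ⊕ Unit) α) (n : ℕ) : velN A (n + 1) = Dv A (velN A n) :=
  Function.iterate_succ_apply' _ _ _

theorem temp_velN {A : TF (Unit ⊕ Unit) α} (hA : Temp A) (ha : Anti A) :
    ∀ n, Temp (velN A n)
  | 0 => temp_vel hA
  | n + 1 => by
    rw [velN_succ]
    exact Temp.dv hA ha (temp_velN hA ha n)

/-- The derivative of a component along the flow. -/
theorem flow_comp_deriv {A : TF (Unit ⊕ Unit) α} {T C : ℝ} (hb : Fld (fun _ => vel A) T C)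
    {X : TF ι α} (hX : Temp X) (z : Sp α) (i : ι → α) {s : ℝ} (hs : s ∈ Set.Icc 0 T) :
    HasDerivWithinAt (fun s => X (flow (fun _ => vel A) T z s) i)
      (Dv A X (flow (fun _ => vel A) T z s) i) (Set.Icc 0 T) s :=
  (temp_diff (hX i) _).hasFDerivAt.comp_hasDerivWithinAt s (hb.flow_deriv z hs)

/-- The derivative budget of `velN n`. -/
def nV : ℕ → ℕ → ℕ
  | 0, m => m
  | n + 1, m => max (m + (n + 1)) (nV n (m + (n + 1) + (n + 1) + 1))

/-- The constant of `velN n`. -/
def cV : ℕ → ℕ → ℝ
  | 0, _ => 1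
  | n + 1, m => 3 ^ (n + 1) * 2 ^ m * gC (n + 1) (m + (n + 1)) 1 * cV n (m + (n + 1) + (n + 1) + 1)

theorem cre_velN {A : TF (Unit ⊕ Unit) α} {K : ℝ} (ha : Anti A) (hK : 0 ≤ K) :
    ∀ n m, RB (nV n m) A K → Cre (gPot α) (n + 1) m (velN A n) (cV n m * K ^ (n + 1)) := by
  intro n
  induction n with
  | zero =>
    intro m h
    rw [velN, Function.iterate_zero_apply, vecT_vel, cV, zero_add, pow_one, one_mul]
    exact (Cre.base (h.ren _) hK (i := none) (i' := some ()) (by simp)).dlt
  | succ n ih =>
    intro m h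
    have h1 : RB (m + (n + 1)) A K := h.of_le (le_max_left _ _) le_rfl
    have h2 := ih (m + (n + 1) + (n + 1) + 1) (h.of_le (le_max_right _ _) le_rfl)
    have hg := h2.gradT temp_gPot zero_le_one (rb_gHess _)
    have hc := ((Cre.conF_left temp_gPot h1 ((hg.of_le le_rfl le_rfl).ren (optU Unit)) hK).ren
      (optU Unit).symm).dlt
    rw [velN_succ, Dv_eq h.temp ha (temp_velN h.temp ha n)]
    refine hc.of_le le_rfl (le_of_eq ?_)
    rw [cV, pow_succ K (n + 1)]
    ring

/-- The squared constant of `integral_velN`. -/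
def bV (n : ℕ) : ℝ := bL2 1 (n + 1) * cV n (nL2 (n + 1)) ^ 2

/-- Every time derivative along the flow is bounded in `L²`, uniformly in time. -/
theorem integral_velN {A : TF (Unit ⊕ Unit) α} {K : ℝ} (ha : Anti A) (hK : 0 ≤ K) {n : ℕ}
    (h : RB (nV n (nL2 (n + 1))) A K) (h1 : RB 1 A K) {T s : ℝ} (hs : s ∈ Set.Icc 0 T) :
    ∫ z, sqT (velN A n (flow (fun _ => vel A) T z s)) ∂stdGaussian (Sp α)
      ≤ bV n * Fintype.card α * K ^ (2 * (n + 1)) := by
  obtain ⟨C, hb⟩ := vel_fld h1 hK T
  have ht : (fun z => sqT (velN A n z)).HasTemperateGrowth := (temp_velN h.temp ha n).sqT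
  rw [← integral_map (hb.continuous_flow_at hs).measurable.aemeasurable (f := fun z => sqT (velN A n z))
    ht.1.continuous.aestronglyMeasurable, vel_flow_map h1 hK ha hs, integral_stdGaussian_eq]
  refine ((cre_velN ha hK n _ h).integral_sqT_le pot_gPot zero_le_one (rb_gHess _)).trans
    (le_of_eq ?_)
  rw [bV, pow_mul']
  ring

end

end Vale.Agent.P347.Zero
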