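import Vale.Agent.P347.Zero.Skew

/-!
# P347, exponent 0: the exact skew flow of a field of seeds and outputs

`Split out M`: only the output coordinates of `M` are nonzero and they do not depend on the output
coordinates. With `W` the average over `r` of the Ornstein–Uhlenbeck averages of `DM`, the field
`vel (skewOf M)` is `M - E M` on the outputs and `-Wᵀ z` on the seeds.
-/

namespace Vale.Agent.P347.Zero

open MeasureTheory ProbabilityTheory Real Finset

noncomputable section

set_option linter.unusedSectionVars false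

variable {ι α : Type} [Fintype ι] [DecidableEq ι] [Fintype α] [DecidableEq α]

/-! ## The average over `r` -/

/-- Clipping to the unit interval. -/
def clip (x : ℝ) : ℝ := max 0 (min x 1)

theorem clip_eq {x : ℝ} (hx : x ∈ Set.Icc (0 : ℝ) 1) : clip x = x := by
  rw [clip, min_eq_left hx.2, max_eq_right hx.1]

theorem abs_clip_le (x : ℝ) : |clip x| ≤ 1 :=
  abs_le.2 ⟨le_trans (by norm_num) (le_max_left _ _), max_le zero_le_one (min_le_right _ _)⟩

/-- The uniform parameter with a Gaussian point. -/
def muW (α : Type) [Fintype α] : Measure (ℝ × Sp α) :=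
  (volume.restrict (Set.Icc (0 : ℝ) 1)).prod (stdGaussian (Sp α))

instance : IsProbabilityMeasure (volume.restrict (Set.Icc (0 : ℝ) 1)) := ⟨by simp⟩

instance : IsProbabilityMeasure (muW α) := by unfold muW; infer_instance

theorem wOk (k : ℕ) : AvgOk (muW α) (fun o => clip o.1 ^ k) (fun o => clip o.1)
    (fun o => √(1 - clip o.1 ^ 2) • o.2) where
  prob := inferInstance
  mw := by unfold clip; fun_prop
  ma := by unfold clip; fun_prop
  mc := by unfold clip; fun_prop
  w_le o := by rw [abs_pow]; exact pow_le_one₀ (abs_nonneg _) (abs_clip_le _)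
  a_le o := abs_clip_le _
  moment m := by
    refine ((integrable_one_add_norm_pow m).comp_snd _).mono' (by unfold clip; fun_prop)
      (ae_of_all _ fun o => ?_)
    rw [norm_of_nonneg (by positivity), norm_smul, norm_of_nonneg (Real.sqrt_nonneg _)]
    refine pow_le_pow_left₀ (by positivity) (add_le_add le_rfl ?_) m
    exact mul_le_of_le_one_left (norm_nonneg _)
      (Real.sqrt_le_one.2 (by nlinarith [sq_nonneg (clip o.1)]))

/-- The average of `r ^ k * OUT r X` over `r`. -/
def WT (k : ℕ) (X : TF ι α) : TF ι α :=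
  avgT (muW α) (fun o => clip o.1 ^ k) (fun o => clip o.1) (fun o => √(1 - clip o.1 ^ 2) • o.2) X

theorem WT_eq {X : TF ι α} (hX : Temp X) (k : ℕ) (z : Sp α) (i : ι → α) :
    WT k X z i = ∫ r in (0 : ℝ)..1, r ^ k * OUT r X z i := by
  have hi := (wOk k).integrable (hX i) z
  rw [WT, avgT, avg]
  simp only [muW] at hi ⊢
  rw [integral_prod _ hi, intervalIntegral.integral_of_le zero_le_one,
    ← integral_Icc_eq_integral_Ioc]
  refine setIntegral_congr_fun measurableSet_Icc fun r hr => ?_
  simp only [clip_eq hr, smul_eq_mul, OUT_apply, integral_const_mul]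

theorem Temp.wt {X : TF ι α} (hX : Temp X) (k : ℕ) : Temp (WT k X) := (wOk k).temp hX

theorem RB.wt {n : ℕ} {X : TF ι α} {K : ℝ} (hX : RB n X K) (k : ℕ) : RB n (WT k X) K :=
  (wOk k).rb hX

theorem gradT_WT {X : TF ι α} (hX : Temp X) (k : ℕ) : gradT (WT k X) = WT (k + 1) (gradT X) := by
  unfold WT
  rw [(wOk k).gradT_avgT hX,
    show (fun o : ℝ × Sp α => clip o.1 ^ k * clip o.1) = fun o => clip o.1 ^ (k + 1) from
      funext fun o => (pow_succ _ _).symm]

/-- A function minus its mean is one creation from the average gradient. -/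
theorem dlt_WT {X : TF ι α} (hX : Temp X) (z : Sp α) (i : ι → α) :
    dlt (scP (gPot α)) (WT 0 (gradT X)) z i = X z i - ∫ w, X w i ∂stdGaussian (Sp α) := by
  have hc : ∀ {κ : Type} [Fintype κ] [DecidableEq κ] {Y : TF κ α}, Temp Y → ∀ (x : κ → α),
      ContinuousOn (fun r => OUT r Y z x) (Set.Icc 0 1) := fun hY x =>
    (OUT_continuousOn hY z x).mono (Set.Icc_subset_Icc_left (by norm_num))
  have hft : ∫ r in (0 : ℝ)..1, Hn 1 X r z i = OUT 1 X z i - OUT 0 X z i :=
    intervalIntegral.integral_eq_sub_of_hasDerivAt_of_le zero_le_one (hc hX i)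
      (fun r hr => OUT_hasDerivAt hX ⟨by linarith [hr.1], hr.2⟩ z i)
      ((Hn_continuousOn hX 1 z i).mono (Set.Icc_subset_Icc_left (by norm_num))
        |>.intervalIntegrable_of_Icc zero_le_one)
  rw [OUT_one, OUT_zero] at hft
  rw [← hft, dlt_eq]
  have i1 : ∀ j, IntervalIntegrable (fun r => z j * OUT r (gradT X) z (ext j i)) volume 0 1 :=
    fun j => (continuousOn_const.mul (hc hX.gradT _)).intervalIntegrable_of_Icc zero_le_one
  have i2 : ∀ j, IntervalIntegrable
      (fun r => r * OUT r (gradT (gradT X)) z (ext j (ext j i))) volume 0 1 :=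
    fun j => (continuousOn_id.mul (hc hX.gradT.gradT _)).intervalIntegrable_of_Icc zero_le_one
  rw [intervalIntegral.integral_congr (g := fun r => ∑ j, (z j * OUT r (gradT X) z (ext j i)
      - r * OUT r (gradT (gradT X)) z (ext j (ext j i))))]
  · rw [intervalIntegral.integral_finsetSum fun j _ => (i1 j).sub (i2 j)]
    refine sum_congr rfl fun j _ => ?_
    rw [intervalIntegral.integral_sub (i1 j) (i2 j), intervalIntegral.integral_const_mul, dd,
      pd_gPot]
    congr 1
    · rw [WT_eq hX.gradT]
      simp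
    · have e := congrFun (congrFun (gradT_WT hX.gradT 0) z) (ext j (ext j i))
      rw [WT_eq hX.gradT.gradT] at e
      simp only [zero_add, pow_one] at e
      exact e
  · intro r hr
    rw [Set.uIcc_of_le zero_le_one] at hr
    show Hn 1 X r z i = _
    rw [Hn_succ_apply hX (abs_le.2 ⟨by linarith [hr.1], hr.2⟩) 0]
    simp [Hn]

/-! ## Fields of seeds and outputs -/

/-- `out` marks the outputs: only they are nonzero, and they depend on seeds only. -/
structure Split (out : α → Prop) (M : Sp α → Sp α) : Prop where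
  zero : ∀ z i, ¬ out i → M z i = 0
  indep : ∀ z i j, out j → pd j (fun w => M w i) z = 0

/-- The averaged derivative, `Wm M z (ext j i)` belonging to `∂ M i / ∂ z j`. -/
def Wm (M : Sp α → Sp α) : TF (Option Unit) α := WT 0 (gradT (vecT M))

/-- The antisymmetric field of `M`. -/
def skewOf (M : Sp α → Sp α) : TF (Unit ⊕ Unit) α :=
  ren (optU Unit) (Wm M) + fun z x =>
    (-1) * ren ((optU Unit).trans (Equiv.sumComm Unit Unit)) (Wm M) z x

theorem skewOf_apply (M : Sp α → Sp α) (z : Sp α) (j i : α) :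
    skewOf M z (pair j i) = Wm M z (ext j fun _ => i) - Wm M z (ext i fun _ => j) := by
  have e1 : pair j i ∘ optU Unit = ext j fun _ => i := by
    funext o; rcases o with _ | ⟨⟩ <;> rfl
  have e2 : pair j i ∘ ((optU Unit).trans (Equiv.sumComm Unit Unit)) = ext i fun _ => j := by
    funext o; rcases o with _ | ⟨⟩ <;> rfl
  show Wm M z (pair j i ∘ optU Unit) + -1 * Wm M z (pair j i ∘ _) = _
  rw [e1, e2]
  ring

theorem anti_skewOf (M : Sp α → Sp α) : Anti (skewOf M) := fun z i j => by
  rw [skewOf_apply, skewOf_apply, neg_sub]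

theorem rb_skewOf {M : Sp α → Sp α} {n : ℕ} {K : ℝ} (h : RB n (gradT (vecT M)) K) :
    RB n (skewOf M) (2 * K) :=
  (((h.wt 0).ren _).add (((h.wt 0).ren _).smul (-1))).of_le le_rfl (by norm_num; linarith)

theorem temp_skewOf {M : Sp α → Sp α} (hM : Temp (vecT M)) : Temp (skewOf M) :=
  ((hM.gradT.wt 0).ren _).add (((hM.gradT.wt 0).ren _).smul (-1))

variable {out : α → Prop} {M : Sp α → Sp α}

theorem Split.grad_zero (hS : Split out M) (z : Sp α) (j i : α) (h : ¬ out i ∨ out j) :
    gradT (vecT M) z (ext j fun _ => i) = 0 := by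
  show pd j (fun w => M w i) z = 0
  rcases h with h | h
  · rw [show (fun w => M w i) = fun _ => (0 : ℝ) from funext fun w => hS.zero w i h]
    simp [pd]
  · exact hS.indep z i j h

theorem Split.Wm_zero (hS : Split out M) (z : Sp α) (j i : α) (h : ¬ out i ∨ out j) :
    Wm M z (ext j fun _ => i) = 0 := by
  show avg _ _ _ _ (fun w => gradT (vecT M) w (ext j fun _ => i)) z = 0
  simp [avg, hS.grad_zero _ j i h]

theorem Split.grad2_zero (hS : Split out M) (hM : Temp (vecT M)) (z : Sp α) (i j : α) :
    gradT (gradT (vecT M)) z (ext j (ext i fun _ => j)) = 0 := by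
  show pd j (pd i fun w => M w j) z = 0
  by_cases hj : out j
  · rw [show pd j (pd i fun w => M w j) z = pd i (pd j fun w => M w j) z from
        pd_comm (hM fun _ => j) j i z,
      show pd j (fun w => M w j) = fun _ => (0 : ℝ) from funext fun w => hS.indep w j j hj]
    simp [pd]
  · rw [show (fun w => M w j) = fun _ => (0 : ℝ) from funext fun w => hS.zero w j hj]
    unfold pd
    simp

/-- The seeds alone determine the field. -/
theorem Split.congr (hS : Split out M) (hM : Temp (vecT M)) {z z' : Sp α}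
    (h : ∀ j, ¬ out j → z j = z' j) : M z = M z' := by
  ext i
  have hd : ∀ t, HasDerivAt (fun t : ℝ => M (z + t • (z' - z)) i) 0 t := fun t => by
    have h1 : HasDerivAt (fun t : ℝ => z + t • (z' - z)) (z' - z) t := by
      simpa using ((hasDerivAt_id t).smul_const (z' - z)).const_add z
    have h2 := (temp_diff (hM fun _ => i) _).hasFDerivAt.comp_hasDerivAt t h1
    refine h2.congr_deriv ?_
    conv_lhs => rw [← sum_coord (z' - z)]
    rw [map_sum]
    refine sum_eq_zero fun j _ => ?_
    rw [map_smul, smul_eq_mul]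
    by_cases hj : out j
    · exact mul_eq_zero_of_right _ (hS.indep _ i j hj)
    · exact mul_eq_zero_of_left (by simp [h j hj]) _
  have := is_const_of_deriv_eq_zero (fun t => (hd t).differentiableAt) (fun t => (hd t).deriv) 0 1
  simpa using this

/-- On the outputs the velocity is `M` minus its mean. -/
theorem Split.vel_out (hS : Split out M) (hM : Temp (vecT M)) (z : Sp α) {i : α} (hi : out i) :
    vel (skewOf M) z i = M z i - ∫ w, M w i ∂stdGaussian (Sp α) := by
  refine Eq.trans ?_ (dlt_WT hM z fun _ => i)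
  rw [vel_apply, dlt_eq]
  refine sum_congr rfl fun j _ => ?_
  congr 1
  funext w
  rw [skewOf_apply, hS.Wm_zero w i j (Or.inr hi), sub_zero]
  rfl

/-- On the seeds it is `-Wᵀ z`. -/
theorem Split.vel_seed (hS : Split out M) (hM : Temp (vecT M)) (z : Sp α) {i : α} (hi : ¬ out i) :
    vel (skewOf M) z i = -∑ j, z j * Wm M z (ext i fun _ => j) := by
  rw [vel_apply, ← sum_neg_distrib]
  refine sum_congr rfl fun j _ => ?_
  have e : (fun w => skewOf M w (pair j i)) = fun w => -Wm M w (ext i fun _ => j) := funext fun w => by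
    rw [skewOf_apply, hS.Wm_zero w j i (Or.inl hi), zero_sub]
  rw [e, dd_neg, dd, pd_gPot]
  have : pd j (fun w => Wm M w (ext i fun _ => j)) z = 0 := by
    have e1 := congrFun (congrFun (gradT_WT hM.gradT 0) z) (ext j (ext i fun _ => j))
    refine Eq.trans ?_ (e1.trans ?_)
    · rfl
    show avg _ _ _ _ (fun w => gradT (gradT (vecT M)) w (ext j (ext i fun _ => j))) z = 0
    simp [avg, hS.grad2_zero hM]
  rw [this]
  ring

/-- The shifted output coordinate follows `M`. -/
theorem Split.out_deriv (hS : Split out M) (hM : Temp (vecT M)) {T C : ℝ}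
    (hb : Fld (fun _ => vel (skewOf M)) T C) (z : Sp α) {i : α} (hi : out i) {s : ℝ}
    (hs : s ∈ Set.Icc 0 T) :
    HasDerivWithinAt
      (fun s => flow (fun _ => vel (skewOf M)) T z s i + s * ∫ w, M w i ∂stdGaussian (Sp α))
      (M (flow (fun _ => vel (skewOf M)) T z s) i) (Set.Icc 0 T) s := by
  have h1 := (EuclideanSpace.proj (𝕜 := ℝ) i).hasFDerivAt.comp_hasDerivWithinAt s
    (hb.flow_deriv z hs)
  refine (h1.fun_add ((hasDerivWithinAt_id s _).mul_const
    (∫ w, M w i ∂stdGaussian (Sp α)))).congr_deriv ?_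
  show vel (skewOf M) _ i + 1 * _ = _
  rw [hS.vel_out hM _ hi]
  ring

/-! ## The quadrature in `r` -/

/-- The integrand of `Wᵀ z`. -/
def wz (M : Sp α → Sp α) (r : ℝ) : TF Unit α := fun z x =>
  ∑ j, z j * OUT r (gradT (vecT M)) z (ext (x ()) fun _ => j)

/-- Its `n`-th derivative in `r`. -/
def wzN (M : Sp α → Sp α) (n : ℕ) (r : ℝ) : TF Unit α := fun z x =>
  ∑ j, z j * Hn n (gradT (vecT M)) r z (ext (x ()) fun _ => j)

theorem Wm_sum_eq (hM : Temp (vecT M)) (z : Sp α) (i : α) :
    ∑ j, z j * Wm M z (ext i fun _ => j) = ∫ r in (0 : ℝ)..1, wz M r z fun _ => i := by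
  unfold wz
  rw [intervalIntegral.integral_finsetSum (f := fun j r =>
      z j * OUT r (gradT (vecT M)) z (ext i fun _ => j)) fun j _ =>
    (continuousOn_const.mul ((OUT_continuousOn hM.gradT z _).mono
      (Set.Icc_subset_Icc_left (by norm_num)))).intervalIntegrable_of_Icc zero_le_one]
  refine sum_congr rfl fun j _ => ?_
  rw [intervalIntegral.integral_const_mul, Wm, WT_eq hM.gradT]
  simp

theorem wzN_deriv (hM : Temp (vecT M)) (n : ℕ) (z : Sp α) (x : Unit → α) {r : ℝ}
    (hr : r ∈ Set.Icc (-1 : ℝ) 1) :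
    HasDerivWithinAt (fun r => wzN M n r z x) (wzN M (n + 1) r z x) (Set.Icc (-1) 1) r :=
  HasDerivWithinAt.fun_sum fun j _ => (Hn_deriv hM.gradT n z _ hr).const_mul _

theorem Hn_entry_zero (n : ℕ) {X : TF ι α} {x : ι → α} (h : ∀ w, X w x = 0) (r : ℝ) (z : Sp α) :
    Hn n X r z x = 0 := by
  induction n generalizing ι z with
  | zero => simp [Hn, OUT_apply, h]
  | succ n ih =>
    show dlt (scP (gPot α)) (Hn n (gradT X) r) z x = 0
    rw [dlt_eq]
    refine sum_eq_zero fun j _ => ?_
    have e : (fun w => Hn n (gradT X) r w (ext j x)) = fun _ => (0 : ℝ) := funext fun w => by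
      refine ih (fun v => ?_) w
      show fderiv ℝ (fun v => X v x) v (unitV j) = 0
      simp [show (fun v => X v x) = fun _ => (0 : ℝ) from funext h]
    rw [e]
    simp [dd, pd]

theorem Split.wzN_eq (hS : Split out M) (hM : Temp (vecT M)) (n : ℕ) {r : ℝ} (hr : |r| ≤ 1) :
    wzN M n r = dlt (scP (gPot α))
      (ren (Equiv.swap none (some ())) (Hn n (gradT (vecT M)) r)) := by
  funext z x
  rw [dlt_eq]
  refine sum_congr rfl fun j _ => ?_
  have e : (fun w => ren (Equiv.swap none (some ())) (Hn n (gradT (vecT M)) r) w (ext j x))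
      = fun w => Hn n (gradT (vecT M)) r w (ext (x ()) fun _ => j) := funext fun w => by
    show Hn n _ r w _ = _
    congr 1
    funext o
    rcases o with _ | ⟨⟩ <;> simp [ext]
  rw [e, dd, pd_gPot]
  have : pd j (fun w => Hn n (gradT (vecT M)) r w (ext (x ()) fun _ => j)) z = 0 := by
    have e1 := congrFun (congrFun (gradT_Hn hM.gradT hr n) z) (ext j (ext (x ()) fun _ => j))
    refine Eq.trans ?_ (e1.trans ?_)
    · rfl
    simp only [Pi.add_apply]
    rw [Hn_entry_zero _ (fun w => hS.grad2_zero hM w _ j), Hn_entry_zero _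
      (fun w => hS.grad2_zero hM w _ j)]
    ring
  rw [this, sub_zero]

/-- The `r`-derivatives of the integrand of `Wᵀ z` are bounded in `L²`, uniformly up to `r = 1`. -/
theorem Split.integral_wzN (hS : Split out M) {n : ℕ} {K : ℝ} (hK : 0 ≤ K) (hM : Temp (vecT M))
    (h : RB (nL2 (n + 1) + n) (gradT (vecT M)) K) {r : ℝ} (hr : |r| ≤ 1) :
    ∫ z, sqT (wzN M n r z) ∂stdGaussian (Sp α) ≤ bL2 1 (n + 1) * (Fintype.card α * K ^ 2) := by
  rw [integral_stdGaussian_eq, hS.wzN_eq hM n hr]
  exact ((cre_Hn hK h hr).ren _).dlt.integral_sqT_le pot_gPot zero_le_one (rb_gHess _)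

end

end Vale.Agent.P347.Zero
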