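import Vale.Agent.P347.Zero.SkewOf

/-!
# P347, exponent 0: the velocity along the skew flow as a curve
-/

namespace Vale.Agent.P347.Zero

open MeasureTheory ProbabilityTheory Real Finset

noncomputable section

set_option linter.unusedSectionVars false

variable {α : Type} [Fintype α] [DecidableEq α]

/-- `velN` as a vector. -/
def velV (A : TF (Unit ⊕ Unit) α) (n : ℕ) (z : Sp α) : Sp α :=
  WithLp.toLp 2 fun i => velN A n z fun _ => i

theorem velV_zero (A : TF (Unit ⊕ Unit) α) (z : Sp α) : velV A 0 z = vel A z := rfl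

theorem norm_velV_sq (A : TF (Unit ⊕ Unit) α) (n : ℕ) (z : Sp α) :
    ‖velV A n z‖ ^ 2 = sqT (velN A n z) := by
  rw [EuclideanSpace.real_norm_sq_eq, sqT, ← (Equiv.funUnique Unit α).symm.sum_comp]
  rfl

theorem temp_velV {A : TF (Unit ⊕ Unit) α} (hA : Temp A) (ha : Anti A) (n : ℕ) :
    (velV A n).HasTemperateGrowth :=
  Temp.vec (M := velV A n) fun i => temp_velN hA ha n i

theorem velV_deriv {A : TF (Unit ⊕ Unit) α} (hA : Temp A) (ha : Anti A) {T C : ℝ}
    (hb : Fld (fun _ => vel A) T C) (n : ℕ) (z : Sp α) {s : ℝ} (hs : s ∈ Set.Icc 0 T) :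
    HasDerivWithinAt (fun s => velV A n (flow (fun _ => vel A) T z s))
      (velV A (n + 1) (flow (fun _ => vel A) T z s)) (Set.Icc 0 T) s := by
  have hd := (temp_velV hA ha n).1.differentiable (by simp)
  refine ((hd _).hasFDerivAt.comp_hasDerivWithinAt s (hb.flow_deriv z hs)).congr_deriv ?_
  ext i
  set w := flow (fun _ => vel A) T z s
  have h1 : HasFDerivAt (fun v => velV A n v i)
      ((EuclideanSpace.proj (𝕜 := ℝ) i).comp (fderiv ℝ (velV A n) w)) w :=
    (EuclideanSpace.proj (𝕜 := ℝ) i).hasFDerivAt.comp w (hd w).hasFDerivAt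
  show _ = velN A (n + 1) w fun _ => i
  rw [velN_succ]
  show _ = fderiv ℝ (fun v => velV A n v i) w (vel A w)
  rw [h1.fderiv]
  rfl

theorem iteratedDerivWithin_vel {A : TF (Unit ⊕ Unit) α} (hA : Temp A) (ha : Anti A) {T C : ℝ}
    (hb : Fld (fun _ => vel A) T C) (z : Sp α) {a b : ℝ} (h0 : 0 ≤ a) (hab : a < b) (hT : b ≤ T)
    (n : ℕ) {s : ℝ} (hs : s ∈ Set.Icc a b) :
    iteratedDerivWithin n (fun s => vel A (flow (fun _ => vel A) T z s)) (Set.Icc a b) s
      = velV A n (flow (fun _ => vel A) T z s) := by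
  have hsub : Set.Icc a b ⊆ Set.Icc 0 T := Set.Icc_subset_Icc h0 hT
  induction n generalizing s with
  | zero => rw [iteratedDerivWithin_zero, velV_zero]
  | succ n ih =>
    rw [iteratedDerivWithin_succ]
    exact (((velV_deriv hA ha hb n z (hsub hs)).mono hsub).congr (fun x hx => ih hx)
      (ih hs)).derivWithin (uniqueDiffOn_Icc hab s hs)

theorem contDiffOn_vel {A : TF (Unit ⊕ Unit) α} (hA : Temp A) (ha : Anti A) {T C : ℝ}
    (hb : Fld (fun _ => vel A) T C) (z : Sp α) {a b : ℝ} (h0 : 0 ≤ a) (hab : a < b) (hT : b ≤ T)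
    (n : ℕ) :
    ContDiffOn ℝ n (fun s => vel A (flow (fun _ => vel A) T z s)) (Set.Icc a b) := by
  have hsub : Set.Icc a b ⊆ Set.Icc 0 T := Set.Icc_subset_Icc h0 hT
  have hd : ∀ m, ∀ s ∈ Set.Icc a b, DifferentiableWithinAt ℝ
      (iteratedDerivWithin m (fun s => vel A (flow (fun _ => vel A) T z s)) (Set.Icc a b))
      (Set.Icc a b) s := fun m s hs =>
    (((velV_deriv hA ha hb m z (hsub hs)).mono hsub).congr
      (fun x hx => iteratedDerivWithin_vel hA ha hb z h0 hab hT m hx)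
      (iteratedDerivWithin_vel hA ha hb z h0 hab hT m hs)).differentiableWithinAt
  exact contDiffOn_of_differentiableOn_deriv fun m _ => hd m

/-- All derivatives of the velocity along the flow, in `L²`. -/
theorem integral_velV {A : TF (Unit ⊕ Unit) α} {K : ℝ} (ha : Anti A) (hK : 0 ≤ K) {n : ℕ}
    (h : RB (nV n (nL2 (n + 1))) A K) (h1 : RB 1 A K) {T s : ℝ} (hs : s ∈ Set.Icc 0 T) :
    ∫ z, ‖velV A n (flow (fun _ => vel A) T z s)‖ ^ 2 ∂stdGaussian (Sp α)
      ≤ bV n * Fintype.card α * K ^ (2 * (n + 1)) := by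
  simp only [norm_velV_sq]
  exact integral_velN ha hK h h1 hs

end

end Vale.Agent.P347.Zero
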