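import Vale.Agent.P347.Zero.Mat

/-!
# P347, exponent 0: tensors with bounded flattenings

`BN T c` bounds the operator norm of every flattening of `T` into two nonempty groups of indices.
It is closed under contraction when both factors keep an index.
-/

namespace Vale.Agent.P347.Zero

open Finset Real

noncomputable section

set_option linter.unusedSectionVars false

variable {ι ι' α : Type} [Fintype ι] [Fintype ι'] [DecidableEq ι] [DecidableEq ι'] [Fintype α]

/-- A tensor with indices `ι` over the coordinates `α`. -/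
abbrev Ten (ι α : Type) := (ι → α) → ℝ

/-- The flattening of a tensor along a splitting of its indices. -/
def flat {κ κ' : Type} (e : κ ⊕ κ' ≃ ι) (T : Ten ι α) (a : κ → α) (b : κ' → α) : ℝ :=
  T fun i => Sum.elim a b (e.symm i)

/-- All proper flattenings have operator norm at most `c`. -/
def BN (T : Ten ι α) (c : ℝ) : Prop :=
  ∀ (κ κ' : Type) [Fintype κ] [Fintype κ'] [DecidableEq κ] [DecidableEq κ'], Nonempty κ →
    Nonempty κ' → ∀ e : κ ⊕ κ' ≃ ι, OpLE (flat e T) c

theorem BN.mono {T : Ten ι α} {c c' : ℝ} (h : BN T c) (hc : c ≤ c') : BN T c' :=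
  fun κ κ' _ _ _ _ hk hk' e => (h κ κ' hk hk' e).mono hc

theorem BN.add {T S : Ten ι α} {c c' : ℝ} (h : BN T c) (h' : BN S c') :
    BN (fun i => T i + S i) (c + c') :=
  fun κ κ' _ _ _ _ hk hk' e => (h κ κ' hk hk' e).add (h' κ κ' hk hk' e)

theorem BN.smul {T : Ten ι α} {c : ℝ} (h : BN T c) (r : ℝ) : BN (fun i => r * T i) (|r| * c) :=
  fun κ κ' _ _ _ _ hk hk' e => (h κ κ' hk hk' e).smul r

/-- Renaming the indices. -/
theorem BN.rename {T : Ten ι α} {c : ℝ} (h : BN T c) (f : ι ≃ ι') :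
    BN (fun i : ι' → α => T (i ∘ f)) c := fun κ κ' _ _ _ _ hk hk' e => by
  refine (funext₂ fun a b => ?_ : flat e (fun i : ι' → α => T (i ∘ f)) = flat (e.trans f.symm) T) ▸
    h κ κ' hk hk' (e.trans f.symm)
  simp only [flat]
  rfl

/-- Contraction of the indices `R`. -/
def con {A B R : Type} [Fintype R] [DecidableEq R] (T : Ten (A ⊕ R) α) (S : Ten (R ⊕ B) α) :
    Ten (A ⊕ B) α := fun i => ∑ r : R → α, T (Sum.elim (i ∘ Sum.inl) r) * S (Sum.elim r (i ∘ Sum.inr))

/-- Splitting the left summand by a splitting of a sum. -/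
def leftPart {κ κ' A B : Type} (e : κ ⊕ κ' ≃ A ⊕ B) :
    {k : κ // (e (Sum.inl k)).isLeft} ⊕ {k : κ' // (e (Sum.inr k)).isLeft} ≃ A where
  toFun := Sum.elim (fun k => (e (Sum.inl k.1)).getLeft k.2) fun k => (e (Sum.inr k.1)).getLeft k.2
  invFun a :=
    match h : e.symm (Sum.inl a) with
    | Sum.inl k => Sum.inl ⟨k, by rw [← h, e.apply_symm_apply]; rfl⟩
    | Sum.inr k => Sum.inr ⟨k, by rw [← h, e.apply_symm_apply]; rfl⟩
  left_inv x := by
    rcases x with ⟨k, hk⟩ | ⟨k, hk⟩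
    all_goals
      simp only [Sum.elim_inl, Sum.elim_inr]
      split <;> rename_i k' h' <;> rw [Sum.inl_getLeft, e.symm_apply_apply] at h' <;> cases h' <;> rfl
  right_inv a := by
    dsimp only
    split <;> rename_i k h <;>
      · simp only [Sum.elim_inl, Sum.elim_inr]
        simp [← h]

theorem leftPart_symm {κ κ' A B : Type} (e : κ ⊕ κ' ≃ A ⊕ B) (x : κ → α) (y : κ' → α) (a : A) :
    Sum.elim x y (e.symm (Sum.inl a))
      = Sum.elim (fun k : {k : κ // (e (Sum.inl k)).isLeft} => x k.1)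
          (fun k : {k : κ' // (e (Sum.inr k)).isLeft} => y k.1) ((leftPart e).symm a) := by
  obtain ⟨z, rfl⟩ := (leftPart e).surjective a
  rw [Equiv.symm_apply_apply]
  rcases z with ⟨k, hk⟩ | ⟨k, hk⟩ <;> simp [leftPart]

theorem inr_swap_getLeft {A B : Type} (s : A ⊕ B) (h : s.swap.isLeft) :
    Sum.inr (s.swap.getLeft h) = s := by
  cases s with
  | inl a => exact absurd h (by simp [Sum.swap])
  | inr b => rfl

/-- The index sets of the two factors under a splitting of their contraction. -/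
theorem BN.con {A B R : Type} [Fintype A] [Fintype B] [Fintype R] [DecidableEq A] [DecidableEq B]
    [DecidableEq R] [Nonempty A] [Nonempty B] [Nonempty R] {T : Ten (A ⊕ R) α} {S : Ten (R ⊕ B) α}
    {c c' : ℝ} (hT : BN T c) (hS : BN S c') (hc : 0 ≤ c) (hc' : 0 ≤ c') :
    BN (Zero.con T S) (c * c') := by
  intro κ κ' _ _ _ _ hk hk' e
  classical
  set A₁ := {k : κ // (e (Sum.inl k)).isLeft}
  set A₂ := {k : κ' // (e (Sum.inr k)).isLeft}
  set B₁ := {k : κ // ¬(e (Sum.inl k)).isLeft}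
  set B₂ := {k : κ' // ¬(e (Sum.inr k)).isLeft}
  let eA : A₁ ⊕ A₂ ≃ A := leftPart e
  let e' : κ ⊕ κ' ≃ B ⊕ A := e.trans (Equiv.sumComm A B)
  let eB : B₁ ⊕ B₂ ≃ B :=
    (Equiv.sumCongr (Equiv.subtypeEquivRight fun k => by
      cases hk : e (Sum.inl k) <;> simp [e', hk, Sum.swap])
      (Equiv.subtypeEquivRight fun k => by
      cases hk : e (Sum.inr k) <;> simp [e', hk, Sum.swap])).trans (leftPart e')
  have hB : ∀ (x : κ → α) (y : κ' → α) (b : B), Sum.elim x y (e.symm (Sum.inr b))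
      = Sum.elim (fun k : B₁ => x k.1) (fun k : B₂ => y k.1) (eB.symm b) := by
    intro x y b
    have h := leftPart_symm e' x y b
    obtain ⟨z, rfl⟩ := eB.surjective b
    rw [Equiv.symm_apply_apply]
    rcases z with ⟨k, hk⟩ | ⟨k, hk⟩
    all_goals
      simp only [Sum.elim_inl, Sum.elim_inr]
      simp [eB, e', leftPart]
      erw [inr_swap_getLeft]
      simp [Equiv.subtypeEquivRight, Equiv.subtypeEquiv]
  let sp : ∀ (κ : Type) (p : κ → Prop) [DecidablePred p],
      (κ → α) ≃ ({k // p k} → α) × ({k // ¬p k} → α) := fun κ p _ => Equiv.piEquivPiSubtypeProd p fun _ => α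
  let sA := Equiv.sumArrowEquivProdArrow
  have cases₂ : (Nonempty A₂ ∧ Nonempty B₁) ∨ (Nonempty A₁ ∧ Nonempty B₂) := by
    rcases isEmpty_or_nonempty A₂ with h2 | h2
    · have h1 : Nonempty A₁ := by
        rcases eA.symm (Classical.arbitrary A) with x | x
        exacts [⟨x⟩, h2.elim x]
      refine Or.inr ⟨h1, ?_⟩
      by_contra hne
      obtain ⟨k⟩ := hk'
      by_cases hkl : (e (Sum.inr k)).isLeft
      exacts [h2.elim ⟨k, hkl⟩, hne ⟨⟨k, hkl⟩⟩]
    · rcases isEmpty_or_nonempty B₁ with h1 | h1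
      · have hb : Nonempty B₂ := by
          rcases eB.symm (Classical.arbitrary B) with x | x
          exacts [h1.elim x, ⟨x⟩]
        refine Or.inr ⟨?_, hb⟩
        by_contra hne
        obtain ⟨k⟩ := hk
        by_cases hkl : (e (Sum.inl k)).isLeft
        exacts [hne ⟨⟨k, hkl⟩⟩, h1.elim ⟨k, hkl⟩]
      · exact Or.inl ⟨h2, h1⟩
  rcases cases₂ with ⟨hA2, hB1⟩ | ⟨hA1, hB2⟩
  · -- `T` sends `A₁ ⊕ R` to `A₂`, after `S` has sent `B₁` to `R ⊕ B₂`
    let f₁ : (A₁ ⊕ R) ⊕ A₂ ≃ A ⊕ R :=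
      ((Equiv.sumAssoc _ _ _).trans ((Equiv.sumCongr (Equiv.refl _) (Equiv.sumComm _ _)).trans
        (Equiv.sumAssoc _ _ _).symm)).trans (Equiv.sumCongr eA (Equiv.refl R))
    let f₂ : B₁ ⊕ (R ⊕ B₂) ≃ R ⊕ B :=
      ((Equiv.sumAssoc _ _ _).symm.trans ((Equiv.sumCongr (Equiv.sumComm _ _) (Equiv.refl _)).trans
        (Equiv.sumAssoc _ _ _))).trans (Equiv.sumCongr (Equiv.refl R) eB)
    have h₁ := (hT (A₁ ⊕ R) A₂ inferInstance hA2 f₁).reindex (sA A₁ R α).symm (Equiv.refl _)
    have h₂ := (hS B₁ (R ⊕ B₂) hB1 inferInstance f₂).reindex (Equiv.refl _) (sA R B₂ α).symm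
    have h := (h₁.compose h₂ hc hc').reindex (sp κ fun k => (e (Sum.inl k)).isLeft)
      (sp κ' fun k => (e (Sum.inr k)).isLeft)
    refine (funext₂ fun x y => ?_ : flat e (Zero.con T S) = _) ▸ h
    simp only [flat, Zero.con]
    refine sum_congr rfl fun r _ => ?_
    congr 1
    · congr 1; funext i
      rcases i with a | i
      · simp only [Sum.elim_inl, Function.comp]
        obtain ⟨z, rfl⟩ := eA.surjective a
        rw [leftPart_symm e x y (eA z)]
        rcases z with z | z <;> simp [f₁, eA, sp, sA, Equiv.piEquivPiSubtypeProd,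
          Equiv.sumArrowEquivProdArrow, Equiv.sumAssoc]
      · simp [f₁, sA, Equiv.sumArrowEquivProdArrow, Equiv.sumAssoc]
    · congr 1; funext i
      rcases i with i | b
      · simp [f₂, sA, Equiv.sumArrowEquivProdArrow, Equiv.sumAssoc]
      · simp only [Sum.elim_inr, Function.comp]
        obtain ⟨z, rfl⟩ := eB.surjective b
        rw [hB x y (eB z), Equiv.symm_apply_apply]
        rcases z with z | z <;> simp [f₂, sp, sA, Equiv.piEquivPiSubtypeProd,
          Equiv.sumArrowEquivProdArrow, Equiv.sumAssoc]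
  · -- `S` sends `R ⊕ B₁` to `B₂`, after `T` has sent `A₁` to `R ⊕ A₂`
    let f₁ : A₁ ⊕ (R ⊕ A₂) ≃ A ⊕ R :=
      ((Equiv.sumCongr (Equiv.refl _) (Equiv.sumComm _ _)).trans
        (Equiv.sumAssoc _ _ _).symm).trans (Equiv.sumCongr eA (Equiv.refl R))
    let f₂ : (B₁ ⊕ R) ⊕ B₂ ≃ R ⊕ B :=
      ((Equiv.sumCongr (Equiv.sumComm _ _) (Equiv.refl _)).trans (Equiv.sumAssoc _ _ _)).trans
        (Equiv.sumCongr (Equiv.refl R) eB)
    have h₁ := (hT A₁ (R ⊕ A₂) hA1 inferInstance f₁).reindex (Equiv.refl _) (sA R A₂ α).symm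
    have h₂ := (hS (B₁ ⊕ R) B₂ inferInstance hB2 f₂).reindex (sA B₁ R α).symm (Equiv.refl _)
    have h := ((h₂.compose h₁ hc' hc).reindex
      ((sp κ fun k => (e (Sum.inl k)).isLeft).trans (Equiv.prodComm _ _))
      ((sp κ' fun k => (e (Sum.inr k)).isLeft).trans (Equiv.prodComm _ _))).mono (mul_comm c' c).le
    refine (funext₂ fun x y => ?_ : flat e (Zero.con T S) = _) ▸ h
    simp only [flat, Zero.con]
    refine sum_congr rfl fun r _ => ?_
    rw [mul_comm]
    congr 1
    · congr 1; funext i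
      rcases i with i | b
      · simp [f₂, sA, Equiv.sumArrowEquivProdArrow, Equiv.sumAssoc]
      · simp only [Sum.elim_inr, Function.comp]
        obtain ⟨z, rfl⟩ := eB.surjective b
        rw [hB x y (eB z), Equiv.symm_apply_apply]
        rcases z with z | z <;> simp [f₂, sp, sA, Equiv.piEquivPiSubtypeProd,
          Equiv.sumArrowEquivProdArrow, Equiv.sumAssoc]
    · congr 1; funext i
      rcases i with a | i
      · simp only [Sum.elim_inl, Function.comp]
        obtain ⟨z, rfl⟩ := eA.surjective a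
        rw [leftPart_symm e x y (eA z)]
        rcases z with z | z <;> simp [f₁, eA, sp, sA, Equiv.piEquivPiSubtypeProd,
          Equiv.sumArrowEquivProdArrow, Equiv.sumAssoc]
      · simp [f₁, sA, Equiv.sumArrowEquivProdArrow, Equiv.sumAssoc]

/-- The whole norm of a tensor with a proper flattening. -/
theorem BN.sq_sum_le {T : Ten ι α} {c : ℝ} (h : BN T c) (hc : 0 ≤ c) (i₀ : ι)
    (hι : ∃ i, i ≠ i₀) : ∑ i : ι → α, T i ^ 2 ≤ c ^ 2 * Fintype.card α := by
  classical
  obtain ⟨i₁, hi₁⟩ := hι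
  let e : {i // i = i₀} ⊕ {i // ¬i = i₀} ≃ ι := Equiv.sumCompl _
  haveI : Nonempty {i : ι // i = i₀} := ⟨⟨i₀, rfl⟩⟩
  haveI : Nonempty {i : ι // ¬i = i₀} := ⟨⟨i₁, hi₁⟩⟩
  have h1 := (h _ _ inferInstance inferInstance e).sq_sum_le hc
  have hcard : Fintype.card ({i // i = i₀} → α) = Fintype.card α := by simp
  rw [hcard] at h1
  refine le_trans (le_of_eq ?_) h1
  rw [← (Equiv.piEquivPiSubtypeProd (fun i => i = i₀) fun _ => α).symm.sum_comp, Fintype.sum_prod_type]
  refine sum_congr rfl fun a _ => sum_congr rfl fun b _ => ?_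
  congr 2
  funext i
  by_cases hi : i = i₀
  · simp [e, hi]
  · simp [e, hi]

end

end Vale.Agent.P347.Zero
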